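import Vale.Agent.P181.S.Eng2

namespace Vale.Agent.P181.K

noncomputable def ct2 : Tc :=
(.leaf [] [])

noncomputable def ct3 : Tc :=
(.node (nat_lit 64)
(.leaf [[nat_lit 98, nat_lit 24922], [nat_lit 94]] [])
(.node (nat_lit 128)
(.leaf [] [])
(.leaf [] [])))

noncomputable def ct4 : Tc :=
(.node (nat_lit 129)
(.node (nat_lit 64)
(.leaf [[nat_lit 24922, nat_lit 1597910], [nat_lit 94], [nat_lit 90, nat_lit 24914], [], [nat_lit 82]] [])
(.node (nat_lit 128)
(.leaf [] [])
(.leaf [] [])))
(.node (nat_lit 192)
(.leaf [] [])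
(.node (nat_lit 193)
(.leaf [[], [], [], [], [nat_lit 2167733, nat_lit 3728309, nat_lit 607157], [], [], [], [], [nat_lit 53, nat_lit 24885, nat_lit 1597873, nat_lit 63]] [[], [], [], [], [nat_lit 30542311851]])
(.leaf [[], [], [], [], [nat_lit 2425781, nat_lit 3728309, nat_lit 1127349], [], [], [], [], [], [], [nat_lit 53], [nat_lit 49], [nat_lit 45], [nat_lit 41]] []))))

noncomputable def ct5 : Tc :=
(.node (nat_lit 193)
(.node (nat_lit 128)
(.node (nat_lit 64)
(.leaf [[nat_lit 1597910, nat_lit 24922], [nat_lit 1597906], [nat_lit 90, nat_lit 24914], [], [nat_lit 82, nat_lit 78]] [])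
(.leaf [] []))
(.node (nat_lit 129)
(.leaf [] [])
(.node (nat_lit 192)
(.leaf [] [])
(.leaf [[], [], [nat_lit 1672373, nat_lit 4793525, nat_lit 631989, nat_lit 2712757, nat_lit 3753141], [nat_lit 619573, nat_lit 4260917, nat_lit 99381, nat_lit 2180149], [nat_lit 2167733, nat_lit 3728309, nat_lit 607157], [], [], [], [], [nat_lit 24885, nat_lit 1597873], [nat_lit 24881, nat_lit 1597869], [nat_lit 53], [nat_lit 49], [nat_lit 45], [nat_lit 41], [nat_lit 37]] [[], [], [nat_lit 39268561583, nat_lit 39268561838], [nat_lit 34905436844], [nat_lit 30542311850], [], [], [], [], [], [nat_lit 13089745822], [], [], [], [], [nat_lit 304788]]))))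
(.node (nat_lit 256)
(.node (nat_lit 194)
(.leaf [[nat_lit 2217397, nat_lit 5858741, nat_lit 656821, nat_lit 3777973], [nat_lit 644405, nat_lit 5326133, nat_lit 2204981], [nat_lit 2192565, nat_lit 4793525, nat_lit 631989], [nat_lit 619573, nat_lit 4260917, nat_lit 99381, nat_lit 1139765], [nat_lit 2167733, nat_lit 3728309, nat_lit 607157], [nat_lit 74549, nat_lit 3195701], [nat_lit 582325, nat_lit 2663093, nat_lit 74545], [nat_lit 49717, nat_lit 2130485], [nat_lit 557493, nat_lit 1597877, nat_lit 49713], [nat_lit 24885, nat_lit 1597873], [nat_lit 24881, nat_lit 1597869], [nat_lit 53], [nat_lit 49], [nat_lit 45], [nat_lit 41], [nat_lit 37]] [])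
(.leaf [[], [], [], [], [], [], [], [], [], [], [], [nat_lit 53], [nat_lit 49], [nat_lit 45]] [[], [], [], [], [], [], [], [], [], [], [], [], [], [nat_lit 370840]]))
(.node (nat_lit 257)
(.leaf [[nat_lit 1697205, nat_lit 5858741, nat_lit 3257781, nat_lit 656821, nat_lit 4298165], [nat_lit 644405, nat_lit 4805941, nat_lit 2725173, nat_lit 5326133, nat_lit 124213], [nat_lit 1672373, nat_lit 4793525, nat_lit 631989, nat_lit 2192565], [nat_lit 619573, nat_lit 4260917, nat_lit 99381, nat_lit 1139765], [nat_lit 2167733, nat_lit 3728309, nat_lit 607157], [], [], [nat_lit 49717, nat_lit 2130485], [nat_lit 557493, nat_lit 1597877, nat_lit 49713], [nat_lit 24885, nat_lit 1597873], [nat_lit 24881, nat_lit 1597869], [nat_lit 53], [nat_lit 49], [nat_lit 45], [nat_lit 41], [nat_lit 37]] [[nat_lit 47994811698], [nat_lit 43631686704]])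
(.node (nat_lit 258)
(.leaf [[nat_lit 2217397, nat_lit 5858741, nat_lit 656821, nat_lit 2737589], [nat_lit 124213, nat_lit 4285749, nat_lit 5326133, nat_lit 644405], [nat_lit 631989, nat_lit 4793525, nat_lit 124209, nat_lit 1152181], [nat_lit 99381, nat_lit 4260917], [nat_lit 607157, nat_lit 3728309, nat_lit 99377], [nat_lit 74549, nat_lit 3195701], [nat_lit 582325, nat_lit 2663093, nat_lit 74545], [nat_lit 49717, nat_lit 2130485], [nat_lit 557493, nat_lit 1597877, nat_lit 49713], [nat_lit 24885, nat_lit 1597873], [nat_lit 24881, nat_lit 1597869], [nat_lit 53], [nat_lit 49], [nat_lit 45], [nat_lit 41], [nat_lit 37], [nat_lit 33]] [])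
(.leaf [[nat_lit 656821, nat_lit 5338549, nat_lit 149041, nat_lit 1697205, nat_lit 5858741], [nat_lit 124213, nat_lit 4805941, nat_lit 1164597, nat_lit 5326133], [nat_lit 631989, nat_lit 4793525, nat_lit 124209], [nat_lit 99381, nat_lit 4260917], [nat_lit 607157, nat_lit 3728309, nat_lit 99377], [nat_lit 74549, nat_lit 3195701], [nat_lit 582325, nat_lit 2663093, nat_lit 74545], [nat_lit 49717, nat_lit 2130485], [nat_lit 557493, nat_lit 1597877, nat_lit 49713], [nat_lit 24885, nat_lit 1597873], [nat_lit 24881, nat_lit 1597869], [nat_lit 53], [nat_lit 49], [nat_lit 45], [nat_lit 41], [nat_lit 37]] [])))))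

noncomputable def ct6 : Tc :=
(.node (nat_lit 256)
(.node (nat_lit 129)
(.node (nat_lit 64)
(.leaf [[nat_lit 1597910, nat_lit 98], [nat_lit 94, nat_lit 24918], [nat_lit 90], [nat_lit 86], [nat_lit 82, nat_lit 78]] [])
(.node (nat_lit 128)
(.leaf [] [])
(.leaf [[], [], [], [], [nat_lit 1905589, nat_lit 3728309, nat_lit 607157, nat_lit 2167733], [], [], [], [], [nat_lit 24885, nat_lit 1597873], [], [nat_lit 53], [nat_lit 49], [nat_lit 45], [nat_lit 41]] [[], [], [], [], [nat_lit 30542311722], [], [], [], [], [nat_lit 13089778720], [], [], [], [], [nat_lit 337686]])))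
(.node (nat_lit 193)
(.node (nat_lit 192)
(.leaf [[], [], [], [], [], [], [], [], [], [], [], [nat_lit 53]] [])
(.leaf [[nat_lit 5858741, nat_lit 4818357], [nat_lit 644405, nat_lit 5326133, nat_lit 2725173, nat_lit 124213, nat_lit 3765557], [nat_lit 1672373, nat_lit 4793525, nat_lit 631989, nat_lit 2712757], [nat_lit 99381, nat_lit 4260917, nat_lit 1139765], [nat_lit 1647541, nat_lit 3728309, nat_lit 607157], [nat_lit 74549, nat_lit 3195701], [nat_lit 582325, nat_lit 2663093, nat_lit 74545], [nat_lit 49717, nat_lit 2130485], [nat_lit 557493, nat_lit 1597877, nat_lit 49713], [nat_lit 24885, nat_lit 1597873], [nat_lit 24881, nat_lit 1597869], [nat_lit 53], [nat_lit 49], [nat_lit 45], [nat_lit 41], [nat_lit 37]] [[nat_lit 47994811570], [nat_lit 43631686576], [nat_lit 39268561582], [], [], [], [], [], [], [], [], [], [], [], [], [nat_lit 304532]]))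
(.node (nat_lit 194)
(.leaf [[nat_lit 2217397, nat_lit 5858741, nat_lit 656821, nat_lit 3257781], [nat_lit 124213, nat_lit 4805941, nat_lit 1684789, nat_lit 5326133], [nat_lit 631989, nat_lit 4793525, nat_lit 124209, nat_lit 1152181], [nat_lit 99381, nat_lit 4260917, nat_lit 619573], [nat_lit 607157, nat_lit 3728309, nat_lit 99377], [nat_lit 74549, nat_lit 3195701], [nat_lit 582325, nat_lit 2663093, nat_lit 74545], [nat_lit 49717, nat_lit 2130485], [nat_lit 557493, nat_lit 1597877, nat_lit 49713], [nat_lit 24885, nat_lit 1597873], [nat_lit 24881, nat_lit 1597869], [nat_lit 53], [nat_lit 49], [nat_lit 45], [nat_lit 41], [nat_lit 37]] [])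
(.leaf [[], [], [], [], [nat_lit 2167733, nat_lit 3728309, nat_lit 607157], [], [], [nat_lit 49717, nat_lit 2130485], [], [nat_lit 24885, nat_lit 1597873], [nat_lit 24881, nat_lit 1597869], [nat_lit 53], [nat_lit 49], [nat_lit 45], [nat_lit 41]] [[], [], [], [], [nat_lit 30542311594], [], [], [], [], [], [nat_lit 13089745311, nat_lit 13089745566]]))))
(.node (nat_lit 320)
(.node (nat_lit 258)
(.node (nat_lit 257)
(.leaf [[nat_lit 2217397, nat_lit 5858741, nat_lit 656821, nat_lit 3257781], [nat_lit 644405, nat_lit 4805941, nat_lit 2204981, nat_lit 5326133, nat_lit 124213], [nat_lit 1672373, nat_lit 4793525], [nat_lit 99381, nat_lit 4260917, nat_lit 619573], [nat_lit 2167733, nat_lit 3728309, nat_lit 607157], [nat_lit 74549, nat_lit 3195701], [nat_lit 582325, nat_lit 2663093, nat_lit 74545], [nat_lit 49717, nat_lit 2130485], [nat_lit 557493, nat_lit 1597877, nat_lit 49713], [nat_lit 24885, nat_lit 1597873], [nat_lit 24881, nat_lit 1597869], [nat_lit 53], [nat_lit 49], [nat_lit 45], [nat_lit 41], [nat_lit 37]] [])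
(.leaf [[nat_lit 656821, nat_lit 4818357, nat_lit 5858741, nat_lit 149041, nat_lit 1177013], [nat_lit 124213, nat_lit 5326133, nat_lit 1684789], [nat_lit 631989, nat_lit 4793525, nat_lit 124209, nat_lit 1152181], [nat_lit 99381, nat_lit 4260917, nat_lit 619573], [nat_lit 607157, nat_lit 3728309, nat_lit 99377], [nat_lit 74549, nat_lit 3195701], [nat_lit 582325, nat_lit 2663093, nat_lit 74545], [nat_lit 49717, nat_lit 2130485], [nat_lit 557493, nat_lit 1597877, nat_lit 49713], [nat_lit 24885, nat_lit 1597873], [nat_lit 24881, nat_lit 1597869], [nat_lit 53], [nat_lit 49], [nat_lit 45], [nat_lit 41], [nat_lit 37], [nat_lit 33]] [[], [], [], [], [], [], [], [], [], [], [], [], [], [], [], [], [nat_lit 271505]]))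
(.node (nat_lit 259)
(.leaf [[nat_lit 656821, nat_lit 5338549, nat_lit 149041, nat_lit 5858741, nat_lit 1177013], [nat_lit 124213, nat_lit 4805941, nat_lit 5326133, nat_lit 644405], [nat_lit 631989, nat_lit 4793525, nat_lit 124209], [nat_lit 99381, nat_lit 4260917], [nat_lit 607157, nat_lit 3728309, nat_lit 99377], [nat_lit 74549, nat_lit 3195701], [nat_lit 582325, nat_lit 2663093, nat_lit 74545], [nat_lit 49717, nat_lit 2130485], [nat_lit 557493, nat_lit 1597877, nat_lit 49713], [nat_lit 24885, nat_lit 1597873], [nat_lit 24881, nat_lit 1597869], [nat_lit 53], [nat_lit 49], [nat_lit 45], [nat_lit 41], [nat_lit 37], [nat_lit 33]] [])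
(.leaf [[nat_lit 5858741, nat_lit 5338549], [], [nat_lit 1672373, nat_lit 4793525, nat_lit 631989, nat_lit 3232949], [nat_lit 619573, nat_lit 4260917, nat_lit 2700341, nat_lit 99381], [nat_lit 2167733, nat_lit 3728309, nat_lit 607157], [], [], [nat_lit 49717, nat_lit 2130485], [], [nat_lit 24885, nat_lit 1597873], [nat_lit 24881, nat_lit 1597869], [nat_lit 53], [nat_lit 49], [nat_lit 45], [nat_lit 41]] [[nat_lit 43733397558, nat_lit 47994810677, nat_lit 47994810932, nat_lit 47994811187, nat_lit 47994811442, nat_lit 47994811569], [], [nat_lit 39268561454]])))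
(.node (nat_lit 322)
(.node (nat_lit 321)
(.leaf [[nat_lit 656821, nat_lit 4818357, nat_lit 5858741, nat_lit 149041, nat_lit 1697205], [nat_lit 124213, nat_lit 4285749, nat_lit 5326133, nat_lit 1164597], [nat_lit 631989, nat_lit 4793525, nat_lit 124209, nat_lit 1152181], [nat_lit 99381, nat_lit 4260917, nat_lit 619573], [nat_lit 607157, nat_lit 3728309, nat_lit 99377], [nat_lit 74549, nat_lit 3195701], [nat_lit 582325, nat_lit 2663093, nat_lit 74545], [nat_lit 49717, nat_lit 2130485], [nat_lit 557493, nat_lit 1597877, nat_lit 49713], [nat_lit 24885, nat_lit 1597873], [nat_lit 24881, nat_lit 1597869], [nat_lit 53], [nat_lit 49], [nat_lit 45], [nat_lit 41], [nat_lit 37], [nat_lit 33]] [[], [], [], [], [], [], [], [], [], [], [], [], [], [], [], [], [nat_lit 271505]])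
(.leaf [[nat_lit 656821, nat_lit 4818357, nat_lit 5858741, nat_lit 149041], [nat_lit 124213, nat_lit 4805941, nat_lit 5326133, nat_lit 644405], [nat_lit 631989, nat_lit 4793525, nat_lit 124209], [nat_lit 99381, nat_lit 4260917], [nat_lit 607157, nat_lit 3728309, nat_lit 99377], [nat_lit 74549, nat_lit 3195701], [nat_lit 582325, nat_lit 2663093, nat_lit 74545], [nat_lit 49717, nat_lit 2130485], [nat_lit 557493, nat_lit 1597877, nat_lit 49713], [nat_lit 24885, nat_lit 1597873], [nat_lit 24881, nat_lit 1597869], [nat_lit 53], [nat_lit 49], [nat_lit 45], [nat_lit 41], [nat_lit 37], [nat_lit 33]] []))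
(.node (nat_lit 323)
(.leaf [[nat_lit 656821, nat_lit 5338549, nat_lit 149041, nat_lit 5858741, nat_lit 1177013], [nat_lit 124213, nat_lit 4805941, nat_lit 5326133, nat_lit 644405], [nat_lit 631989, nat_lit 4793525, nat_lit 124209], [nat_lit 99381, nat_lit 4260917], [nat_lit 607157, nat_lit 3728309, nat_lit 99377], [nat_lit 74549, nat_lit 3195701], [nat_lit 582325, nat_lit 2663093, nat_lit 74545], [nat_lit 49717, nat_lit 2130485], [nat_lit 557493, nat_lit 1597877, nat_lit 49713], [nat_lit 24885, nat_lit 1597873], [nat_lit 24881, nat_lit 1597869], [nat_lit 53], [nat_lit 49], [nat_lit 45], [nat_lit 41], [nat_lit 37], [nat_lit 33]] [])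
(.leaf [[nat_lit 656821, nat_lit 5338549, nat_lit 149041, nat_lit 5858741, nat_lit 1177013], [nat_lit 124213, nat_lit 4805941, nat_lit 5326133, nat_lit 644405], [nat_lit 631989, nat_lit 4793525, nat_lit 124209], [nat_lit 99381, nat_lit 4260917], [nat_lit 607157, nat_lit 3728309, nat_lit 99377], [nat_lit 74549, nat_lit 3195701], [nat_lit 582325, nat_lit 2663093, nat_lit 74545], [nat_lit 49717, nat_lit 2130485], [nat_lit 557493, nat_lit 1597877, nat_lit 49713], [nat_lit 24885, nat_lit 1597873], [nat_lit 24881, nat_lit 1597869], [nat_lit 53], [nat_lit 49], [nat_lit 45], [nat_lit 41], [nat_lit 37], [nat_lit 33]] [])))))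

noncomputable def ct7 : Tc :=
(.node (nat_lit 259)
(.node (nat_lit 193)
(.node (nat_lit 128)
(.node (nat_lit 64)
(.leaf [[nat_lit 1597910, nat_lit 24922], [nat_lit 94, nat_lit 24918], [nat_lit 90, nat_lit 24914], [nat_lit 86], [nat_lit 82]] [])
(.leaf [[], [], [], [], [], [], [], [], [], [], [], [nat_lit 53], [nat_lit 49], [nat_lit 45]] [[], [], [], [], [], [], [], [], [], [], [], [], [nat_lit 403610], [nat_lit 370584]]))
(.node (nat_lit 129)
(.leaf [[nat_lit 69811364682, nat_lit 69812925258, nat_lit 69810324298], [nat_lit 69810324294, nat_lit 69812925254, nat_lit 124213], [nat_lit 69811364674, nat_lit 69812925250, nat_lit 631989, nat_lit 4793525], [nat_lit 619573, nat_lit 4260917, nat_lit 2180149, nat_lit 99381], [nat_lit 1647541, nat_lit 3728309, nat_lit 607157], [nat_lit 74549, nat_lit 3195701], [], [nat_lit 49717, nat_lit 2130485], [nat_lit 557493, nat_lit 1597877, nat_lit 49713], [nat_lit 24885, nat_lit 1597873], [nat_lit 24881, nat_lit 1597869], [nat_lit 53], [nat_lit 49], [nat_lit 45], [nat_lit 41], [nat_lit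 37]] [[], [nat_lit 571907483685680], [nat_lit 39268561454], [nat_lit 34905436460], [], [], [], [], [], [], [nat_lit 13089745438], [], [], [], [], [nat_lit 304404]])
(.node (nat_lit 192)
(.leaf [[], [], [], [], [], [], [], [], [], [nat_lit 24885, nat_lit 1597873], [nat_lit 24881, nat_lit 1597869], [nat_lit 53], [nat_lit 49], [nat_lit 45], [nat_lit 41]] [[], [], [], [], [], [], [], [], [], [nat_lit 13089778464], [nat_lit 13089744928, nat_lit 13089745183, nat_lit 13089745438], [], [], [], [nat_lit 337430]])
(.leaf [[nat_lit 1697205, nat_lit 5858741, nat_lit 3257781, nat_lit 4298165, nat_lit 656821], [nat_lit 124213, nat_lit 5326133, nat_lit 2725173], [nat_lit 1672373, nat_lit 4793525, nat_lit 631989, nat_lit 2192565], [nat_lit 99381, nat_lit 4260917, nat_lit 1139765], [nat_lit 607157, nat_lit 3728309, nat_lit 99377], [nat_lit 74549, nat_lit 3195701], [nat_lit 582325, nat_lit 2663093, nat_lit 74545], [nat_lit 49717, nat_lit 2130485], [nat_lit 557493, nat_lit 1597877, nat_lit 49713], [nat_lit 24885, nat_lit 1597873],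 [nat_lit 24881, nat_lit 1597869], [nat_lit 53], [nat_lit 49], [nat_lit 45], [nat_lit 41], [nat_lit 37], [nat_lit 33]] [[], [], [], [], [], [], [], [], [], [], [], [], [], [], [], [], [nat_lit 270995, nat_lit 271250, nat_lit 271377]]))))
(.node (nat_lit 256)
(.node (nat_lit 194)
(.leaf [[nat_lit 656821, nat_lit 4818357, nat_lit 5858741, nat_lit 149041, nat_lit 1697205], [nat_lit 124213, nat_lit 4285749, nat_lit 5326133, nat_lit 644405], [nat_lit 631989, nat_lit 4793525, nat_lit 124209, nat_lit 1152181], [nat_lit 99381, nat_lit 4260917, nat_lit 619573], [nat_lit 607157, nat_lit 3728309, nat_lit 99377], [nat_lit 74549, nat_lit 3195701], [nat_lit 582325, nat_lit 2663093, nat_lit 74545], [nat_lit 49717, nat_lit 2130485], [nat_lit 557493, nat_lit 1597877, nat_lit 49713], [nat_lit 24885, nat_lit 1597873], [nat_lit 24881, nat_lit 1597869], [nat_lit 53], [nat_lit 49], [nat_lit 45], [nat_lit 41], [nat_lit 37], [nat_lit 33]] [[], [], [], [], [], [], [], [], [], [], [], [], [], [], [], [], [nat_lit 271377]])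
(.leaf [[], [], [nat_lit 1152181, nat_lit 4793525, nat_lit 2712757, nat_lit 631989, nat_lit 1672373, nat_lit 3232949, nat_lit 3753141, nat_lit 4273333], [nat_lit 99381, nat_lit 4260917, nat_lit 2180149, nat_lit 2700341], [nat_lit 1647541, nat_lit 3728309, nat_lit 607157], [nat_lit 74549, nat_lit 3195701, nat_lit 594741], [], [nat_lit 49717, nat_lit 2130485], [nat_lit 557493, nat_lit 1597877, nat_lit 49713], [nat_lit 24885, nat_lit 1597873], [nat_lit 24881, nat_lit 1597869], [nat_lit 53], [nat_lit 49], [nat_lit 45], [nat_lit 41], [nat_lit 37]] [[], [], [nat_lit 39268561326], [nat_lit 34905436332], [], [], [], [], [], [], [nat_lit 13089745310], [], [], [], [], [nat_lit 304276]]))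
(.node (nat_lit 257)
(.leaf [[nat_lit 2217397, nat_lit 5858741, nat_lit 656821, nat_lit 3257781], [nat_lit 124213, nat_lit 4285749, nat_lit 5326133, nat_lit 1164597], [nat_lit 631989, nat_lit 4793525, nat_lit 124209, nat_lit 1672373], [nat_lit 99381, nat_lit 4260917, nat_lit 619573], [nat_lit 607157, nat_lit 3728309, nat_lit 99377], [nat_lit 74549, nat_lit 3195701], [nat_lit 582325, nat_lit 2663093, nat_lit 74545], [nat_lit 49717, nat_lit 2130485], [nat_lit 557493, nat_lit 1597877, nat_lit 49713], [nat_lit 24885, nat_lit 1597873], [nat_lit 24881, nat_lit 1597869], [nat_lit 53], [nat_lit 49], [nat_lit 45], [nat_lit 41], [nat_lit 37], [nat_lit 33]] [[], [], [], [], [], [], [], [], [], [], [], [], [], [], [], [], [nat_lit 271122, nat_lit 271377]])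
(.node (nat_lit 258)
(.leaf [[nat_lit 656821, nat_lit 4818357, nat_lit 5858741, nat_lit 149041], [nat_lit 124213, nat_lit 4285749, nat_lit 5326133], [nat_lit 631989, nat_lit 4793525, nat_lit 124209], [nat_lit 99381, nat_lit 4260917], [nat_lit 607157, nat_lit 3728309, nat_lit 99377], [nat_lit 74549, nat_lit 3195701], [nat_lit 582325, nat_lit 2663093, nat_lit 74545], [nat_lit 49717, nat_lit 2130485], [nat_lit 557493, nat_lit 1597877, nat_lit 49713], [nat_lit 24885, nat_lit 1597873], [nat_lit 24881, nat_lit 1597869], [nat_lit 53], [nat_lit 49], [nat_lit 45], [nat_lit 41], [nat_lit 37], [nat_lit 33]] [])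
(.leaf [[nat_lit 656821, nat_lit 4818357, nat_lit 5858741, nat_lit 149041], [nat_lit 124213, nat_lit 4805941, nat_lit 5326133, nat_lit 644405], [nat_lit 631989, nat_lit 4793525, nat_lit 124209], [nat_lit 99381, nat_lit 4260917], [nat_lit 607157, nat_lit 3728309, nat_lit 99377], [nat_lit 74549, nat_lit 3195701], [nat_lit 582325, nat_lit 2663093, nat_lit 74545], [nat_lit 49717, nat_lit 2130485], [nat_lit 557493, nat_lit 1597877, nat_lit 49713], [nat_lit 24885, nat_lit 1597873], [nat_lit 24881, nat_lit 1597869], [nat_lit 53], [nat_lit 49], [nat_lit 45], [nat_lit 41], [nat_lit 37], [nat_lit 33]] [])))))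
(.node (nat_lit 324)
(.node (nat_lit 321)
(.node (nat_lit 320)
(.leaf [[nat_lit 5858741], [nat_lit 644405, nat_lit 5326133, nat_lit 2725173, nat_lit 124213, nat_lit 3765557, nat_lit 4285749], [nat_lit 1672373, nat_lit 4793525, nat_lit 631989, nat_lit 2712757], [nat_lit 99381, nat_lit 4260917, nat_lit 1659957], [nat_lit 1647541, nat_lit 3728309, nat_lit 607157], [nat_lit 74549, nat_lit 3195701], [nat_lit 582325, nat_lit 2663093, nat_lit 74545], [nat_lit 49717, nat_lit 2130485], [nat_lit 557493, nat_lit 1597877, nat_lit 49713], [nat_lit 24885, nat_lit 1597873], [nat_lit 24881, nat_lit 1597869], [nat_lit 53], [nat_lit 49], [nat_lit 45], [nat_lit 41], [nat_lit 37], [nat_lit 33]] [[nat_lit 39471984438, nat_lit 47994811186, nat_lit 47994811441], [nat_lit 43631686447], [nat_lit 39268561453], [nat_lit 34905436459], [], [], [], [], [], [], [nat_lit 13089745437], [], [], [], [], [nat_lit 304403], [nat_lit 270357, nat_lit 270612, nat_lit 270867, nat_lit 271122, nat_lit 271249, nat_lit 271377]])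
(.leaf [[nat_lit 656821, nat_lit 4818357, nat_lit 5858741, nat_lit 149041, nat_lit 1697205], [nat_lit 124213, nat_lit 4285749, nat_lit 5326133, nat_lit 1164597], [nat_lit 631989, nat_lit 4793525, nat_lit 124209, nat_lit 1152181], [nat_lit 99381, nat_lit 4260917], [nat_lit 607157, nat_lit 3728309, nat_lit 99377], [nat_lit 74549, nat_lit 3195701], [nat_lit 582325, nat_lit 2663093, nat_lit 74545], [nat_lit 49717, nat_lit 2130485], [nat_lit 557493, nat_lit 1597877, nat_lit 49713], [nat_lit 24885, nat_lit 1597873], [nat_lit 24881, nat_lit 1597869], [nat_lit 53], [nat_lit 49], [nat_lit 45], [nat_lit 41], [nat_lit 37], [nat_lit 33]] [[], [], [], [], [], [], [], [], [], [], [], [], [], [], [], [], [nat_lit 271249]]))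
(.node (nat_lit 322)
(.leaf [[nat_lit 656821, nat_lit 4818357, nat_lit 5858741, nat_lit 149041, nat_lit 1177013], [nat_lit 124213, nat_lit 4285749, nat_lit 5326133], [nat_lit 631989, nat_lit 4793525, nat_lit 124209], [nat_lit 99381, nat_lit 4260917], [nat_lit 607157, nat_lit 3728309, nat_lit 99377], [nat_lit 74549, nat_lit 3195701], [nat_lit 582325, nat_lit 2663093, nat_lit 74545], [nat_lit 49717, nat_lit 2130485], [nat_lit 557493, nat_lit 1597877, nat_lit 49713], [nat_lit 24885, nat_lit 1597873], [nat_lit 24881, nat_lit 1597869], [nat_lit 53], [nat_lit 49], [nat_lit 45], [nat_lit 41], [nat_lit 37], [nat_lit 33]] [])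
(.node (nat_lit 323)
(.leaf [[nat_lit 656821, nat_lit 4818357, nat_lit 5858741, nat_lit 149041], [nat_lit 124213, nat_lit 4805941, nat_lit 5326133, nat_lit 644405], [nat_lit 631989, nat_lit 4793525, nat_lit 124209], [nat_lit 99381, nat_lit 4260917], [nat_lit 607157, nat_lit 3728309, nat_lit 99377], [nat_lit 74549, nat_lit 3195701], [nat_lit 582325, nat_lit 2663093, nat_lit 74545], [nat_lit 49717, nat_lit 2130485], [nat_lit 557493, nat_lit 1597877, nat_lit 49713], [nat_lit 24885, nat_lit 1597873], [nat_lit 24881, nat_lit 1597869], [nat_lit 53], [nat_lit 49], [nat_lit 45], [nat_lit 41], [nat_lit 37], [nat_lit 33]] [])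
(.leaf [[nat_lit 656821, nat_lit 5338549, nat_lit 149041, nat_lit 5858741, nat_lit 1177013], [nat_lit 124213, nat_lit 4805941, nat_lit 5326133, nat_lit 644405], [nat_lit 631989, nat_lit 4793525, nat_lit 124209], [nat_lit 99381, nat_lit 4260917], [nat_lit 607157, nat_lit 3728309, nat_lit 99377], [nat_lit 74549, nat_lit 3195701], [nat_lit 582325, nat_lit 2663093, nat_lit 74545], [nat_lit 49717, nat_lit 2130485], [nat_lit 557493, nat_lit 1597877, nat_lit 49713], [nat_lit 24885, nat_lit 1597873], [nat_lit 24881, nat_lit 1597869], [nat_lit 53], [nat_lit 49], [nat_lit 45], [nat_lit 41], [nat_lit 37], [nat_lit 33]] []))))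
(.node (nat_lit 386)
(.node (nat_lit 384)
(.leaf [[nat_lit 1697205, nat_lit 5858741, nat_lit 3257781, nat_lit 4298165, nat_lit 656821], [nat_lit 124213, nat_lit 5326133, nat_lit 2725173, nat_lit 3245365], [nat_lit 631989, nat_lit 4273333, nat_lit 124209, nat_lit 4793525, nat_lit 1672373], [nat_lit 99381, nat_lit 4260917, nat_lit 1139765], [nat_lit 607157, nat_lit 3728309, nat_lit 99377], [nat_lit 74549, nat_lit 3195701], [nat_lit 582325, nat_lit 2663093, nat_lit 74545], [nat_lit 49717, nat_lit 2130485], [nat_lit 557493, nat_lit 1597877, nat_lit 49713], [nat_lit 24885, nat_lit 1597873], [nat_lit 24881, nat_lit 1597869], [nat_lit 53], [nat_lit 49], [nat_lit 45], [nat_lit 41], [nat_lit 37], [nat_lit 33]] [[nat_lit 47994811313], [], [], [], [], [], [], [], [], [], [], [], [], [], [], [], [nat_lit 270484, nat_lit 270739, nat_lit 270994, nat_lit 271249]])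
(.node (nat_lit 385)
(.leaf [[nat_lit 656821, nat_lit 4818357, nat_lit 5858741, nat_lit 149041, nat_lit 1177013], [nat_lit 124213, nat_lit 4285749, nat_lit 5326133, nat_lit 644405], [nat_lit 631989, nat_lit 4793525, nat_lit 124209, nat_lit 1152181], [nat_lit 99381, nat_lit 4260917, nat_lit 619573], [nat_lit 607157, nat_lit 3728309, nat_lit 99377], [nat_lit 74549, nat_lit 3195701], [nat_lit 582325, nat_lit 2663093, nat_lit 74545], [nat_lit 49717, nat_lit 2130485], [nat_lit 557493, nat_lit 1597877, nat_lit 49713], [nat_lit 24885, nat_lit 1597873], [nat_lit 24881, nat_lit 1597869], [nat_lit 53], [nat_lit 49], [nat_lit 45], [nat_lit 41], [nat_lit 37], [nat_lit 33]] [])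
(.leaf [[nat_lit 656821, nat_lit 4818357, nat_lit 5858741, nat_lit 149041, nat_lit 1177013], [nat_lit 124213, nat_lit 4285749, nat_lit 5326133], [nat_lit 631989, nat_lit 4793525, nat_lit 124209], [nat_lit 99381, nat_lit 4260917], [nat_lit 607157, nat_lit 3728309, nat_lit 99377], [nat_lit 74549, nat_lit 3195701], [nat_lit 582325, nat_lit 2663093, nat_lit 74545], [nat_lit 49717, nat_lit 2130485], [nat_lit 557493, nat_lit 1597877, nat_lit 49713], [nat_lit 24885, nat_lit 1597873], [nat_lit 24881, nat_lit 1597869], [nat_lit 53], [nat_lit 49], [nat_lit 45], [nat_lit 41], [nat_lit 37], [nat_lit 33], [nat_lit 29]] [[], [], [], [], [], [], [], [], [], [], [], [], [], [], [], [], [], [nat_lit 237712, nat_lit 237967, nat_lit 238094, nat_lit 238222]])))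
(.node (nat_lit 387)
(.leaf [[nat_lit 656821, nat_lit 4818357, nat_lit 5858741, nat_lit 149041], [nat_lit 124213, nat_lit 4805941, nat_lit 5326133, nat_lit 644405], [nat_lit 631989, nat_lit 4793525, nat_lit 124209], [nat_lit 99381, nat_lit 4260917], [nat_lit 607157, nat_lit 3728309, nat_lit 99377], [nat_lit 74549, nat_lit 3195701], [nat_lit 582325, nat_lit 2663093, nat_lit 74545], [nat_lit 49717, nat_lit 2130485], [nat_lit 557493, nat_lit 1597877, nat_lit 49713], [nat_lit 24885, nat_lit 1597873], [nat_lit 24881, nat_lit 1597869], [nat_lit 53], [nat_lit 49], [nat_lit 45], [nat_lit 41], [nat_lit 37], [nat_lit 33], [nat_lit 29]] [[], [], [], [], [], [], [], [], [], [], [], [], [], [], [], [], [], [nat_lit 238094]])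
(.node (nat_lit 388)
(.leaf [[nat_lit 656821, nat_lit 4818357, nat_lit 5858741, nat_lit 149041], [nat_lit 124213, nat_lit 4805941, nat_lit 5326133, nat_lit 644405], [nat_lit 631989, nat_lit 4793525, nat_lit 124209], [nat_lit 99381, nat_lit 4260917], [nat_lit 607157, nat_lit 3728309, nat_lit 99377], [nat_lit 74549, nat_lit 3195701], [nat_lit 582325, nat_lit 2663093, nat_lit 74545], [nat_lit 49717, nat_lit 2130485], [nat_lit 557493, nat_lit 1597877, nat_lit 49713], [nat_lit 24885, nat_lit 1597873], [nat_lit 24881, nat_lit 1597869], [nat_lit 53], [nat_lit 49], [nat_lit 45], [nat_lit 41], [nat_lit 37], [nat_lit 33]] [])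
(.leaf [[nat_lit 656821, nat_lit 4818357, nat_lit 5858741, nat_lit 149041, nat_lit 1177013], [nat_lit 124213, nat_lit 4285749, nat_lit 5326133, nat_lit 644405], [nat_lit 631989, nat_lit 4793525, nat_lit 124209, nat_lit 1152181], [nat_lit 99381, nat_lit 4260917, nat_lit 619573], [nat_lit 607157, nat_lit 3728309, nat_lit 99377], [nat_lit 74549, nat_lit 3195701], [nat_lit 582325, nat_lit 2663093, nat_lit 74545], [nat_lit 49717, nat_lit 2130485], [nat_lit 557493, nat_lit 1597877, nat_lit 49713], [nat_lit 24885, nat_lit 1597873], [nat_lit 24881, nat_lit 1597869], [nat_lit 53], [nat_lit 49], [nat_lit 45], [nat_lit 41], [nat_lit 37], [nat_lit 33], [nat_lit 29]] []))))))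

noncomputable def ct8 : Tc :=
(.node (nat_lit 323)
(.node (nat_lit 256)
(.node (nat_lit 129)
(.node (nat_lit 64)
(.leaf [[nat_lit 24922, nat_lit 2663118], [nat_lit 94, nat_lit 24918], [nat_lit 90, nat_lit 24914], [nat_lit 86], [nat_lit 82], [nat_lit 78], [nat_lit 74], [nat_lit 70], [nat_lit 66], [nat_lit 62], [nat_lit 58]] [])
(.node (nat_lit 128)
(.leaf [[nat_lit 1092137678, nat_lit 1093448522, nat_lit 1091097294], [nat_lit 1093448518, nat_lit 1092137674], [], [], [], [], [], [], [], [nat_lit 24885, nat_lit 1597873], [], [nat_lit 53], [nat_lit 49], [nat_lit 45], [nat_lit 41]] [[nat_lit 8955416367795, nat_lit 9094969250738], [nat_lit 8955416334514, nat_lit 9094969217457, nat_lit 9094969217584, nat_lit 9094969217712], [], [], [], [], [], [], [], [nat_lit 13089778081, nat_lit 13089778336], [], [], [], [], [nat_lit 337047, nat_lit 337302]])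
(.leaf [[nat_lit 69811364682, nat_lit 69812925258, nat_lit 69810324298], [nat_lit 69810324294, nat_lit 69812925254, nat_lit 124213], [nat_lit 69811364674, nat_lit 4793525, nat_lit 631989], [nat_lit 99381, nat_lit 4260917, nat_lit 1659957], [nat_lit 1647541, nat_lit 3728309, nat_lit 607157], [nat_lit 74549, nat_lit 3195701], [nat_lit 582325, nat_lit 2663093, nat_lit 74545], [nat_lit 49717, nat_lit 2130485], [nat_lit 557493, nat_lit 1597877, nat_lit 49713], [nat_lit 24885, nat_lit 1597873], [nat_lit 24881, nat_lit 1597869], [nat_lit 53], [nat_lit 49], [nat_lit 45], [nat_lit 41], [nat_lit 37]] [])))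
(.node (nat_lit 193)
(.node (nat_lit 192)
(.leaf [[nat_lit 2183705418, nat_lit 2183168718, nat_lit 2182652622], [nat_lit 5326133, nat_lit 2182652618], [], [], [nat_lit 3728309, nat_lit 607157, nat_lit 2167733], [nat_lit 74549, nat_lit 3195701, nat_lit 594741], [], [nat_lit 49717, nat_lit 2130485], [nat_lit 557493, nat_lit 1597877, nat_lit 49713], [nat_lit 24885, nat_lit 1597873], [nat_lit 24881, nat_lit 1597869], [nat_lit 53], [nat_lit 49], [nat_lit 45], [nat_lit 41]] [[nat_lit 17888914788660, nat_lit 17888914788915, nat_lit 17888914789042, nat_lit 47994811185, nat_lit 47994811186, nat_lit 47994811313], [nat_lit 17880290250547, nat_lit 43631685682, nat_lit 43631685937, nat_lit 43631686192, nat_lit 43631686319], [], [], [nat_lit 30542311210], [], [], [], [], [], [nat_lit 13089744927, nat_lit 13089745182, nat_lit 13089745309]])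
(.leaf [[nat_lit 70901359434, nat_lit 5858741, nat_lit 149041, nat_lit 17171893], [nat_lit 124213, nat_lit 4285749, nat_lit 5326133, nat_lit 1684789], [nat_lit 17147061, nat_lit 4793525, nat_lit 1672373], [nat_lit 99381, nat_lit 4260917, nat_lit 1139765], [nat_lit 607157, nat_lit 3728309, nat_lit 99377], [nat_lit 74549, nat_lit 3195701], [nat_lit 582325, nat_lit 2663093, nat_lit 74545], [nat_lit 49717, nat_lit 2130485], [nat_lit 557493, nat_lit 1597877, nat_lit 49713], [nat_lit 24885, nat_lit 1597873], [nat_lit 24881, nat_lit 1597869], [nat_lit 53], [nat_lit 49], [nat_lit 45], [nat_lit 41], [nat_lit 37], [nat_lit 33]] [[nat_lit 47994811313], [], [], [], [], [], [], [], [], [], [], [], [], [], [], [nat_lit 304275], [nat_lit 270994, nat_lit 271249]]))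
(.node (nat_lit 194)
(.leaf [[nat_lit 17171893, nat_lit 4818357, nat_lit 5858741, nat_lit 1697205], [nat_lit 124213, nat_lit 4285749, nat_lit 5326133, nat_lit 644405], [nat_lit 17147061, nat_lit 4793525, nat_lit 1152181], [nat_lit 99381, nat_lit 4260917], [nat_lit 607157, nat_lit 3728309, nat_lit 99377], [nat_lit 74549, nat_lit 3195701], [nat_lit 582325, nat_lit 2663093, nat_lit 74545], [nat_lit 49717, nat_lit 2130485], [nat_lit 557493, nat_lit 1597877, nat_lit 49713], [nat_lit 24885, nat_lit 1597873], [nat_lit 24881, nat_lit 1597869], [nat_lit 53], [nat_lit 49], [nat_lit 45], [nat_lit 41], [nat_lit 37], [nat_lit 33]] [[], [], [], [], [], [], [], [], [], [], [], [], [], [], [], [], [nat_lit 271121]])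
(.leaf [[nat_lit 5858741], [nat_lit 5326133, nat_lit 3765557], [nat_lit 1672373, nat_lit 4793525, nat_lit 631989, nat_lit 3232949, nat_lit 3753141], [nat_lit 99381, nat_lit 4260917, nat_lit 2180149], [nat_lit 607157, nat_lit 3728309, nat_lit 99377, nat_lit 1127349], [nat_lit 74549, nat_lit 3195701], [nat_lit 582325, nat_lit 2663093, nat_lit 74545], [nat_lit 49717, nat_lit 2130485], [nat_lit 557493, nat_lit 1597877, nat_lit 49713], [nat_lit 24885, nat_lit 1597873], [nat_lit 24881, nat_lit 1597869], [nat_lit 53], [nat_lit 49], [nat_lit 45], [nat_lit 41], [nat_lit 37], [nat_lit 33]] [[nat_lit 26813788704438, nat_lit 43733397429, nat_lit 47994810548, nat_lit 47994810803, nat_lit 47994811058, nat_lit 47994811313], [nat_lit 30847446197, nat_lit 35108859316, nat_lit 43631686064, nat_lit 43631686319], [nat_lit 39268561325], [nat_lit 34905436331], [nat_lit 30542311337], [], [], [], [], [], [nat_lit 13089745309], [], [], [], [], [nat_lit 304275], [nat_lit 270484, nat_lit 270739, nat_lit 270994, nat_lit 271121, nat_lit 271249]]))))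
(.node (nat_lit 259)
(.node (nat_lit 257)
(.leaf [[nat_lit 17171893, nat_lit 4298165, nat_lit 5858741, nat_lit 1177013], [nat_lit 124213, nat_lit 4805941, nat_lit 1684789, nat_lit 5326133], [nat_lit 17147061, nat_lit 4793525, nat_lit 1672373], [nat_lit 99381, nat_lit 4260917, nat_lit 619573], [nat_lit 607157, nat_lit 3728309, nat_lit 99377], [nat_lit 74549, nat_lit 3195701], [nat_lit 582325, nat_lit 2663093, nat_lit 74545], [nat_lit 49717, nat_lit 2130485], [nat_lit 557493, nat_lit 1597877, nat_lit 49713], [nat_lit 24885, nat_lit 1597873], [nat_lit 24881, nat_lit 1597869], [nat_lit 53], [nat_lit 49], [nat_lit 45], [nat_lit 41], [nat_lit 37], [nat_lit 33]] [[], [], [], [], [], [], [], [], [], [], [], [], [], [], [], [], [nat_lit 271121]])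
(.node (nat_lit 258)
(.leaf [[nat_lit 17171893, nat_lit 4818357, nat_lit 5858741, nat_lit 1177013], [nat_lit 124213, nat_lit 4285749, nat_lit 5326133, nat_lit 644405], [nat_lit 17147061, nat_lit 4793525, nat_lit 1152181], [nat_lit 99381, nat_lit 4260917], [nat_lit 607157, nat_lit 3728309, nat_lit 99377], [nat_lit 74549, nat_lit 3195701], [nat_lit 582325, nat_lit 2663093, nat_lit 74545], [nat_lit 49717, nat_lit 2130485], [nat_lit 557493, nat_lit 1597877, nat_lit 49713], [nat_lit 24885, nat_lit 1597873], [nat_lit 24881, nat_lit 1597869], [nat_lit 53], [nat_lit 49], [nat_lit 45], [nat_lit 41], [nat_lit 37], [nat_lit 33]] [])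
(.leaf [[nat_lit 17171893, nat_lit 4818357, nat_lit 5858741, nat_lit 1177013], [nat_lit 124213, nat_lit 4285749, nat_lit 5326133, nat_lit 644405], [nat_lit 17147061, nat_lit 4793525, nat_lit 1152181], [nat_lit 99381, nat_lit 4260917, nat_lit 619573], [nat_lit 607157, nat_lit 3728309, nat_lit 99377], [nat_lit 74549, nat_lit 3195701], [nat_lit 582325, nat_lit 2663093, nat_lit 74545], [nat_lit 49717, nat_lit 2130485], [nat_lit 557493, nat_lit 1597877, nat_lit 49713], [nat_lit 24885, nat_lit 1597873], [nat_lit 24881, nat_lit 1597869], [nat_lit 53], [nat_lit 49], [nat_lit 45], [nat_lit 41], [nat_lit 37], [nat_lit 33]] [])))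
(.node (nat_lit 321)
(.node (nat_lit 320)
(.leaf [[nat_lit 1697205, nat_lit 5858741, nat_lit 3257781, nat_lit 656821, nat_lit 4298165], [nat_lit 124213, nat_lit 4805941, nat_lit 2725173, nat_lit 5326133, nat_lit 3245365], [nat_lit 1672373, nat_lit 4793525, nat_lit 631989, nat_lit 2192565], [nat_lit 99381, nat_lit 3740725, nat_lit 4260917, nat_lit 1139765], [nat_lit 607157, nat_lit 3728309, nat_lit 99377], [nat_lit 74549, nat_lit 3195701], [nat_lit 582325, nat_lit 2663093, nat_lit 74545], [nat_lit 49717, nat_lit 2130485], [nat_lit 557493, nat_lit 1597877, nat_lit 49713], [nat_lit 24885, nat_lit 1597873], [nat_lit 24881, nat_lit 1597869], [nat_lit 53], [nat_lit 49], [nat_lit 45], [nat_lit 41], [nat_lit 37], [nat_lit 33]] [[nat_lit 47994811185], [nat_lit 43631686191], [], [], [], [], [], [], [], [], [], [], [], [], [], [nat_lit 304147], [nat_lit 270356, nat_lit 270611, nat_lit 270866, nat_lit 270993, nat_lit 271121]])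
(.leaf [[nat_lit 656821, nat_lit 4818357, nat_lit 5858741, nat_lit 149041, nat_lit 1177013], [nat_lit 124213, nat_lit 4285749, nat_lit 5326133, nat_lit 644405], [nat_lit 631989, nat_lit 4793525, nat_lit 124209, nat_lit 1152181], [nat_lit 99381, nat_lit 4260917, nat_lit 619573], [nat_lit 607157, nat_lit 3728309, nat_lit 99377], [nat_lit 74549, nat_lit 3195701], [nat_lit 582325, nat_lit 2663093, nat_lit 74545], [nat_lit 49717, nat_lit 2130485], [nat_lit 557493, nat_lit 1597877, nat_lit 49713], [nat_lit 24885, nat_lit 1597873], [nat_lit 24881, nat_lit 1597869], [nat_lit 53], [nat_lit 49], [nat_lit 45], [nat_lit 41], [nat_lit 37], [nat_lit 33], [nat_lit 29]] [[], [], [], [], [], [], [], [], [], [], [], [], [], [], [], [], [], [nat_lit 237584, nat_lit 237712, nat_lit 237839, nat_lit 237966, nat_lit 237967, nat_lit 238094]]))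
(.node (nat_lit 322)
(.leaf [[nat_lit 656821, nat_lit 4818357, nat_lit 5858741, nat_lit 149041, nat_lit 1177013], [nat_lit 124213, nat_lit 4285749, nat_lit 5326133, nat_lit 644405], [nat_lit 631989, nat_lit 4793525, nat_lit 124209, nat_lit 1152181], [nat_lit 99381, nat_lit 4260917, nat_lit 619573], [nat_lit 607157, nat_lit 3728309, nat_lit 99377], [nat_lit 74549, nat_lit 3195701], [nat_lit 582325, nat_lit 2663093, nat_lit 74545], [nat_lit 49717, nat_lit 2130485], [nat_lit 557493, nat_lit 1597877, nat_lit 49713], [nat_lit 24885, nat_lit 1597873], [nat_lit 24881, nat_lit 1597869], [nat_lit 53], [nat_lit 49], [nat_lit 45], [nat_lit 41], [nat_lit 37], [nat_lit 33], [nat_lit 29]] [[], [], [], [], [], [], [], [], [], [], [], [], [], [], [], [], [nat_lit 271120], [nat_lit 237584, nat_lit 237839, nat_lit 237966, nat_lit 238094]])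
(.leaf [[nat_lit 656821, nat_lit 4818357, nat_lit 5858741, nat_lit 149041, nat_lit 1177013], [nat_lit 124213, nat_lit 4285749, nat_lit 5326133, nat_lit 644405], [nat_lit 631989, nat_lit 4793525, nat_lit 124209, nat_lit 1152181], [nat_lit 99381, nat_lit 4260917, nat_lit 619573], [nat_lit 607157, nat_lit 3728309, nat_lit 99377], [nat_lit 74549, nat_lit 3195701], [nat_lit 582325, nat_lit 2663093, nat_lit 74545], [nat_lit 49717, nat_lit 2130485], [nat_lit 557493, nat_lit 1597877, nat_lit 49713], [nat_lit 24885, nat_lit 1597873], [nat_lit 24881, nat_lit 1597869], [nat_lit 53], [nat_lit 49], [nat_lit 45], [nat_lit 41], [nat_lit 37], [nat_lit 33], [nat_lit 29]] [[], [], [], [], [], [], [], [], [], [], [], [], [], [], [], [], [], [nat_lit 237711, nat_lit 237966]])))))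
(.node (nat_lit 389)
(.node (nat_lit 385)
(.node (nat_lit 324)
(.leaf [[nat_lit 656821, nat_lit 4818357, nat_lit 5858741, nat_lit 149041, nat_lit 1177013], [nat_lit 124213, nat_lit 4285749, nat_lit 5326133, nat_lit 644405], [nat_lit 631989, nat_lit 4793525, nat_lit 124209, nat_lit 1152181], [nat_lit 99381, nat_lit 4260917, nat_lit 619573], [nat_lit 607157, nat_lit 3728309, nat_lit 99377], [nat_lit 74549, nat_lit 3195701], [nat_lit 582325, nat_lit 2663093, nat_lit 74545], [nat_lit 49717, nat_lit 2130485], [nat_lit 557493, nat_lit 1597877, nat_lit 49713], [nat_lit 24885, nat_lit 1597873], [nat_lit 24881, nat_lit 1597869], [nat_lit 53], [nat_lit 49], [nat_lit 45], [nat_lit 41], [nat_lit 37], [nat_lit 33]] [])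
(.node (nat_lit 384)
(.leaf [[nat_lit 656821, nat_lit 5858741, nat_lit 3257781, nat_lit 149041, nat_lit 3777973], [nat_lit 124213, nat_lit 5326133, nat_lit 2725173], [nat_lit 631989, nat_lit 4273333, nat_lit 124209, nat_lit 4793525, nat_lit 1672373], [nat_lit 99381, nat_lit 3740725, nat_lit 4260917, nat_lit 619573], [nat_lit 607157, nat_lit 3728309, nat_lit 99377], [nat_lit 74549, nat_lit 3195701], [nat_lit 582325, nat_lit 2663093, nat_lit 74545], [nat_lit 49717, nat_lit 2130485], [nat_lit 557493, nat_lit 1597877, nat_lit 49713], [nat_lit 24885, nat_lit 1597873], [nat_lit 24881, nat_lit 1597869], [nat_lit 53], [nat_lit 49], [nat_lit 45], [nat_lit 41], [nat_lit 37], [nat_lit 33], [nat_lit 29]] [[], [], [], [], [], [], [], [], [], [], [], [], [], [], [], [], [nat_lit 270483, nat_lit 270738, nat_lit 270993, nat_lit 271120], [nat_lit 237584, nat_lit 237711, nat_lit 237712, nat_lit 237838, nat_lit 237839, nat_lit 237966, nat_lit 237967, nat_lit 238094]])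
(.leaf [[nat_lit 656821, nat_lit 5338549, nat_lit 2217397, nat_lit 149041, nat_lit 5858741], [nat_lit 124213, nat_lit 4285749, nat_lit 5326133, nat_lit 644405], [nat_lit 631989, nat_lit 4793525, nat_lit 124209, nat_lit 1152181], [nat_lit 99381, nat_lit 4260917, nat_lit 619573], [nat_lit 607157, nat_lit 3728309, nat_lit 99377], [nat_lit 74549, nat_lit 3195701], [nat_lit 582325, nat_lit 2663093, nat_lit 74545], [nat_lit 49717, nat_lit 2130485], [nat_lit 557493, nat_lit 1597877, nat_lit 49713], [nat_lit 24885, nat_lit 1597873], [nat_lit 24881, nat_lit 1597869], [nat_lit 53], [nat_lit 49], [nat_lit 45], [nat_lit 41], [nat_lit 37], [nat_lit 33], [nat_lit 29]] [[], [], [], [], [], [], [], [], [], [], [], [], [], [], [], [], [nat_lit 271120], [nat_lit 237584, nat_lit 237711, nat_lit 237839, nat_lit 237966, nat_lit 238094]])))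
(.node (nat_lit 387)
(.node (nat_lit 386)
(.leaf [[nat_lit 656821, nat_lit 4818357, nat_lit 5858741, nat_lit 149041, nat_lit 1177013], [nat_lit 124213, nat_lit 4285749, nat_lit 5326133, nat_lit 644405], [nat_lit 631989, nat_lit 4793525, nat_lit 124209, nat_lit 1152181], [nat_lit 99381, nat_lit 4260917, nat_lit 619573], [nat_lit 607157, nat_lit 3728309, nat_lit 99377], [nat_lit 74549, nat_lit 3195701], [nat_lit 582325, nat_lit 2663093, nat_lit 74545], [nat_lit 49717, nat_lit 2130485], [nat_lit 557493, nat_lit 1597877, nat_lit 49713], [nat_lit 24885, nat_lit 1597873], [nat_lit 24881, nat_lit 1597869], [nat_lit 53], [nat_lit 49], [nat_lit 45], [nat_lit 41], [nat_lit 37], [nat_lit 33], [nat_lit 29]] [[], [], [], [], [], [], [], [], [], [], [], [], [], [], [], [], [], [nat_lit 237711, nat_lit 237966]])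
(.leaf [[nat_lit 656821, nat_lit 4818357, nat_lit 5858741, nat_lit 149041, nat_lit 1177013], [nat_lit 124213, nat_lit 4285749, nat_lit 5326133, nat_lit 644405], [nat_lit 631989, nat_lit 4793525, nat_lit 124209, nat_lit 1152181], [nat_lit 99381, nat_lit 4260917, nat_lit 619573], [nat_lit 607157, nat_lit 3728309, nat_lit 99377], [nat_lit 74549, nat_lit 3195701], [nat_lit 582325, nat_lit 2663093, nat_lit 74545], [nat_lit 49717, nat_lit 2130485], [nat_lit 557493, nat_lit 1597877, nat_lit 49713], [nat_lit 24885, nat_lit 1597873], [nat_lit 24881, nat_lit 1597869], [nat_lit 53], [nat_lit 49], [nat_lit 45], [nat_lit 41], [nat_lit 37], [nat_lit 33], [nat_lit 29]] [[], [], [], [], [], [], [], [], [], [], [], [], [], [], [], [], [], [nat_lit 237838]]))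
(.node (nat_lit 388)
(.leaf [[nat_lit 656821, nat_lit 4818357, nat_lit 5858741, nat_lit 149041, nat_lit 1177013], [nat_lit 124213, nat_lit 4285749, nat_lit 5326133, nat_lit 644405], [nat_lit 631989, nat_lit 4793525, nat_lit 124209, nat_lit 1152181], [nat_lit 99381, nat_lit 4260917, nat_lit 619573], [nat_lit 607157, nat_lit 3728309, nat_lit 99377], [nat_lit 74549, nat_lit 3195701], [nat_lit 582325, nat_lit 2663093, nat_lit 74545], [nat_lit 49717, nat_lit 2130485], [nat_lit 557493, nat_lit 1597877, nat_lit 49713], [nat_lit 24885, nat_lit 1597873], [nat_lit 24881, nat_lit 1597869], [nat_lit 53], [nat_lit 49], [nat_lit 45], [nat_lit 41], [nat_lit 37], [nat_lit 33], [nat_lit 29]] [[], [], [], [], [], [], [], [], [], [], [], [], [], [], [], [], [], [nat_lit 237965]])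
(.leaf [[nat_lit 656821, nat_lit 4818357, nat_lit 5858741, nat_lit 149041, nat_lit 1177013], [nat_lit 124213, nat_lit 4285749, nat_lit 5326133, nat_lit 644405], [nat_lit 631989, nat_lit 4793525, nat_lit 124209, nat_lit 1152181], [nat_lit 99381, nat_lit 4260917, nat_lit 619573], [nat_lit 607157, nat_lit 3728309, nat_lit 99377], [nat_lit 74549, nat_lit 3195701], [nat_lit 582325, nat_lit 2663093, nat_lit 74545], [nat_lit 49717, nat_lit 2130485], [nat_lit 557493, nat_lit 1597877, nat_lit 49713], [nat_lit 24885, nat_lit 1597873], [nat_lit 24881, nat_lit 1597869], [nat_lit 53], [nat_lit 49], [nat_lit 45], [nat_lit 41], [nat_lit 37], [nat_lit 33], [nat_lit 29]] []))))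
(.node (nat_lit 450)
(.node (nat_lit 448)
(.leaf [[nat_lit 656821, nat_lit 4298165, nat_lit 5858741, nat_lit 149041, nat_lit 1697205], [nat_lit 124213, nat_lit 3765557, nat_lit 5326133, nat_lit 644405], [nat_lit 631989, nat_lit 4793525, nat_lit 124209, nat_lit 1672373], [nat_lit 99381, nat_lit 4260917, nat_lit 1139765], [nat_lit 607157, nat_lit 3728309, nat_lit 99377], [nat_lit 74549, nat_lit 3195701], [nat_lit 582325, nat_lit 2663093, nat_lit 74545], [nat_lit 49717, nat_lit 2130485], [nat_lit 557493, nat_lit 1597877, nat_lit 49713], [nat_lit 24885, nat_lit 1597873], [nat_lit 24881, nat_lit 1597869], [nat_lit 53], [nat_lit 49], [nat_lit 45], [nat_lit 41], [nat_lit 37], [nat_lit 33], [nat_lit 29]] [[], [], [], [], [], [], [], [], [], [], [], [], [], [], [], [nat_lit 304146], [nat_lit 270355, nat_lit 270610, nat_lit 270865, nat_lit 271120], [nat_lit 237583, nat_lit 237584, nat_lit 237711, nat_lit 237838, nat_lit 237839, nat_lit 237965, nat_lit 237966, nat_lit 238094]])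
(.node (nat_lit 449)
(.leaf [[nat_lit 656821, nat_lit 4818357, nat_lit 5858741, nat_lit 149041, nat_lit 1177013], [nat_lit 124213, nat_lit 4285749, nat_lit 5326133, nat_lit 644405], [nat_lit 631989, nat_lit 4793525, nat_lit 124209, nat_lit 1152181], [nat_lit 99381, nat_lit 4260917, nat_lit 619573], [nat_lit 607157, nat_lit 3728309, nat_lit 99377], [nat_lit 74549, nat_lit 3195701], [nat_lit 582325, nat_lit 2663093, nat_lit 74545], [nat_lit 49717, nat_lit 2130485], [nat_lit 557493, nat_lit 1597877, nat_lit 49713], [nat_lit 24885, nat_lit 1597873], [nat_lit 24881, nat_lit 1597869], [nat_lit 53], [nat_lit 49], [nat_lit 45], [nat_lit 41], [nat_lit 37], [nat_lit 33], [nat_lit 29]] [[], [], [], [], [], [], [], [], [], [], [], [], [], [], [], [], [], [nat_lit 237583, nat_lit 237711, nat_lit 237838, nat_lit 237965, nat_lit 237966]])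
(.leaf [[nat_lit 656821, nat_lit 4818357, nat_lit 5858741, nat_lit 149041, nat_lit 1177013], [nat_lit 124213, nat_lit 4285749, nat_lit 5326133, nat_lit 644405], [nat_lit 631989, nat_lit 4793525, nat_lit 124209, nat_lit 1152181], [nat_lit 99381, nat_lit 4260917, nat_lit 619573], [nat_lit 607157, nat_lit 3728309, nat_lit 99377], [nat_lit 74549, nat_lit 3195701], [nat_lit 582325, nat_lit 2663093, nat_lit 74545], [nat_lit 49717, nat_lit 2130485], [nat_lit 557493, nat_lit 1597877, nat_lit 49713], [nat_lit 24885, nat_lit 1597873], [nat_lit 24881, nat_lit 1597869], [nat_lit 53], [nat_lit 49], [nat_lit 45], [nat_lit 41], [nat_lit 37], [nat_lit 33], [nat_lit 29]] [[], [], [], [], [], [], [], [], [], [], [], [], [], [], [], [], [], [nat_lit 237583, nat_lit 237838, nat_lit 237965]])))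
(.node (nat_lit 452)
(.node (nat_lit 451)
(.leaf [[nat_lit 656821, nat_lit 4818357, nat_lit 5858741, nat_lit 149041, nat_lit 1177013], [nat_lit 124213, nat_lit 4285749, nat_lit 5326133, nat_lit 644405], [nat_lit 631989, nat_lit 4793525, nat_lit 124209, nat_lit 1152181], [nat_lit 99381, nat_lit 4260917, nat_lit 619573], [nat_lit 607157, nat_lit 3728309, nat_lit 99377], [nat_lit 74549, nat_lit 3195701], [nat_lit 582325, nat_lit 2663093, nat_lit 74545], [nat_lit 49717, nat_lit 2130485], [nat_lit 557493, nat_lit 1597877, nat_lit 49713], [nat_lit 24885, nat_lit 1597873], [nat_lit 24881, nat_lit 1597869], [nat_lit 53], [nat_lit 49], [nat_lit 45], [nat_lit 41], [nat_lit 37], [nat_lit 33], [nat_lit 29]] [[], [], [], [], [], [], [], [], [], [], [], [], [], [], [], [], [], [nat_lit 237710, nat_lit 237965]])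
(.leaf [[nat_lit 656821, nat_lit 4818357, nat_lit 5858741, nat_lit 149041, nat_lit 1177013], [nat_lit 124213, nat_lit 4285749, nat_lit 5326133, nat_lit 644405], [nat_lit 631989, nat_lit 4793525, nat_lit 124209, nat_lit 1152181], [nat_lit 99381, nat_lit 4260917, nat_lit 619573], [nat_lit 607157, nat_lit 3728309, nat_lit 99377], [nat_lit 74549, nat_lit 3195701], [nat_lit 582325, nat_lit 2663093, nat_lit 74545], [nat_lit 49717, nat_lit 2130485], [nat_lit 557493, nat_lit 1597877, nat_lit 49713], [nat_lit 24885, nat_lit 1597873], [nat_lit 24881, nat_lit 1597869], [nat_lit 53], [nat_lit 49], [nat_lit 45], [nat_lit 41], [nat_lit 37], [nat_lit 33], [nat_lit 29]] [[], [], [], [], [], [], [], [], [], [], [], [], [], [], [], [], [], [nat_lit 237837]]))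
(.node (nat_lit 453)
(.leaf [[nat_lit 656821, nat_lit 4818357, nat_lit 5858741, nat_lit 149041, nat_lit 1177013], [nat_lit 124213, nat_lit 4285749, nat_lit 5326133, nat_lit 644405], [nat_lit 631989, nat_lit 4793525, nat_lit 124209, nat_lit 1152181], [nat_lit 99381, nat_lit 4260917, nat_lit 619573], [nat_lit 607157, nat_lit 3728309, nat_lit 99377], [nat_lit 74549, nat_lit 3195701], [nat_lit 582325, nat_lit 2663093, nat_lit 74545], [nat_lit 49717, nat_lit 2130485], [nat_lit 557493, nat_lit 1597877, nat_lit 49713], [nat_lit 24885, nat_lit 1597873], [nat_lit 24881, nat_lit 1597869], [nat_lit 53], [nat_lit 49], [nat_lit 45], [nat_lit 41], [nat_lit 37], [nat_lit 33], [nat_lit 29]] [])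
(.leaf [[nat_lit 656821, nat_lit 4818357, nat_lit 5858741, nat_lit 149041, nat_lit 1697205], [nat_lit 124213, nat_lit 4285749, nat_lit 5326133, nat_lit 1164597], [nat_lit 631989, nat_lit 4793525, nat_lit 124209, nat_lit 1672373], [nat_lit 99381, nat_lit 4260917, nat_lit 1139765], [nat_lit 607157, nat_lit 3728309, nat_lit 99377], [nat_lit 74549, nat_lit 3195701], [nat_lit 582325, nat_lit 2663093, nat_lit 74545], [nat_lit 49717, nat_lit 2130485], [nat_lit 557493, nat_lit 1597877, nat_lit 49713], [nat_lit 24885, nat_lit 1597873], [nat_lit 24881, nat_lit 1597869], [nat_lit 53], [nat_lit 49], [nat_lit 45], [nat_lit 41], [nat_lit 37], [nat_lit 33], [nat_lit 29]] [[], [], [], [], [], [], [], [], [], [], [], [], [], [], [], [], [], [nat_lit 237581]]))))))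

noncomputable def ct9 : Tc :=
(.node (nat_lit 386)
(.node (nat_lit 258)
(.node (nat_lit 192)
(.node (nat_lit 128)
(.node (nat_lit 64)
(.leaf [[nat_lit 24922, nat_lit 2663118], [nat_lit 94, nat_lit 49742], [nat_lit 90, nat_lit 24914], [nat_lit 86, nat_lit 24910], [nat_lit 82], [nat_lit 78, nat_lit 24902], [nat_lit 74], [nat_lit 70], [nat_lit 66], [nat_lit 62], [nat_lit 58], [nat_lit 53], [nat_lit 49]] [[], [], [], [], [], [], [], [], [], [], [], [], [nat_lit 403226]])
(.leaf [[nat_lit 1092137678, nat_lit 1110225738, nat_lit 1091097294], [nat_lit 1110225734, nat_lit 1092137674], [nat_lit 1092137670, nat_lit 1093448514, nat_lit 1091097286], [], [], [nat_lit 74549, nat_lit 3195701, nat_lit 1635125, nat_lit 2155317, nat_lit 2675509], [], [nat_lit 49717, nat_lit 2130485], [nat_lit 557493, nat_lit 1597877, nat_lit 49713], [nat_lit 24885, nat_lit 1597873], [nat_lit 24881, nat_lit 1597869], [nat_lit 53], [nat_lit 49], [nat_lit 45], [nat_lit 41]] [[nat_lit 9094969250482], [nat_lit 8955416334513, nat_lit 9094969217456, nat_lit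 9094969217583], [nat_lit 8946791796400, nat_lit 8955416301487, nat_lit 9094969184302, nat_lit 9094969184430, nat_lit 9094969184557], [], [], [nat_lit 26179185833, nat_lit 26179186088, nat_lit 26179186215], [], [], [], [nat_lit 13089778080], [nat_lit 203826848, nat_lit 13089744799, nat_lit 13089744926, nat_lit 13089745054, nat_lit 13089745181], [], [], [], [nat_lit 337046]]))
(.node (nat_lit 129)
(.leaf [[nat_lit 69811364682, nat_lit 69812925258, nat_lit 69810324298], [nat_lit 69810324294, nat_lit 69812925254, nat_lit 124213], [nat_lit 69811364674, nat_lit 69812925250, nat_lit 631989], [nat_lit 99381, nat_lit 3740725, nat_lit 4260917, nat_lit 1139765], [nat_lit 607157, nat_lit 3728309, nat_lit 99377], [nat_lit 74549, nat_lit 3195701], [nat_lit 582325, nat_lit 2663093, nat_lit 74545], [nat_lit 49717, nat_lit 2130485], [nat_lit 557493, nat_lit 1597877, nat_lit 49713], [nat_lit 24885, nat_lit 1597873], [nat_lit 24881, nat_lit 1597869], [nat_lit 53], [nat_lit 49], [nat_lit 45], [nat_lit 41], [nat_lit 37]] [[], [], [nat_lit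 571907483652397], [nat_lit 34905436203], [], [], [], [], [], [], [nat_lit 13089745181], [], [], [], [], [nat_lit 304147]])
(.leaf [[nat_lit 2182652622, nat_lit 2181612238, nat_lit 2183168718, nat_lit 2183705418], [nat_lit 2181612234, nat_lit 2183705414, nat_lit 124213, nat_lit 2183168714, nat_lit 2182652618], [nat_lit 2181612230, nat_lit 4793525, nat_lit 631989, nat_lit 2182652614], [nat_lit 99381, nat_lit 4260917, nat_lit 2180149, nat_lit 3220533], [nat_lit 1647541, nat_lit 3728309, nat_lit 607157], [nat_lit 74549, nat_lit 3195701, nat_lit 594741], [nat_lit 582325, nat_lit 2663093, nat_lit 74545], [nat_lit 49717, nat_lit 2130485], [nat_lit 1597877, nat_lit 49713], [nat_lit 24885, nat_lit 1597873], [nat_lit 24881, nat_lit 1597869], [nat_lit 53], [nat_lit 49], [nat_lit 45], [nat_lit 41], [nat_lit 37], [nat_lit 33]] [[nat_lit 17888914788914, nat_lit 47994811057, nat_lit 47994811185], [nat_lit 43631685681, nat_lit 43631685936, nat_lit 43631686063, nat_lit 43631686191], [nat_lit 39268560687, nat_lit 39268560942, nat_lit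 39268561197], [nat_lit 34905435948, nat_lit 34905436203], [nat_lit 30542311209], [nat_lit 26179186215], [], [], [], [nat_lit 13089778207], [nat_lit 13089744926, nat_lit 13089745181], [], [], [], [nat_lit 337173], [nat_lit 303892, nat_lit 304147], [nat_lit 270356, nat_lit 270483, nat_lit 270611, nat_lit 270738, nat_lit 270866, nat_lit 270993, nat_lit 271121]])))
(.node (nat_lit 194)
(.node (nat_lit 193)
(.leaf [[nat_lit 70901359434, nat_lit 5858741, nat_lit 149041], [nat_lit 124213, nat_lit 3765557, nat_lit 5326133, nat_lit 1164597], [nat_lit 17147061, nat_lit 4273333, nat_lit 4793525, nat_lit 1152181], [nat_lit 99381, nat_lit 4260917, nat_lit 1139765], [nat_lit 607157, nat_lit 3728309, nat_lit 99377], [nat_lit 74549, nat_lit 3195701], [nat_lit 582325, nat_lit 2663093, nat_lit 74545], [nat_lit 49717, nat_lit 2130485], [nat_lit 557493, nat_lit 1597877, nat_lit 49713], [nat_lit 24885, nat_lit 1597873], [nat_lit 24881, nat_lit 1597869], [nat_lit 53], [nat_lit 49], [nat_lit 45], [nat_lit 41], [nat_lit 37], [nat_lit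 33]] [[], [], [], [], [], [], [], [], [], [], [], [], [], [], [], [], [nat_lit 270738, nat_lit 270993]])
(.leaf [[nat_lit 139620574026, nat_lit 139622654794, nat_lit 149041], [nat_lit 124213, nat_lit 4285749, nat_lit 5326133, nat_lit 644405], [nat_lit 17147061, nat_lit 4793525, nat_lit 1152181], [nat_lit 99381, nat_lit 4260917, nat_lit 619573], [nat_lit 607157, nat_lit 3728309, nat_lit 99377], [nat_lit 74549, nat_lit 3195701], [nat_lit 582325, nat_lit 2663093, nat_lit 74545], [nat_lit 49717, nat_lit 2130485], [nat_lit 557493, nat_lit 1597877, nat_lit 49713], [nat_lit 24885, nat_lit 1597873], [nat_lit 24881, nat_lit 1597869], [nat_lit 53], [nat_lit 49], [nat_lit 45], [nat_lit 41], [nat_lit 37], [nat_lit 33]] []))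
(.node (nat_lit 256)
(.leaf [[nat_lit 3273167566, nat_lit 656821, nat_lit 5858741, nat_lit 2217397], [nat_lit 3273167562, nat_lit 124213, nat_lit 5326133, nat_lit 2204981], [nat_lit 17147061, nat_lit 4273333, nat_lit 2712757, nat_lit 4793525, nat_lit 124209], [nat_lit 99381, nat_lit 3740725, nat_lit 4260917, nat_lit 1139765], [nat_lit 607157, nat_lit 3728309, nat_lit 99377, nat_lit 1127349], [nat_lit 74549, nat_lit 3195701], [nat_lit 582325, nat_lit 2663093, nat_lit 74545], [nat_lit 49717, nat_lit 2130485], [nat_lit 557493, nat_lit 1597877, nat_lit 49713], [nat_lit 24885, nat_lit 1597873], [nat_lit 24881, nat_lit 1597869], [nat_lit 53], [nat_lit 49], [nat_lit 45], [nat_lit 41], [nat_lit 37], [nat_lit 33]] [[nat_lit 47994810802, nat_lit 47994811057], [nat_lit 43631686063], [nat_lit 39268561069], [], [], [], [], [], [], [], [nat_lit 13089745053], [], [], [], [], [nat_lit 304019], [nat_lit 270483, nat_lit 270738, nat_lit 270865, nat_lit 270992, nat_lit 270993]])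
(.node (nat_lit 257)
(.leaf [[nat_lit 17171893, nat_lit 4818357, nat_lit 5858741, nat_lit 1697205], [nat_lit 124213, nat_lit 4285749, nat_lit 5326133, nat_lit 644405], [nat_lit 17147061, nat_lit 4273333, nat_lit 4793525, nat_lit 631989], [nat_lit 99381, nat_lit 4260917, nat_lit 619573], [nat_lit 607157, nat_lit 3728309, nat_lit 99377], [nat_lit 74549, nat_lit 3195701], [nat_lit 582325, nat_lit 2663093, nat_lit 74545], [nat_lit 49717, nat_lit 2130485], [nat_lit 557493, nat_lit 1597877, nat_lit 49713], [nat_lit 24885, nat_lit 1597873], [nat_lit 24881, nat_lit 1597869], [nat_lit 53], [nat_lit 49], [nat_lit 45], [nat_lit 41], [nat_lit 37], [nat_lit 33], [nat_lit 29]] [[], [], [], [], [], [], [], [], [], [], [], [], [], [], [], [], [nat_lit 270865], [nat_lit 237584, nat_lit 237711, nat_lit 237838, nat_lit 237839, nat_lit 237966]])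
(.leaf [[nat_lit 17171893, nat_lit 4818357, nat_lit 5858741, nat_lit 1177013], [nat_lit 124213, nat_lit 4285749, nat_lit 5326133, nat_lit 644405], [nat_lit 17147061, nat_lit 4793525, nat_lit 1152181], [nat_lit 99381, nat_lit 4260917, nat_lit 619573], [nat_lit 607157, nat_lit 3728309, nat_lit 99377], [nat_lit 74549, nat_lit 3195701], [nat_lit 582325, nat_lit 2663093, nat_lit 74545], [nat_lit 49717, nat_lit 2130485], [nat_lit 557493, nat_lit 1597877, nat_lit 49713], [nat_lit 24885, nat_lit 1597873], [nat_lit 24881, nat_lit 1597869], [nat_lit 53], [nat_lit 49], [nat_lit 45], [nat_lit 41], [nat_lit 37], [nat_lit 33]] [[], [], [], [], [], [], [], [], [], [], [], [], [], [], [], [], [nat_lit 270992]])))))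
(.node (nat_lit 322)
(.node (nat_lit 320)
(.node (nat_lit 259)
(.leaf [[nat_lit 17171893, nat_lit 4298165, nat_lit 5858741, nat_lit 656821], [nat_lit 124213, nat_lit 4285749, nat_lit 5326133, nat_lit 644405], [nat_lit 17147061, nat_lit 4793525, nat_lit 1152181], [nat_lit 99381, nat_lit 4260917, nat_lit 619573], [nat_lit 607157, nat_lit 3728309, nat_lit 99377], [nat_lit 74549, nat_lit 3195701], [nat_lit 582325, nat_lit 2663093, nat_lit 74545], [nat_lit 49717, nat_lit 2130485], [nat_lit 557493, nat_lit 1597877, nat_lit 49713], [nat_lit 24885, nat_lit 1597873], [nat_lit 24881, nat_lit 1597869], [nat_lit 53], [nat_lit 49], [nat_lit 45], [nat_lit 41], [nat_lit 37], [nat_lit 33]] [])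
(.leaf [[nat_lit 17171893, nat_lit 5858741, nat_lit 3257781, nat_lit 1177013, nat_lit 4298165, nat_lit 149041], [nat_lit 124213, nat_lit 3765557, nat_lit 5326133, nat_lit 1684789], [nat_lit 17147061, nat_lit 4793525, nat_lit 2192565], [nat_lit 99381, nat_lit 3740725, nat_lit 4260917, nat_lit 619573], [nat_lit 607157, nat_lit 3728309, nat_lit 99377], [nat_lit 74549, nat_lit 3195701], [nat_lit 582325, nat_lit 2663093, nat_lit 74545], [nat_lit 49717, nat_lit 2130485], [nat_lit 557493, nat_lit 1597877, nat_lit 49713], [nat_lit 24885, nat_lit 1597873], [nat_lit 24881, nat_lit 1597869], [nat_lit 53], [nat_lit 49], [nat_lit 45], [nat_lit 41], [nat_lit 37], [nat_lit 33], [nat_lit 29]] [[], [], [], [], [], [], [], [], [], [], [], [], [], [], [], [], [nat_lit 270355, nat_lit 270610, nat_lit 270865, nat_lit 270992], [nat_lit 237583, nat_lit 237584, nat_lit 237710, nat_lit 237711, nat_lit 237838, nat_lit 237839, nat_lit 237966]]))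
(.node (nat_lit 321)
(.leaf [[nat_lit 17171893, nat_lit 5338549, nat_lit 2217397, nat_lit 5858741], [nat_lit 124213, nat_lit 4805941, nat_lit 1684789, nat_lit 5326133], [nat_lit 17147061, nat_lit 4273333, nat_lit 4793525], [nat_lit 99381, nat_lit 4260917, nat_lit 619573], [nat_lit 607157, nat_lit 3728309, nat_lit 99377], [nat_lit 74549, nat_lit 3195701], [nat_lit 582325, nat_lit 2663093, nat_lit 74545], [nat_lit 49717, nat_lit 2130485], [nat_lit 557493, nat_lit 1597877, nat_lit 49713], [nat_lit 24885, nat_lit 1597873], [nat_lit 24881, nat_lit 1597869], [nat_lit 53], [nat_lit 49], [nat_lit 45], [nat_lit 41], [nat_lit 37], [nat_lit 33], [nat_lit 29]] [[], [], [], [], [], [], [], [], [], [], [], [], [], [], [], [], [nat_lit 270992], [nat_lit 237583, nat_lit 237711, nat_lit 237838, nat_lit 237966]])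
(.leaf [[nat_lit 17171893, nat_lit 4298165, nat_lit 5858741, nat_lit 656821], [nat_lit 124213, nat_lit 4285749, nat_lit 5326133, nat_lit 644405], [nat_lit 17147061, nat_lit 4793525, nat_lit 1152181], [nat_lit 99381, nat_lit 4260917, nat_lit 619573], [nat_lit 607157, nat_lit 3728309, nat_lit 99377], [nat_lit 74549, nat_lit 3195701], [nat_lit 582325, nat_lit 2663093, nat_lit 74545], [nat_lit 49717, nat_lit 2130485], [nat_lit 557493, nat_lit 1597877, nat_lit 49713], [nat_lit 24885, nat_lit 1597873], [nat_lit 24881, nat_lit 1597869], [nat_lit 53], [nat_lit 49], [nat_lit 45], [nat_lit 41], [nat_lit 37], [nat_lit 33], [nat_lit 29]] [[], [], [], [], [], [], [], [], [], [], [], [], [], [], [], [], [], [nat_lit 237583, nat_lit 237710, nat_lit 237838]])))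
(.node (nat_lit 324)
(.node (nat_lit 323)
(.leaf [[nat_lit 17171893, nat_lit 4298165, nat_lit 5858741, nat_lit 656821], [nat_lit 124213, nat_lit 4285749, nat_lit 5326133, nat_lit 644405], [nat_lit 17147061, nat_lit 4273333, nat_lit 4793525, nat_lit 631989], [nat_lit 99381, nat_lit 4260917, nat_lit 619573], [nat_lit 607157, nat_lit 3728309, nat_lit 99377], [nat_lit 74549, nat_lit 3195701], [nat_lit 582325, nat_lit 2663093, nat_lit 74545], [nat_lit 49717, nat_lit 2130485], [nat_lit 557493, nat_lit 1597877, nat_lit 49713], [nat_lit 24885, nat_lit 1597873], [nat_lit 24881, nat_lit 1597869], [nat_lit 53], [nat_lit 49], [nat_lit 45], [nat_lit 41], [nat_lit 37], [nat_lit 33], [nat_lit 29]] [[], [], [], [], [], [], [], [], [], [], [], [], [], [], [], [], [], [nat_lit 237710, nat_lit 237837]])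
(.leaf [[nat_lit 17171893, nat_lit 4298165, nat_lit 5858741, nat_lit 1177013], [nat_lit 124213, nat_lit 4285749, nat_lit 5326133, nat_lit 1164597], [nat_lit 17147061, nat_lit 4273333, nat_lit 4793525, nat_lit 1152181], [nat_lit 99381, nat_lit 4260917, nat_lit 1139765], [nat_lit 607157, nat_lit 3728309, nat_lit 99377], [nat_lit 74549, nat_lit 3195701], [nat_lit 582325, nat_lit 2663093, nat_lit 74545], [nat_lit 49717, nat_lit 2130485], [nat_lit 557493, nat_lit 1597877, nat_lit 49713], [nat_lit 24885, nat_lit 1597873], [nat_lit 24881, nat_lit 1597869], [nat_lit 53], [nat_lit 49], [nat_lit 45], [nat_lit 41], [nat_lit 37], [nat_lit 33]] []))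
(.node (nat_lit 384)
(.leaf [[nat_lit 17171893, nat_lit 4818357, nat_lit 2737589, nat_lit 5858741], [nat_lit 124213, nat_lit 3765557, nat_lit 5326133, nat_lit 1164597], [nat_lit 17147061, nat_lit 4273333, nat_lit 4793525, nat_lit 1152181], [nat_lit 99381, nat_lit 4260917, nat_lit 1139765], [nat_lit 607157, nat_lit 3728309, nat_lit 99377], [nat_lit 74549, nat_lit 3195701], [nat_lit 582325, nat_lit 2663093, nat_lit 74545], [nat_lit 49717, nat_lit 2130485], [nat_lit 557493, nat_lit 1597877, nat_lit 49713], [nat_lit 24885, nat_lit 1597873], [nat_lit 24881, nat_lit 1597869], [nat_lit 53], [nat_lit 49], [nat_lit 45], [nat_lit 41], [nat_lit 37], [nat_lit 33], [nat_lit 29]] [[nat_lit 47994811056], [], [], [], [], [], [], [], [], [], [], [], [], [], [], [nat_lit 304018], [nat_lit 270482, nat_lit 270737, nat_lit 270992], [nat_lit 237583, nat_lit 237710, nat_lit 237711, nat_lit 237837, nat_lit 237838, nat_lit 237966]])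
(.node (nat_lit 385)
(.leaf [[nat_lit 17171893, nat_lit 4298165, nat_lit 5858741, nat_lit 656821], [nat_lit 124213, nat_lit 4285749, nat_lit 5326133, nat_lit 644405], [nat_lit 17147061, nat_lit 4273333, nat_lit 4793525, nat_lit 631989], [nat_lit 99381, nat_lit 4260917, nat_lit 619573], [nat_lit 607157, nat_lit 3728309, nat_lit 99377], [nat_lit 74549, nat_lit 3195701], [nat_lit 582325, nat_lit 2663093, nat_lit 74545], [nat_lit 49717, nat_lit 2130485], [nat_lit 557493, nat_lit 1597877, nat_lit 49713], [nat_lit 24885, nat_lit 1597873], [nat_lit 24881, nat_lit 1597869], [nat_lit 53], [nat_lit 49], [nat_lit 45], [nat_lit 41], [nat_lit 37], [nat_lit 33], [nat_lit 29]] [[], [], [], [], [], [], [], [], [], [], [], [], [], [], [], [], [], [nat_lit 237583, nat_lit 237710, nat_lit 237837, nat_lit 237838]])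
(.leaf [[nat_lit 17171893, nat_lit 4298165, nat_lit 5858741, nat_lit 656821], [nat_lit 124213, nat_lit 4285749, nat_lit 5326133, nat_lit 644405], [nat_lit 17147061, nat_lit 4273333, nat_lit 4793525, nat_lit 631989], [nat_lit 99381, nat_lit 4260917, nat_lit 619573], [nat_lit 607157, nat_lit 3728309, nat_lit 99377], [nat_lit 74549, nat_lit 3195701], [nat_lit 582325, nat_lit 2663093, nat_lit 74545], [nat_lit 49717, nat_lit 2130485], [nat_lit 557493, nat_lit 1597877, nat_lit 49713], [nat_lit 24885, nat_lit 1597873], [nat_lit 24881, nat_lit 1597869], [nat_lit 53], [nat_lit 49], [nat_lit 45], [nat_lit 41], [nat_lit 37], [nat_lit 33], [nat_lit 29]] [[], [], [], [], [], [], [], [], [], [], [], [], [], [], [], [], [], [nat_lit 237710, nat_lit 237837]]))))))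
(.node (nat_lit 453)
(.node (nat_lit 448)
(.node (nat_lit 388)
(.node (nat_lit 387)
(.leaf [[nat_lit 17171893, nat_lit 4298165, nat_lit 5858741, nat_lit 1177013], [nat_lit 124213, nat_lit 4285749, nat_lit 5326133, nat_lit 1164597], [nat_lit 17147061, nat_lit 4273333, nat_lit 4793525, nat_lit 1152181], [nat_lit 99381, nat_lit 4260917, nat_lit 1139765], [nat_lit 607157, nat_lit 3728309, nat_lit 99377], [nat_lit 74549, nat_lit 3195701], [nat_lit 582325, nat_lit 2663093, nat_lit 74545], [nat_lit 49717, nat_lit 2130485], [nat_lit 557493, nat_lit 1597877, nat_lit 49713], [nat_lit 24885, nat_lit 1597873], [nat_lit 24881, nat_lit 1597869], [nat_lit 53], [nat_lit 49], [nat_lit 45], [nat_lit 41], [nat_lit 37], [nat_lit 33], [nat_lit 29]] [[], [], [], [], [], [], [], [], [], [], [], [], [], [], [], [], [], [nat_lit 237582, nat_lit 237837]])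
(.leaf [[nat_lit 17171893, nat_lit 4298165, nat_lit 5858741, nat_lit 1177013], [nat_lit 124213, nat_lit 3765557, nat_lit 5326133, nat_lit 644405], [nat_lit 17147061, nat_lit 4273333, nat_lit 4793525, nat_lit 1152181], [nat_lit 99381, nat_lit 3740725, nat_lit 4260917, nat_lit 619573], [nat_lit 607157, nat_lit 3728309, nat_lit 99377], [nat_lit 74549, nat_lit 3195701], [nat_lit 582325, nat_lit 2663093, nat_lit 74545], [nat_lit 49717, nat_lit 2130485], [nat_lit 557493, nat_lit 1597877, nat_lit 49713], [nat_lit 24885, nat_lit 1597873], [nat_lit 24881, nat_lit 1597869], [nat_lit 53], [nat_lit 49], [nat_lit 45], [nat_lit 41], [nat_lit 37], [nat_lit 33], [nat_lit 29]] [[], [], [], [], [], [], [], [], [], [], [], [], [], [], [], [], [], [nat_lit 237709]]))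
(.node (nat_lit 389)
(.leaf [[nat_lit 17171893, nat_lit 4298165, nat_lit 5858741, nat_lit 1177013], [nat_lit 124213, nat_lit 3765557, nat_lit 5326133, nat_lit 644405], [nat_lit 17147061, nat_lit 4273333, nat_lit 4793525, nat_lit 1152181], [nat_lit 99381, nat_lit 3740725, nat_lit 4260917, nat_lit 619573], [nat_lit 607157, nat_lit 3728309, nat_lit 99377], [nat_lit 74549, nat_lit 3195701], [nat_lit 582325, nat_lit 2663093, nat_lit 74545], [nat_lit 49717, nat_lit 2130485], [nat_lit 557493, nat_lit 1597877, nat_lit 49713], [nat_lit 24885, nat_lit 1597873], [nat_lit 24881, nat_lit 1597869], [nat_lit 53], [nat_lit 49], [nat_lit 45], [nat_lit 41], [nat_lit 37], [nat_lit 33], [nat_lit 29]] [])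
(.leaf [[nat_lit 656821, nat_lit 4298165, nat_lit 5858741, nat_lit 149041, nat_lit 1697205], [nat_lit 124213, nat_lit 4805941, nat_lit 2204981, nat_lit 5326133], [nat_lit 631989, nat_lit 4273333, nat_lit 124209, nat_lit 4793525, nat_lit 1672373], [nat_lit 99381, nat_lit 3740725, nat_lit 4260917], [nat_lit 607157, nat_lit 3728309, nat_lit 99377], [nat_lit 74549, nat_lit 3195701], [nat_lit 582325, nat_lit 2663093, nat_lit 74545], [nat_lit 49717, nat_lit 2130485], [nat_lit 557493, nat_lit 1597877, nat_lit 49713], [nat_lit 24885, nat_lit 1597873], [nat_lit 24881, nat_lit 1597869], [nat_lit 53], [nat_lit 49], [nat_lit 45], [nat_lit 41], [nat_lit 37], [nat_lit 33], [nat_lit 29]] [[], [], [], [], [], [], [], [], [], [], [], [], [], [], [], [], [nat_lit 270609, nat_lit 270864], [nat_lit 237582, nat_lit 237583, nat_lit 237709, nat_lit 237710, nat_lit 237837, nat_lit 237838]])))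
(.node (nat_lit 450)
(.node (nat_lit 449)
(.leaf [[nat_lit 17171893, nat_lit 4298165, nat_lit 5858741, nat_lit 656821], [nat_lit 124213, nat_lit 4285749, nat_lit 5326133, nat_lit 644405], [nat_lit 17147061, nat_lit 4273333, nat_lit 4793525, nat_lit 631989], [nat_lit 99381, nat_lit 4260917, nat_lit 619573], [nat_lit 607157, nat_lit 3728309, nat_lit 99377], [nat_lit 74549, nat_lit 3195701], [nat_lit 582325, nat_lit 2663093, nat_lit 74545], [nat_lit 49717, nat_lit 2130485], [nat_lit 557493, nat_lit 1597877, nat_lit 49713], [nat_lit 24885, nat_lit 1597873], [nat_lit 24881, nat_lit 1597869], [nat_lit 53], [nat_lit 49], [nat_lit 45], [nat_lit 41], [nat_lit 37], [nat_lit 33], [nat_lit 29]] [[], [], [], [], [], [], [], [], [], [], [], [], [], [], [], [], [], [nat_lit 237582, nat_lit 237710, nat_lit 237837]])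
(.leaf [[nat_lit 656821, nat_lit 4818357, nat_lit 5858741, nat_lit 149041, nat_lit 1697205], [nat_lit 124213, nat_lit 4285749, nat_lit 5326133, nat_lit 1164597], [nat_lit 631989, nat_lit 4793525, nat_lit 124209, nat_lit 1672373], [nat_lit 99381, nat_lit 4260917, nat_lit 1139765], [nat_lit 607157, nat_lit 3728309, nat_lit 99377], [nat_lit 74549, nat_lit 3195701], [nat_lit 582325, nat_lit 2663093, nat_lit 74545], [nat_lit 49717, nat_lit 2130485], [nat_lit 557493, nat_lit 1597877, nat_lit 49713], [nat_lit 24885, nat_lit 1597873], [nat_lit 24881, nat_lit 1597869], [nat_lit 53], [nat_lit 49], [nat_lit 45], [nat_lit 41], [nat_lit 37], [nat_lit 33], [nat_lit 29]] [[], [], [], [], [], [], [], [], [], [], [], [], [], [], [], [], [], [nat_lit 237582, nat_lit 237709, nat_lit 237837]]))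
(.node (nat_lit 451)
(.leaf [[nat_lit 17171893, nat_lit 4298165, nat_lit 5858741, nat_lit 1177013], [nat_lit 124213, nat_lit 3765557, nat_lit 5326133, nat_lit 644405], [nat_lit 17147061, nat_lit 4273333, nat_lit 4793525, nat_lit 1152181], [nat_lit 99381, nat_lit 3740725, nat_lit 4260917, nat_lit 619573], [nat_lit 607157, nat_lit 3728309, nat_lit 99377], [nat_lit 74549, nat_lit 3195701], [nat_lit 582325, nat_lit 2663093, nat_lit 74545], [nat_lit 49717, nat_lit 2130485], [nat_lit 557493, nat_lit 1597877, nat_lit 49713], [nat_lit 24885, nat_lit 1597873], [nat_lit 24881, nat_lit 1597869], [nat_lit 53], [nat_lit 49], [nat_lit 45], [nat_lit 41], [nat_lit 37], [nat_lit 33], [nat_lit 29]] [[], [], [], [], [], [], [], [], [], [], [], [], [], [], [], [], [], [nat_lit 237709]])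
(.node (nat_lit 452)
(.leaf [[nat_lit 17171893, nat_lit 4298165, nat_lit 5858741, nat_lit 1177013], [nat_lit 124213, nat_lit 3765557, nat_lit 5326133, nat_lit 644405], [nat_lit 17147061, nat_lit 4273333, nat_lit 4793525, nat_lit 1152181], [nat_lit 99381, nat_lit 3740725, nat_lit 4260917, nat_lit 619573], [nat_lit 607157, nat_lit 3728309, nat_lit 99377], [nat_lit 74549, nat_lit 3195701], [nat_lit 582325, nat_lit 2663093, nat_lit 74545], [nat_lit 49717, nat_lit 2130485], [nat_lit 557493, nat_lit 1597877, nat_lit 49713], [nat_lit 24885, nat_lit 1597873], [nat_lit 24881, nat_lit 1597869], [nat_lit 53], [nat_lit 49], [nat_lit 45], [nat_lit 41], [nat_lit 37], [nat_lit 33], [nat_lit 29]] [])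
(.leaf [[nat_lit 656821, nat_lit 4298165, nat_lit 5858741, nat_lit 149041, nat_lit 1177013], [nat_lit 124213, nat_lit 3765557, nat_lit 5326133, nat_lit 644405], [nat_lit 631989, nat_lit 4273333, nat_lit 124209, nat_lit 4793525, nat_lit 1152181], [nat_lit 99381, nat_lit 3740725, nat_lit 4260917, nat_lit 619573], [nat_lit 607157, nat_lit 3728309, nat_lit 99377], [nat_lit 74549, nat_lit 3195701], [nat_lit 582325, nat_lit 2663093, nat_lit 74545], [nat_lit 49717, nat_lit 2130485], [nat_lit 557493, nat_lit 1597877, nat_lit 49713], [nat_lit 24885, nat_lit 1597873], [nat_lit 24881, nat_lit 1597869], [nat_lit 53], [nat_lit 49], [nat_lit 45], [nat_lit 41], [nat_lit 37], [nat_lit 33], [nat_lit 29]] [])))))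
(.node (nat_lit 514)
(.node (nat_lit 512)
(.node (nat_lit 454)
(.leaf [[nat_lit 17171893, nat_lit 4298165, nat_lit 5858741, nat_lit 1177013], [nat_lit 124213, nat_lit 3765557, nat_lit 5326133, nat_lit 644405], [nat_lit 17147061, nat_lit 4273333, nat_lit 1152181, nat_lit 4793525], [nat_lit 99381, nat_lit 3740725, nat_lit 4260917, nat_lit 619573], [nat_lit 607157, nat_lit 3728309, nat_lit 99377], [nat_lit 74549, nat_lit 3195701], [nat_lit 582325, nat_lit 2663093, nat_lit 74545], [nat_lit 49717, nat_lit 2130485], [nat_lit 557493, nat_lit 1597877, nat_lit 49713], [nat_lit 24885, nat_lit 1597873], [nat_lit 24881, nat_lit 1597869], [nat_lit 53], [nat_lit 49], [nat_lit 45], [nat_lit 41], [nat_lit 37], [nat_lit 33], [nat_lit 29]] [])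
(.leaf [[nat_lit 656821, nat_lit 4818357, nat_lit 5858741, nat_lit 1697205, nat_lit 149041], [nat_lit 124213, nat_lit 3765557, nat_lit 5326133, nat_lit 644405], [nat_lit 631989, nat_lit 4273333, nat_lit 124209, nat_lit 4793525, nat_lit 1152181], [nat_lit 99381, nat_lit 3740725, nat_lit 4260917, nat_lit 619573], [nat_lit 607157, nat_lit 3728309, nat_lit 99377], [nat_lit 74549, nat_lit 3195701], [nat_lit 582325, nat_lit 2663093, nat_lit 74545], [nat_lit 49717, nat_lit 2130485], [nat_lit 557493, nat_lit 1597877, nat_lit 49713], [nat_lit 24885, nat_lit 1597873], [nat_lit 24881, nat_lit 1597869], [nat_lit 53], [nat_lit 49], [nat_lit 45], [nat_lit 41], [nat_lit 37], [nat_lit 33], [nat_lit 29]] [[], [], [], [], [], [], [], [], [], [], [], [], [], [], [], [], [nat_lit 270736], [nat_lit 237582, nat_lit 237709, nat_lit 237710, nat_lit 237837]]))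
(.node (nat_lit 513)
(.leaf [[nat_lit 656821, nat_lit 4298165, nat_lit 5858741, nat_lit 149041, nat_lit 1177013], [nat_lit 124213, nat_lit 3765557, nat_lit 5326133, nat_lit 644405], [nat_lit 631989, nat_lit 4273333, nat_lit 124209, nat_lit 4793525, nat_lit 1152181], [nat_lit 99381, nat_lit 4260917, nat_lit 1139765], [nat_lit 607157, nat_lit 3728309, nat_lit 99377], [nat_lit 74549, nat_lit 3195701], [nat_lit 582325, nat_lit 2663093, nat_lit 74545], [nat_lit 49717, nat_lit 2130485], [nat_lit 557493, nat_lit 1597877, nat_lit 49713], [nat_lit 24885, nat_lit 1597873], [nat_lit 24881, nat_lit 1597869], [nat_lit 53], [nat_lit 49], [nat_lit 45], [nat_lit 41], [nat_lit 37], [nat_lit 33], [nat_lit 29]] [[], [], [], [], [], [], [], [], [], [], [], [], [], [], [], [], [nat_lit 270863], [nat_lit 237582, nat_lit 237709, nat_lit 237837]])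
(.leaf [[nat_lit 656821, nat_lit 4298165, nat_lit 5858741, nat_lit 149041, nat_lit 1177013], [nat_lit 124213, nat_lit 3765557, nat_lit 5326133, nat_lit 644405], [nat_lit 631989, nat_lit 4273333, nat_lit 124209, nat_lit 4793525, nat_lit 1152181], [nat_lit 99381, nat_lit 3740725, nat_lit 4260917, nat_lit 619573], [nat_lit 607157, nat_lit 3728309, nat_lit 99377], [nat_lit 74549, nat_lit 3195701], [nat_lit 582325, nat_lit 2663093, nat_lit 74545], [nat_lit 49717, nat_lit 2130485], [nat_lit 557493, nat_lit 1597877, nat_lit 49713], [nat_lit 24885, nat_lit 1597873], [nat_lit 24881, nat_lit 1597869], [nat_lit 53], [nat_lit 49], [nat_lit 45], [nat_lit 41], [nat_lit 37], [nat_lit 33], [nat_lit 29]] [[], [], [], [], [], [], [], [], [], [], [], [], [], [], [], [], [], [nat_lit 237709]])))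
(.node (nat_lit 516)
(.node (nat_lit 515)
(.leaf [[nat_lit 656821, nat_lit 4298165, nat_lit 5858741, nat_lit 149041, nat_lit 1177013], [nat_lit 124213, nat_lit 3765557, nat_lit 5326133, nat_lit 644405], [nat_lit 631989, nat_lit 4273333, nat_lit 124209, nat_lit 4793525, nat_lit 1152181], [nat_lit 99381, nat_lit 3740725, nat_lit 4260917, nat_lit 619573], [nat_lit 607157, nat_lit 3728309, nat_lit 99377], [nat_lit 74549, nat_lit 3195701], [nat_lit 582325, nat_lit 2663093, nat_lit 74545], [nat_lit 49717, nat_lit 2130485], [nat_lit 557493, nat_lit 1597877, nat_lit 49713], [nat_lit 24885, nat_lit 1597873], [nat_lit 24881, nat_lit 1597869], [nat_lit 53], [nat_lit 49], [nat_lit 45], [nat_lit 41], [nat_lit 37], [nat_lit 33], [nat_lit 29]] [])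
(.leaf [[nat_lit 656821, nat_lit 4298165, nat_lit 5858741, nat_lit 149041, nat_lit 1177013], [nat_lit 124213, nat_lit 3765557, nat_lit 5326133, nat_lit 644405], [nat_lit 631989, nat_lit 4273333, nat_lit 124209, nat_lit 4793525, nat_lit 1152181], [nat_lit 99381, nat_lit 3740725, nat_lit 4260917, nat_lit 619573], [nat_lit 607157, nat_lit 3728309, nat_lit 99377], [nat_lit 74549, nat_lit 3195701], [nat_lit 582325, nat_lit 2663093, nat_lit 74545], [nat_lit 49717, nat_lit 2130485], [nat_lit 557493, nat_lit 1597877, nat_lit 49713], [nat_lit 24885, nat_lit 1597873], [nat_lit 24881, nat_lit 1597869], [nat_lit 53], [nat_lit 49], [nat_lit 45], [nat_lit 41], [nat_lit 37], [nat_lit 33], [nat_lit 29]] []))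
(.node (nat_lit 517)
(.leaf [[nat_lit 656821, nat_lit 4298165, nat_lit 5858741, nat_lit 149041, nat_lit 1177013], [nat_lit 124213, nat_lit 3765557, nat_lit 5326133, nat_lit 644405], [nat_lit 631989, nat_lit 4273333, nat_lit 124209, nat_lit 4793525, nat_lit 1152181], [nat_lit 99381, nat_lit 3740725, nat_lit 4260917, nat_lit 619573], [nat_lit 607157, nat_lit 3728309, nat_lit 99377], [nat_lit 74549, nat_lit 3195701], [nat_lit 582325, nat_lit 2663093, nat_lit 74545], [nat_lit 49717, nat_lit 2130485], [nat_lit 557493, nat_lit 1597877, nat_lit 49713], [nat_lit 24885, nat_lit 1597873], [nat_lit 24881, nat_lit 1597869], [nat_lit 53], [nat_lit 49], [nat_lit 45], [nat_lit 41], [nat_lit 37], [nat_lit 33], [nat_lit 29]] [])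
(.node (nat_lit 518)
(.leaf [[nat_lit 656821, nat_lit 4298165, nat_lit 5858741, nat_lit 149041, nat_lit 1177013], [nat_lit 124213, nat_lit 3765557, nat_lit 5326133, nat_lit 644405], [nat_lit 631989, nat_lit 4273333, nat_lit 124209, nat_lit 4793525, nat_lit 1152181], [nat_lit 99381, nat_lit 3740725, nat_lit 4260917, nat_lit 619573], [nat_lit 607157, nat_lit 3728309, nat_lit 99377], [nat_lit 74549, nat_lit 3195701], [nat_lit 582325, nat_lit 2663093, nat_lit 74545], [nat_lit 49717, nat_lit 2130485], [nat_lit 557493, nat_lit 1597877, nat_lit 49713], [nat_lit 24885, nat_lit 1597873], [nat_lit 24881, nat_lit 1597869], [nat_lit 53], [nat_lit 49], [nat_lit 45], [nat_lit 41], [nat_lit 37], [], [nat_lit 29]] [])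
(.leaf [[nat_lit 656821, nat_lit 4298165, nat_lit 5858741, nat_lit 149041, nat_lit 1697205], [nat_lit 124213, nat_lit 3765557, nat_lit 5326133, nat_lit 1164597], [nat_lit 631989, nat_lit 4273333, nat_lit 124209, nat_lit 1672373, nat_lit 4793525], [nat_lit 99381, nat_lit 3740725, nat_lit 1139765, nat_lit 4260917], [nat_lit 607157, nat_lit 3728309, nat_lit 99377, nat_lit 1127349], [nat_lit 74549, nat_lit 3195701, nat_lit 594741], [nat_lit 582325, nat_lit 2663093, nat_lit 74545], [nat_lit 49717, nat_lit 2130485], [nat_lit 557493, nat_lit 1597877, nat_lit 49713], [nat_lit 24885, nat_lit 1597873], [nat_lit 24881, nat_lit 1597869], [nat_lit 53], [nat_lit 49], [nat_lit 45], [nat_lit 41], [nat_lit 37], [], [nat_lit 29]] [])))))))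

noncomputable def ct10 : Tc :=
(.node (nat_lit 448)
(.node (nat_lit 320)
(.node (nat_lit 193)
(.node (nat_lit 128)
(.node (nat_lit 64)
(.leaf [[nat_lit 557526, nat_lit 98, nat_lit 2663118], [nat_lit 94, nat_lit 1348174], [nat_lit 90, nat_lit 24914], [nat_lit 86, nat_lit 24910], [nat_lit 82], [nat_lit 78, nat_lit 24902], [nat_lit 74], [nat_lit 70], [nat_lit 66], [nat_lit 62], [nat_lit 58], [nat_lit 53], [nat_lit 49], [nat_lit 45]] [[], [], [], [], [], [], [], [], [], [], [], [], [], [nat_lit 369944]])
(.leaf [[nat_lit 1092137678, nat_lit 1110225738, nat_lit 1091097294], [nat_lit 1110225734], [nat_lit 1092137670, nat_lit 1110225730, nat_lit 1091097286], [nat_lit 1091097282, nat_lit 4260917, nat_lit 99381, nat_lit 1092137666], [nat_lit 1092137662, nat_lit 607157, nat_lit 3728309], [nat_lit 74549, nat_lit 3195701, nat_lit 1635125, nat_lit 2155317], [], [nat_lit 49717, nat_lit 2130485], [nat_lit 557493, nat_lit 1597877, nat_lit 49713], [nat_lit 24885, nat_lit 1597873], [nat_lit 24881, nat_lit 1597869], [nat_lit 53],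 [nat_lit 49], [nat_lit 45], [nat_lit 41], [nat_lit 37]] [[nat_lit 9094969250481], [nat_lit 9094969217455], [nat_lit 9094969184174, nat_lit 9094969184429], [nat_lit 34905435565, nat_lit 34905435820, nat_lit 34905435947, nat_lit 34905436075], [nat_lit 30542310316, nat_lit 30542310571, nat_lit 30542310826, nat_lit 30542311081], [nat_lit 26179185832, nat_lit 26179186087], [], [nat_lit 17452936099], [], [nat_lit 13089778079], [nat_lit 13089744543, nat_lit 13089744798, nat_lit 13089744925, nat_lit 13089745053], [], [], [], [nat_lit 337045], [nat_lit 303254, nat_lit 303509, nat_lit 303764, nat_lit 303891, nat_lit 304019]]))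
(.node (nat_lit 129)
(.leaf [[nat_lit 69810324298, nat_lit 69812925258, nat_lit 69811102538], [nat_lit 69810324294, nat_lit 69812925254], [nat_lit 69810324290, nat_lit 69812925250, nat_lit 17147061], [nat_lit 99381, nat_lit 4260917, nat_lit 1659957], [nat_lit 607157, nat_lit 3728309, nat_lit 99377], [nat_lit 74549, nat_lit 3195701], [nat_lit 582325, nat_lit 2663093, nat_lit 74545], [nat_lit 49717, nat_lit 2130485], [nat_lit 557493, nat_lit 1597877, nat_lit 49713], [nat_lit 24885, nat_lit 1597873], [nat_lit 24881, nat_lit 1597869], [nat_lit 53], [nat_lit 49], [nat_lit 45], [nat_lit 41], [nat_lit 37]] [[], [], [], [], [], [], [], [], [], [], [], [], [], [], [], [nat_lit 303891]])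
(.node (nat_lit 192)
(.leaf [[nat_lit 2182652622, nat_lit 2216723150, nat_lit 2181612238, nat_lit 2183705418], [nat_lit 2181612234, nat_lit 2183705414, nat_lit 124213, nat_lit 2183168714], [nat_lit 2182652614, nat_lit 631989, nat_lit 4793525], [nat_lit 2181612226, nat_lit 4260917, nat_lit 99381, nat_lit 2182652610], [nat_lit 607157, nat_lit 3728309, nat_lit 99377, nat_lit 1127349], [nat_lit 74549, nat_lit 3195701, nat_lit 594741], [nat_lit 582325, nat_lit 2663093, nat_lit 74545], [nat_lit 49717, nat_lit 2130485], [nat_lit 557493, nat_lit 1597877, nat_lit 49713], [nat_lit 24885, nat_lit 1597873], [nat_lit 24881, nat_lit 1597869], [nat_lit 53], [nat_lit 49], [nat_lit 45], [nat_lit 41], [nat_lit 37], [nat_lit 33]] [[nat_lit 18159396049457], [nat_lit 17888914755632, nat_lit 43631685935], [nat_lit 39268560941], [nat_lit 34905435947], [], [], [], [], [], [], [nat_lit 13089744925], [], [], [], [], [nat_lit 303636, nat_lit 303891], [nat_lit 270355, nat_lit 270482, nat_lit 270610, nat_lit 270737, nat_lit 270864, nat_lit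 270865]])
(.leaf [[nat_lit 70901359434, nat_lit 5858741, nat_lit 17171893], [nat_lit 124213, nat_lit 4805941, nat_lit 2204981, nat_lit 5326133], [nat_lit 17147061, nat_lit 4273333, nat_lit 4793525, nat_lit 1152181], [nat_lit 99381, nat_lit 3740725, nat_lit 4260917, nat_lit 619573], [nat_lit 607157, nat_lit 3728309, nat_lit 99377], [nat_lit 74549, nat_lit 3195701], [nat_lit 582325, nat_lit 2663093, nat_lit 74545], [nat_lit 49717, nat_lit 2130485], [nat_lit 557493, nat_lit 1597877, nat_lit 49713], [nat_lit 24885, nat_lit 1597873], [nat_lit 24881, nat_lit 1597869], [nat_lit 53], [nat_lit 49], [nat_lit 45], [nat_lit 41], [nat_lit 37], [nat_lit 33]] [[], [], [], [], [], [], [], [], [], [], [], [], [], [], [], [], [nat_lit 270737, nat_lit 270864]]))))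
(.node (nat_lit 257)
(.node (nat_lit 194)
(.leaf [[nat_lit 139620574026, nat_lit 139622654794, nat_lit 17171893], [nat_lit 124213, nat_lit 4805941, nat_lit 1684789, nat_lit 5326133], [nat_lit 17147061, nat_lit 4273333, nat_lit 4793525, nat_lit 1152181], [nat_lit 99381, nat_lit 4260917, nat_lit 1139765], [nat_lit 607157, nat_lit 3728309, nat_lit 99377], [nat_lit 74549, nat_lit 3195701], [nat_lit 582325, nat_lit 2663093, nat_lit 74545], [nat_lit 49717, nat_lit 2130485], [nat_lit 557493, nat_lit 1597877, nat_lit 49713], [nat_lit 24885, nat_lit 1597873], [nat_lit 24881, nat_lit 1597869], [nat_lit 53], [nat_lit 49], [nat_lit 45], [nat_lit 41], [nat_lit 37], [nat_lit 33]] [[], [], [], [], [], [], [], [], [], [], [], [], [], [], [], [], [nat_lit 270864]])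
(.node (nat_lit 256)
(.leaf [[nat_lit 3273167566, nat_lit 17171893, nat_lit 5858741, nat_lit 656821], [nat_lit 3273167562, nat_lit 124213, nat_lit 5326133, nat_lit 644405], [nat_lit 17147061, nat_lit 4793525, nat_lit 2712757], [nat_lit 99381, nat_lit 4260917, nat_lit 1659957], [nat_lit 607157, nat_lit 3728309, nat_lit 99377], [nat_lit 74549, nat_lit 3195701], [nat_lit 582325, nat_lit 2663093, nat_lit 74545], [nat_lit 49717, nat_lit 2130485], [nat_lit 557493, nat_lit 1597877, nat_lit 49713], [nat_lit 24885, nat_lit 1597873], [nat_lit 24881, nat_lit 1597869], [nat_lit 53], [nat_lit 49], [nat_lit 45], [nat_lit 41], [nat_lit 37], [nat_lit 33], [nat_lit 29]] [[nat_lit 47994810801], [], [], [], [], [], [], [], [], [], [], [], [], [], [], [], [nat_lit 270482, nat_lit 270609, nat_lit 270737, nat_lit 270864], [nat_lit 237582, nat_lit 237583, nat_lit 237709, nat_lit 237710, nat_lit 237711, nat_lit 237838]])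
(.leaf [[nat_lit 17171893, nat_lit 5858741, nat_lit 2737589], [nat_lit 124213, nat_lit 5326133, nat_lit 2204981], [nat_lit 17147061, nat_lit 4273333, nat_lit 4793525, nat_lit 1152181], [nat_lit 99381, nat_lit 3740725, nat_lit 4260917, nat_lit 619573], [nat_lit 607157, nat_lit 3728309, nat_lit 99377], [nat_lit 74549, nat_lit 3195701], [nat_lit 582325, nat_lit 2663093, nat_lit 74545], [nat_lit 49717, nat_lit 2130485], [nat_lit 557493, nat_lit 1597877, nat_lit 49713], [nat_lit 24885, nat_lit 1597873], [nat_lit 24881, nat_lit 1597869], [nat_lit 53], [nat_lit 49], [nat_lit 45], [nat_lit 41], [nat_lit 37], [nat_lit 33]] [[], [], [], [], [], [], [], [], [], [], [], [], [], [], [], [], [nat_lit 270864]])))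
(.node (nat_lit 258)
(.leaf [[nat_lit 17171893, nat_lit 4298165, nat_lit 5858741, nat_lit 1177013], [nat_lit 124213, nat_lit 3765557, nat_lit 5326133, nat_lit 644405], [nat_lit 17147061, nat_lit 4273333, nat_lit 4793525, nat_lit 1152181], [nat_lit 99381, nat_lit 3740725, nat_lit 4260917, nat_lit 619573], [nat_lit 607157, nat_lit 3728309, nat_lit 99377], [nat_lit 74549, nat_lit 3195701], [nat_lit 582325, nat_lit 2663093, nat_lit 74545], [nat_lit 49717, nat_lit 2130485], [nat_lit 557493, nat_lit 1597877, nat_lit 49713], [nat_lit 24885, nat_lit 1597873], [nat_lit 24881, nat_lit 1597869], [nat_lit 53], [nat_lit 49], [nat_lit 45], [nat_lit 41], [nat_lit 37], [nat_lit 33], [nat_lit 29]] [[], [], [], [], [], [], [], [], [], [], [], [], [], [], [], [], [], [nat_lit 237582, nat_lit 237709, nat_lit 237710]])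
(.node (nat_lit 259)
(.leaf [[nat_lit 17171893, nat_lit 4298165, nat_lit 5858741, nat_lit 1177013], [nat_lit 124213, nat_lit 3765557, nat_lit 5326133, nat_lit 644405], [nat_lit 17147061, nat_lit 4273333, nat_lit 4793525, nat_lit 1152181], [nat_lit 99381, nat_lit 3740725, nat_lit 4260917, nat_lit 619573], [nat_lit 607157, nat_lit 3728309, nat_lit 99377], [nat_lit 74549, nat_lit 3195701], [nat_lit 582325, nat_lit 2663093, nat_lit 74545], [nat_lit 49717, nat_lit 2130485], [nat_lit 557493, nat_lit 1597877, nat_lit 49713], [nat_lit 24885, nat_lit 1597873], [nat_lit 24881, nat_lit 1597869], [nat_lit 53], [nat_lit 49], [nat_lit 45], [nat_lit 41], [nat_lit 37], [nat_lit 33]] [])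
(.leaf [[nat_lit 4363682510, nat_lit 17171893, nat_lit 5858741, nat_lit 1697205], [nat_lit 124213, nat_lit 4285749, nat_lit 2204981, nat_lit 5326133], [nat_lit 17147061, nat_lit 4793525, nat_lit 2192565], [nat_lit 99381, nat_lit 4260917, nat_lit 1139765], [nat_lit 607157, nat_lit 3728309, nat_lit 99377], [nat_lit 74549, nat_lit 3195701], [nat_lit 1622709, nat_lit 74545, nat_lit 2663093], [nat_lit 49717, nat_lit 2130485], [nat_lit 557493, nat_lit 1597877, nat_lit 49713], [nat_lit 24885, nat_lit 1597873], [nat_lit 24881, nat_lit 1597869], [nat_lit 53], [nat_lit 49], [nat_lit 45], [nat_lit 41], [nat_lit 37], [nat_lit 33], [nat_lit 29]] [[nat_lit 47994810928], [nat_lit 43631685934], [], [], [], [], [], [], [], [], [], [], [], [], [], [nat_lit 303890], [nat_lit 270354, nat_lit 270609, nat_lit 270736, nat_lit 270864], [nat_lit 237581, nat_lit 237582, nat_lit 237583, nat_lit 237709, nat_lit 237710, nat_lit 237838]])))))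
(.node (nat_lit 384)
(.node (nat_lit 322)
(.node (nat_lit 321)
(.leaf [[nat_lit 17171893, nat_lit 4298165, nat_lit 5858741, nat_lit 1177013], [nat_lit 124213, nat_lit 3765557, nat_lit 5326133, nat_lit 644405], [nat_lit 17147061, nat_lit 4273333, nat_lit 4793525, nat_lit 1152181], [nat_lit 99381, nat_lit 3740725, nat_lit 4260917, nat_lit 619573], [nat_lit 607157, nat_lit 3728309, nat_lit 99377], [nat_lit 74549, nat_lit 3195701], [nat_lit 582325, nat_lit 2663093, nat_lit 74545], [nat_lit 49717, nat_lit 2130485], [nat_lit 557493, nat_lit 1597877, nat_lit 49713], [nat_lit 24885, nat_lit 1597873], [nat_lit 24881, nat_lit 1597869], [nat_lit 53], [nat_lit 49], [nat_lit 45], [nat_lit 41], [nat_lit 37], [nat_lit 33], [nat_lit 29]] [[], [], [], [], [], [], [], [], [], [], [], [], [], [], [], [], [nat_lit 270736], [nat_lit 237582, nat_lit 237709, nat_lit 237710]])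
(.leaf [[nat_lit 17171893, nat_lit 4298165, nat_lit 5858741, nat_lit 1177013], [nat_lit 124213, nat_lit 3765557, nat_lit 5326133, nat_lit 644405], [nat_lit 17147061, nat_lit 4273333, nat_lit 4793525, nat_lit 1152181], [nat_lit 99381, nat_lit 3740725, nat_lit 4260917, nat_lit 619573], [nat_lit 607157, nat_lit 3728309, nat_lit 99377], [nat_lit 74549, nat_lit 3195701], [nat_lit 582325, nat_lit 2663093, nat_lit 74545], [nat_lit 49717, nat_lit 2130485], [nat_lit 557493, nat_lit 1597877, nat_lit 49713], [nat_lit 24885, nat_lit 1597873], [nat_lit 24881, nat_lit 1597869], [nat_lit 53], [nat_lit 49], [nat_lit 45], [nat_lit 41], [nat_lit 37], [nat_lit 33], [nat_lit 29]] [[], [], [], [], [], [], [], [], [], [], [], [], [], [], [], [], [], [nat_lit 237582, nat_lit 237709]]))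
(.node (nat_lit 323)
(.leaf [[nat_lit 17171893, nat_lit 4298165, nat_lit 5858741, nat_lit 1177013], [nat_lit 124213, nat_lit 3765557, nat_lit 5326133, nat_lit 644405], [nat_lit 17147061, nat_lit 4273333, nat_lit 4793525, nat_lit 1152181], [nat_lit 99381, nat_lit 3740725, nat_lit 4260917, nat_lit 619573], [nat_lit 607157, nat_lit 3728309, nat_lit 99377], [nat_lit 74549, nat_lit 3195701], [nat_lit 582325, nat_lit 2663093, nat_lit 74545], [nat_lit 49717, nat_lit 2130485], [nat_lit 557493, nat_lit 1597877, nat_lit 49713], [nat_lit 24885, nat_lit 1597873], [nat_lit 24881, nat_lit 1597869], [nat_lit 53], [nat_lit 49], [nat_lit 45], [nat_lit 41], [nat_lit 37], [nat_lit 33], [nat_lit 29]] [[], [], [], [], [], [], [], [], [], [], [], [], [], [], [], [], [], [nat_lit 237581, nat_lit 237709]])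
(.node (nat_lit 324)
(.leaf [[nat_lit 17171893, nat_lit 4298165, nat_lit 5858741, nat_lit 1177013], [nat_lit 124213, nat_lit 3765557, nat_lit 5326133, nat_lit 644405], [nat_lit 17147061, nat_lit 4273333, nat_lit 1152181, nat_lit 4793525], [nat_lit 99381, nat_lit 3740725, nat_lit 4260917, nat_lit 619573], [nat_lit 607157, nat_lit 3728309, nat_lit 99377], [nat_lit 74549, nat_lit 3195701], [nat_lit 582325, nat_lit 2663093, nat_lit 74545], [nat_lit 49717, nat_lit 2130485], [nat_lit 557493, nat_lit 1597877, nat_lit 49713], [nat_lit 24885, nat_lit 1597873], [nat_lit 24881, nat_lit 1597869], [nat_lit 53], [nat_lit 49], [nat_lit 45], [nat_lit 41], [nat_lit 37], [nat_lit 33], [nat_lit 29]] [[], [], [], [], [], [], [], [], [], [], [], [], [], [], [], [], [], [nat_lit 237581]])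
(.leaf [[nat_lit 17171893, nat_lit 4818357, nat_lit 2217397, nat_lit 5858741], [nat_lit 124213, nat_lit 4805941, nat_lit 2204981, nat_lit 5326133], [nat_lit 17147061, nat_lit 4273333, nat_lit 1672373, nat_lit 4793525], [nat_lit 99381, nat_lit 3740725, nat_lit 4260917, nat_lit 619573], [nat_lit 607157, nat_lit 3728309, nat_lit 99377], [nat_lit 74549, nat_lit 3195701], [nat_lit 582325, nat_lit 2663093, nat_lit 74545], [nat_lit 49717, nat_lit 2130485], [nat_lit 557493, nat_lit 1597877, nat_lit 49713], [nat_lit 24885, nat_lit 1597873], [nat_lit 24881, nat_lit 1597869], [nat_lit 53], [nat_lit 49], [nat_lit 45], [nat_lit 41], [nat_lit 37], [nat_lit 33], [nat_lit 29]] [[], [], [], [], [], [], [], [], [], [], [], [], [], [], [], [], [nat_lit 270481, nat_lit 270736], [nat_lit 237581, nat_lit 237582, nat_lit 237709, nat_lit 237710]]))))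
(.node (nat_lit 387)
(.node (nat_lit 385)
(.leaf [[nat_lit 17171893, nat_lit 4298165, nat_lit 5858741, nat_lit 1177013], [nat_lit 124213, nat_lit 3765557, nat_lit 5326133, nat_lit 644405], [nat_lit 17147061, nat_lit 4273333, nat_lit 4793525, nat_lit 1152181], [nat_lit 99381, nat_lit 3740725, nat_lit 4260917, nat_lit 619573], [nat_lit 607157, nat_lit 3728309, nat_lit 99377], [nat_lit 74549, nat_lit 3195701], [nat_lit 582325, nat_lit 2663093, nat_lit 74545], [nat_lit 49717, nat_lit 2130485], [nat_lit 557493, nat_lit 1597877, nat_lit 49713], [nat_lit 24885, nat_lit 1597873], [nat_lit 24881, nat_lit 1597869], [nat_lit 53], [nat_lit 49], [nat_lit 45], [nat_lit 41], [nat_lit 37], [nat_lit 33], [nat_lit 29]] [[], [], [], [], [], [], [], [], [], [], [], [], [], [], [], [], [], [nat_lit 237581, nat_lit 237582, nat_lit 237709]])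
(.node (nat_lit 386)
(.leaf [[nat_lit 17171893, nat_lit 4298165, nat_lit 5858741, nat_lit 1177013], [nat_lit 124213, nat_lit 3765557, nat_lit 5326133, nat_lit 644405], [nat_lit 17147061, nat_lit 4273333, nat_lit 4793525, nat_lit 1152181], [nat_lit 99381, nat_lit 3740725, nat_lit 4260917, nat_lit 619573], [nat_lit 607157, nat_lit 3728309, nat_lit 99377], [nat_lit 74549, nat_lit 3195701], [nat_lit 582325, nat_lit 2663093, nat_lit 74545], [nat_lit 49717, nat_lit 2130485], [nat_lit 557493, nat_lit 1597877, nat_lit 49713], [nat_lit 24885, nat_lit 1597873], [nat_lit 24881, nat_lit 1597869], [nat_lit 53], [nat_lit 49], [nat_lit 45], [nat_lit 41], [nat_lit 37], [nat_lit 33], [nat_lit 29]] [[], [], [], [], [], [], [], [], [], [], [], [], [], [], [], [], [], [nat_lit 237581, nat_lit 237709]])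
(.leaf [[nat_lit 17171893, nat_lit 4298165, nat_lit 5858741, nat_lit 1177013], [nat_lit 124213, nat_lit 3765557, nat_lit 5326133, nat_lit 644405], [nat_lit 17147061, nat_lit 4273333, nat_lit 1152181, nat_lit 4793525], [nat_lit 99381, nat_lit 3740725, nat_lit 4260917, nat_lit 619573], [nat_lit 607157, nat_lit 3728309, nat_lit 99377], [nat_lit 74549, nat_lit 3195701], [nat_lit 582325, nat_lit 2663093, nat_lit 74545], [nat_lit 49717, nat_lit 2130485], [nat_lit 557493, nat_lit 1597877, nat_lit 49713], [nat_lit 24885, nat_lit 1597873], [nat_lit 24881, nat_lit 1597869], [nat_lit 53], [nat_lit 49], [nat_lit 45], [nat_lit 41], [nat_lit 37], [nat_lit 33], [nat_lit 29]] [[], [], [], [], [], [], [], [], [], [], [], [], [], [], [], [], [], [nat_lit 237581]])))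
(.node (nat_lit 388)
(.leaf [[nat_lit 17171893, nat_lit 3777973, nat_lit 5858741, nat_lit 656821], [nat_lit 124213, nat_lit 3765557, nat_lit 5326133, nat_lit 644405], [nat_lit 17147061, nat_lit 3753141, nat_lit 4793525, nat_lit 631989], [nat_lit 99381, nat_lit 3740725, nat_lit 4260917, nat_lit 619573], [nat_lit 607157, nat_lit 3728309, nat_lit 99377], [nat_lit 74549, nat_lit 3195701], [nat_lit 582325, nat_lit 2663093, nat_lit 74545], [nat_lit 49717, nat_lit 2130485], [nat_lit 557493, nat_lit 1597877, nat_lit 49713], [nat_lit 24885, nat_lit 1597873], [nat_lit 24881, nat_lit 1597869], [nat_lit 53], [nat_lit 49], [nat_lit 45], [nat_lit 41], [nat_lit 37], [nat_lit 33]] [[], [], [], [], [], [], [], [], [], [], [], [], [], [], [], [], [], [nat_lit 237580]])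
(.node (nat_lit 389)
(.leaf [[nat_lit 17171893, nat_lit 3777973, nat_lit 5858741, nat_lit 1177013], [nat_lit 124213, nat_lit 3765557, nat_lit 5326133, nat_lit 1164597], [nat_lit 17147061, nat_lit 3753141, nat_lit 4793525, nat_lit 1152181], [nat_lit 99381, nat_lit 3740725, nat_lit 1139765, nat_lit 4260917], [nat_lit 607157, nat_lit 3728309, nat_lit 99377, nat_lit 1127349], [nat_lit 74549, nat_lit 3195701, nat_lit 594741], [nat_lit 582325, nat_lit 2663093, nat_lit 74545], [nat_lit 49717, nat_lit 2130485], [nat_lit 557493, nat_lit 1597877, nat_lit 49713], [nat_lit 24885, nat_lit 1597873], [nat_lit 24881, nat_lit 1597869], [nat_lit 53], [nat_lit 49], [nat_lit 45], [nat_lit 41], [nat_lit 37], [nat_lit 33], [nat_lit 29]] [])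
(.leaf [[nat_lit 17171893, nat_lit 3777973, nat_lit 5858741, nat_lit 656821], [nat_lit 124213, nat_lit 4285749, nat_lit 5326133, nat_lit 1164597], [nat_lit 17147061, nat_lit 4273333, nat_lit 1152181, nat_lit 4793525], [nat_lit 99381, nat_lit 3740725, nat_lit 4260917, nat_lit 619573], [nat_lit 607157, nat_lit 3728309, nat_lit 99377], [nat_lit 74549, nat_lit 3195701], [nat_lit 582325, nat_lit 2663093, nat_lit 74545], [nat_lit 49717, nat_lit 2130485], [nat_lit 557493, nat_lit 1597877, nat_lit 49713], [nat_lit 24885, nat_lit 1597873], [nat_lit 24881, nat_lit 1597869], [nat_lit 53], [nat_lit 49], [nat_lit 45], [nat_lit 41], [nat_lit 37], [nat_lit 33]] [[], [], [], [], [], [], [], [], [], [], [], [], [], [], [], [], [nat_lit 270353, nat_lit 270608, nat_lit 270735], [nat_lit 237580, nat_lit 237581, nat_lit 237582, nat_lit 237709]]))))))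
(.node (nat_lit 516)
(.node (nat_lit 453)
(.node (nat_lit 450)
(.node (nat_lit 449)
(.leaf [[nat_lit 17171893, nat_lit 4298165, nat_lit 5858741, nat_lit 1177013], [nat_lit 124213, nat_lit 3765557, nat_lit 5326133, nat_lit 644405], [nat_lit 17147061, nat_lit 4273333, nat_lit 4793525, nat_lit 1152181], [nat_lit 99381, nat_lit 3740725, nat_lit 4260917, nat_lit 619573], [nat_lit 607157, nat_lit 3728309, nat_lit 99377], [nat_lit 74549, nat_lit 3195701], [nat_lit 582325, nat_lit 2663093, nat_lit 74545], [nat_lit 49717, nat_lit 2130485], [nat_lit 557493, nat_lit 1597877, nat_lit 49713], [nat_lit 24885, nat_lit 1597873], [nat_lit 24881, nat_lit 1597869], [nat_lit 53], [nat_lit 49], [nat_lit 45], [nat_lit 41], [nat_lit 37], [nat_lit 33]] [[], [], [], [], [], [], [], [], [], [], [], [], [], [], [], [], [nat_lit 270735], [nat_lit 237580, nat_lit 237581, nat_lit 237709]])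
(.leaf [[nat_lit 17171893, nat_lit 4298165, nat_lit 5858741, nat_lit 1177013], [nat_lit 124213, nat_lit 3765557, nat_lit 5326133, nat_lit 644405], [nat_lit 17147061, nat_lit 4273333, nat_lit 1152181, nat_lit 4793525], [nat_lit 99381, nat_lit 3740725, nat_lit 4260917, nat_lit 619573], [nat_lit 607157, nat_lit 3728309, nat_lit 99377], [nat_lit 74549, nat_lit 3195701], [nat_lit 582325, nat_lit 2663093, nat_lit 74545], [nat_lit 49717, nat_lit 2130485], [nat_lit 557493, nat_lit 1597877, nat_lit 49713], [nat_lit 24885, nat_lit 1597873], [nat_lit 24881, nat_lit 1597869], [nat_lit 53], [nat_lit 49], [nat_lit 45], [nat_lit 41], [nat_lit 37], [nat_lit 33]] [[], [], [], [], [], [], [], [], [], [], [], [], [], [], [], [], [], [nat_lit 237580, nat_lit 237581]]))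
(.node (nat_lit 451)
(.leaf [[nat_lit 17171893, nat_lit 3777973, nat_lit 5858741, nat_lit 656821], [nat_lit 124213, nat_lit 3765557, nat_lit 5326133, nat_lit 644405], [nat_lit 17147061, nat_lit 3753141, nat_lit 4793525, nat_lit 631989], [nat_lit 99381, nat_lit 3740725, nat_lit 4260917, nat_lit 619573], [nat_lit 607157, nat_lit 3728309, nat_lit 99377], [nat_lit 74549, nat_lit 3195701], [nat_lit 582325, nat_lit 2663093, nat_lit 74545], [nat_lit 49717, nat_lit 2130485], [nat_lit 557493, nat_lit 1597877, nat_lit 49713], [nat_lit 24885, nat_lit 1597873], [nat_lit 24881, nat_lit 1597869], [nat_lit 53], [nat_lit 49], [nat_lit 45], [nat_lit 41], [nat_lit 37], [nat_lit 33]] [[], [], [], [], [], [], [], [], [], [], [], [], [], [], [], [], [], [nat_lit 237580]])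
(.node (nat_lit 452)
(.leaf [[nat_lit 17171893, nat_lit 3777973, nat_lit 5858741, nat_lit 1177013], [nat_lit 124213, nat_lit 3765557, nat_lit 5326133, nat_lit 1164597], [nat_lit 17147061, nat_lit 3753141, nat_lit 4793525, nat_lit 1152181], [nat_lit 99381, nat_lit 3740725, nat_lit 1139765, nat_lit 4260917], [nat_lit 607157, nat_lit 3728309, nat_lit 99377, nat_lit 1127349], [nat_lit 74549, nat_lit 3195701, nat_lit 594741], [nat_lit 582325, nat_lit 2663093, nat_lit 74545], [nat_lit 49717, nat_lit 2130485], [nat_lit 557493, nat_lit 1597877, nat_lit 49713], [nat_lit 24885, nat_lit 1597873], [nat_lit 24881, nat_lit 1597869], [nat_lit 53], [nat_lit 49], [nat_lit 45], [nat_lit 41], [nat_lit 37], [nat_lit 33]] [[], [], [], [], [], [], [], [], [], [], [], [], [], [], [], [], [], [nat_lit 237580]])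
(.leaf [[nat_lit 17171893, nat_lit 3777973, nat_lit 5858741, nat_lit 1177013], [nat_lit 124213, nat_lit 3245365, nat_lit 5326133, nat_lit 644405], [nat_lit 17147061, nat_lit 3753141, nat_lit 4793525, nat_lit 1152181], [nat_lit 99381, nat_lit 3220533, nat_lit 4260917, nat_lit 619573], [nat_lit 607157, nat_lit 3728309, nat_lit 99377, nat_lit 1127349], [nat_lit 74549, nat_lit 3195701, nat_lit 594741], [nat_lit 582325, nat_lit 2663093, nat_lit 74545], [nat_lit 49717, nat_lit 2130485], [nat_lit 557493, nat_lit 1597877, nat_lit 49713], [nat_lit 24885, nat_lit 1597873], [nat_lit 24881, nat_lit 1597869], [nat_lit 53], [nat_lit 49], [nat_lit 45], [nat_lit 41], [nat_lit 37], [nat_lit 33]] []))))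
(.node (nat_lit 513)
(.node (nat_lit 454)
(.leaf [[nat_lit 17171893, nat_lit 3777973, nat_lit 5858741, nat_lit 1177013], [nat_lit 124213, nat_lit 3245365, nat_lit 5326133, nat_lit 644405], [nat_lit 17147061, nat_lit 3753141, nat_lit 4793525, nat_lit 1152181], [nat_lit 99381, nat_lit 3220533, nat_lit 4260917, nat_lit 619573], [nat_lit 607157, nat_lit 3728309, nat_lit 99377, nat_lit 1127349], [nat_lit 74549, nat_lit 3195701, nat_lit 594741], [nat_lit 582325, nat_lit 2663093, nat_lit 74545], [nat_lit 49717, nat_lit 2130485], [nat_lit 557493, nat_lit 1597877, nat_lit 49713], [nat_lit 24885, nat_lit 1597873], [nat_lit 24881, nat_lit 1597869], [nat_lit 53], [nat_lit 49], [nat_lit 45], [nat_lit 41], [nat_lit 37], [nat_lit 33]] [])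
(.node (nat_lit 512)
(.leaf [[nat_lit 17171893, nat_lit 3777973, nat_lit 5858741, nat_lit 1177013], [nat_lit 124213, nat_lit 5326133, nat_lit 2725173], [nat_lit 17147061, nat_lit 4273333, nat_lit 1152181, nat_lit 4793525], [nat_lit 3220533, nat_lit 99381, nat_lit 4260917], [nat_lit 607157, nat_lit 3728309, nat_lit 99377], [nat_lit 74549, nat_lit 3195701], [nat_lit 582325, nat_lit 2663093, nat_lit 74545], [nat_lit 49717, nat_lit 2130485], [nat_lit 557493, nat_lit 1597877, nat_lit 49713], [nat_lit 24885, nat_lit 1597873], [nat_lit 24881, nat_lit 1597869], [nat_lit 53], [nat_lit 49], [nat_lit 45], [nat_lit 41], [nat_lit 37], [nat_lit 33]] [[], [], [], [], [], [], [], [], [], [], [], [], [], [], [], [], [nat_lit 270480, nat_lit 270735], [nat_lit 237580, nat_lit 237581, nat_lit 237709]])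
(.leaf [[nat_lit 17171893, nat_lit 3777973, nat_lit 5858741, nat_lit 656821], [nat_lit 124213, nat_lit 3765557, nat_lit 5326133, nat_lit 644405], [nat_lit 17147061, nat_lit 4273333, nat_lit 1152181, nat_lit 4793525], [nat_lit 99381, nat_lit 3740725, nat_lit 4260917, nat_lit 619573], [nat_lit 607157, nat_lit 3728309, nat_lit 99377], [nat_lit 74549, nat_lit 3195701], [nat_lit 582325, nat_lit 2663093, nat_lit 74545], [nat_lit 49717, nat_lit 2130485], [nat_lit 557493, nat_lit 1597877, nat_lit 49713], [nat_lit 24885, nat_lit 1597873], [nat_lit 24881, nat_lit 1597869], [nat_lit 53], [nat_lit 49], [nat_lit 45], [nat_lit 41], [nat_lit 37], [nat_lit 33]] [[], [], [], [], [], [], [], [], [], [], [], [], [], [], [], [], [nat_lit 270607], [nat_lit 237580, nat_lit 237581]])))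
(.node (nat_lit 514)
(.leaf [[nat_lit 17171893, nat_lit 3777973, nat_lit 5858741, nat_lit 656821], [nat_lit 124213, nat_lit 3765557, nat_lit 5326133, nat_lit 644405], [nat_lit 17147061, nat_lit 3753141, nat_lit 4793525, nat_lit 631989], [nat_lit 99381, nat_lit 3740725, nat_lit 4260917, nat_lit 619573], [nat_lit 607157, nat_lit 3728309, nat_lit 99377], [nat_lit 74549, nat_lit 3195701], [nat_lit 582325, nat_lit 2663093, nat_lit 74545], [nat_lit 49717, nat_lit 2130485], [nat_lit 557493, nat_lit 1597877, nat_lit 49713], [nat_lit 24885, nat_lit 1597873], [nat_lit 24881, nat_lit 1597869], [nat_lit 53], [nat_lit 49], [nat_lit 45], [nat_lit 41], [nat_lit 37], [nat_lit 33]] [[], [], [], [], [], [], [], [], [], [], [], [], [], [], [], [], [], [nat_lit 237580]])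
(.node (nat_lit 515)
(.leaf [[nat_lit 17171893, nat_lit 3777973, nat_lit 5858741, nat_lit 1177013], [nat_lit 124213, nat_lit 3765557, nat_lit 5326133, nat_lit 1164597], [nat_lit 17147061, nat_lit 3753141, nat_lit 4793525, nat_lit 1152181], [nat_lit 99381, nat_lit 3740725, nat_lit 1139765, nat_lit 4260917], [nat_lit 1091122101, nat_lit 3728309, nat_lit 99377], [nat_lit 74549, nat_lit 3195701, nat_lit 594741], [nat_lit 1091097269, nat_lit 2663093, nat_lit 74545], [nat_lit 49717, nat_lit 2130485], [nat_lit 557493, nat_lit 1597877, nat_lit 49713], [nat_lit 24885, nat_lit 1597873], [nat_lit 24881, nat_lit 1597869], [nat_lit 53], [nat_lit 49], [nat_lit 45], [nat_lit 41], [nat_lit 37], [nat_lit 33]] [[], [], [], [], [], [], [], [], [], [], [], [], [], [], [], [], [], [nat_lit 237580]])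
(.leaf [[nat_lit 17171893, nat_lit 3777973, nat_lit 5858741, nat_lit 1177013], [nat_lit 124213, nat_lit 3245365, nat_lit 5326133, nat_lit 644405], [nat_lit 17147061, nat_lit 3753141, nat_lit 4793525, nat_lit 1152181], [nat_lit 99381, nat_lit 3220533, nat_lit 4260917, nat_lit 619573], [nat_lit 607157, nat_lit 3728309, nat_lit 99377, nat_lit 1127349], [nat_lit 74549, nat_lit 3195701, nat_lit 594741], [nat_lit 582325, nat_lit 2663093, nat_lit 74545], [nat_lit 49717, nat_lit 2130485], [nat_lit 557493, nat_lit 1597877, nat_lit 49713], [nat_lit 24885, nat_lit 1597873], [nat_lit 24881, nat_lit 1597869], [nat_lit 53], [nat_lit 49], [nat_lit 45], [nat_lit 41], [nat_lit 37], [nat_lit 33]] [])))))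
(.node (nat_lit 578)
(.node (nat_lit 519)
(.node (nat_lit 517)
(.leaf [[nat_lit 17171893, nat_lit 3777973, nat_lit 5858741, nat_lit 1177013], [nat_lit 124213, nat_lit 3245365, nat_lit 5326133, nat_lit 644405], [nat_lit 17147061, nat_lit 3753141, nat_lit 4793525, nat_lit 1152181], [nat_lit 99381, nat_lit 3220533, nat_lit 4260917, nat_lit 619573], [nat_lit 607157, nat_lit 3728309, nat_lit 99377, nat_lit 1127349], [nat_lit 74549, nat_lit 3195701, nat_lit 594741], [nat_lit 582325, nat_lit 2663093, nat_lit 74545], [nat_lit 49717, nat_lit 2130485], [nat_lit 557493, nat_lit 1597877, nat_lit 49713], [nat_lit 24885, nat_lit 1597873], [nat_lit 24881, nat_lit 1597869], [nat_lit 53], [nat_lit 49], [nat_lit 45], [nat_lit 41], [nat_lit 37], [nat_lit 33]] [])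
(.node (nat_lit 518)
(.leaf [[nat_lit 17171893, nat_lit 3777973, nat_lit 5858741, nat_lit 1177013], [nat_lit 124213, nat_lit 3245365, nat_lit 5326133, nat_lit 644405], [nat_lit 17147061, nat_lit 3753141, nat_lit 4793525, nat_lit 1152181], [nat_lit 99381, nat_lit 3220533, nat_lit 4260917, nat_lit 619573], [nat_lit 607157, nat_lit 3728309, nat_lit 99377, nat_lit 1127349], [nat_lit 74549, nat_lit 3195701, nat_lit 594741], [nat_lit 582325, nat_lit 2663093, nat_lit 74545], [nat_lit 49717, nat_lit 2130485], [nat_lit 557493, nat_lit 1597877, nat_lit 49713], [nat_lit 24885, nat_lit 1597873], [nat_lit 24881, nat_lit 1597869], [nat_lit 53], [nat_lit 49], [nat_lit 45], [nat_lit 41], [nat_lit 37], [nat_lit 33]] [])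
(.leaf [[nat_lit 17171893, nat_lit 3777973, nat_lit 5858741, nat_lit 1177013], [nat_lit 124213, nat_lit 3245365, nat_lit 5326133, nat_lit 644405], [nat_lit 17147061, nat_lit 3753141, nat_lit 4793525, nat_lit 1152181], [nat_lit 99381, nat_lit 3220533, nat_lit 4260917, nat_lit 619573], [nat_lit 139620586421, nat_lit 3728309], [nat_lit 74549, nat_lit 3195701, nat_lit 594741], [nat_lit 582325, nat_lit 2663093, nat_lit 74545], [nat_lit 49717, nat_lit 2130485], [nat_lit 557493, nat_lit 1597877, nat_lit 49713], [nat_lit 24885, nat_lit 1597873], [nat_lit 24881, nat_lit 1597869], [nat_lit 53], [nat_lit 49], [nat_lit 45], [nat_lit 41], [nat_lit 37], [nat_lit 33]] [])))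
(.node (nat_lit 576)
(.leaf [[nat_lit 656821, nat_lit 3777973, nat_lit 5858741, nat_lit 149041], [nat_lit 124213, nat_lit 3245365, nat_lit 5326133], [nat_lit 631989, nat_lit 4273333, nat_lit 124209, nat_lit 4793525, nat_lit 1152181], [nat_lit 99381, nat_lit 3740725, nat_lit 4260917, nat_lit 619573], [nat_lit 607157, nat_lit 3728309, nat_lit 99377], [nat_lit 74549, nat_lit 3195701], [nat_lit 582325, nat_lit 2663093, nat_lit 74545], [nat_lit 49717, nat_lit 2130485], [nat_lit 557493, nat_lit 1597877, nat_lit 49713], [nat_lit 24885, nat_lit 1597873], [nat_lit 24881, nat_lit 1597869], [nat_lit 53], [nat_lit 49], [nat_lit 45], [nat_lit 41], [nat_lit 37], [nat_lit 33]] [[], [], [], [], [], [], [], [], [], [], [], [], [], [], [], [], [nat_lit 270352, nat_lit 270607], [nat_lit 237580, nat_lit 237581]])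
(.node (nat_lit 577)
(.leaf [[nat_lit 656821, nat_lit 4298165, nat_lit 5858741, nat_lit 149041, nat_lit 1177013], [nat_lit 124213, nat_lit 3765557, nat_lit 5326133, nat_lit 644405], [nat_lit 631989, nat_lit 4273333, nat_lit 124209, nat_lit 4793525, nat_lit 1152181], [nat_lit 99381, nat_lit 3740725, nat_lit 4260917, nat_lit 619573], [nat_lit 607157, nat_lit 3728309, nat_lit 99377], [nat_lit 74549, nat_lit 3195701], [nat_lit 582325, nat_lit 2663093, nat_lit 74545], [nat_lit 49717, nat_lit 2130485], [nat_lit 557493, nat_lit 1597877, nat_lit 49713], [nat_lit 24885, nat_lit 1597873], [nat_lit 24881, nat_lit 1597869], [nat_lit 53], [nat_lit 49], [nat_lit 45], [nat_lit 41], [nat_lit 37], [nat_lit 33]] [[], [], [], [], [], [], [], [], [], [], [], [], [], [], [], [], [], [nat_lit 237580]])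
(.leaf [[nat_lit 1091171765, nat_lit 4298165, nat_lit 5858741, nat_lit 1697205, nat_lit 149041], [nat_lit 124213, nat_lit 3765557, nat_lit 5326133, nat_lit 1164597], [nat_lit 1091146933, nat_lit 4273333, nat_lit 4793525, nat_lit 1672373, nat_lit 124209], [nat_lit 99381, nat_lit 3740725, nat_lit 1139765, nat_lit 4260917], [nat_lit 1091122101, nat_lit 3728309, nat_lit 99377], [nat_lit 74549, nat_lit 3195701, nat_lit 594741], [nat_lit 1091097269, nat_lit 2663093, nat_lit 74545], [nat_lit 49717, nat_lit 2130485], [nat_lit 557493, nat_lit 1597877, nat_lit 49713], [nat_lit 24885, nat_lit 1597873], [nat_lit 24881, nat_lit 1597869], [nat_lit 53], [nat_lit 49], [nat_lit 45], [nat_lit 41], [nat_lit 37], [nat_lit 33]] [[], [], [], [], [], [], [], [], [], [], [], [], [], [], [], [], [nat_lit 270606], [nat_lit 237580]]))))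
(.node (nat_lit 581)
(.node (nat_lit 579)
(.leaf [[nat_lit 656821, nat_lit 3777973, nat_lit 5858741, nat_lit 149041, nat_lit 1177013], [nat_lit 124213, nat_lit 3245365, nat_lit 5326133, nat_lit 644405], [nat_lit 631989, nat_lit 3753141, nat_lit 4793525, nat_lit 124209, nat_lit 1152181], [nat_lit 99381, nat_lit 3220533, nat_lit 4260917, nat_lit 619573], [nat_lit 607157, nat_lit 3728309, nat_lit 99377, nat_lit 1127349], [nat_lit 74549, nat_lit 3195701, nat_lit 594741], [nat_lit 582325, nat_lit 2663093, nat_lit 74545], [nat_lit 49717, nat_lit 2130485], [nat_lit 557493, nat_lit 1597877, nat_lit 49713], [nat_lit 24885, nat_lit 1597873], [nat_lit 24881, nat_lit 1597869], [nat_lit 53], [nat_lit 49], [nat_lit 45], [nat_lit 41], [nat_lit 37], [nat_lit 33]] [])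
(.node (nat_lit 580)
(.leaf [[nat_lit 1091171765, nat_lit 4298165, nat_lit 5858741, nat_lit 1697205, nat_lit 149041], [nat_lit 124213, nat_lit 3245365, nat_lit 5326133, nat_lit 644405], [nat_lit 1091146933, nat_lit 4273333, nat_lit 1672373, nat_lit 4793525, nat_lit 124209], [nat_lit 99381, nat_lit 3220533, nat_lit 4260917, nat_lit 619573], [nat_lit 1091122101, nat_lit 3728309, nat_lit 99377, nat_lit 1127349], [nat_lit 74549, nat_lit 3195701, nat_lit 594741], [nat_lit 1091097269, nat_lit 2663093, nat_lit 74545], [nat_lit 49717, nat_lit 2130485], [nat_lit 557493, nat_lit 1597877, nat_lit 49713], [nat_lit 24885, nat_lit 1597873], [nat_lit 24881, nat_lit 1597869], [nat_lit 53], [nat_lit 49], [nat_lit 45], [nat_lit 41], [nat_lit 37], [nat_lit 33]] [])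
(.leaf [[nat_lit 656821, nat_lit 3777973, nat_lit 5858741, nat_lit 149041, nat_lit 1177013], [nat_lit 124213, nat_lit 3245365, nat_lit 5326133, nat_lit 644405], [nat_lit 631989, nat_lit 3753141, nat_lit 4793525, nat_lit 124209, nat_lit 1152181], [nat_lit 99381, nat_lit 3220533, nat_lit 4260917, nat_lit 619573], [nat_lit 607157, nat_lit 3728309, nat_lit 99377, nat_lit 1127349], [nat_lit 74549, nat_lit 3195701, nat_lit 594741], [nat_lit 582325, nat_lit 2663093, nat_lit 74545], [nat_lit 49717, nat_lit 2130485], [nat_lit 557493, nat_lit 1597877, nat_lit 49713], [nat_lit 24885, nat_lit 1597873], [nat_lit 24881, nat_lit 1597869], [nat_lit 53], [nat_lit 49], [nat_lit 45], [nat_lit 41], [nat_lit 37], [nat_lit 33]] [])))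
(.node (nat_lit 582)
(.leaf [[nat_lit 139620636085, nat_lit 4298165, nat_lit 5858741, nat_lit 1697205], [nat_lit 124213, nat_lit 3245365, nat_lit 5326133, nat_lit 644405], [nat_lit 139620611253, nat_lit 4273333, nat_lit 4793525, nat_lit 1672373], [nat_lit 99381, nat_lit 3220533, nat_lit 4260917, nat_lit 619573], [nat_lit 139620586421, nat_lit 3728309], [nat_lit 74549, nat_lit 3195701, nat_lit 594741], [nat_lit 1091097269, nat_lit 2663093, nat_lit 74545], [nat_lit 49717, nat_lit 2130485], [nat_lit 557493, nat_lit 1597877, nat_lit 49713], [nat_lit 24885, nat_lit 1597873], [nat_lit 24881, nat_lit 1597869], [nat_lit 53], [nat_lit 49], [nat_lit 45], [nat_lit 41], [nat_lit 37], [nat_lit 33]] [[], [], [], [], [], [], [], [], [], [], [], [], [], [], [], [], [nat_lit 270349]])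
(.node (nat_lit 583)
(.leaf [[nat_lit 139620636085, nat_lit 69814547893, nat_lit 69815588277, nat_lit 69811426741], [nat_lit 69810373941, nat_lit 69814015285, nat_lit 69815055669, nat_lit 69810894133], [nat_lit 139620611253, nat_lit 69814523061, nat_lit 69811401909], [nat_lit 69810349109, nat_lit 69813990453, nat_lit 69810869301], [nat_lit 139620586421, nat_lit 69813457845], [nat_lit 69810324277, nat_lit 69812925237], [nat_lit 582325, nat_lit 2663093, nat_lit 74545], [nat_lit 49717, nat_lit 2130485], [nat_lit 557493, nat_lit 1597877, nat_lit 49713], [nat_lit 24885, nat_lit 1597873], [nat_lit 24881, nat_lit 1597869], [nat_lit 53], [nat_lit 49], [nat_lit 45], [nat_lit 41], [nat_lit 37], [nat_lit 33]] [])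
(.leaf [[nat_lit 139620636085, nat_lit 69814547893, nat_lit 69815588277, nat_lit 69811946933], [nat_lit 69810373941, nat_lit 69814015285, nat_lit 69815055669, nat_lit 69811414325], [nat_lit 139620611253, nat_lit 69814523061, nat_lit 69811922101], [nat_lit 69810349109, nat_lit 69813990453, nat_lit 69811389493], [nat_lit 139620586421, nat_lit 69813457845], [nat_lit 69810324277, nat_lit 69812925237], [nat_lit 582325, nat_lit 2663093, nat_lit 74545], [nat_lit 49717, nat_lit 2130485], [nat_lit 557493, nat_lit 1597877, nat_lit 49713], [nat_lit 24885, nat_lit 1597873], [nat_lit 24881, nat_lit 1597869], [nat_lit 53], [nat_lit 49], [nat_lit 45], [nat_lit 41], [nat_lit 37], [nat_lit 33]] [])))))))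

noncomputable def ct11 : Tc :=
(.node (nat_lit 453)
(.node (nat_lit 322)
(.node (nat_lit 194)
(.node (nat_lit 129)
(.node (nat_lit 64)
(.leaf [[nat_lit 24922, nat_lit 1597910], [nat_lit 94, nat_lit 1090126], [nat_lit 90, nat_lit 24914], [nat_lit 86, nat_lit 24910], [nat_lit 82], [nat_lit 78], [nat_lit 74], [nat_lit 70], [nat_lit 66], [nat_lit 62], [nat_lit 58], [nat_lit 53], [nat_lit 49], [nat_lit 45]] [[], [], [], [], [], [], [], [], [], [], [], [], [nat_lit 402969], [nat_lit 369943]])
(.node (nat_lit 128)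
(.leaf [[nat_lit 1108652750, nat_lit 1110225738, nat_lit 1091097294], [nat_lit 1110225734], [nat_lit 1092137670, nat_lit 1110225730, nat_lit 1091097286], [nat_lit 1091097282, nat_lit 1126208194, nat_lit 99381, nat_lit 1110225726], [nat_lit 1092137662, nat_lit 3728309, nat_lit 607157], [nat_lit 74549, nat_lit 3195701, nat_lit 1635125], [nat_lit 582325, nat_lit 2663093, nat_lit 74545], [nat_lit 1090101, nat_lit 2130485, nat_lit 49717], [nat_lit 1597877, nat_lit 49713], [nat_lit 24885, nat_lit 1597873], [nat_lit 24881, nat_lit 1597869], [nat_lit 53], [nat_lit 49], [nat_lit 45], [nat_lit 41], [nat_lit 37]] [[], [], [nat_lit 9094969184173], [nat_lit 9225897528748, nat_lit 34905435819], [nat_lit 30542310570, nat_lit 30542310825], [nat_lit 26179185831], [nat_lit 21816060837], [], [], [nat_lit 13089777823], [nat_lit 13089744287, nat_lit 13089744542, nat_lit 13089744669, nat_lit 13089744797], [], [], [], [nat_lit 336789], [nat_lit 303253, nat_lit 303508, nat_lit 303635, nat_lit 303763]])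
(.leaf [[nat_lit 69827359562, nat_lit 69812925258, nat_lit 69810324298], [nat_lit 69810324294, nat_lit 69812925254], [nat_lit 69810324290, nat_lit 69812925250], [nat_lit 99381, nat_lit 3740725, nat_lit 4260917, nat_lit 1139765], [nat_lit 607157, nat_lit 3728309, nat_lit 99377], [nat_lit 74549, nat_lit 3195701], [nat_lit 582325, nat_lit 2663093, nat_lit 74545], [nat_lit 49717, nat_lit 2130485], [nat_lit 557493, nat_lit 1597877, nat_lit 49713], [nat_lit 24885, nat_lit 1597873], [nat_lit 24881, nat_lit 1597869], [nat_lit 53], [nat_lit 49], [nat_lit 45], [nat_lit 41], [nat_lit 37], [nat_lit 33]] [[], [], [], [], [], [], [], [], [], [], [], [], [], [], [], [], [nat_lit 270354, nat_lit 270609, nat_lit 270736]])))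
(.node (nat_lit 192)
(.leaf [[nat_lit 2182652622, nat_lit 2216723150, nat_lit 2181612238], [nat_lit 2181612234, nat_lit 2216723146, nat_lit 124213], [nat_lit 2181612230, nat_lit 4793525, nat_lit 17147061], [nat_lit 2181612226, nat_lit 4260917, nat_lit 99381], [nat_lit 607157, nat_lit 3728309, nat_lit 99377, nat_lit 1647541], [nat_lit 74549, nat_lit 3195701, nat_lit 594741], [nat_lit 582325, nat_lit 2663093, nat_lit 74545], [nat_lit 49717, nat_lit 2130485], [nat_lit 557493, nat_lit 1597877, nat_lit 49713], [nat_lit 24885, nat_lit 1597873], [nat_lit 24881, nat_lit 1597869], [nat_lit 53], [nat_lit 49], [nat_lit 45], [nat_lit 41], [nat_lit 37], [nat_lit 33]] [[], [nat_lit 18159396016175], [nat_lit 39268560685], [], [], [], [], [], [], [], [nat_lit 13089744669], [], [], [], [], [nat_lit 303635, nat_lit 303762], [nat_lit 270354, nat_lit 270481, nat_lit 270608, nat_lit 270609, nat_lit 270736]])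
(.node (nat_lit 193)
(.leaf [[nat_lit 70901359434, nat_lit 5858741, nat_lit 17171893, nat_lit 70901097290], [nat_lit 70901359430, nat_lit 5326133, nat_lit 124213], [nat_lit 17147061, nat_lit 3753141, nat_lit 4793525], [nat_lit 4260917, nat_lit 99381, nat_lit 1139765], [nat_lit 3208117, nat_lit 99377, nat_lit 3728309, nat_lit 607157], [nat_lit 2155317, nat_lit 74549, nat_lit 3195701], [nat_lit 582325, nat_lit 2663093, nat_lit 74545], [nat_lit 49717, nat_lit 2130485], [nat_lit 557493, nat_lit 1597877, nat_lit 49713], [nat_lit 24885, nat_lit 1597873], [nat_lit 24881, nat_lit 1597869], [nat_lit 53], [nat_lit 49], [nat_lit 45], [nat_lit 41], [nat_lit 37], [nat_lit 33]] [[], [], [], [], [], [], [], [], [], [], [], [], [], [], [], [], [nat_lit 270481, nat_lit 270736]])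
(.leaf [[nat_lit 139620574026, nat_lit 139622654794], [nat_lit 139620574022, nat_lit 139622654790], [nat_lit 17147061, nat_lit 3753141, nat_lit 4793525, nat_lit 631989], [nat_lit 99381, nat_lit 3740725, nat_lit 4260917, nat_lit 619573], [nat_lit 34157493, nat_lit 3728309], [nat_lit 74549, nat_lit 3195701], [nat_lit 582325, nat_lit 2663093, nat_lit 74545], [nat_lit 49717, nat_lit 2130485], [nat_lit 557493, nat_lit 1597877, nat_lit 49713], [nat_lit 24885, nat_lit 1597873], [nat_lit 24881, nat_lit 1597869], [nat_lit 53], [nat_lit 49], [nat_lit 45], [nat_lit 41], [nat_lit 37], [nat_lit 33]] [[], [], [], [], [], [], [], [], [], [], [], [], [], [], [], [], [nat_lit 270608]]))))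
(.node (nat_lit 258)
(.node (nat_lit 256)
(.leaf [[nat_lit 3273167566, nat_lit 17171893, nat_lit 5858741], [nat_lit 3273167562, nat_lit 124213, nat_lit 5326133], [nat_lit 3273167558, nat_lit 17147061, nat_lit 4793525], [nat_lit 99381, nat_lit 4260917, nat_lit 1659957], [nat_lit 607157, nat_lit 3728309, nat_lit 99377, nat_lit 1127349], [nat_lit 3195701, nat_lit 74549], [nat_lit 2663093, nat_lit 74545], [nat_lit 1090101, nat_lit 49717, nat_lit 2130485], [nat_lit 557493, nat_lit 1597877, nat_lit 49713], [nat_lit 24885, nat_lit 1597873], [nat_lit 24881, nat_lit 1597869], [nat_lit 53], [nat_lit 49], [nat_lit 45], [nat_lit 41], [nat_lit 37], [nat_lit 33]] [[nat_lit 47994810800], [nat_lit 43631685806], [nat_lit 39268560812], [], [], [], [], [], [], [], [nat_lit 13089744796], [], [], [], [], [nat_lit 303762], [nat_lit 270481, nat_lit 270608, nat_lit 270736], [nat_lit 237581, nat_lit 237582, nat_lit 237710]])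
(.node (nat_lit 257)
(.leaf [[nat_lit 17171893, nat_lit 4818357, nat_lit 2217397, nat_lit 5858741], [nat_lit 124213, nat_lit 3765557, nat_lit 5326133, nat_lit 644405], [nat_lit 17147061, nat_lit 3753141, nat_lit 4793525, nat_lit 631989], [nat_lit 99381, nat_lit 3740725, nat_lit 4260917, nat_lit 619573], [nat_lit 34157493, nat_lit 3728309], [nat_lit 74549, nat_lit 3195701], [nat_lit 582325, nat_lit 2663093, nat_lit 74545], [nat_lit 49717, nat_lit 2130485], [nat_lit 557493, nat_lit 1597877, nat_lit 49713], [nat_lit 24885, nat_lit 1597873], [nat_lit 24881, nat_lit 1597869], [nat_lit 53], [nat_lit 49], [nat_lit 45], [nat_lit 41], [nat_lit 37], [nat_lit 33]] [[], [], [], [], [], [], [], [], [], [], [], [], [], [], [], [], [nat_lit 270608], [nat_lit 237581, nat_lit 237582]])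
(.leaf [[nat_lit 17171893, nat_lit 3777973, nat_lit 5858741, nat_lit 656821], [nat_lit 124213, nat_lit 3765557, nat_lit 5326133, nat_lit 644405], [nat_lit 17147061, nat_lit 3753141, nat_lit 4793525, nat_lit 631989], [nat_lit 99381, nat_lit 3740725, nat_lit 4260917, nat_lit 619573], [nat_lit 607157, nat_lit 3728309, nat_lit 99377], [nat_lit 74549, nat_lit 3195701], [nat_lit 582325, nat_lit 2663093, nat_lit 74545], [nat_lit 49717, nat_lit 2130485], [nat_lit 557493, nat_lit 1597877, nat_lit 49713], [nat_lit 24885, nat_lit 1597873], [nat_lit 24881, nat_lit 1597869], [nat_lit 53], [nat_lit 49], [nat_lit 45], [nat_lit 41], [nat_lit 37], [nat_lit 33]] [[], [], [], [], [], [], [], [], [], [], [], [], [], [], [], [], [], [nat_lit 237581]])))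
(.node (nat_lit 320)
(.node (nat_lit 259)
(.leaf [[nat_lit 17171893, nat_lit 3777973, nat_lit 5858741, nat_lit 1177013], [nat_lit 124213, nat_lit 3765557, nat_lit 5326133, nat_lit 1164597], [nat_lit 17147061, nat_lit 3753141, nat_lit 4793525, nat_lit 1152181], [nat_lit 99381, nat_lit 3740725, nat_lit 1139765, nat_lit 4260917], [nat_lit 34157493, nat_lit 3728309], [nat_lit 74549, nat_lit 3195701, nat_lit 594741], [nat_lit 582325, nat_lit 2663093, nat_lit 74545], [nat_lit 49717, nat_lit 2130485], [nat_lit 557493, nat_lit 1597877, nat_lit 49713], [nat_lit 24885, nat_lit 1597873], [nat_lit 24881, nat_lit 1597869], [nat_lit 53], [nat_lit 49], [nat_lit 45], [nat_lit 41], [nat_lit 37], [nat_lit 33]] [[], [], [], [], [], [], [], [], [], [], [], [], [], [], [], [], [], [nat_lit 237581]])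
(.leaf [[nat_lit 4363682510, nat_lit 17171893, nat_lit 5858741, nat_lit 656821], [nat_lit 124213, nat_lit 5326133, nat_lit 2725173, nat_lit 3245365], [nat_lit 17147061, nat_lit 3753141, nat_lit 4793525, nat_lit 1152181], [nat_lit 99381, nat_lit 3740725, nat_lit 1139765, nat_lit 4260917], [nat_lit 607157, nat_lit 3728309, nat_lit 99377], [nat_lit 74549, nat_lit 3195701], [nat_lit 582325, nat_lit 2663093, nat_lit 74545], [nat_lit 49717, nat_lit 2130485], [nat_lit 557493, nat_lit 1597877, nat_lit 49713], [nat_lit 24885, nat_lit 1597873], [nat_lit 24881, nat_lit 1597869], [nat_lit 53], [nat_lit 49], [nat_lit 45], [nat_lit 41], [nat_lit 37], [nat_lit 33]] [[], [], [], [], [], [], [], [], [], [], [], [], [], [], [], [], [nat_lit 270353, nat_lit 270480, nat_lit 270608], [nat_lit 237581, nat_lit 237582]]))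
(.node (nat_lit 321)
(.leaf [[nat_lit 17171893, nat_lit 3777973, nat_lit 5858741, nat_lit 656821], [nat_lit 124213, nat_lit 3765557, nat_lit 5326133, nat_lit 644405], [nat_lit 17147061, nat_lit 3753141, nat_lit 4793525, nat_lit 631989], [nat_lit 99381, nat_lit 3740725, nat_lit 4260917, nat_lit 619573], [nat_lit 607157, nat_lit 3728309, nat_lit 99377], [nat_lit 74549, nat_lit 3195701], [nat_lit 582325, nat_lit 2663093, nat_lit 74545], [nat_lit 49717, nat_lit 2130485], [nat_lit 557493, nat_lit 1597877, nat_lit 49713], [nat_lit 24885, nat_lit 1597873], [nat_lit 24881, nat_lit 1597869], [nat_lit 53], [nat_lit 49], [nat_lit 45], [nat_lit 41], [nat_lit 37], [nat_lit 33]] [[], [], [], [], [], [], [], [], [], [], [], [], [], [], [], [], [nat_lit 270480], [nat_lit 237581]])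
(.leaf [[nat_lit 17171893, nat_lit 3777973, nat_lit 5858741, nat_lit 1177013], [nat_lit 124213, nat_lit 3765557, nat_lit 5326133, nat_lit 1164597], [nat_lit 17147061, nat_lit 3753141, nat_lit 4793525, nat_lit 1152181], [nat_lit 99381, nat_lit 3740725, nat_lit 1139765, nat_lit 4260917], [nat_lit 34157493, nat_lit 3728309], [nat_lit 74549, nat_lit 3195701, nat_lit 594741], [nat_lit 582325, nat_lit 2663093, nat_lit 74545], [nat_lit 49717, nat_lit 2130485], [nat_lit 557493, nat_lit 1597877, nat_lit 49713], [nat_lit 24885, nat_lit 1597873], [nat_lit 24881, nat_lit 1597869], [nat_lit 53], [nat_lit 49], [nat_lit 45], [nat_lit 41], [nat_lit 37], [nat_lit 33]] [[], [], [], [], [], [], [], [], [], [], [], [], [], [], [], [], [nat_lit 270607], [nat_lit 237581]])))))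
(.node (nat_lit 388)
(.node (nat_lit 384)
(.node (nat_lit 323)
(.leaf [[nat_lit 17171893, nat_lit 3777973, nat_lit 5858741, nat_lit 1177013], [nat_lit 124213, nat_lit 3245365, nat_lit 5326133, nat_lit 644405], [nat_lit 17147061, nat_lit 3753141, nat_lit 4793525, nat_lit 1152181], [nat_lit 99381, nat_lit 3220533, nat_lit 4260917, nat_lit 619573], [nat_lit 607157, nat_lit 3728309, nat_lit 99377, nat_lit 1127349], [nat_lit 74549, nat_lit 3195701, nat_lit 594741], [nat_lit 582325, nat_lit 2663093, nat_lit 74545], [nat_lit 49717, nat_lit 2130485], [nat_lit 557493, nat_lit 1597877, nat_lit 49713], [nat_lit 24885, nat_lit 1597873], [nat_lit 24881, nat_lit 1597869], [nat_lit 53], [nat_lit 49], [nat_lit 45], [nat_lit 41], [nat_lit 37], [nat_lit 33]] [])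
(.node (nat_lit 324)
(.leaf [[nat_lit 17171893, nat_lit 3777973, nat_lit 5858741, nat_lit 1177013], [nat_lit 124213, nat_lit 3245365, nat_lit 5326133, nat_lit 644405], [nat_lit 17147061, nat_lit 3753141, nat_lit 4793525, nat_lit 1152181], [nat_lit 99381, nat_lit 3220533, nat_lit 4260917, nat_lit 619573], [nat_lit 34157493, nat_lit 3728309, nat_lit 1127349], [nat_lit 74549, nat_lit 3195701, nat_lit 594741], [nat_lit 582325, nat_lit 2663093, nat_lit 74545], [nat_lit 49717, nat_lit 2130485], [nat_lit 557493, nat_lit 1597877, nat_lit 49713], [nat_lit 24885, nat_lit 1597873], [nat_lit 24881, nat_lit 1597869], [nat_lit 53], [nat_lit 49], [nat_lit 45], [nat_lit 41], [nat_lit 37], [nat_lit 33]] [])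
(.leaf [[nat_lit 17171893, nat_lit 5338549, nat_lit 2737589, nat_lit 5858741, nat_lit 3257781], [nat_lit 124213, nat_lit 3245365, nat_lit 5326133, nat_lit 644405], [nat_lit 17147061, nat_lit 3753141, nat_lit 4793525, nat_lit 631989], [nat_lit 99381, nat_lit 3740725, nat_lit 4260917, nat_lit 619573], [nat_lit 607157, nat_lit 3728309, nat_lit 99377], [nat_lit 74549, nat_lit 3195701], [nat_lit 582325, nat_lit 2663093, nat_lit 74545], [nat_lit 49717, nat_lit 2130485], [nat_lit 557493, nat_lit 1597877, nat_lit 49713], [nat_lit 24885, nat_lit 1597873], [nat_lit 24881, nat_lit 1597869], [nat_lit 53], [nat_lit 49], [nat_lit 45], [nat_lit 41], [nat_lit 37], [nat_lit 33]] [[], [], [], [], [], [], [], [], [], [], [], [], [], [], [], [], [nat_lit 270480, nat_lit 270607], [nat_lit 237581]])))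
(.node (nat_lit 386)
(.node (nat_lit 385)
(.leaf [[nat_lit 17171893, nat_lit 4298165, nat_lit 5858741, nat_lit 1697205], [nat_lit 124213, nat_lit 3765557, nat_lit 5326133, nat_lit 1164597], [nat_lit 17147061, nat_lit 3753141, nat_lit 4793525, nat_lit 1152181], [nat_lit 99381, nat_lit 3740725, nat_lit 1139765, nat_lit 4260917], [nat_lit 607157, nat_lit 3728309, nat_lit 99377, nat_lit 1127349], [nat_lit 74549, nat_lit 3195701, nat_lit 594741], [nat_lit 582325, nat_lit 2663093, nat_lit 74545], [nat_lit 49717, nat_lit 2130485], [nat_lit 557493, nat_lit 1597877, nat_lit 49713], [nat_lit 24885, nat_lit 1597873], [nat_lit 24881, nat_lit 1597869], [nat_lit 53], [nat_lit 49], [nat_lit 45], [nat_lit 41], [nat_lit 37], [nat_lit 33]] [[], [], [], [], [], [], [], [], [], [], [], [], [], [], [], [], [nat_lit 270607], [nat_lit 237581]])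
(.leaf [[nat_lit 17171893, nat_lit 3777973, nat_lit 5858741, nat_lit 1177013], [nat_lit 124213, nat_lit 3245365, nat_lit 5326133, nat_lit 644405], [nat_lit 17147061, nat_lit 3753141, nat_lit 4793525, nat_lit 1152181], [nat_lit 99381, nat_lit 3220533, nat_lit 4260917, nat_lit 619573], [nat_lit 607157, nat_lit 3728309, nat_lit 99377, nat_lit 1127349], [nat_lit 74549, nat_lit 3195701, nat_lit 594741], [nat_lit 582325, nat_lit 2663093, nat_lit 74545], [nat_lit 49717, nat_lit 2130485], [nat_lit 557493, nat_lit 1597877, nat_lit 49713], [nat_lit 24885, nat_lit 1597873], [nat_lit 24881, nat_lit 1597869], [nat_lit 53], [nat_lit 49], [nat_lit 45], [nat_lit 41], [nat_lit 37], [nat_lit 33]] []))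
(.node (nat_lit 387)
(.leaf [[nat_lit 17171893, nat_lit 3777973, nat_lit 5858741, nat_lit 1177013], [nat_lit 124213, nat_lit 3245365, nat_lit 5326133, nat_lit 644405], [nat_lit 17147061, nat_lit 3753141, nat_lit 4793525, nat_lit 1152181], [nat_lit 99381, nat_lit 3220533, nat_lit 4260917, nat_lit 619573], [nat_lit 607157, nat_lit 3728309, nat_lit 99377, nat_lit 1127349], [nat_lit 74549, nat_lit 3195701, nat_lit 594741], [nat_lit 582325, nat_lit 2663093, nat_lit 74545], [nat_lit 49717, nat_lit 2130485], [nat_lit 557493, nat_lit 1597877, nat_lit 49713], [nat_lit 24885, nat_lit 1597873], [nat_lit 24881, nat_lit 1597869], [nat_lit 53], [nat_lit 49], [nat_lit 45], [nat_lit 41], [nat_lit 37], [nat_lit 33]] [])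
(.leaf [[nat_lit 17171893, nat_lit 3777973, nat_lit 5858741, nat_lit 1177013], [nat_lit 124213, nat_lit 3245365, nat_lit 5326133, nat_lit 644405], [nat_lit 17147061, nat_lit 3753141, nat_lit 4793525, nat_lit 1152181], [nat_lit 99381, nat_lit 3220533, nat_lit 4260917, nat_lit 619573], [nat_lit 34157493, nat_lit 3728309, nat_lit 1127349], [nat_lit 74549, nat_lit 3195701, nat_lit 594741], [nat_lit 582325, nat_lit 2663093, nat_lit 74545], [nat_lit 49717, nat_lit 2130485], [nat_lit 557493, nat_lit 1597877, nat_lit 49713], [nat_lit 24885, nat_lit 1597873], [nat_lit 24881, nat_lit 1597869], [nat_lit 53], [nat_lit 49], [nat_lit 45], [nat_lit 41], [nat_lit 37], [nat_lit 33]] []))))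
(.node (nat_lit 449)
(.node (nat_lit 389)
(.leaf [[nat_lit 17171893, nat_lit 3777973, nat_lit 5858741, nat_lit 1177013], [nat_lit 124213, nat_lit 3245365, nat_lit 5326133, nat_lit 644405], [nat_lit 17147061, nat_lit 3753141, nat_lit 4793525, nat_lit 1152181], [nat_lit 99381, nat_lit 3220533, nat_lit 4260917, nat_lit 619573], [nat_lit 607157, nat_lit 3728309, nat_lit 99377, nat_lit 1127349], [nat_lit 74549, nat_lit 3195701, nat_lit 594741], [nat_lit 582325, nat_lit 2663093, nat_lit 74545], [nat_lit 49717, nat_lit 2130485], [nat_lit 557493, nat_lit 1597877, nat_lit 49713], [nat_lit 24885, nat_lit 1597873], [nat_lit 24881, nat_lit 1597869], [nat_lit 53], [nat_lit 49], [nat_lit 45], [nat_lit 41], [nat_lit 37], [nat_lit 33]] [])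
(.node (nat_lit 448)
(.leaf [[nat_lit 17171893, nat_lit 3777973, nat_lit 5858741, nat_lit 1177013], [nat_lit 124213, nat_lit 5326133, nat_lit 2725173], [nat_lit 17147061, nat_lit 4793525, nat_lit 2192565], [nat_lit 99381, nat_lit 3220533, nat_lit 4260917, nat_lit 619573], [nat_lit 1091122101, nat_lit 3728309, nat_lit 99377], [nat_lit 74549, nat_lit 3195701, nat_lit 594741], [nat_lit 1091097269, nat_lit 2663093, nat_lit 74545], [nat_lit 49717, nat_lit 2130485], [nat_lit 557493, nat_lit 1597877, nat_lit 49713], [nat_lit 24885, nat_lit 1597873], [nat_lit 24881, nat_lit 1597869], [nat_lit 53], [nat_lit 49], [nat_lit 45], [nat_lit 41], [nat_lit 37], [nat_lit 33]] [[], [], [], [], [], [], [], [], [], [], [], [], [], [], [], [], [nat_lit 270352, nat_lit 270479, nat_lit 270607], [nat_lit 237581]])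
(.leaf [[nat_lit 17171893, nat_lit 3777973, nat_lit 5858741, nat_lit 1177013], [nat_lit 124213, nat_lit 3245365, nat_lit 5326133, nat_lit 644405], [nat_lit 17147061, nat_lit 3753141, nat_lit 4793525, nat_lit 1152181], [nat_lit 99381, nat_lit 3220533, nat_lit 4260917, nat_lit 619573], [nat_lit 607157, nat_lit 3728309, nat_lit 99377, nat_lit 1127349], [nat_lit 74549, nat_lit 3195701, nat_lit 594741], [nat_lit 582325, nat_lit 2663093, nat_lit 74545], [nat_lit 49717, nat_lit 2130485], [nat_lit 557493, nat_lit 1597877, nat_lit 49713], [nat_lit 24885, nat_lit 1597873], [nat_lit 24881, nat_lit 1597869], [nat_lit 53], [nat_lit 49], [nat_lit 45], [nat_lit 41], [nat_lit 37], [nat_lit 33]] [[], [], [], [], [], [], [], [], [], [], [], [], [], [], [], [], [nat_lit 270479]])))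
(.node (nat_lit 451)
(.node (nat_lit 450)
(.leaf [[nat_lit 17171893, nat_lit 3777973, nat_lit 5858741, nat_lit 1177013], [nat_lit 124213, nat_lit 3245365, nat_lit 5326133, nat_lit 644405], [nat_lit 17147061, nat_lit 3753141, nat_lit 4793525, nat_lit 1152181], [nat_lit 99381, nat_lit 3220533, nat_lit 4260917, nat_lit 619573], [nat_lit 607157, nat_lit 3728309, nat_lit 99377, nat_lit 1127349], [nat_lit 74549, nat_lit 3195701, nat_lit 594741], [nat_lit 582325, nat_lit 2663093, nat_lit 74545], [nat_lit 49717, nat_lit 2130485], [nat_lit 557493, nat_lit 1597877, nat_lit 49713], [nat_lit 24885, nat_lit 1597873], [nat_lit 24881, nat_lit 1597869], [nat_lit 53], [nat_lit 49], [nat_lit 45], [nat_lit 41], [nat_lit 37], [nat_lit 33]] [])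
(.leaf [[nat_lit 17171893, nat_lit 3777973, nat_lit 5858741, nat_lit 1177013], [nat_lit 124213, nat_lit 3245365, nat_lit 5326133, nat_lit 644405], [nat_lit 17147061, nat_lit 3753141, nat_lit 4793525, nat_lit 1152181], [nat_lit 99381, nat_lit 3220533, nat_lit 4260917, nat_lit 619573], [nat_lit 607157, nat_lit 3728309, nat_lit 99377, nat_lit 1127349], [nat_lit 74549, nat_lit 3195701, nat_lit 594741], [nat_lit 582325, nat_lit 2663093, nat_lit 74545], [nat_lit 49717, nat_lit 2130485], [nat_lit 557493, nat_lit 1597877, nat_lit 49713], [nat_lit 24885, nat_lit 1597873], [nat_lit 24881, nat_lit 1597869], [nat_lit 53], [nat_lit 49], [nat_lit 45], [nat_lit 41], [nat_lit 37], [nat_lit 33]] []))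
(.node (nat_lit 452)
(.leaf [[nat_lit 17171893, nat_lit 3777973, nat_lit 5858741, nat_lit 1177013], [nat_lit 124213, nat_lit 3245365, nat_lit 5326133, nat_lit 644405], [nat_lit 17147061, nat_lit 3753141, nat_lit 4793525, nat_lit 1152181], [nat_lit 99381, nat_lit 3220533, nat_lit 4260917, nat_lit 619573], [nat_lit 607157, nat_lit 3728309, nat_lit 99377, nat_lit 1127349], [nat_lit 74549, nat_lit 3195701, nat_lit 594741], [nat_lit 582325, nat_lit 2663093, nat_lit 74545], [nat_lit 49717, nat_lit 2130485], [nat_lit 557493, nat_lit 1597877, nat_lit 49713], [nat_lit 24885, nat_lit 1597873], [nat_lit 24881, nat_lit 1597869], [nat_lit 53], [nat_lit 49], [nat_lit 45], [nat_lit 41], [nat_lit 37], [nat_lit 33]] [])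
(.leaf [[nat_lit 17171893, nat_lit 3257781, nat_lit 5858741, nat_lit 656821], [nat_lit 124213, nat_lit 3245365, nat_lit 5326133, nat_lit 644405], [nat_lit 17147061, nat_lit 3232949, nat_lit 4793525, nat_lit 631989], [nat_lit 99381, nat_lit 3220533, nat_lit 4260917, nat_lit 619573], [nat_lit 607157, nat_lit 3728309, nat_lit 99377, nat_lit 1127349], [nat_lit 74549, nat_lit 3195701, nat_lit 594741], [nat_lit 582325, nat_lit 2663093, nat_lit 74545], [nat_lit 49717, nat_lit 2130485], [nat_lit 557493, nat_lit 1597877, nat_lit 49713], [nat_lit 24885, nat_lit 1597873], [nat_lit 24881, nat_lit 1597869], [nat_lit 53], [nat_lit 49], [nat_lit 45], [nat_lit 41], [nat_lit 37], [nat_lit 33]] []))))))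
(.node (nat_lit 580)
(.node (nat_lit 517)
(.node (nat_lit 513)
(.node (nat_lit 454)
(.leaf [[nat_lit 17171893, nat_lit 3257781, nat_lit 5858741, nat_lit 1177013, nat_lit 3777973], [nat_lit 124213, nat_lit 3245365, nat_lit 5326133, nat_lit 1164597], [nat_lit 17147061, nat_lit 3232949, nat_lit 4793525, nat_lit 1152181], [nat_lit 99381, nat_lit 3220533, nat_lit 4260917, nat_lit 1139765], [nat_lit 607157, nat_lit 3728309, nat_lit 99377, nat_lit 1647541], [nat_lit 74549, nat_lit 3195701, nat_lit 1114933], [nat_lit 582325, nat_lit 2663093, nat_lit 74545], [nat_lit 49717, nat_lit 2130485], [nat_lit 557493, nat_lit 1597877, nat_lit 49713], [nat_lit 24885, nat_lit 1597873], [nat_lit 24881, nat_lit 1597869], [nat_lit 53], [nat_lit 49], [nat_lit 45], [nat_lit 41], [nat_lit 37], [nat_lit 33]] [])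
(.node (nat_lit 512)
(.leaf [[nat_lit 17171893, nat_lit 3777973, nat_lit 5858741, nat_lit 1177013], [nat_lit 124213, nat_lit 3245365, nat_lit 5326133, nat_lit 644405], [nat_lit 17147061, nat_lit 3753141, nat_lit 4793525, nat_lit 1152181], [nat_lit 99381, nat_lit 3220533, nat_lit 4260917, nat_lit 619573], [nat_lit 607157, nat_lit 3728309, nat_lit 99377, nat_lit 1127349], [nat_lit 74549, nat_lit 3195701, nat_lit 594741], [nat_lit 582325, nat_lit 2663093, nat_lit 74545], [nat_lit 49717, nat_lit 2130485], [nat_lit 557493, nat_lit 1597877, nat_lit 49713], [nat_lit 24885, nat_lit 1597873], [nat_lit 24881, nat_lit 1597869], [nat_lit 53], [nat_lit 49], [nat_lit 45], [nat_lit 41], [nat_lit 37], [nat_lit 33]] [[], [], [], [], [], [], [], [], [], [], [], [], [], [], [], [], [nat_lit 270479]])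
(.leaf [[nat_lit 17171893, nat_lit 3777973, nat_lit 5858741, nat_lit 1177013], [nat_lit 124213, nat_lit 3245365, nat_lit 5326133, nat_lit 644405], [nat_lit 17147061, nat_lit 3753141, nat_lit 4793525, nat_lit 1152181], [nat_lit 99381, nat_lit 3220533, nat_lit 4260917, nat_lit 619573], [nat_lit 1091122101, nat_lit 3728309, nat_lit 99377, nat_lit 1127349], [nat_lit 74549, nat_lit 3195701, nat_lit 594741], [nat_lit 1091097269, nat_lit 2663093, nat_lit 74545], [nat_lit 49717, nat_lit 2130485], [nat_lit 557493, nat_lit 1597877, nat_lit 49713], [nat_lit 24885, nat_lit 1597873], [nat_lit 24881, nat_lit 1597869], [nat_lit 53], [nat_lit 49], [nat_lit 45], [nat_lit 41], [nat_lit 37], [nat_lit 33]] [])))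
(.node (nat_lit 515)
(.node (nat_lit 514)
(.leaf [[nat_lit 17171893, nat_lit 3777973, nat_lit 5858741, nat_lit 1177013], [nat_lit 124213, nat_lit 3245365, nat_lit 5326133, nat_lit 644405], [nat_lit 17147061, nat_lit 3753141, nat_lit 4793525, nat_lit 1152181], [nat_lit 99381, nat_lit 3220533, nat_lit 4260917, nat_lit 619573], [nat_lit 607157, nat_lit 3728309, nat_lit 99377, nat_lit 1127349], [nat_lit 74549, nat_lit 3195701, nat_lit 594741], [nat_lit 582325, nat_lit 2663093, nat_lit 74545], [nat_lit 49717, nat_lit 2130485], [nat_lit 557493, nat_lit 1597877, nat_lit 49713], [nat_lit 24885, nat_lit 1597873], [nat_lit 24881, nat_lit 1597869], [nat_lit 53], [nat_lit 49], [nat_lit 45], [nat_lit 41], [nat_lit 37], [nat_lit 33]] [[], [], [], [], [], [], [], [], [], [], [], [], [], [], [], [], [nat_lit 270478]])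
(.leaf [[nat_lit 17171893, nat_lit 3777973, nat_lit 5858741, nat_lit 1177013], [nat_lit 124213, nat_lit 3245365, nat_lit 5326133, nat_lit 644405], [nat_lit 17147061, nat_lit 3753141, nat_lit 4793525, nat_lit 1152181], [nat_lit 99381, nat_lit 3220533, nat_lit 4260917, nat_lit 619573], [nat_lit 1091122101, nat_lit 3728309, nat_lit 99377, nat_lit 1127349], [nat_lit 74549, nat_lit 3195701, nat_lit 594741], [nat_lit 1091097269, nat_lit 2663093, nat_lit 74545], [nat_lit 49717, nat_lit 2130485], [nat_lit 557493, nat_lit 1597877, nat_lit 49713], [nat_lit 24885, nat_lit 1597873], [nat_lit 24881, nat_lit 1597869], [nat_lit 53], [nat_lit 49], [nat_lit 45], [nat_lit 41], [nat_lit 37], [nat_lit 33]] []))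
(.node (nat_lit 516)
(.leaf [[nat_lit 17171893, nat_lit 3257781, nat_lit 5858741, nat_lit 656821], [nat_lit 124213, nat_lit 3245365, nat_lit 5326133, nat_lit 644405], [nat_lit 17147061, nat_lit 3232949, nat_lit 4793525, nat_lit 631989], [nat_lit 99381, nat_lit 3220533, nat_lit 4260917, nat_lit 619573], [nat_lit 1091122101, nat_lit 3728309, nat_lit 1090859957, nat_lit 1127349], [nat_lit 74549, nat_lit 3195701, nat_lit 594741], [nat_lit 1091097269, nat_lit 2663093, nat_lit 74545], [nat_lit 49717, nat_lit 2130485], [nat_lit 557493, nat_lit 1597877, nat_lit 49713], [nat_lit 24885, nat_lit 1597873], [nat_lit 24881, nat_lit 1597869], [nat_lit 53], [nat_lit 49], [nat_lit 45], [nat_lit 41], [nat_lit 37], [nat_lit 33]] [])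
(.leaf [[nat_lit 17171893, nat_lit 3257781, nat_lit 5858741, nat_lit 1177013, nat_lit 3777973], [nat_lit 124213, nat_lit 3245365, nat_lit 5326133, nat_lit 1164597], [nat_lit 17147061, nat_lit 3232949, nat_lit 4793525, nat_lit 1152181], [nat_lit 99381, nat_lit 3220533, nat_lit 4260917, nat_lit 1139765], [nat_lit 607157, nat_lit 3728309, nat_lit 99377, nat_lit 1647541], [nat_lit 74549, nat_lit 3195701, nat_lit 1114933], [nat_lit 582325, nat_lit 2663093, nat_lit 74545], [nat_lit 49717, nat_lit 2130485], [nat_lit 557493, nat_lit 1597877, nat_lit 49713], [nat_lit 24885, nat_lit 1597873], [nat_lit 24881, nat_lit 1597869], [nat_lit 53], [nat_lit 49], [nat_lit 45], [nat_lit 41], [nat_lit 37], [nat_lit 33]] []))))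
(.node (nat_lit 576)
(.node (nat_lit 518)
(.leaf [[nat_lit 17171893, nat_lit 3257781, nat_lit 5858741, nat_lit 1177013, nat_lit 3777973], [nat_lit 124213, nat_lit 2725173, nat_lit 5326133, nat_lit 644405, nat_lit 3245365], [nat_lit 17147061, nat_lit 3232949, nat_lit 4793525, nat_lit 1152181], [nat_lit 99381, nat_lit 2700341, nat_lit 4260917, nat_lit 619573], [nat_lit 139620586421, nat_lit 3728309, nat_lit 1647541], [nat_lit 74549, nat_lit 2675509, nat_lit 3195701, nat_lit 594741], [nat_lit 582325, nat_lit 2663093, nat_lit 74545], [nat_lit 49717, nat_lit 2130485], [nat_lit 557493, nat_lit 1597877, nat_lit 49713], [nat_lit 24885, nat_lit 1597873], [nat_lit 24881, nat_lit 1597869], [nat_lit 53], [nat_lit 49], [nat_lit 45], [nat_lit 41], [nat_lit 37]] [])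
(.node (nat_lit 519)
(.leaf [[nat_lit 69810906549, nat_lit 69814027701, nat_lit 69815588277, nat_lit 17171893, nat_lit 69811426741], [nat_lit 69810373941, nat_lit 69813495093, nat_lit 69815055669, nat_lit 69810894133], [nat_lit 69810881717, nat_lit 69814002869, nat_lit 17147061, nat_lit 69814523061, nat_lit 69811401909], [nat_lit 69810349109, nat_lit 69813470261, nat_lit 69813990453, nat_lit 69810869301], [nat_lit 139620586421, nat_lit 69813457845], [nat_lit 69810324277, nat_lit 69812925237], [nat_lit 582325, nat_lit 2663093, nat_lit 74545], [nat_lit 49717, nat_lit 2130485], [nat_lit 557493, nat_lit 1597877, nat_lit 49713], [nat_lit 24885, nat_lit 1597873], [nat_lit 24881, nat_lit 1597869], [nat_lit 53], [nat_lit 49], [nat_lit 45], [nat_lit 41], [nat_lit 37]] [])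
(.leaf [[nat_lit 17171893, nat_lit 3777973, nat_lit 5858741, nat_lit 1177013], [nat_lit 124213, nat_lit 3245365, nat_lit 5326133, nat_lit 644405], [nat_lit 17147061, nat_lit 3753141, nat_lit 4793525, nat_lit 1152181], [nat_lit 99381, nat_lit 3220533, nat_lit 4260917, nat_lit 619573], [nat_lit 1091122101, nat_lit 3728309, nat_lit 99377, nat_lit 1127349], [nat_lit 74549, nat_lit 3195701, nat_lit 594741], [nat_lit 2181612213, nat_lit 2663093], [nat_lit 49717, nat_lit 2130485], [nat_lit 557493, nat_lit 1597877, nat_lit 49713], [nat_lit 24885, nat_lit 1597873], [nat_lit 24881, nat_lit 1597869], [nat_lit 53], [nat_lit 49], [nat_lit 45], [nat_lit 41], [nat_lit 37], [nat_lit 33]] [[], [], [], [], [], [], [], [], [], [], [], [], [], [], [], [], [nat_lit 270351, nat_lit 270478]])))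
(.node (nat_lit 578)
(.node (nat_lit 577)
(.leaf [[nat_lit 17171893, nat_lit 3777973, nat_lit 5858741, nat_lit 1177013], [nat_lit 124213, nat_lit 3245365, nat_lit 5326133, nat_lit 644405], [nat_lit 17147061, nat_lit 3753141, nat_lit 4793525, nat_lit 1152181], [nat_lit 99381, nat_lit 3220533, nat_lit 4260917, nat_lit 619573], [nat_lit 2181637045, nat_lit 3728309], [nat_lit 74549, nat_lit 3195701, nat_lit 594741], [nat_lit 2181612213, nat_lit 2663093], [nat_lit 49717, nat_lit 2130485], [nat_lit 557493, nat_lit 1597877, nat_lit 49713], [nat_lit 24885, nat_lit 1597873], [nat_lit 24881, nat_lit 1597869], [nat_lit 53], [nat_lit 49], [nat_lit 45], [nat_lit 41], [nat_lit 37], [nat_lit 33]] [[], [], [], [], [], [], [], [], [], [], [], [], [], [], [], [], [nat_lit 270478]])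
(.leaf [[nat_lit 17171893, nat_lit 3777973, nat_lit 5858741, nat_lit 1177013], [nat_lit 124213, nat_lit 3245365, nat_lit 5326133, nat_lit 644405], [nat_lit 17147061, nat_lit 3753141, nat_lit 4793525, nat_lit 1152181], [nat_lit 99381, nat_lit 3220533, nat_lit 4260917, nat_lit 619573], [nat_lit 1091122101, nat_lit 3728309, nat_lit 99377, nat_lit 1127349], [nat_lit 74549, nat_lit 3195701, nat_lit 594741], [nat_lit 1091097269, nat_lit 2663093, nat_lit 74545], [nat_lit 49717, nat_lit 2130485], [nat_lit 557493, nat_lit 1597877, nat_lit 49713], [nat_lit 24885, nat_lit 1597873], [nat_lit 24881, nat_lit 1597869], [nat_lit 53], [nat_lit 49], [nat_lit 45], [nat_lit 41], [nat_lit 37], [nat_lit 33]] []))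
(.node (nat_lit 579)
(.leaf [[nat_lit 17171893, nat_lit 3257781, nat_lit 5858741, nat_lit 656821], [nat_lit 124213, nat_lit 3245365, nat_lit 5326133, nat_lit 644405], [nat_lit 17147061, nat_lit 3232949, nat_lit 4793525, nat_lit 631989], [nat_lit 99381, nat_lit 3220533, nat_lit 4260917, nat_lit 619573], [nat_lit 2181637045, nat_lit 3728309, nat_lit 1127349], [nat_lit 74549, nat_lit 3195701, nat_lit 594741], [nat_lit 2181612213, nat_lit 2663093], [nat_lit 49717, nat_lit 2130485], [nat_lit 557493, nat_lit 1597877, nat_lit 49713], [nat_lit 24885, nat_lit 1597873], [nat_lit 24881, nat_lit 1597869], [nat_lit 53], [nat_lit 49], [nat_lit 45], [nat_lit 41], [nat_lit 37], [nat_lit 33]] [])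
(.leaf [[nat_lit 17171893, nat_lit 3257781, nat_lit 5858741, nat_lit 1177013, nat_lit 3777973], [nat_lit 124213, nat_lit 3245365, nat_lit 5326133, nat_lit 1164597], [nat_lit 17147061, nat_lit 3232949, nat_lit 4793525, nat_lit 1152181], [nat_lit 99381, nat_lit 3220533, nat_lit 4260917, nat_lit 1139765], [nat_lit 1091122101, nat_lit 3728309, nat_lit 1647541, nat_lit 99377], [nat_lit 74549, nat_lit 3195701, nat_lit 1114933], [nat_lit 1091097269, nat_lit 2663093, nat_lit 74545], [nat_lit 49717, nat_lit 2130485], [nat_lit 557493, nat_lit 1597877, nat_lit 49713], [nat_lit 24885, nat_lit 1597873], [nat_lit 24881, nat_lit 1597869], [nat_lit 53], [nat_lit 49], [nat_lit 45], [nat_lit 41], [nat_lit 37], [nat_lit 33]] [])))))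
(.node (nat_lit 642)
(.node (nat_lit 583)
(.node (nat_lit 581)
(.leaf [[nat_lit 17171893, nat_lit 3257781, nat_lit 5858741, nat_lit 1177013, nat_lit 3777973], [nat_lit 124213, nat_lit 2725173, nat_lit 5326133, nat_lit 644405, nat_lit 3245365], [nat_lit 17147061, nat_lit 3232949, nat_lit 4793525, nat_lit 1152181], [nat_lit 99381, nat_lit 2700341, nat_lit 4260917, nat_lit 619573], [nat_lit 1091122101, nat_lit 3728309, nat_lit 1647541, nat_lit 1090859957], [nat_lit 74549, nat_lit 2675509, nat_lit 3195701, nat_lit 594741], [nat_lit 1091097269, nat_lit 2663093, nat_lit 74545], [nat_lit 49717, nat_lit 2130485], [nat_lit 557493, nat_lit 1597877, nat_lit 49713], [nat_lit 24885, nat_lit 1597873], [nat_lit 24881, nat_lit 1597869], [nat_lit 53], [nat_lit 49], [nat_lit 45], [nat_lit 41], [nat_lit 37]] [])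
(.node (nat_lit 582)
(.leaf [[nat_lit 69810906549, nat_lit 69814027701, nat_lit 69815588277, nat_lit 17171893, nat_lit 69811426741], [nat_lit 69810373941, nat_lit 69813495093, nat_lit 69815055669, nat_lit 69810894133], [nat_lit 69810881717, nat_lit 69814002869, nat_lit 17147061, nat_lit 69814523061, nat_lit 69811401909], [nat_lit 69810349109, nat_lit 69813470261, nat_lit 69813990453, nat_lit 69810869301], [nat_lit 139620586421, nat_lit 69813457845], [nat_lit 69810324277, nat_lit 69812925237], [nat_lit 1091097269, nat_lit 2663093, nat_lit 74545], [nat_lit 49717, nat_lit 2130485], [nat_lit 557493, nat_lit 1597877, nat_lit 49713], [nat_lit 24885, nat_lit 1597873], [nat_lit 24881, nat_lit 1597869], [nat_lit 53], [nat_lit 49], [nat_lit 45], [nat_lit 41], [nat_lit 37]] [])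
(.leaf [[nat_lit 139620636085, nat_lit 69814027701, nat_lit 69815588277, nat_lit 69811426741], [nat_lit 69810373941, nat_lit 69813495093, nat_lit 69815055669, nat_lit 69810894133], [nat_lit 139620611253, nat_lit 69814002869, nat_lit 69814523061, nat_lit 69811401909], [nat_lit 69810349109, nat_lit 69813470261, nat_lit 69813990453, nat_lit 69810869301], [nat_lit 139620586421, nat_lit 69813457845], [nat_lit 69810324277, nat_lit 69812925237], [nat_lit 1091097269, nat_lit 2663093, nat_lit 74545], [nat_lit 49717, nat_lit 2130485], [nat_lit 557493, nat_lit 1597877, nat_lit 49713], [nat_lit 24885, nat_lit 1597873], [nat_lit 24881, nat_lit 1597869], [nat_lit 53], [nat_lit 49], [nat_lit 45], [nat_lit 41], [nat_lit 37]] [])))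
(.node (nat_lit 640)
(.node (nat_lit 584)
(.leaf [[nat_lit 139620636085, nat_lit 69814027701, nat_lit 69815588277, nat_lit 69811426741], [nat_lit 69810373941, nat_lit 69813495093, nat_lit 69815055669, nat_lit 69810894133], [nat_lit 139620611253, nat_lit 69814002869, nat_lit 69814523061, nat_lit 69811401909], [nat_lit 69810349109, nat_lit 69813470261, nat_lit 69813990453, nat_lit 69810869301], [nat_lit 139620586421, nat_lit 69813457845], [nat_lit 139620574005, nat_lit 69812925237], [nat_lit 69810324273, nat_lit 2663093, nat_lit 582325], [nat_lit 49717, nat_lit 2130485], [nat_lit 557493, nat_lit 1597877, nat_lit 49713], [nat_lit 24885, nat_lit 1597873], [nat_lit 24881, nat_lit 1597869], [nat_lit 53], [nat_lit 49], [nat_lit 45], [nat_lit 41], [nat_lit 37]] [])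
(.leaf [[nat_lit 2181686709, nat_lit 1094813109, nat_lit 5858741, nat_lit 1091691957], [nat_lit 1091159349, nat_lit 1094280501, nat_lit 5326133, nat_lit 124213], [nat_lit 2181661877, nat_lit 1094788277, nat_lit 4793525, nat_lit 1091667125], [nat_lit 1091134517, nat_lit 1094255669, nat_lit 4260917, nat_lit 99381], [nat_lit 2181637045, nat_lit 3728309], [nat_lit 1091109685, nat_lit 3195701, nat_lit 74549], [nat_lit 2181612213, nat_lit 2663093], [nat_lit 49717, nat_lit 2130485], [nat_lit 557493, nat_lit 1597877, nat_lit 49713], [nat_lit 24885, nat_lit 1597873], [nat_lit 24881, nat_lit 1597869], [nat_lit 53], [nat_lit 49], [nat_lit 45], [nat_lit 41], [nat_lit 37], [nat_lit 33]] [[], [], [], [], [], [], [], [], [], [], [], [], [], [], [], [], [nat_lit 270478]]))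
(.node (nat_lit 641)
(.leaf [[nat_lit 2181686709, nat_lit 1094813109, nat_lit 5858741, nat_lit 1091691957], [nat_lit 1091159349, nat_lit 1094800693, nat_lit 5326133, nat_lit 1091679541, nat_lit 124213], [nat_lit 2181661877, nat_lit 1094788277, nat_lit 4793525, nat_lit 1091667125], [nat_lit 1091134517, nat_lit 1094255669, nat_lit 4260917, nat_lit 99381], [nat_lit 2181637045, nat_lit 3728309, nat_lit 1091642293], [nat_lit 1091109685, nat_lit 3195701, nat_lit 74549], [nat_lit 2181612213, nat_lit 2663093], [nat_lit 49717, nat_lit 2130485], [nat_lit 557493, nat_lit 1597877, nat_lit 49713], [nat_lit 24885, nat_lit 1597873], [nat_lit 24881, nat_lit 1597869], [nat_lit 53], [nat_lit 49], [nat_lit 45], [nat_lit 41], [nat_lit 37], [nat_lit 33]] [])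
(.leaf [[nat_lit 2181686709, nat_lit 1094813109, nat_lit 5858741, nat_lit 1697205], [nat_lit 1091159349, nat_lit 1094800693, nat_lit 5326133, nat_lit 1684789, nat_lit 124213], [nat_lit 2181661877, nat_lit 1094788277, nat_lit 1672373, nat_lit 4793525], [nat_lit 1091134517, nat_lit 1094255669, nat_lit 4260917, nat_lit 99381, nat_lit 1139765], [nat_lit 2181637045, nat_lit 3728309, nat_lit 1127349], [nat_lit 1091109685, nat_lit 3195701, nat_lit 74549], [nat_lit 2181612213, nat_lit 2663093], [nat_lit 49717, nat_lit 2130485], [nat_lit 557493, nat_lit 1597877, nat_lit 49713], [nat_lit 24885, nat_lit 1597873], [nat_lit 24881, nat_lit 1597869], [nat_lit 53], [nat_lit 49], [nat_lit 45], [nat_lit 41], [nat_lit 37], [nat_lit 33]] []))))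
(.node (nat_lit 645)
(.node (nat_lit 643)
(.leaf [[nat_lit 2181686709, nat_lit 1094813109, nat_lit 5858741, nat_lit 1092212149], [nat_lit 1091159349, nat_lit 1094280501, nat_lit 5326133, nat_lit 124213, nat_lit 1091679541], [nat_lit 2181661877, nat_lit 1094788277, nat_lit 1092187317, nat_lit 4793525], [nat_lit 1091134517, nat_lit 1094255669, nat_lit 4260917, nat_lit 99381, nat_lit 1091654709], [nat_lit 2181637045, nat_lit 3728309, nat_lit 1091642293], [nat_lit 1091109685, nat_lit 3195701, nat_lit 74549], [nat_lit 2181612213, nat_lit 2663093], [nat_lit 49717, nat_lit 2130485], [nat_lit 557493, nat_lit 1597877, nat_lit 49713], [nat_lit 24885, nat_lit 1597873], [nat_lit 24881, nat_lit 1597869], [nat_lit 53], [nat_lit 49], [nat_lit 45], [nat_lit 41], [nat_lit 37], [nat_lit 33]] [])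
(.node (nat_lit 644)
(.leaf [[nat_lit 2181686709, nat_lit 1094813109, nat_lit 5858741, nat_lit 1697205], [nat_lit 1091159349, nat_lit 1094280501, nat_lit 5326133, nat_lit 124213, nat_lit 1164597], [nat_lit 2181661877, nat_lit 1094788277, nat_lit 1672373, nat_lit 4793525], [nat_lit 1091134517, nat_lit 1094255669, nat_lit 4260917, nat_lit 99381, nat_lit 1139765], [nat_lit 2181637045, nat_lit 3728309, nat_lit 1647541], [nat_lit 1091109685, nat_lit 3195701, nat_lit 74549], [nat_lit 2181612213, nat_lit 2663093], [nat_lit 49717, nat_lit 2130485], [nat_lit 557493, nat_lit 1597877, nat_lit 49713], [nat_lit 24885, nat_lit 1597873], [nat_lit 24881, nat_lit 1597869], [nat_lit 53], [nat_lit 49], [nat_lit 45], [nat_lit 41], [nat_lit 37]] [])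
(.leaf [[nat_lit 2181686709, nat_lit 69814027701, nat_lit 69815588277, nat_lit 69811426741], [nat_lit 69810373941, nat_lit 69813495093, nat_lit 69815055669, nat_lit 69810894133], [nat_lit 2181661877, nat_lit 69814002869, nat_lit 69814523061, nat_lit 69811401909], [nat_lit 69810349109, nat_lit 69813470261, nat_lit 69813990453, nat_lit 69810869301], [nat_lit 2181637045, nat_lit 69813457845], [nat_lit 69810324277, nat_lit 69812925237], [nat_lit 2181612213, nat_lit 2663093], [nat_lit 49717, nat_lit 2130485], [nat_lit 557493, nat_lit 1597877, nat_lit 49713], [nat_lit 24885, nat_lit 1597873], [nat_lit 24881, nat_lit 1597869], [nat_lit 53], [nat_lit 49], [nat_lit 45], [nat_lit 41], [nat_lit 37]] [])))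
(.node (nat_lit 647)
(.node (nat_lit 646)
(.leaf [[nat_lit 139620636085, nat_lit 69814027701, nat_lit 69815588277, nat_lit 69811426741], [nat_lit 69810373941, nat_lit 69813495093, nat_lit 69815055669, nat_lit 69810894133], [nat_lit 139620611253, nat_lit 69814002869, nat_lit 69814523061, nat_lit 69811401909], [nat_lit 69810349109, nat_lit 69813470261, nat_lit 69813990453, nat_lit 69810869301], [nat_lit 139620586421, nat_lit 69813457845], [nat_lit 69810324277, nat_lit 69812925237], [nat_lit 2181612213, nat_lit 2663093], [nat_lit 49717, nat_lit 2130485], [nat_lit 557493, nat_lit 1597877, nat_lit 49713], [nat_lit 24885, nat_lit 1597873], [nat_lit 24881, nat_lit 1597869], [nat_lit 53], [nat_lit 49], [nat_lit 45], [nat_lit 41], [nat_lit 37]] [])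
(.leaf [[nat_lit 139620636085, nat_lit 69814027701, nat_lit 69815588277, nat_lit 69811426741], [nat_lit 69810373941, nat_lit 69813495093, nat_lit 69815055669, nat_lit 69810894133], [nat_lit 139620611253, nat_lit 69814002869, nat_lit 69814523061, nat_lit 69811401909], [nat_lit 69810349109, nat_lit 69813470261, nat_lit 69813990453, nat_lit 69810869301], [nat_lit 139620586421, nat_lit 69813457845], [nat_lit 139620574005, nat_lit 69812925237], [nat_lit 1091097269, nat_lit 2663093, nat_lit 69810324273], [nat_lit 49717, nat_lit 2130485], [nat_lit 557493, nat_lit 1597877, nat_lit 49713], [nat_lit 24885, nat_lit 1597873], [nat_lit 24881, nat_lit 1597869], [nat_lit 53], [nat_lit 49], [nat_lit 45], [nat_lit 41], [nat_lit 37]] []))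
(.node (nat_lit 648)
(.leaf [[nat_lit 139620636085, nat_lit 139624277429, nat_lit 139625317813, nat_lit 139621156277], [nat_lit 139620623669, nat_lit 139624265013, nat_lit 139624785205, nat_lit 139621143861], [nat_lit 139620611253, nat_lit 139624252597, nat_lit 139621131445], [nat_lit 139620598837, nat_lit 139623719989], [nat_lit 139620586421, nat_lit 139623187381], [nat_lit 139620574005, nat_lit 139622654773], [nat_lit 69810324273, nat_lit 2663093, nat_lit 582325], [nat_lit 49717, nat_lit 2130485], [nat_lit 557493, nat_lit 1597877, nat_lit 49713], [nat_lit 24885, nat_lit 1597873], [nat_lit 24881, nat_lit 1597869], [nat_lit 53], [nat_lit 49], [nat_lit 45], [], [nat_lit 37]] [])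
(.leaf [[nat_lit 139620636085, nat_lit 139624277429, nat_lit 139625317813, nat_lit 139621676469], [nat_lit 139620623669, nat_lit 139624265013, nat_lit 139621664053, nat_lit 139624785205], [nat_lit 139620611253, nat_lit 139624252597, nat_lit 139621651637], [nat_lit 139620598837, nat_lit 139623719989, nat_lit 139621119029], [nat_lit 139620586421, nat_lit 139623187381], [nat_lit 139620574005, nat_lit 139622654773], [nat_lit 69810324273, nat_lit 2663093, nat_lit 840373], [nat_lit 49717, nat_lit 2130485, nat_lit 827957], [nat_lit 557493, nat_lit 1597877, nat_lit 49713], [nat_lit 24885, nat_lit 1597873], [nat_lit 24881, nat_lit 1597869, nat_lit 16689], [nat_lit 53], [nat_lit 49], [nat_lit 45], [], [nat_lit 37]] [])))))))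

end Vale.Agent.P181.K
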