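import Vale.Agent.P181.S.Eng2

namespace Vale.Agent.P181.K

noncomputable def ct12 : Tc :=
(.node (nat_lit 516)
(.node (nat_lit 384)
(.node (nat_lit 257)
(.node (nat_lit 192)
(.node (nat_lit 128)
(.node (nat_lit 64)
(.leaf [[nat_lit 17085010, nat_lit 3728326], [nat_lit 94, nat_lit 2675526], [nat_lit 90, nat_lit 1597902], [nat_lit 86, nat_lit 24910], [nat_lit 82], [nat_lit 78], [nat_lit 74], [nat_lit 70], [nat_lit 66], [nat_lit 62], [nat_lit 58], [nat_lit 53], [nat_lit 49], [nat_lit 45]] [[], [], [], [], [], [], [], [], [], [], [], [], [], [nat_lit 369687]])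
(.leaf [[nat_lit 1108132558, nat_lit 1110225738, nat_lit 1090859974, nat_lit 1091097294], [nat_lit 1108132554, nat_lit 1110225734, nat_lit 124213], [nat_lit 1091097286, nat_lit 1110225730, nat_lit 17147061], [nat_lit 1091097282, nat_lit 1110225726, nat_lit 99381], [nat_lit 1109172926, nat_lit 1091097278, nat_lit 3728309], [nat_lit 74549, nat_lit 3195701, nat_lit 2155317], [nat_lit 19178165, nat_lit 74545, nat_lit 582325, nat_lit 2663093], [nat_lit 17084981, nat_lit 2130485], [nat_lit 557493, nat_lit 1597877, nat_lit 49713], [nat_lit 24885, nat_lit 1597873], [nat_lit 24881, nat_lit 1597869], [nat_lit 53], [nat_lit 49], [nat_lit 45], [nat_lit 41], [nat_lit 37], [nat_lit 33]] [[], [], [], [nat_lit 9094969150891, nat_lit 9094969151018], [nat_lit 30542310569], [nat_lit 26179185575], [], [], [], [], [nat_lit 13089744286, nat_lit 13089744541, nat_lit 13089744668], [], [], [], [], [nat_lit 303252, nat_lit 303507, nat_lit 303634], [nat_lit 270352, nat_lit 270353, nat_lit 270480, nat_lit 270481, nat_lit 270608]]))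
(.node (nat_lit 129)
(.leaf [[nat_lit 69844394826, nat_lit 69812925258, nat_lit 69810324298], [nat_lit 69810324294, nat_lit 69812925254], [nat_lit 69810324290, nat_lit 69812925250], [nat_lit 69810324286, nat_lit 69812925246], [nat_lit 34157493, nat_lit 3728309, nat_lit 1127349], [nat_lit 74549, nat_lit 3195701, nat_lit 594741], [nat_lit 18657973, nat_lit 74545, nat_lit 2663093], [nat_lit 17084981, nat_lit 2130485], [nat_lit 557493, nat_lit 1597877, nat_lit 49713], [nat_lit 24885, nat_lit 1597873], [nat_lit 24881, nat_lit 1597869], [nat_lit 53], [nat_lit 49], [nat_lit 45], [nat_lit 41], [nat_lit 37]] [[], [], [], [], [], [], [], [], [], [], [nat_lit 13089744668], [], [], [], [], [nat_lit 303634]])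
(.leaf [[nat_lit 2181612238, nat_lit 2216723150], [nat_lit 2181612234, nat_lit 2216723146, nat_lit 124213], [nat_lit 2181612230, nat_lit 2216723142, nat_lit 17147061], [nat_lit 2181612226, nat_lit 4260917, nat_lit 99381], [nat_lit 34157493, nat_lit 3728309, nat_lit 1647541], [nat_lit 74549, nat_lit 3195701, nat_lit 594741], [nat_lit 18657973, nat_lit 74545, nat_lit 2663093], [nat_lit 17084981, nat_lit 2130485], [nat_lit 1597877, nat_lit 49713], [nat_lit 24885, nat_lit 1597873], [nat_lit 24881, nat_lit 1597869], [nat_lit 53], [nat_lit 49], [nat_lit 45], [nat_lit 41], [nat_lit 37], [nat_lit 33]] [[], [nat_lit 18159396016174], [nat_lit 39268560684], [nat_lit 34905435690], [nat_lit 30542310696], [], [], [], [], [], [nat_lit 13089744413, nat_lit 13089744668], [], [], [], [nat_lit 336660], [nat_lit 303379, nat_lit 303634], [nat_lit 270352, nat_lit 270353, nat_lit 270480, nat_lit 270608]])))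
(.node (nat_lit 194)
(.node (nat_lit 193)
(.leaf [[nat_lit 70901359434, nat_lit 5858741, nat_lit 17171893], [nat_lit 70901359430, nat_lit 5326133, nat_lit 124213], [nat_lit 17147061, nat_lit 3753141, nat_lit 4793525, nat_lit 1152181], [nat_lit 99381, nat_lit 3220533, nat_lit 4260917, nat_lit 619573], [nat_lit 34157493, nat_lit 3728309], [nat_lit 74549, nat_lit 3195701, nat_lit 594741], [nat_lit 18657973, nat_lit 74545, nat_lit 2663093], [nat_lit 17084981, nat_lit 2130485], [nat_lit 557493, nat_lit 1597877, nat_lit 49713], [nat_lit 24885, nat_lit 1597873], [nat_lit 24881, nat_lit 1597869], [nat_lit 53], [nat_lit 49], [nat_lit 45], [nat_lit 41], [nat_lit 37], [nat_lit 33]] [[], [], [], [], [], [], [], [], [], [], [], [], [], [], [], [], [nat_lit 270480]])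
(.leaf [[nat_lit 139637609290, nat_lit 139622654794], [nat_lit 139620574022, nat_lit 139622654790], [nat_lit 17147061, nat_lit 3753141, nat_lit 4793525, nat_lit 1152181], [nat_lit 99381, nat_lit 3220533, nat_lit 4260917, nat_lit 619573], [nat_lit 34157493, nat_lit 3728309, nat_lit 1127349], [nat_lit 74549, nat_lit 3195701, nat_lit 594741], [nat_lit 18657973, nat_lit 74545, nat_lit 2663093], [nat_lit 17084981, nat_lit 2130485], [nat_lit 557493, nat_lit 1597877, nat_lit 49713], [nat_lit 24885, nat_lit 1597873], [nat_lit 24881, nat_lit 1597869], [nat_lit 53], [nat_lit 49], [nat_lit 45], [nat_lit 41], [nat_lit 37], [nat_lit 33]] [[], [], [], [], [], [], [], [], [], [], [], [], [], [], [], [], [nat_lit 270352]]))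
(.node (nat_lit 256)
(.leaf [[nat_lit 3273167566, nat_lit 17171893, nat_lit 5858741, nat_lit 3272397642], [nat_lit 3273167562, nat_lit 124213, nat_lit 5326133, nat_lit 3272643274], [nat_lit 3273167558, nat_lit 17147061, nat_lit 4793525], [nat_lit 99381, nat_lit 3220533, nat_lit 4260917, nat_lit 619573], [nat_lit 34157493, nat_lit 3728309, nat_lit 1127349], [nat_lit 74549, nat_lit 3195701, nat_lit 594741], [nat_lit 19178165, nat_lit 74545, nat_lit 2663093], [nat_lit 17084981, nat_lit 2130485], [nat_lit 557493, nat_lit 1597877, nat_lit 49713], [nat_lit 24885, nat_lit 1597873], [nat_lit 24881, nat_lit 1597869], [nat_lit 53], [nat_lit 49], [nat_lit 45], [nat_lit 41], [nat_lit 37], [nat_lit 33]] [[nat_lit 47994810544], [nat_lit 43631685550], [], [], [], [], [], [], [], [], [], [], [], [], [], [nat_lit 303506], [nat_lit 270352, nat_lit 270479, nat_lit 270480]])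
(.leaf [[nat_lit 71992394570, nat_lit 5858741, nat_lit 17171893, nat_lit 2217397], [nat_lit 124213, nat_lit 3245365, nat_lit 5326133, nat_lit 644405], [nat_lit 17147061, nat_lit 3753141, nat_lit 4793525, nat_lit 1152181], [nat_lit 99381, nat_lit 3220533, nat_lit 4260917, nat_lit 619573], [nat_lit 34157493, nat_lit 3728309, nat_lit 1127349], [nat_lit 74549, nat_lit 3195701, nat_lit 594741], [nat_lit 18657973, nat_lit 74545, nat_lit 2663093], [nat_lit 17084981, nat_lit 2130485], [nat_lit 557493, nat_lit 1597877, nat_lit 49713], [nat_lit 24885, nat_lit 1597873], [nat_lit 24881, nat_lit 1597869], [nat_lit 53], [nat_lit 49], [nat_lit 45], [nat_lit 41], [nat_lit 37], [nat_lit 33]] [[], [], [], [], [], [], [], [], [], [], [], [], [], [], [], [], [nat_lit 270352]]))))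
(.node (nat_lit 321)
(.node (nat_lit 259)
(.node (nat_lit 258)
(.leaf [[nat_lit 17171893, nat_lit 3777973, nat_lit 5858741, nat_lit 1177013], [nat_lit 124213, nat_lit 3245365, nat_lit 5326133, nat_lit 644405], [nat_lit 17147061, nat_lit 3753141, nat_lit 4793525, nat_lit 1152181], [nat_lit 99381, nat_lit 3220533, nat_lit 4260917, nat_lit 619573], [nat_lit 34157493, nat_lit 3728309, nat_lit 1127349], [nat_lit 74549, nat_lit 3195701, nat_lit 594741], [nat_lit 18657973, nat_lit 74545, nat_lit 2663093], [nat_lit 17084981, nat_lit 2130485], [nat_lit 557493, nat_lit 1597877, nat_lit 49713], [nat_lit 24885, nat_lit 1597873], [nat_lit 24881, nat_lit 1597869], [nat_lit 53], [nat_lit 49], [nat_lit 45], [nat_lit 41], [nat_lit 37], [nat_lit 33]] [[], [], [], [], [], [], [], [], [], [], [], [], [], [], [], [], [nat_lit 270479]])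
(.leaf [[nat_lit 17171893, nat_lit 3777973, nat_lit 5858741, nat_lit 1177013], [nat_lit 124213, nat_lit 3245365, nat_lit 5326133, nat_lit 644405], [nat_lit 17147061, nat_lit 3753141, nat_lit 4793525, nat_lit 1152181], [nat_lit 99381, nat_lit 3220533, nat_lit 4260917, nat_lit 619573], [nat_lit 34157493, nat_lit 3728309, nat_lit 1127349], [nat_lit 74549, nat_lit 3195701, nat_lit 594741], [nat_lit 19178165, nat_lit 74545, nat_lit 2663093], [nat_lit 17084981, nat_lit 2130485], [nat_lit 557493, nat_lit 1597877, nat_lit 49713], [nat_lit 24885, nat_lit 1597873], [nat_lit 24881, nat_lit 1597869], [nat_lit 53], [nat_lit 49], [nat_lit 45], [nat_lit 41], [nat_lit 37], [nat_lit 33]] []))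
(.node (nat_lit 320)
(.leaf [[nat_lit 4363682510, nat_lit 17171893, nat_lit 5858741], [nat_lit 4363682506, nat_lit 124213, nat_lit 5326133], [nat_lit 17147061, nat_lit 4273333, nat_lit 1672373, nat_lit 4793525], [nat_lit 99381, nat_lit 3220533, nat_lit 4260917, nat_lit 619573], [nat_lit 34157493, nat_lit 3728309, nat_lit 1127349], [nat_lit 74549, nat_lit 3195701, nat_lit 594741], [nat_lit 18657973, nat_lit 74545, nat_lit 2663093], [nat_lit 17084981, nat_lit 2130485], [nat_lit 557493, nat_lit 1597877, nat_lit 49713], [nat_lit 24885, nat_lit 1597873], [nat_lit 24881, nat_lit 1597869], [nat_lit 53], [nat_lit 49], [nat_lit 45], [nat_lit 41], [nat_lit 37], [nat_lit 33]] [[], [], [], [], [], [], [], [], [], [], [], [], [], [], [], [], [nat_lit 270352, nat_lit 270479]])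
(.leaf [[nat_lit 17171893, nat_lit 5338549, nat_lit 2737589, nat_lit 5858741], [nat_lit 124213, nat_lit 4285749, nat_lit 1684789, nat_lit 5326133], [nat_lit 17147061, nat_lit 3753141, nat_lit 4793525, nat_lit 1152181], [nat_lit 99381, nat_lit 3220533, nat_lit 4260917, nat_lit 619573], [nat_lit 34157493, nat_lit 3728309, nat_lit 1127349], [nat_lit 74549, nat_lit 3195701, nat_lit 594741], [nat_lit 18657973, nat_lit 74545, nat_lit 2663093], [nat_lit 17084981, nat_lit 2130485], [nat_lit 557493, nat_lit 1597877, nat_lit 49713], [nat_lit 24885, nat_lit 1597873], [nat_lit 24881, nat_lit 1597869], [nat_lit 53], [nat_lit 49], [nat_lit 45], [nat_lit 41], [nat_lit 37], [nat_lit 33]] [[], [], [], [], [], [], [], [], [], [], [], [], [], [], [], [], [nat_lit 270479]])))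
(.node (nat_lit 323)
(.node (nat_lit 322)
(.leaf [[nat_lit 17171893, nat_lit 3777973, nat_lit 5858741, nat_lit 1177013], [nat_lit 124213, nat_lit 3245365, nat_lit 5326133, nat_lit 644405], [nat_lit 17147061, nat_lit 3753141, nat_lit 4793525, nat_lit 1152181], [nat_lit 99381, nat_lit 3220533, nat_lit 4260917, nat_lit 619573], [nat_lit 34157493, nat_lit 3728309, nat_lit 1127349], [nat_lit 74549, nat_lit 3195701, nat_lit 594741], [nat_lit 19178165, nat_lit 74545, nat_lit 2663093], [nat_lit 17084981, nat_lit 2130485], [nat_lit 557493, nat_lit 1597877, nat_lit 49713], [nat_lit 24885, nat_lit 1597873], [nat_lit 24881, nat_lit 1597869], [nat_lit 53], [nat_lit 49], [nat_lit 45], [nat_lit 41], [nat_lit 37], [nat_lit 33]] [[], [], [], [], [], [], [], [], [], [], [], [], [], [], [], [], [nat_lit 270351]])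
(.leaf [[nat_lit 17171893, nat_lit 3257781, nat_lit 5858741, nat_lit 656821], [nat_lit 124213, nat_lit 3245365, nat_lit 5326133, nat_lit 644405], [nat_lit 17147061, nat_lit 3232949, nat_lit 4793525, nat_lit 631989], [nat_lit 99381, nat_lit 3220533, nat_lit 4260917, nat_lit 619573], [nat_lit 34157493, nat_lit 3728309, nat_lit 1127349], [nat_lit 74549, nat_lit 3195701, nat_lit 594741], [nat_lit 18657973, nat_lit 74545, nat_lit 2663093], [nat_lit 17084981, nat_lit 2130485], [nat_lit 557493, nat_lit 1597877, nat_lit 49713], [nat_lit 24885, nat_lit 1597873], [nat_lit 24881, nat_lit 1597869], [nat_lit 53], [nat_lit 49], [nat_lit 45], [nat_lit 41], [nat_lit 37], [nat_lit 33]] []))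
(.node (nat_lit 324)
(.leaf [[nat_lit 17171893, nat_lit 3257781, nat_lit 5858741, nat_lit 1177013, nat_lit 3777973], [nat_lit 124213, nat_lit 3245365, nat_lit 5326133, nat_lit 1164597], [nat_lit 17147061, nat_lit 3232949, nat_lit 4793525, nat_lit 1152181], [nat_lit 99381, nat_lit 3220533, nat_lit 4260917, nat_lit 1139765], [nat_lit 34157493, nat_lit 3728309, nat_lit 1647541], [nat_lit 74549, nat_lit 3195701, nat_lit 1114933], [nat_lit 18657973, nat_lit 74545, nat_lit 2663093], [nat_lit 17084981, nat_lit 2130485], [nat_lit 557493, nat_lit 1597877, nat_lit 49713], [nat_lit 24885, nat_lit 1597873], [nat_lit 24881, nat_lit 1597869], [nat_lit 53], [nat_lit 49], [nat_lit 45], [nat_lit 41], [nat_lit 37], [nat_lit 33]] [])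
(.leaf [[nat_lit 17171893, nat_lit 3257781, nat_lit 5858741, nat_lit 3777973], [nat_lit 5326133, nat_lit 124213, nat_lit 2725173], [nat_lit 17147061, nat_lit 4793525, nat_lit 2192565], [nat_lit 4260917, nat_lit 99381, nat_lit 1659957], [nat_lit 34157493, nat_lit 3728309, nat_lit 1127349], [nat_lit 74549, nat_lit 3195701, nat_lit 594741], [nat_lit 18657973, nat_lit 74545, nat_lit 2663093], [nat_lit 17084981, nat_lit 2130485], [nat_lit 557493, nat_lit 1597877, nat_lit 49713], [nat_lit 24885, nat_lit 1597873], [nat_lit 24881, nat_lit 1597869], [nat_lit 53], [nat_lit 49], [nat_lit 45], [nat_lit 41], [nat_lit 37], [nat_lit 33]] [[], [], [], [], [], [], [], [], [], [], [], [], [], [], [], [nat_lit 303505], [nat_lit 270351, nat_lit 270479]])))))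
(.node (nat_lit 450)
(.node (nat_lit 388)
(.node (nat_lit 386)
(.node (nat_lit 385)
(.leaf [[nat_lit 17171893, nat_lit 3777973, nat_lit 5858741, nat_lit 1177013], [nat_lit 124213, nat_lit 3245365, nat_lit 5326133, nat_lit 644405], [nat_lit 17147061, nat_lit 3753141, nat_lit 4793525, nat_lit 1152181], [nat_lit 99381, nat_lit 3220533, nat_lit 4260917, nat_lit 619573], [nat_lit 34157493, nat_lit 3728309, nat_lit 1127349], [nat_lit 74549, nat_lit 3195701, nat_lit 594741], [nat_lit 19178165, nat_lit 74545, nat_lit 2663093], [nat_lit 17084981, nat_lit 2130485], [nat_lit 557493, nat_lit 1597877, nat_lit 49713], [nat_lit 24885, nat_lit 1597873], [nat_lit 24881, nat_lit 1597869], [nat_lit 53], [nat_lit 49], [nat_lit 45], [nat_lit 41], [nat_lit 37], [nat_lit 33]] [[], [], [], [], [], [], [], [], [], [], [], [], [], [], [], [], [nat_lit 270351]])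
(.leaf [[nat_lit 17171893, nat_lit 3257781, nat_lit 5858741, nat_lit 656821], [nat_lit 124213, nat_lit 3245365, nat_lit 5326133, nat_lit 644405], [nat_lit 17147061, nat_lit 3232949, nat_lit 4793525, nat_lit 631989], [nat_lit 99381, nat_lit 3220533, nat_lit 4260917, nat_lit 619573], [nat_lit 34157493, nat_lit 3728309, nat_lit 1127349], [nat_lit 74549, nat_lit 3195701, nat_lit 594741], [nat_lit 18657973, nat_lit 74545, nat_lit 2663093], [nat_lit 17084981, nat_lit 2130485], [nat_lit 557493, nat_lit 1597877, nat_lit 49713], [nat_lit 24885, nat_lit 1597873], [nat_lit 24881, nat_lit 1597869], [nat_lit 53], [nat_lit 49], [nat_lit 45], [nat_lit 41], [nat_lit 37], [nat_lit 33]] []))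
(.node (nat_lit 387)
(.leaf [[nat_lit 17171893, nat_lit 3257781, nat_lit 5858741, nat_lit 1177013, nat_lit 3777973], [nat_lit 124213, nat_lit 3245365, nat_lit 5326133, nat_lit 1164597], [nat_lit 17147061, nat_lit 3232949, nat_lit 4793525, nat_lit 1152181], [nat_lit 99381, nat_lit 3220533, nat_lit 4260917, nat_lit 1139765], [nat_lit 34157493, nat_lit 3728309, nat_lit 1647541], [nat_lit 74549, nat_lit 3195701, nat_lit 1114933], [nat_lit 18657973, nat_lit 74545, nat_lit 2663093], [nat_lit 17084981, nat_lit 2130485], [nat_lit 557493, nat_lit 1597877, nat_lit 49713], [nat_lit 24885, nat_lit 1597873], [nat_lit 24881, nat_lit 1597869], [nat_lit 53], [nat_lit 49], [nat_lit 45], [nat_lit 41], [nat_lit 37]] [[], [], [], [], [], [], [], [], [], [], [], [], [], [], [], [], [nat_lit 270350]])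
(.leaf [[nat_lit 17171893, nat_lit 3257781, nat_lit 5858741, nat_lit 1177013, nat_lit 3777973], [nat_lit 124213, nat_lit 2725173, nat_lit 5326133, nat_lit 644405, nat_lit 3245365], [nat_lit 17147061, nat_lit 3232949, nat_lit 4793525, nat_lit 1152181], [nat_lit 99381, nat_lit 2700341, nat_lit 4260917, nat_lit 619573], [nat_lit 34157493, nat_lit 3728309, nat_lit 1647541], [nat_lit 74549, nat_lit 2675509, nat_lit 3195701, nat_lit 594741], [nat_lit 18657973, nat_lit 74545, nat_lit 2663093], [nat_lit 17084981, nat_lit 2130485], [nat_lit 557493, nat_lit 1597877, nat_lit 49713], [nat_lit 24885, nat_lit 1597873], [nat_lit 24881, nat_lit 1597869], [nat_lit 53], [nat_lit 49], [nat_lit 45], [nat_lit 41], [nat_lit 37]] [])))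
(.node (nat_lit 448)
(.node (nat_lit 389)
(.leaf [[nat_lit 17171893, nat_lit 3257781, nat_lit 5858741, nat_lit 1177013, nat_lit 3777973], [nat_lit 124213, nat_lit 2725173, nat_lit 5326133, nat_lit 644405, nat_lit 3245365], [nat_lit 17147061, nat_lit 3232949, nat_lit 4793525, nat_lit 1152181], [nat_lit 99381, nat_lit 2700341, nat_lit 4260917, nat_lit 619573], [nat_lit 34157493, nat_lit 3728309, nat_lit 1647541], [nat_lit 74549, nat_lit 2675509, nat_lit 3195701, nat_lit 594741], [nat_lit 18657973, nat_lit 74545, nat_lit 2663093], [nat_lit 17084981, nat_lit 2130485], [nat_lit 557493, nat_lit 1597877, nat_lit 49713], [nat_lit 24885, nat_lit 1597873], [nat_lit 24881, nat_lit 1597869], [nat_lit 53], [nat_lit 49], [nat_lit 45], [nat_lit 41], [nat_lit 37]] [])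
(.leaf [[nat_lit 17171893, nat_lit 5338549, nat_lit 2737589, nat_lit 5858741, nat_lit 3257781], [nat_lit 124213, nat_lit 4285749, nat_lit 2204981, nat_lit 5326133], [nat_lit 17147061, nat_lit 3232949, nat_lit 4793525, nat_lit 631989], [nat_lit 99381, nat_lit 3220533, nat_lit 4260917, nat_lit 619573], [nat_lit 34157493, nat_lit 3728309, nat_lit 1127349], [nat_lit 74549, nat_lit 3195701, nat_lit 594741], [nat_lit 1091097269, nat_lit 2663093, nat_lit 74545], [nat_lit 17084981, nat_lit 2130485], [nat_lit 557493, nat_lit 1597877, nat_lit 49713], [nat_lit 24885, nat_lit 1597873], [nat_lit 24881, nat_lit 1597869], [nat_lit 53], [nat_lit 49], [nat_lit 45], [nat_lit 41], [nat_lit 37]] [[], [], [], [], [], [], [], [], [], [], [], [], [], [], [], [], [nat_lit 270350, nat_lit 270351]]))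
(.node (nat_lit 449)
(.leaf [[nat_lit 17171893, nat_lit 3257781, nat_lit 5858741, nat_lit 656821], [nat_lit 124213, nat_lit 3245365, nat_lit 5326133, nat_lit 644405], [nat_lit 17147061, nat_lit 3232949, nat_lit 4793525, nat_lit 631989], [nat_lit 99381, nat_lit 3220533, nat_lit 4260917, nat_lit 619573], [nat_lit 34157493, nat_lit 3728309, nat_lit 1127349], [nat_lit 74549, nat_lit 3195701, nat_lit 594741], [nat_lit 1091097269, nat_lit 2663093, nat_lit 74545], [nat_lit 17084981, nat_lit 2130485], [nat_lit 557493, nat_lit 1597877, nat_lit 49713], [nat_lit 24885, nat_lit 1597873], [nat_lit 24881, nat_lit 1597869], [nat_lit 53], [nat_lit 49], [nat_lit 45], [nat_lit 41], [nat_lit 37]] [[], [], [], [], [], [], [], [], [], [], [], [], [], [], [], [], [nat_lit 270350]])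
(.leaf [[nat_lit 17171893, nat_lit 3257781, nat_lit 5858741, nat_lit 1177013, nat_lit 3777973], [nat_lit 124213, nat_lit 3245365, nat_lit 5326133, nat_lit 1164597], [nat_lit 17147061, nat_lit 3232949, nat_lit 4793525, nat_lit 1152181], [nat_lit 99381, nat_lit 3220533, nat_lit 4260917, nat_lit 1139765], [nat_lit 34157493, nat_lit 3728309, nat_lit 1647541], [nat_lit 74549, nat_lit 3195701, nat_lit 1114933], [nat_lit 1091097269, nat_lit 2663093, nat_lit 74545], [nat_lit 17084981, nat_lit 2130485], [nat_lit 557493, nat_lit 1597877, nat_lit 49713], [nat_lit 24885, nat_lit 1597873], [nat_lit 24881, nat_lit 1597869], [nat_lit 53], [nat_lit 49], [nat_lit 45], [nat_lit 41], [nat_lit 37]] [[], [], [], [], [], [], [], [], [], [], [], [], [], [], [], [], [nat_lit 270350]]))))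
(.node (nat_lit 454)
(.node (nat_lit 452)
(.node (nat_lit 451)
(.leaf [[nat_lit 17171893, nat_lit 3257781, nat_lit 5858741, nat_lit 1177013, nat_lit 3777973], [nat_lit 124213, nat_lit 2725173, nat_lit 5326133, nat_lit 644405, nat_lit 3245365], [nat_lit 17147061, nat_lit 3232949, nat_lit 4793525, nat_lit 1152181], [nat_lit 99381, nat_lit 2700341, nat_lit 4260917, nat_lit 619573], [nat_lit 34157493, nat_lit 3728309, nat_lit 1647541], [nat_lit 74549, nat_lit 2675509, nat_lit 3195701, nat_lit 594741], [nat_lit 1091097269, nat_lit 2663093, nat_lit 74545], [nat_lit 17084981, nat_lit 2130485], [nat_lit 557493, nat_lit 1597877, nat_lit 49713], [nat_lit 24885, nat_lit 1597873], [nat_lit 24881, nat_lit 1597869], [nat_lit 53], [nat_lit 49], [nat_lit 45], [nat_lit 41], [nat_lit 37]] [])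
(.leaf [[nat_lit 17171893, nat_lit 3257781, nat_lit 5858741, nat_lit 1177013, nat_lit 3777973], [nat_lit 124213, nat_lit 2725173, nat_lit 5326133, nat_lit 644405, nat_lit 3245365], [nat_lit 17147061, nat_lit 3232949, nat_lit 4793525, nat_lit 1152181], [nat_lit 99381, nat_lit 2700341, nat_lit 4260917, nat_lit 619573], [nat_lit 34157493, nat_lit 3728309, nat_lit 1647541], [nat_lit 74549, nat_lit 2675509, nat_lit 3195701, nat_lit 594741], [nat_lit 18657973, nat_lit 74545, nat_lit 2663093], [nat_lit 17084981, nat_lit 2130485], [nat_lit 557493, nat_lit 1597877, nat_lit 49713], [nat_lit 24885, nat_lit 1597873], [nat_lit 24881, nat_lit 1597869], [nat_lit 53], [nat_lit 49], [nat_lit 45], [nat_lit 41], [nat_lit 37]] []))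
(.node (nat_lit 453)
(.leaf [[nat_lit 17171893, nat_lit 3257781, nat_lit 5858741, nat_lit 1177013, nat_lit 3777973], [nat_lit 124213, nat_lit 2725173, nat_lit 5326133, nat_lit 644405, nat_lit 3245365], [nat_lit 17147061, nat_lit 3232949, nat_lit 4793525, nat_lit 1152181], [nat_lit 99381, nat_lit 2700341, nat_lit 4260917, nat_lit 619573], [nat_lit 34157493, nat_lit 3208117, nat_lit 3728309, nat_lit 1127349], [nat_lit 74549, nat_lit 2675509, nat_lit 3195701, nat_lit 594741], [nat_lit 1091097269, nat_lit 2663093, nat_lit 74545], [nat_lit 17084981, nat_lit 2130485], [nat_lit 557493, nat_lit 1597877, nat_lit 49713], [nat_lit 24885, nat_lit 1597873], [nat_lit 24881, nat_lit 1597869], [nat_lit 53], [nat_lit 49], [nat_lit 45], [nat_lit 41], [nat_lit 37]] [])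
(.leaf [[nat_lit 17171893, nat_lit 3257781, nat_lit 5858741, nat_lit 1177013, nat_lit 3777973], [nat_lit 124213, nat_lit 2725173, nat_lit 5326133, nat_lit 644405, nat_lit 3245365], [nat_lit 17147061, nat_lit 3232949, nat_lit 4793525, nat_lit 1152181], [nat_lit 99381, nat_lit 2700341, nat_lit 4260917, nat_lit 619573], [nat_lit 69827371957, nat_lit 3728309, nat_lit 1647541], [nat_lit 74549, nat_lit 2675509, nat_lit 3195701, nat_lit 594741], [nat_lit 19178165, nat_lit 74545, nat_lit 320181, nat_lit 2663093], [nat_lit 17084981, nat_lit 2130485], [nat_lit 557493, nat_lit 1597877, nat_lit 49713], [nat_lit 24885, nat_lit 1597873], [nat_lit 24881, nat_lit 1597869], [nat_lit 53], [nat_lit 49], [nat_lit 45], [nat_lit 41], [nat_lit 37]] [])))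
(.node (nat_lit 513)
(.node (nat_lit 512)
(.leaf [[nat_lit 17171893, nat_lit 4818357, nat_lit 2217397, nat_lit 5858741], [nat_lit 124213, nat_lit 3245365, nat_lit 5326133, nat_lit 644405], [nat_lit 17147061, nat_lit 3232949, nat_lit 4793525, nat_lit 631989], [nat_lit 99381, nat_lit 3220533, nat_lit 4260917, nat_lit 619573], [nat_lit 2181637045, nat_lit 3728309, nat_lit 1127349], [nat_lit 74549, nat_lit 3195701, nat_lit 594741], [nat_lit 2181612213, nat_lit 2663093], [nat_lit 17084981, nat_lit 2130485], [nat_lit 557493, nat_lit 1597877, nat_lit 49713], [nat_lit 24885, nat_lit 1597873], [nat_lit 24881, nat_lit 1597869], [nat_lit 53], [nat_lit 49], [nat_lit 45], [nat_lit 41], [nat_lit 37]] [[], [], [], [], [], [], [], [], [], [], [], [], [], [], [], [], [nat_lit 270350]])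
(.leaf [[nat_lit 17171893, nat_lit 3257781, nat_lit 5858741, nat_lit 1177013, nat_lit 3777973], [nat_lit 124213, nat_lit 3245365, nat_lit 5326133, nat_lit 1164597], [nat_lit 17147061, nat_lit 3232949, nat_lit 4793525, nat_lit 1152181], [nat_lit 99381, nat_lit 3220533, nat_lit 4260917, nat_lit 1139765], [nat_lit 2181637045, nat_lit 3728309, nat_lit 1647541], [nat_lit 74549, nat_lit 3195701, nat_lit 1114933], [nat_lit 2181612213, nat_lit 2663093], [nat_lit 49717, nat_lit 2130485], [nat_lit 557493, nat_lit 1597877, nat_lit 49713], [nat_lit 24885, nat_lit 1597873], [nat_lit 24881, nat_lit 1597869], [nat_lit 53], [nat_lit 49], [nat_lit 45], [nat_lit 41], [nat_lit 37]] [[], [], [], [], [], [], [], [], [], [], [], [], [], [], [], [], [nat_lit 270350]]))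
(.node (nat_lit 514)
(.leaf [[nat_lit 17171893, nat_lit 3257781, nat_lit 5858741, nat_lit 1177013, nat_lit 3777973], [nat_lit 124213, nat_lit 2725173, nat_lit 5326133, nat_lit 644405, nat_lit 3245365], [nat_lit 17147061, nat_lit 3232949, nat_lit 4793525, nat_lit 1152181], [nat_lit 99381, nat_lit 2700341, nat_lit 4260917, nat_lit 619573], [nat_lit 34157493, nat_lit 3728309, nat_lit 1647541], [nat_lit 74549, nat_lit 2675509, nat_lit 3195701, nat_lit 594741], [nat_lit 2181612213, nat_lit 2663093], [nat_lit 17084981, nat_lit 2130485], [nat_lit 557493, nat_lit 1597877, nat_lit 49713], [nat_lit 24885, nat_lit 1597873], [nat_lit 24881, nat_lit 1597869], [nat_lit 53], [nat_lit 49], [nat_lit 45], [nat_lit 41], [nat_lit 37]] [])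
(.node (nat_lit 515)
(.leaf [[nat_lit 17171893, nat_lit 3257781, nat_lit 5858741, nat_lit 1177013, nat_lit 3777973], [nat_lit 124213, nat_lit 2725173, nat_lit 5326133, nat_lit 644405, nat_lit 3245365], [nat_lit 17147061, nat_lit 3232949, nat_lit 4793525, nat_lit 1152181], [nat_lit 99381, nat_lit 2700341, nat_lit 4260917, nat_lit 619573], [nat_lit 34157493, nat_lit 3728309, nat_lit 1647541], [nat_lit 74549, nat_lit 2675509, nat_lit 3195701, nat_lit 594741], [nat_lit 2181612213, nat_lit 2663093], [nat_lit 17084981, nat_lit 2130485], [nat_lit 557493, nat_lit 1597877, nat_lit 49713], [nat_lit 24885, nat_lit 1597873], [nat_lit 24881, nat_lit 1597869], [nat_lit 53], [nat_lit 49], [nat_lit 45], [nat_lit 41], [nat_lit 37]] [])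
(.leaf [[nat_lit 17171893, nat_lit 3257781, nat_lit 5858741, nat_lit 1177013, nat_lit 3777973], [nat_lit 124213, nat_lit 2725173, nat_lit 5326133, nat_lit 644405, nat_lit 3245365], [nat_lit 17147061, nat_lit 3232949, nat_lit 4793525, nat_lit 1152181], [nat_lit 99381, nat_lit 2700341, nat_lit 4260917, nat_lit 619573], [nat_lit 34157493, nat_lit 3208117, nat_lit 3728309, nat_lit 1127349], [nat_lit 74549, nat_lit 2675509, nat_lit 3195701, nat_lit 594741], [nat_lit 2181612213, nat_lit 2663093], [nat_lit 17084981, nat_lit 2130485], [nat_lit 557493, nat_lit 1597877, nat_lit 49713], [nat_lit 24885, nat_lit 1597873], [nat_lit 24881, nat_lit 1597869], [nat_lit 53], [nat_lit 49], [nat_lit 45], [nat_lit 41], [nat_lit 37]] [])))))))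
(.node (nat_lit 643)
(.node (nat_lit 580)
(.node (nat_lit 576)
(.node (nat_lit 518)
(.node (nat_lit 517)
(.leaf [[nat_lit 17171893, nat_lit 3257781, nat_lit 5858741, nat_lit 1177013, nat_lit 3777973], [nat_lit 124213, nat_lit 2725173, nat_lit 5326133, nat_lit 644405, nat_lit 3245365], [nat_lit 17147061, nat_lit 3232949, nat_lit 4793525, nat_lit 1152181], [nat_lit 99381, nat_lit 2700341, nat_lit 4260917, nat_lit 619573], [nat_lit 69827371957, nat_lit 3728309, nat_lit 1647541], [nat_lit 74549, nat_lit 2675509, nat_lit 3195701, nat_lit 594741], [nat_lit 1091097269, nat_lit 2663093, nat_lit 74545], [nat_lit 17084981, nat_lit 2130485], [nat_lit 557493, nat_lit 1597877, nat_lit 49713], [nat_lit 24885, nat_lit 1597873], [nat_lit 24881, nat_lit 1597869], [nat_lit 53], [nat_lit 49], [nat_lit 45], [nat_lit 41], [nat_lit 37]] [])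
(.leaf [[nat_lit 69810906549, nat_lit 69814027701, nat_lit 69815588277, nat_lit 17171893, nat_lit 69811426741], [nat_lit 69810373941, nat_lit 69813495093, nat_lit 69815055669, nat_lit 69810894133], [nat_lit 69810881717, nat_lit 69814002869, nat_lit 17147061, nat_lit 69814523061, nat_lit 69811401909], [nat_lit 69810349109, nat_lit 69813470261, nat_lit 69813990453, nat_lit 69810869301], [nat_lit 69827371957, nat_lit 69813457845, nat_lit 69810856885], [nat_lit 69810324277, nat_lit 69812925237], [nat_lit 1091097269, nat_lit 2663093, nat_lit 74545], [nat_lit 17084981, nat_lit 2130485], [nat_lit 557493, nat_lit 1597877, nat_lit 49713], [nat_lit 24885, nat_lit 1597873], [nat_lit 24881, nat_lit 1597869], [nat_lit 53], [nat_lit 49], [nat_lit 45], [nat_lit 41], [nat_lit 37]] []))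
(.node (nat_lit 519)
(.leaf [[nat_lit 69810906549, nat_lit 69814027701, nat_lit 69815588277, nat_lit 17171893, nat_lit 69811946933], [nat_lit 69810373941, nat_lit 69813495093, nat_lit 69815055669, nat_lit 69811414325], [nat_lit 69810881717, nat_lit 69814002869, nat_lit 17147061, nat_lit 69811922101, nat_lit 69814523061], [nat_lit 69810349109, nat_lit 69813470261, nat_lit 69811389493, nat_lit 69813990453], [nat_lit 139620586421, nat_lit 69813457845, nat_lit 69811377077], [nat_lit 69810324277, nat_lit 69812925237, nat_lit 69811102517], [nat_lit 18657973, nat_lit 69810324273, nat_lit 2663093], [nat_lit 17084981, nat_lit 2130485], [nat_lit 557493, nat_lit 1597877, nat_lit 49713], [nat_lit 24885, nat_lit 1597873], [nat_lit 24881, nat_lit 1597869, nat_lit 16689], [nat_lit 53], [nat_lit 49], [nat_lit 45], [nat_lit 41], [nat_lit 37]] [])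
(.leaf [[nat_lit 1091171765, nat_lit 1094292917, nat_lit 5858741, nat_lit 17171893, nat_lit 1177013], [nat_lit 1091159349, nat_lit 1094280501, nat_lit 5326133, nat_lit 124213, nat_lit 1164597], [nat_lit 1091146933, nat_lit 1094268085, nat_lit 4793525, nat_lit 17147061, nat_lit 1152181], [nat_lit 1091134517, nat_lit 1094255669, nat_lit 4260917, nat_lit 99381, nat_lit 1139765], [nat_lit 2181637045, nat_lit 3728309, nat_lit 1091642293], [nat_lit 1091109685, nat_lit 3195701, nat_lit 74549], [nat_lit 2181612213, nat_lit 2663093], [nat_lit 49717, nat_lit 2130485], [nat_lit 557493, nat_lit 1597877, nat_lit 49713], [nat_lit 24885, nat_lit 1597873], [nat_lit 24881, nat_lit 1597869], [nat_lit 53], [nat_lit 49], [nat_lit 45], [nat_lit 41], [nat_lit 37]] [[], [], [], [], [], [], [], [], [], [], [], [], [], [], [], [nat_lit 303376], [nat_lit 270350]])))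
(.node (nat_lit 578)
(.node (nat_lit 577)
(.leaf [[nat_lit 1091171765, nat_lit 1094292917, nat_lit 5858741, nat_lit 17171893, nat_lit 1091691957], [nat_lit 1091159349, nat_lit 1094280501, nat_lit 5326133, nat_lit 124213, nat_lit 1091679541], [nat_lit 1091146933, nat_lit 1094268085, nat_lit 4793525, nat_lit 17147061, nat_lit 1091667125], [nat_lit 1091134517, nat_lit 1094255669, nat_lit 4260917, nat_lit 99381, nat_lit 1091654709], [nat_lit 2181637045, nat_lit 3728309, nat_lit 1091642293], [nat_lit 1091109685, nat_lit 3195701, nat_lit 74549], [nat_lit 2181612213, nat_lit 2663093], [nat_lit 49717, nat_lit 2130485], [nat_lit 557493, nat_lit 1597877, nat_lit 49713], [nat_lit 24885, nat_lit 1597873], [nat_lit 24881, nat_lit 1597869], [nat_lit 53], [nat_lit 49], [nat_lit 45], [nat_lit 41], [nat_lit 37]] [])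
(.leaf [[nat_lit 1091171765, nat_lit 1094292917, nat_lit 5858741, nat_lit 17171893, nat_lit 1177013], [nat_lit 1091159349, nat_lit 1094280501, nat_lit 5326133, nat_lit 124213, nat_lit 1164597], [nat_lit 1091146933, nat_lit 1094268085, nat_lit 4793525, nat_lit 17147061, nat_lit 1152181], [nat_lit 1091134517, nat_lit 1094255669, nat_lit 4260917, nat_lit 99381, nat_lit 1139765], [nat_lit 2181637045, nat_lit 1093723061, nat_lit 3728309], [nat_lit 1091109685, nat_lit 3195701, nat_lit 74549, nat_lit 1114933], [nat_lit 2181612213, nat_lit 2663093], [nat_lit 49717, nat_lit 2130485], [nat_lit 557493, nat_lit 1597877, nat_lit 49713], [nat_lit 24885, nat_lit 1597873], [nat_lit 24881, nat_lit 1597869], [nat_lit 53], [nat_lit 49], [nat_lit 45], [nat_lit 41], [nat_lit 37]] []))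
(.node (nat_lit 579)
(.leaf [[nat_lit 1091171765, nat_lit 1094292917, nat_lit 5858741, nat_lit 1091691957, nat_lit 17171893], [nat_lit 1091159349, nat_lit 1094280501, nat_lit 5326133, nat_lit 1091679541, nat_lit 124213], [nat_lit 1091146933, nat_lit 1094268085, nat_lit 4793525, nat_lit 1091667125, nat_lit 17147061], [nat_lit 1091134517, nat_lit 1094255669, nat_lit 1091654709, nat_lit 4260917, nat_lit 99381], [nat_lit 2181637045, nat_lit 1093723061, nat_lit 3728309], [nat_lit 1091109685, nat_lit 3195701, nat_lit 74549, nat_lit 1091629877], [nat_lit 2181612213, nat_lit 2663093], [nat_lit 49717, nat_lit 2130485], [nat_lit 557493, nat_lit 1597877, nat_lit 49713], [nat_lit 24885, nat_lit 1597873], [nat_lit 24881, nat_lit 1597869], [nat_lit 53], [nat_lit 49], [nat_lit 45], [nat_lit 41], [nat_lit 37]] [])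
(.leaf [[nat_lit 1091171765, nat_lit 1094292917, nat_lit 5858741, nat_lit 1697205, nat_lit 17171893], [nat_lit 1091159349, nat_lit 1094280501, nat_lit 5326133, nat_lit 1684789, nat_lit 124213], [nat_lit 1091146933, nat_lit 1094268085, nat_lit 4793525, nat_lit 1672373, nat_lit 17147061], [nat_lit 1091134517, nat_lit 1094255669, nat_lit 1659957, nat_lit 4260917, nat_lit 99381], [nat_lit 2181637045, nat_lit 1093723061, nat_lit 3728309], [nat_lit 1091109685, nat_lit 3195701, nat_lit 74549, nat_lit 1114933], [nat_lit 2181612213, nat_lit 2663093], [nat_lit 17084981, nat_lit 2130485], [nat_lit 557493, nat_lit 1597877, nat_lit 49713], [nat_lit 24885, nat_lit 1597873], [nat_lit 24881, nat_lit 1597869], [nat_lit 53], [nat_lit 49], [nat_lit 45], [nat_lit 41], [nat_lit 37]] []))))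
(.node (nat_lit 584)
(.node (nat_lit 582)
(.node (nat_lit 581)
(.leaf [[nat_lit 69810906549, nat_lit 69814027701, nat_lit 69815588277, nat_lit 17171893, nat_lit 69811426741], [nat_lit 69810373941, nat_lit 69813495093, nat_lit 69815055669, nat_lit 69810894133], [nat_lit 69810881717, nat_lit 69814002869, nat_lit 17147061, nat_lit 69814523061, nat_lit 69811401909], [nat_lit 69810349109, nat_lit 69813470261, nat_lit 69813990453, nat_lit 69810869301], [nat_lit 69827371957, nat_lit 69813457845, nat_lit 69810856885], [nat_lit 69810324277, nat_lit 69812925237], [nat_lit 2181612213, nat_lit 2663093], [nat_lit 17084981, nat_lit 2130485], [nat_lit 557493, nat_lit 1597877, nat_lit 49713], [nat_lit 24885, nat_lit 1597873], [nat_lit 24881, nat_lit 1597869], [nat_lit 53], [nat_lit 49], [nat_lit 45], [nat_lit 41], [nat_lit 37]] [])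
(.leaf [[nat_lit 69810906549, nat_lit 69814027701, nat_lit 69815588277, nat_lit 17171893, nat_lit 69811946933], [nat_lit 69810373941, nat_lit 69813495093, nat_lit 69815055669, nat_lit 69811414325], [nat_lit 69810881717, nat_lit 69814002869, nat_lit 17147061, nat_lit 69811922101, nat_lit 69814523061], [nat_lit 69810349109, nat_lit 69813470261, nat_lit 69811389493, nat_lit 69813990453], [nat_lit 139620586421, nat_lit 69813457845, nat_lit 69811377077], [nat_lit 69810324277, nat_lit 69812925237, nat_lit 69811102517], [nat_lit 2181612213, nat_lit 2663093], [nat_lit 49717, nat_lit 2130485, nat_lit 565813], [nat_lit 557493, nat_lit 1597877, nat_lit 49713], [nat_lit 24885, nat_lit 1597873], [nat_lit 24881, nat_lit 1597869, nat_lit 16689], [nat_lit 53], [nat_lit 49], [nat_lit 45], [nat_lit 41], [nat_lit 37]] []))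
(.node (nat_lit 583)
(.leaf [[nat_lit 139620636085, nat_lit 69813507509, nat_lit 69815588277, nat_lit 69811426741], [nat_lit 69810373941, nat_lit 69812974901, nat_lit 69815055669, nat_lit 69810894133], [nat_lit 139620611253, nat_lit 69813482677, nat_lit 69814523061, nat_lit 69811401909], [nat_lit 69810349109, nat_lit 69812950069, nat_lit 69813990453, nat_lit 69810869301], [nat_lit 139620586421, nat_lit 69813457845, nat_lit 69811377077], [nat_lit 139620574005, nat_lit 69812925237], [nat_lit 1091097269, nat_lit 2663093, nat_lit 69810324273], [nat_lit 17084981, nat_lit 2130485], [nat_lit 557493, nat_lit 1597877, nat_lit 49713], [nat_lit 24885, nat_lit 1597873], [nat_lit 24881, nat_lit 1597869, nat_lit 16689], [nat_lit 53], [nat_lit 49], [nat_lit 45], [nat_lit 41]] [])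
(.leaf [[nat_lit 139620636085, nat_lit 139623757237, nat_lit 139625317813, nat_lit 139621156277], [nat_lit 139620623669, nat_lit 139623744821, nat_lit 139624785205, nat_lit 139621143861], [nat_lit 139620611253, nat_lit 139623732405, nat_lit 139624252597, nat_lit 139621131445], [nat_lit 139620598837, nat_lit 139623719989, nat_lit 139621119029], [nat_lit 139620586421, nat_lit 139623187381], [nat_lit 139620574005, nat_lit 139622654773], [nat_lit 69810324273, nat_lit 2663093, nat_lit 1102517], [nat_lit 17084981, nat_lit 2130485], [nat_lit 557493, nat_lit 1597877, nat_lit 49713], [nat_lit 24885, nat_lit 1597873], [nat_lit 24881, nat_lit 1597869, nat_lit 1073581], [nat_lit 53], [nat_lit 49], [nat_lit 45], [nat_lit 41]] [])))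
(.node (nat_lit 641)
(.node (nat_lit 640)
(.leaf [[nat_lit 2181686709, nat_lit 1094292917, nat_lit 5858741, nat_lit 1091691957], [nat_lit 1091159349, nat_lit 1094280501, nat_lit 5326133, nat_lit 124213, nat_lit 1091679541], [nat_lit 2181661877, nat_lit 1094268085, nat_lit 4793525, nat_lit 1091667125], [nat_lit 1091134517, nat_lit 1094255669, nat_lit 4260917, nat_lit 99381, nat_lit 1091654709], [nat_lit 2181637045, nat_lit 3728309, nat_lit 1091642293], [nat_lit 1091109685, nat_lit 3195701, nat_lit 74549], [nat_lit 2181612213, nat_lit 2663093], [nat_lit 49717, nat_lit 2130485], [nat_lit 557493, nat_lit 1597877, nat_lit 49713], [nat_lit 24885, nat_lit 1597873], [nat_lit 24881, nat_lit 1597869], [nat_lit 53], [nat_lit 49], [nat_lit 45], [nat_lit 41], [nat_lit 37]] [])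
(.leaf [[nat_lit 2181686709, nat_lit 1094292917, nat_lit 5858741, nat_lit 1091691957], [nat_lit 1091159349, nat_lit 1094280501, nat_lit 5326133, nat_lit 124213, nat_lit 1091679541], [nat_lit 2181661877, nat_lit 1094268085, nat_lit 4793525, nat_lit 1091667125], [nat_lit 1091134517, nat_lit 1094255669, nat_lit 4260917, nat_lit 99381, nat_lit 1091654709], [nat_lit 2181637045, nat_lit 1093723061, nat_lit 3728309], [nat_lit 1091109685, nat_lit 3195701, nat_lit 74549, nat_lit 1091629877], [nat_lit 2181612213, nat_lit 2663093], [nat_lit 49717, nat_lit 2130485], [nat_lit 557493, nat_lit 1597877, nat_lit 49713], [nat_lit 24885, nat_lit 1597873], [nat_lit 24881, nat_lit 1597869], [nat_lit 53], [nat_lit 49], [nat_lit 45], [nat_lit 41], [nat_lit 37]] []))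
(.node (nat_lit 642)
(.leaf [[nat_lit 2181686709, nat_lit 1094292917, nat_lit 5858741, nat_lit 1091691957], [nat_lit 1091159349, nat_lit 1094280501, nat_lit 5326133, nat_lit 1091679541, nat_lit 124213], [nat_lit 2181661877, nat_lit 1094268085, nat_lit 4793525, nat_lit 1091667125], [nat_lit 1091134517, nat_lit 1094255669, nat_lit 1091654709, nat_lit 4260917, nat_lit 99381], [nat_lit 2181637045, nat_lit 1093723061, nat_lit 3728309], [nat_lit 1091109685, nat_lit 3195701, nat_lit 74549, nat_lit 1091629877], [nat_lit 2181612213, nat_lit 2663093], [nat_lit 49717, nat_lit 2130485], [nat_lit 557493, nat_lit 1597877, nat_lit 49713], [nat_lit 24885, nat_lit 1597873], [nat_lit 24881, nat_lit 1597869], [nat_lit 53], [nat_lit 49], [nat_lit 45], [nat_lit 41], [nat_lit 37]] [])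
(.leaf [[nat_lit 1091171765, nat_lit 1094292917, nat_lit 5858741, nat_lit 1091691957, nat_lit 17171893], [nat_lit 1091159349, nat_lit 1094280501, nat_lit 5326133, nat_lit 1091679541, nat_lit 124213], [nat_lit 1091146933, nat_lit 1094268085, nat_lit 4793525, nat_lit 1091667125, nat_lit 17147061], [nat_lit 1091134517, nat_lit 1094255669, nat_lit 1091654709, nat_lit 4260917, nat_lit 99381], [nat_lit 2181637045, nat_lit 1093723061, nat_lit 3728309], [nat_lit 1091109685, nat_lit 3195701, nat_lit 74549, nat_lit 1091629877], [nat_lit 2181612213, nat_lit 2663093], [nat_lit 49717, nat_lit 2130485], [nat_lit 557493, nat_lit 1597877, nat_lit 49713], [nat_lit 24885, nat_lit 1597873], [nat_lit 24881, nat_lit 1597869], [nat_lit 53], [nat_lit 49], [nat_lit 45], [nat_lit 41], [nat_lit 37]] [])))))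
(.node (nat_lit 705)
(.node (nat_lit 647)
(.node (nat_lit 645)
(.node (nat_lit 644)
(.leaf [[nat_lit 1091171765, nat_lit 1094292917, nat_lit 5858741, nat_lit 1092212149, nat_lit 1090909621], [nat_lit 1091159349, nat_lit 1094280501, nat_lit 5326133, nat_lit 1092199733, nat_lit 124213], [nat_lit 1091146933, nat_lit 1094268085, nat_lit 4793525, nat_lit 1092187317, nat_lit 1090884789], [nat_lit 1091134517, nat_lit 1094255669, nat_lit 1092174901, nat_lit 1094513717, nat_lit 99381], [nat_lit 2181637045, nat_lit 1093723061, nat_lit 1093981109], [nat_lit 1091109685, nat_lit 3195701, nat_lit 74549, nat_lit 1091629877], [nat_lit 2181612213, nat_lit 2663093], [nat_lit 49717, nat_lit 2130485], [nat_lit 557493, nat_lit 1597877, nat_lit 49713], [nat_lit 24885, nat_lit 1597873], [nat_lit 24881, nat_lit 1597869], [nat_lit 53], [nat_lit 49], [nat_lit 45], [nat_lit 41], [nat_lit 37]] [])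
(.leaf [[nat_lit 69810906549, nat_lit 69814027701, nat_lit 69815588277, nat_lit 17171893, nat_lit 1092212149], [nat_lit 69810373941, nat_lit 69813495093, nat_lit 69815055669, nat_lit 1091679541], [nat_lit 69810881717, nat_lit 69814002869, nat_lit 17147061, nat_lit 1092187317, nat_lit 69814523061], [nat_lit 69810349109, nat_lit 69813470261, nat_lit 1091654709, nat_lit 69813990453], [nat_lit 2181637045, nat_lit 69813457845, nat_lit 1091642293], [nat_lit 69810324277, nat_lit 69812925237, nat_lit 1091109685], [nat_lit 2181612213, nat_lit 2663093], [nat_lit 49717, nat_lit 2130485, nat_lit 565813], [nat_lit 557493, nat_lit 1597877, nat_lit 49713], [nat_lit 24885, nat_lit 1597873], [nat_lit 24881, nat_lit 1597869, nat_lit 16689], [nat_lit 53], [nat_lit 49], [nat_lit 45], [nat_lit 41], [nat_lit 37]] []))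
(.node (nat_lit 646)
(.leaf [[nat_lit 139620636085, nat_lit 69813507509, nat_lit 69815588277, nat_lit 69811426741], [nat_lit 69810373941, nat_lit 69812974901, nat_lit 69815055669, nat_lit 69810894133], [nat_lit 139620611253, nat_lit 69813482677, nat_lit 69814523061, nat_lit 69811401909], [nat_lit 69810349109, nat_lit 69812950069, nat_lit 69813990453, nat_lit 69810869301], [nat_lit 139620586421, nat_lit 69813457845, nat_lit 69811377077], [nat_lit 139620574005, nat_lit 69812925237], [nat_lit 2181612213, nat_lit 2663093], [nat_lit 49717, nat_lit 2130485, nat_lit 827957], [nat_lit 557493, nat_lit 1597877, nat_lit 49713], [nat_lit 24885, nat_lit 1597873], [nat_lit 24881, nat_lit 1597869, nat_lit 16689], [nat_lit 53], [nat_lit 49], [nat_lit 45], [nat_lit 41]] [])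
(.leaf [[nat_lit 139620636085, nat_lit 139623757237, nat_lit 139625317813, nat_lit 139621156277], [nat_lit 139620623669, nat_lit 139623744821, nat_lit 139624785205, nat_lit 139621143861], [nat_lit 139620611253, nat_lit 139623732405, nat_lit 139624252597, nat_lit 139621131445], [nat_lit 139620598837, nat_lit 139623719989, nat_lit 139621119029], [nat_lit 139620586421, nat_lit 139623187381], [nat_lit 139620574005, nat_lit 139622654773], [nat_lit 2181612213, nat_lit 2663093], [nat_lit 49717, nat_lit 2130485, nat_lit 565813], [nat_lit 557493, nat_lit 1597877, nat_lit 49713], [nat_lit 24885, nat_lit 1597873], [nat_lit 24881, nat_lit 1597869, nat_lit 1073581], [nat_lit 53], [nat_lit 49], [nat_lit 45], [nat_lit 41]] [])))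
(.node (nat_lit 649)
(.node (nat_lit 648)
(.leaf [[nat_lit 139620636085, nat_lit 139623757237, nat_lit 139625317813, nat_lit 139621156277], [nat_lit 139620623669, nat_lit 139623744821, nat_lit 139624785205, nat_lit 139621143861], [nat_lit 139620611253, nat_lit 139623732405, nat_lit 139624252597, nat_lit 139621131445], [nat_lit 139620598837, nat_lit 139623719989, nat_lit 139621119029], [nat_lit 139620586421, nat_lit 139623187381], [nat_lit 139620574005, nat_lit 139622654773], [nat_lit 1091097269, nat_lit 2663093, nat_lit 69810324273, nat_lit 840373], [nat_lit 49717, nat_lit 2130485, nat_lit 827957], [nat_lit 557493, nat_lit 1597877, nat_lit 49713], [nat_lit 24885, nat_lit 1597873], [nat_lit 24881, nat_lit 1597869, nat_lit 1073581], [nat_lit 53], [nat_lit 49], [nat_lit 45], [nat_lit 41]] [])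
(.leaf [[nat_lit 139620636085, nat_lit 139623757237, nat_lit 139625317813, nat_lit 139621156277], [nat_lit 139620623669, nat_lit 139623744821, nat_lit 139624785205, nat_lit 139621143861], [nat_lit 139620611253, nat_lit 139623732405, nat_lit 139624252597, nat_lit 139621131445], [nat_lit 139620598837, nat_lit 139623719989, nat_lit 139621119029], [nat_lit 139620586421, nat_lit 139623187381], [nat_lit 209431864117, nat_lit 69810324277, nat_lit 139622654773], [nat_lit 139620574001, nat_lit 2663093, nat_lit 1102517], [nat_lit 49717, nat_lit 2130485, nat_lit 827957], [nat_lit 557493, nat_lit 1597877, nat_lit 49713], [nat_lit 24885, nat_lit 1597873], [nat_lit 418861572897], [nat_lit 53], [nat_lit 49], [nat_lit 45], [nat_lit 41]] []))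
(.node (nat_lit 704)
(.leaf [[nat_lit 2181686709, nat_lit 2184807861, nat_lit 5858741], [nat_lit 2181674293, nat_lit 2185315637, nat_lit 5326133, nat_lit 2182194485], [nat_lit 2181661877, nat_lit 2185303221, nat_lit 2182182069, nat_lit 1095046325], [nat_lit 2181649461, nat_lit 2184770613, nat_lit 1094513717], [nat_lit 2181637045, nat_lit 2184238005, nat_lit 1093981109], [nat_lit 2181624629, nat_lit 3195701], [nat_lit 2181612213, nat_lit 2663093], [nat_lit 49717, nat_lit 2130485], [nat_lit 557493, nat_lit 1597877, nat_lit 49713], [nat_lit 24885, nat_lit 1597873], [nat_lit 24881, nat_lit 1597869], [nat_lit 53], [nat_lit 49], [nat_lit 45], [nat_lit 41], [nat_lit 37]] [])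
(.leaf [[nat_lit 2181686709, nat_lit 2185328053, nat_lit 5858741, nat_lit 2182206901], [nat_lit 2181674293, nat_lit 2185315637, nat_lit 5326133, nat_lit 2182194485], [nat_lit 2181661877, nat_lit 2185303221, nat_lit 2182182069, nat_lit 4793525], [nat_lit 2181649461, nat_lit 2184770613, nat_lit 4260917], [nat_lit 2181637045, nat_lit 2184238005, nat_lit 3728309], [nat_lit 2181624629, nat_lit 3195701], [nat_lit 2181612213, nat_lit 2663093], [nat_lit 49717, nat_lit 2130485], [nat_lit 557493, nat_lit 1597877, nat_lit 49713], [nat_lit 24885, nat_lit 1597873], [nat_lit 24881, nat_lit 1597869], [nat_lit 53], [nat_lit 49], [nat_lit 45], [nat_lit 41], [nat_lit 37]] []))))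
(.node (nat_lit 709)
(.node (nat_lit 707)
(.node (nat_lit 706)
(.leaf [[nat_lit 2181686709, nat_lit 2185328053, nat_lit 5858741, nat_lit 1092212149], [nat_lit 2181674293, nat_lit 2185315637, nat_lit 5326133, nat_lit 1092199733], [nat_lit 2181661877, nat_lit 2185303221, nat_lit 1092187317, nat_lit 1095046325], [nat_lit 2181649461, nat_lit 2184770613, nat_lit 1094513717, nat_lit 1091654709], [nat_lit 2181637045, nat_lit 2184238005, nat_lit 1093981109], [nat_lit 2181624629, nat_lit 3195701, nat_lit 1091629877], [nat_lit 2181612213, nat_lit 2663093], [nat_lit 49717, nat_lit 2130485], [nat_lit 557493, nat_lit 1597877, nat_lit 49713], [nat_lit 24885, nat_lit 1597873], [nat_lit 24881, nat_lit 1597869], [nat_lit 53], [nat_lit 49], [nat_lit 45], [nat_lit 41], [nat_lit 37]] [])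
(.leaf [[nat_lit 2181686709, nat_lit 2184807861, nat_lit 5858741, nat_lit 2182206901], [nat_lit 2181674293, nat_lit 2184795445, nat_lit 5326133, nat_lit 2182194485], [nat_lit 2181661877, nat_lit 2184783029, nat_lit 4793525, nat_lit 2182182069], [nat_lit 2181649461, nat_lit 2184770613, nat_lit 1094513717, nat_lit 2182169653], [nat_lit 2181637045, nat_lit 2184238005, nat_lit 1093981109], [nat_lit 2181624629, nat_lit 3195701, nat_lit 2182144821], [nat_lit 2181612213, nat_lit 2663093], [nat_lit 49717, nat_lit 2130485], [nat_lit 557493, nat_lit 1597877, nat_lit 49713], [nat_lit 24885, nat_lit 1597873], [nat_lit 24881, nat_lit 1597869], [nat_lit 53], [nat_lit 49], [nat_lit 45], [nat_lit 41], [nat_lit 37]] []))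
(.node (nat_lit 708)
(.leaf [[nat_lit 2181686709, nat_lit 2184807861, nat_lit 5858741, nat_lit 1091691957], [nat_lit 2181674293, nat_lit 2184795445, nat_lit 5326133, nat_lit 1091679541], [nat_lit 2181661877, nat_lit 2184783029, nat_lit 4793525, nat_lit 1091667125], [nat_lit 2181649461, nat_lit 2184770613, nat_lit 1091654709, nat_lit 4260917], [nat_lit 2181637045, nat_lit 2184238005, nat_lit 3728309], [nat_lit 2181624629, nat_lit 2183705397, nat_lit 3195701], [nat_lit 2181612213, nat_lit 2663093], [nat_lit 49717, nat_lit 2130485, nat_lit 565813], [nat_lit 557493, nat_lit 1597877, nat_lit 49713], [nat_lit 24885, nat_lit 1597873], [nat_lit 24881, nat_lit 1597869, nat_lit 16689], [nat_lit 53], [nat_lit 49], [nat_lit 45], [nat_lit 41], [nat_lit 37]] [])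
(.leaf [[nat_lit 2181686709, nat_lit 69813507509, nat_lit 69815588277, nat_lit 1091691957], [nat_lit 69810373941, nat_lit 69812974901, nat_lit 69815055669, nat_lit 1091159349], [nat_lit 2181661877, nat_lit 69813482677, nat_lit 69814523061, nat_lit 1091667125], [nat_lit 69810349109, nat_lit 69812950069, nat_lit 69813990453, nat_lit 1091134517], [nat_lit 2181637045, nat_lit 69813457845, nat_lit 1091642293], [nat_lit 70901359413, nat_lit 69812925237, nat_lit 74549], [nat_lit 2181612213, nat_lit 2663093], [nat_lit 49717, nat_lit 2130485, nat_lit 827957], [nat_lit 557493, nat_lit 1597877, nat_lit 49713], [nat_lit 24885, nat_lit 1597873], [nat_lit 24881, nat_lit 1597869, nat_lit 16689], [nat_lit 53], [nat_lit 49], [nat_lit 45], [nat_lit 41]] [])))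
(.node (nat_lit 711)
(.node (nat_lit 710)
(.leaf [[nat_lit 139620636085, nat_lit 139623757237, nat_lit 139625317813, nat_lit 139621156277], [nat_lit 139620623669, nat_lit 139623744821, nat_lit 139624785205, nat_lit 139621143861], [nat_lit 139620611253, nat_lit 139623732405, nat_lit 139624252597, nat_lit 139621131445], [nat_lit 139620598837, nat_lit 139623719989, nat_lit 139621119029], [nat_lit 139620586421, nat_lit 139623187381], [nat_lit 139620574005, nat_lit 139622654773], [nat_lit 2181612213, nat_lit 2663093], [nat_lit 49717, nat_lit 2130485, nat_lit 565813], [nat_lit 557493, nat_lit 1597877, nat_lit 49713], [nat_lit 24885, nat_lit 1597873], [nat_lit 24881, nat_lit 1597869, nat_lit 1073581], [nat_lit 53], [nat_lit 49], [nat_lit 45], [nat_lit 41]] [])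
(.leaf [[nat_lit 139620636085, nat_lit 139623757237, nat_lit 139625317813, nat_lit 139621156277], [nat_lit 139620623669, nat_lit 139623744821, nat_lit 139624785205, nat_lit 139621143861], [nat_lit 139620611253, nat_lit 139623732405, nat_lit 139624252597, nat_lit 139621131445], [nat_lit 139620598837, nat_lit 139623719989, nat_lit 139621119029], [nat_lit 139620586421, nat_lit 139623187381], [nat_lit 139620574005, nat_lit 139622654773], [nat_lit 2181612213, nat_lit 2663093], [nat_lit 49717, nat_lit 2130485, nat_lit 827957], [nat_lit 557493, nat_lit 1597877, nat_lit 49713], [nat_lit 24885, nat_lit 1597873], [nat_lit 24881, nat_lit 1597869, nat_lit 1073581], [nat_lit 53], [nat_lit 49], [nat_lit 45], [nat_lit 41]] []))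
(.node (nat_lit 712)
(.leaf [[nat_lit 139620636085, nat_lit 139623757237, nat_lit 139625317813, nat_lit 139621156277], [nat_lit 139620623669, nat_lit 139623744821, nat_lit 139624785205, nat_lit 139621143861], [nat_lit 139620611253, nat_lit 139623732405, nat_lit 139624252597, nat_lit 139621131445], [nat_lit 139620598837, nat_lit 139623719989, nat_lit 139621119029], [nat_lit 139620586421, nat_lit 139623187381], [nat_lit 209431864117, nat_lit 69810324277, nat_lit 139622654773], [nat_lit 2181612213, nat_lit 2663093, nat_lit 1091355317], [nat_lit 49717, nat_lit 2130485, nat_lit 827957], [nat_lit 557493, nat_lit 1597877, nat_lit 49713], [nat_lit 24885, nat_lit 1597873], [nat_lit 418861572897], [nat_lit 53], [nat_lit 49], [nat_lit 45], [nat_lit 41]] [])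
(.node (nat_lit 713)
(.leaf [[nat_lit 209430885813, nat_lit 209434527157, nat_lit 209435047349, nat_lit 209431406005], [nat_lit 209430873397, nat_lit 209434514741, nat_lit 209431393589], [nat_lit 209430860981, nat_lit 209433982133], [nat_lit 209430848565, nat_lit 209433449525], [nat_lit 209431356341, nat_lit 209432916917, nat_lit 139620586421], [nat_lit 209431864117, nat_lit 69810324277, nat_lit 139622654773], [nat_lit 139620574001, nat_lit 2663093, nat_lit 1102517], [nat_lit 49717, nat_lit 2130485, nat_lit 1090101], [nat_lit 557493, nat_lit 1597877, nat_lit 49713], [nat_lit 24885, nat_lit 1597873], [nat_lit 418861572897], [nat_lit 53], [nat_lit 49], [nat_lit 45], [nat_lit 41]] [])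
(.leaf [[nat_lit 209430885813, nat_lit 209434527157, nat_lit 209431926197, nat_lit 209435047349], [nat_lit 209430873397, nat_lit 209434514741, nat_lit 209431913781], [nat_lit 209430860981, nat_lit 209433982133, nat_lit 209431381173], [nat_lit 209430848565, nat_lit 209433449525], [nat_lit 209431356341, nat_lit 209432916917, nat_lit 139620586421], [nat_lit 279241073461, nat_lit 139622654773], [nat_lit 139620574001, nat_lit 2663093, nat_lit 1360565], [nat_lit 49717, nat_lit 2130485, nat_lit 827957], [nat_lit 557493, nat_lit 1597877, nat_lit 49713], [nat_lit 24885, nat_lit 1597873, nat_lit 16693], [nat_lit 418861572897], [nat_lit 53], [nat_lit 49], [nat_lit 45], [nat_lit 41]] []))))))))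

noncomputable def ct13 : Tc :=
(.node (nat_lit 578)
(.node (nat_lit 387)
(.node (nat_lit 258)
(.node (nat_lit 192)
(.node (nat_lit 128)
(.node (nat_lit 64)
(.leaf [[nat_lit 51688142, nat_lit 2663118, nat_lit 49746], [nat_lit 94, nat_lit 24918], [nat_lit 90, nat_lit 1597902], [nat_lit 86, nat_lit 1597898], [nat_lit 82], [nat_lit 78], [nat_lit 74], [nat_lit 70], [nat_lit 66], [nat_lit 62], [nat_lit 58], [nat_lit 53], [nat_lit 49], [nat_lit 45], [nat_lit 41]] [[], [], [], [], [], [], [], [], [], [], [], [], [], [], [nat_lit 335895, nat_lit 336150, nat_lit 336405, nat_lit 336532]])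
(.leaf [[nat_lit 1125167822, nat_lit 1110225738, nat_lit 1107870414, nat_lit 1091097294], [nat_lit 1125167818, nat_lit 1110225734, nat_lit 124213], [nat_lit 1126208198, nat_lit 17147061, nat_lit 1109426886, nat_lit 1091097286], [nat_lit 1126208194, nat_lit 99381, nat_lit 1091097282, nat_lit 1109426882], [nat_lit 1091097278, nat_lit 3728309, nat_lit 34157493, nat_lit 1092137662], [nat_lit 17109813, nat_lit 3195701, nat_lit 1635125], [nat_lit 17617589, nat_lit 2663093, nat_lit 74545], [nat_lit 35160629, nat_lit 49717, nat_lit 2130485], [nat_lit 1597877, nat_lit 49713], [nat_lit 24885, nat_lit 1597873], [nat_lit 24881, nat_lit 1597869], [nat_lit 53], [nat_lit 49], [nat_lit 45], [nat_lit 41], [nat_lit 37]] [[], [], [nat_lit 9094969183916], [nat_lit 9094969150890], [nat_lit 30542310313, nat_lit 30542310568], [nat_lit 26179185574], [nat_lit 21816060580], [], [], [nat_lit 13089777566], [nat_lit 13089744030, nat_lit 13089744285, nat_lit 13089744412, nat_lit 13089744540], [], [], [], [nat_lit 336532], [nat_lit 303251, nat_lit 303378, nat_lit 303506]]))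
(.node (nat_lit 129)
(.leaf [[nat_lit 69844394826, nat_lit 69813457862], [nat_lit 69810324294, nat_lit 69812925254], [nat_lit 69810324290, nat_lit 69812925250], [nat_lit 69810324286, nat_lit 69812925246], [nat_lit 34157493, nat_lit 20243381, nat_lit 3728309], [nat_lit 19710773, nat_lit 74549, nat_lit 3195701], [nat_lit 19178165, nat_lit 74545, nat_lit 2663093], [nat_lit 34120245, nat_lit 2130485], [nat_lit 557493, nat_lit 1597877, nat_lit 49713], [nat_lit 24885, nat_lit 1597873], [nat_lit 24881, nat_lit 1597869], [nat_lit 53], [nat_lit 49], [nat_lit 45], [nat_lit 41], [nat_lit 37]] [[], [], [], [], [], [], [], [], [], [], [], [], [], [], [], [nat_lit 303378], [nat_lit 270351, nat_lit 270352]])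
(.leaf [[nat_lit 2215682766, nat_lit 2216723150, nat_lit 2181612238], [nat_lit 2215682762, nat_lit 2216723146, nat_lit 124213], [nat_lit 2181612230, nat_lit 2216723142], [nat_lit 2181612226, nat_lit 4260917], [nat_lit 34157493, nat_lit 20243381, nat_lit 3728309, nat_lit 18162613], [nat_lit 17109813, nat_lit 3195701, nat_lit 17630005], [nat_lit 17617589, nat_lit 2663093, nat_lit 74545], [nat_lit 34120245, nat_lit 2130485], [nat_lit 557493, nat_lit 1597877, nat_lit 49713], [nat_lit 24885, nat_lit 1597873], [nat_lit 24881, nat_lit 1597869], [nat_lit 53], [nat_lit 49], [nat_lit 45], [nat_lit 41], [nat_lit 37]] [[], [], [], [nat_lit 34905435434], [], [], [], [], [], [], [nat_lit 13089744157, nat_lit 13089744412], [], [], [], [], [nat_lit 303123, nat_lit 303378], [nat_lit 270351, nat_lit 270352]])))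
(.node (nat_lit 194)
(.node (nat_lit 193)
(.leaf [[nat_lit 70918394698, nat_lit 5858741, nat_lit 17171893], [nat_lit 70901359430, nat_lit 5326133, nat_lit 124213], [nat_lit 70901359426, nat_lit 4793525, nat_lit 17147061], [nat_lit 17134645, nat_lit 20255797, nat_lit 4260917, nat_lit 17654837], [nat_lit 34157493, nat_lit 20243381, nat_lit 3728309], [nat_lit 17109813, nat_lit 3195701, nat_lit 17630005], [nat_lit 17617589, nat_lit 2663093, nat_lit 74545], [nat_lit 34120245, nat_lit 2130485], [nat_lit 557493, nat_lit 1597877, nat_lit 49713], [nat_lit 24885, nat_lit 1597873], [nat_lit 24881, nat_lit 1597869], [nat_lit 53], [nat_lit 49], [nat_lit 45], [nat_lit 41], [nat_lit 37]] [[], [], [], [], [], [], [], [], [], [], [], [], [], [], [], [], [nat_lit 270351]])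
(.leaf [[nat_lit 139654644554, nat_lit 139622654794, nat_lit 17171893], [nat_lit 139620574022, nat_lit 139622654790], [nat_lit 17147061, nat_lit 20268213, nat_lit 4793525, nat_lit 17667253], [nat_lit 17134645, nat_lit 20255797, nat_lit 4260917, nat_lit 17654837], [nat_lit 34157493, nat_lit 20243381, nat_lit 3728309], [nat_lit 17109813, nat_lit 19710773, nat_lit 3195701], [nat_lit 17617589, nat_lit 2663093, nat_lit 74545], [nat_lit 34120245, nat_lit 2130485], [nat_lit 557493, nat_lit 1597877, nat_lit 49713], [nat_lit 24885, nat_lit 1597873], [nat_lit 24881, nat_lit 1597869], [nat_lit 53], [nat_lit 49], [nat_lit 45], [nat_lit 41], [nat_lit 37]] [[], [], [], [], [], [], [], [], [], [], [], [], [], [], [], [], [nat_lit 270351]]))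
(.node (nat_lit 256)
(.leaf [[nat_lit 3273167566, nat_lit 17171893, nat_lit 3274752966], [nat_lit 3273167562, nat_lit 124213, nat_lit 5326133, nat_lit 3272643274], [nat_lit 3273167558, nat_lit 17147061, nat_lit 4793525], [nat_lit 3273167554, nat_lit 99381, nat_lit 4260917], [nat_lit 34157493, nat_lit 20243381, nat_lit 3728309], [nat_lit 17109813, nat_lit 3195701, nat_lit 17630005], [nat_lit 17617589, nat_lit 2663093, nat_lit 74545], [nat_lit 35160629, nat_lit 49717, nat_lit 2130485], [nat_lit 557493, nat_lit 1597877, nat_lit 49713], [nat_lit 24885, nat_lit 1597873], [nat_lit 24881, nat_lit 1597869], [nat_lit 53], [nat_lit 49], [nat_lit 45], [nat_lit 41], [nat_lit 37]] [[], [], [], [], [], [], [], [], [], [], [], [], [], [], [], [nat_lit 303250], [nat_lit 270351]])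
(.node (nat_lit 257)
(.leaf [[nat_lit 72008909642, nat_lit 5858741, nat_lit 17171893, nat_lit 71991870282], [nat_lit 17159477, nat_lit 20280629, nat_lit 5326133, nat_lit 17679669], [nat_lit 17147061, nat_lit 20268213, nat_lit 4793525, nat_lit 17667253], [nat_lit 17134645, nat_lit 20255797, nat_lit 4260917, nat_lit 17654837], [nat_lit 34157493, nat_lit 20243381, nat_lit 3728309], [nat_lit 17109813, nat_lit 19710773, nat_lit 3195701], [nat_lit 17617589, nat_lit 2663093, nat_lit 74545], [nat_lit 34120245, nat_lit 2130485], [nat_lit 557493, nat_lit 1597877, nat_lit 49713], [nat_lit 24885, nat_lit 1597873], [nat_lit 24881, nat_lit 1597869], [nat_lit 53], [nat_lit 49], [nat_lit 45], [nat_lit 41], [nat_lit 37]] [[], [], [], [], [], [], [], [], [], [], [], [], [], [], [], [], [nat_lit 270351]])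
(.leaf [[nat_lit 140712129354, nat_lit 17171893, nat_lit 5858741], [nat_lit 17159477, nat_lit 20280629, nat_lit 5326133, nat_lit 17679669], [nat_lit 17147061, nat_lit 20268213, nat_lit 4793525, nat_lit 17667253], [nat_lit 17134645, nat_lit 20255797, nat_lit 4260917, nat_lit 17654837], [nat_lit 34157493, nat_lit 20243381, nat_lit 3728309], [nat_lit 17109813, nat_lit 19710773, nat_lit 3195701], [nat_lit 17617589, nat_lit 2663093, nat_lit 74545], [nat_lit 34120245, nat_lit 2130485], [nat_lit 557493, nat_lit 1597877, nat_lit 49713], [nat_lit 24885, nat_lit 1597873], [nat_lit 24881, nat_lit 1597869], [nat_lit 53], [nat_lit 49], [nat_lit 45], [nat_lit 41], [nat_lit 37]] [])))))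
(.node (nat_lit 323)
(.node (nat_lit 320)
(.node (nat_lit 259)
(.leaf [[nat_lit 209431864138, nat_lit 17171893, nat_lit 5858741], [nat_lit 17159477, nat_lit 20280629, nat_lit 5326133, nat_lit 17679669], [nat_lit 17147061, nat_lit 20268213, nat_lit 4793525, nat_lit 17667253], [nat_lit 17134645, nat_lit 20255797, nat_lit 4260917, nat_lit 17654837], [nat_lit 34157493, nat_lit 20243381, nat_lit 3728309, nat_lit 17642421], [nat_lit 17109813, nat_lit 19710773, nat_lit 3195701], [nat_lit 17617589, nat_lit 2663093, nat_lit 74545], [nat_lit 34120245, nat_lit 2130485], [nat_lit 557493, nat_lit 1597877, nat_lit 49713], [nat_lit 24885, nat_lit 1597873], [nat_lit 24881, nat_lit 1597869], [nat_lit 53], [nat_lit 49], [nat_lit 45], [nat_lit 41], [nat_lit 37]] [])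
(.leaf [[nat_lit 4363682510, nat_lit 17171893, nat_lit 5858741, nat_lit 4363158222], [nat_lit 4363682506, nat_lit 124213, nat_lit 5326133, nat_lit 4363158218], [nat_lit 4363682502, nat_lit 17147061, nat_lit 4793525], [nat_lit 17134645, nat_lit 20255797, nat_lit 4260917, nat_lit 17654837], [nat_lit 34157493, nat_lit 20243381, nat_lit 3728309], [nat_lit 17109813, nat_lit 19710773, nat_lit 3195701], [nat_lit 17617589, nat_lit 2663093, nat_lit 74545], [nat_lit 34120245, nat_lit 2130485], [nat_lit 557493, nat_lit 1597877, nat_lit 49713], [nat_lit 24885, nat_lit 1597873], [nat_lit 24881, nat_lit 1597869], [nat_lit 53], [nat_lit 49], [nat_lit 45], [nat_lit 41], [nat_lit 37]] [[nat_lit 47994810415], [], [], [], [], [], [], [], [], [], [nat_lit 13089744411], [], [], [], [], [nat_lit 303377], [nat_lit 270351]]))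
(.node (nat_lit 321)
(.leaf [[nat_lit 21853621, nat_lit 17171893, nat_lit 19252661, nat_lit 5858741], [nat_lit 21321013, nat_lit 17159477, nat_lit 18720053, nat_lit 5326133], [nat_lit 17147061, nat_lit 20268213, nat_lit 4793525, nat_lit 17667253], [nat_lit 17134645, nat_lit 20255797, nat_lit 4260917, nat_lit 17654837], [nat_lit 34157493, nat_lit 20243381, nat_lit 3728309], [nat_lit 17109813, nat_lit 19710773, nat_lit 3195701], [nat_lit 1091097269, nat_lit 2663093, nat_lit 74545], [nat_lit 34120245, nat_lit 2130485], [nat_lit 557493, nat_lit 1597877, nat_lit 49713], [nat_lit 24885, nat_lit 1597873], [nat_lit 24881, nat_lit 1597869], [nat_lit 53], [nat_lit 49], [nat_lit 45], [nat_lit 41], [nat_lit 37]] [])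
(.node (nat_lit 322)
(.leaf [[nat_lit 17171893, nat_lit 20293045, nat_lit 5858741, nat_lit 17692085], [nat_lit 17159477, nat_lit 20280629, nat_lit 5326133, nat_lit 17679669], [nat_lit 17147061, nat_lit 20268213, nat_lit 4793525, nat_lit 17667253], [nat_lit 17134645, nat_lit 20255797, nat_lit 4260917, nat_lit 17654837], [nat_lit 34157493, nat_lit 20243381, nat_lit 3728309, nat_lit 17642421], [nat_lit 17109813, nat_lit 19710773, nat_lit 3195701], [nat_lit 17617589, nat_lit 2663093, nat_lit 74545], [nat_lit 35160629, nat_lit 49717, nat_lit 2130485], [nat_lit 557493, nat_lit 1597877, nat_lit 49713], [nat_lit 24885, nat_lit 1597873], [nat_lit 24881, nat_lit 1597869], [nat_lit 53], [nat_lit 49], [nat_lit 45], [nat_lit 41], [nat_lit 37]] [])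
(.leaf [[nat_lit 17171893, nat_lit 20293045, nat_lit 5858741, nat_lit 17692085], [nat_lit 17159477, nat_lit 20280629, nat_lit 5326133, nat_lit 17679669], [nat_lit 17147061, nat_lit 20268213, nat_lit 4793525, nat_lit 17667253], [nat_lit 17134645, nat_lit 20255797, nat_lit 4260917, nat_lit 17654837], [nat_lit 34157493, nat_lit 20243381, nat_lit 3728309, nat_lit 17642421], [nat_lit 17109813, nat_lit 19710773, nat_lit 3195701], [nat_lit 17617589, nat_lit 2663093, nat_lit 74545], [nat_lit 34120245, nat_lit 2130485], [nat_lit 557493, nat_lit 1597877, nat_lit 49713], [nat_lit 24885, nat_lit 1597873], [nat_lit 24881, nat_lit 1597869], [nat_lit 53], [nat_lit 49], [nat_lit 45], [nat_lit 41], [nat_lit 37]] []))))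
(.node (nat_lit 384)
(.node (nat_lit 324)
(.leaf [[nat_lit 17171893, nat_lit 20293045, nat_lit 5858741, nat_lit 18212277, nat_lit 20813237], [nat_lit 17159477, nat_lit 20280629, nat_lit 5326133, nat_lit 18199861], [nat_lit 17147061, nat_lit 20268213, nat_lit 4793525, nat_lit 18187445], [nat_lit 17134645, nat_lit 20255797, nat_lit 4260917, nat_lit 18175029], [nat_lit 34157493, nat_lit 20243381, nat_lit 18162613, nat_lit 3728309], [nat_lit 17109813, nat_lit 19710773, nat_lit 3195701, nat_lit 17630005], [nat_lit 17617589, nat_lit 2663093, nat_lit 74545], [nat_lit 34120245, nat_lit 2130485], [nat_lit 557493, nat_lit 1597877, nat_lit 49713], [nat_lit 24885, nat_lit 1597873], [nat_lit 24881, nat_lit 1597869], [nat_lit 53], [nat_lit 49], [nat_lit 45], [nat_lit 41], [nat_lit 37]] [])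
(.leaf [[nat_lit 5454730058, nat_lit 17171893, nat_lit 5858741, nat_lit 17692085], [nat_lit 17159477, nat_lit 20280629, nat_lit 5326133, nat_lit 17679669], [nat_lit 21308597, nat_lit 17147061, nat_lit 18707637, nat_lit 4793525], [nat_lit 20775989, nat_lit 17134645, nat_lit 18175029, nat_lit 4260917], [nat_lit 34157493, nat_lit 20243381, nat_lit 3728309], [nat_lit 17109813, nat_lit 19710773, nat_lit 3195701], [nat_lit 1091097269, nat_lit 2663093, nat_lit 74545], [nat_lit 35160629, nat_lit 49717, nat_lit 2130485], [nat_lit 557493, nat_lit 1597877, nat_lit 49713], [nat_lit 24885, nat_lit 1597873], [nat_lit 24881, nat_lit 1597869], [nat_lit 53], [nat_lit 49], [nat_lit 45], [nat_lit 41], [nat_lit 37]] []))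
(.node (nat_lit 385)
(.leaf [[nat_lit 17171893, nat_lit 20293045, nat_lit 5858741, nat_lit 17692085], [nat_lit 17159477, nat_lit 20280629, nat_lit 5326133, nat_lit 17679669], [nat_lit 17147061, nat_lit 20268213, nat_lit 4793525, nat_lit 17667253], [nat_lit 17134645, nat_lit 20255797, nat_lit 4260917, nat_lit 17654837], [nat_lit 34157493, nat_lit 20243381, nat_lit 3728309, nat_lit 17642421], [nat_lit 17109813, nat_lit 19710773, nat_lit 3195701], [nat_lit 1091097269, nat_lit 2663093, nat_lit 74545], [nat_lit 35160629, nat_lit 49717, nat_lit 2130485], [nat_lit 557493, nat_lit 1597877, nat_lit 49713], [nat_lit 24885, nat_lit 1597873], [nat_lit 24881, nat_lit 1597869], [nat_lit 53], [nat_lit 49], [nat_lit 45], [nat_lit 41], [nat_lit 37]] [])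
(.node (nat_lit 386)
(.leaf [[nat_lit 17171893, nat_lit 20293045, nat_lit 5858741, nat_lit 17692085], [nat_lit 17159477, nat_lit 20280629, nat_lit 5326133, nat_lit 17679669], [nat_lit 17147061, nat_lit 20268213, nat_lit 4793525, nat_lit 17667253], [nat_lit 17134645, nat_lit 20255797, nat_lit 4260917, nat_lit 17654837], [nat_lit 34157493, nat_lit 20243381, nat_lit 3728309, nat_lit 17642421], [nat_lit 17109813, nat_lit 19710773, nat_lit 3195701], [nat_lit 1091097269, nat_lit 2663093, nat_lit 74545], [nat_lit 34120245, nat_lit 2130485], [nat_lit 557493, nat_lit 1597877, nat_lit 49713], [nat_lit 24885, nat_lit 1597873], [nat_lit 24881, nat_lit 1597869], [nat_lit 53], [nat_lit 49], [nat_lit 45], [nat_lit 41], [nat_lit 37]] [])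
(.leaf [[nat_lit 17171893, nat_lit 20293045, nat_lit 5858741, nat_lit 18212277, nat_lit 20813237], [nat_lit 17159477, nat_lit 20280629, nat_lit 5326133, nat_lit 18199861], [nat_lit 17147061, nat_lit 20268213, nat_lit 4793525, nat_lit 18187445], [nat_lit 17134645, nat_lit 20255797, nat_lit 4260917, nat_lit 18175029], [nat_lit 34157493, nat_lit 20243381, nat_lit 18162613, nat_lit 3728309], [nat_lit 17109813, nat_lit 19710773, nat_lit 3195701, nat_lit 17630005], [nat_lit 17617589, nat_lit 2663093, nat_lit 74545], [nat_lit 34120245, nat_lit 2130485], [nat_lit 557493, nat_lit 1597877, nat_lit 49713], [nat_lit 24885, nat_lit 1597873], [nat_lit 24881, nat_lit 1597869], [nat_lit 53], [nat_lit 49], [nat_lit 45], [nat_lit 41], [nat_lit 37]] []))))))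
(.node (nat_lit 512)
(.node (nat_lit 450)
(.node (nat_lit 389)
(.node (nat_lit 388)
(.leaf [[nat_lit 17171893, nat_lit 19772853, nat_lit 22373813, nat_lit 5858741, nat_lit 17692085, nat_lit 20293045], [nat_lit 17159477, nat_lit 19760437, nat_lit 5326133, nat_lit 17679669, nat_lit 20280629], [nat_lit 17147061, nat_lit 19748021, nat_lit 4793525, nat_lit 17667253], [nat_lit 17134645, nat_lit 19735605, nat_lit 4260917, nat_lit 17654837], [nat_lit 34157493, nat_lit 20243381, nat_lit 18162613, nat_lit 3728309], [nat_lit 17109813, nat_lit 19710773, nat_lit 3195701, nat_lit 17630005], [nat_lit 1091097269, nat_lit 2663093, nat_lit 74545], [nat_lit 34120245, nat_lit 2130485], [nat_lit 557493, nat_lit 1597877, nat_lit 49713], [nat_lit 24885, nat_lit 1597873], [nat_lit 24881, nat_lit 1597869], [nat_lit 53], [nat_lit 49], [nat_lit 45], [nat_lit 41], [nat_lit 37]] [])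
(.leaf [[nat_lit 17171893, nat_lit 19772853, nat_lit 22373813, nat_lit 17692085, nat_lit 20293045, nat_lit 5858741], [nat_lit 17159477, nat_lit 19760437, nat_lit 21841205, nat_lit 17679669, nat_lit 5326133], [nat_lit 17147061, nat_lit 19748021, nat_lit 4793525, nat_lit 17667253], [nat_lit 17134645, nat_lit 19735605, nat_lit 4260917, nat_lit 17654837], [nat_lit 34157493, nat_lit 20243381, nat_lit 18162613, nat_lit 3728309], [nat_lit 17109813, nat_lit 19710773, nat_lit 17630005, nat_lit 3195701], [nat_lit 17617589, nat_lit 2663093, nat_lit 74545], [nat_lit 34120245, nat_lit 2130485], [nat_lit 557493, nat_lit 1597877, nat_lit 49713], [nat_lit 24885, nat_lit 1597873], [nat_lit 24881, nat_lit 1597869, nat_lit 16689], [nat_lit 53], [nat_lit 49], [nat_lit 45], [nat_lit 41], [nat_lit 37]] []))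
(.node (nat_lit 448)
(.leaf [[nat_lit 6544712398, nat_lit 17171893, nat_lit 656821], [nat_lit 17159477, nat_lit 21321013, nat_lit 2204981, nat_lit 5326133], [nat_lit 17147061, nat_lit 20268213, nat_lit 4793525, nat_lit 17667253], [nat_lit 17134645, nat_lit 20255797, nat_lit 4260917, nat_lit 17654837], [nat_lit 34157493, nat_lit 20243381, nat_lit 3728309, nat_lit 17642421], [nat_lit 17109813, nat_lit 19710773, nat_lit 3195701], [nat_lit 2181612213, nat_lit 2663093], [nat_lit 35160629, nat_lit 49717, nat_lit 2130485], [nat_lit 557493, nat_lit 1597877, nat_lit 49713], [nat_lit 24885, nat_lit 1597873], [nat_lit 24881, nat_lit 1597869], [nat_lit 53], [nat_lit 49], [nat_lit 45], [nat_lit 41], [nat_lit 37]] [])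
(.node (nat_lit 449)
(.leaf [[nat_lit 17171893, nat_lit 20293045, nat_lit 5858741, nat_lit 17692085], [nat_lit 17159477, nat_lit 20280629, nat_lit 5326133, nat_lit 17679669], [nat_lit 17147061, nat_lit 20268213, nat_lit 4793525, nat_lit 17667253], [nat_lit 17134645, nat_lit 20255797, nat_lit 4260917, nat_lit 17654837], [nat_lit 34157493, nat_lit 20243381, nat_lit 3728309, nat_lit 17642421], [nat_lit 17109813, nat_lit 19710773, nat_lit 3195701], [nat_lit 2181612213, nat_lit 2663093], [nat_lit 35160629, nat_lit 49717, nat_lit 2130485], [nat_lit 557493, nat_lit 1597877, nat_lit 49713], [nat_lit 24885, nat_lit 1597873], [nat_lit 24881, nat_lit 1597869], [nat_lit 53], [nat_lit 49], [nat_lit 45], [nat_lit 41], [nat_lit 37]] [])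
(.leaf [[nat_lit 17171893, nat_lit 20293045, nat_lit 5858741, nat_lit 18212277, nat_lit 20813237], [nat_lit 17159477, nat_lit 20280629, nat_lit 5326133, nat_lit 18199861], [nat_lit 17147061, nat_lit 20268213, nat_lit 4793525, nat_lit 18187445], [nat_lit 17134645, nat_lit 20255797, nat_lit 4260917, nat_lit 18175029], [nat_lit 34157493, nat_lit 20243381, nat_lit 18162613, nat_lit 3728309], [nat_lit 17109813, nat_lit 19710773, nat_lit 3195701, nat_lit 17630005], [nat_lit 2181612213, nat_lit 2663093], [nat_lit 34120245, nat_lit 2130485], [nat_lit 557493, nat_lit 1597877, nat_lit 49713], [nat_lit 24885, nat_lit 1597873], [nat_lit 24881, nat_lit 1597869], [nat_lit 53], [nat_lit 49], [nat_lit 45], [nat_lit 41], [nat_lit 37]] []))))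
(.node (nat_lit 452)
(.node (nat_lit 451)
(.leaf [[nat_lit 17171893, nat_lit 19772853, nat_lit 22373813, nat_lit 5858741, nat_lit 17692085, nat_lit 20293045], [nat_lit 17159477, nat_lit 19760437, nat_lit 5326133, nat_lit 17679669, nat_lit 20280629], [nat_lit 17147061, nat_lit 19748021, nat_lit 4793525, nat_lit 17667253], [nat_lit 17134645, nat_lit 19735605, nat_lit 4260917, nat_lit 17654837], [nat_lit 34157493, nat_lit 20243381, nat_lit 18162613, nat_lit 3728309], [nat_lit 17109813, nat_lit 19710773, nat_lit 3195701, nat_lit 17630005], [nat_lit 2181612213, nat_lit 2663093], [nat_lit 34120245, nat_lit 2130485], [nat_lit 557493, nat_lit 1597877, nat_lit 49713], [nat_lit 24885, nat_lit 1597873], [nat_lit 24881, nat_lit 1597869], [nat_lit 53], [nat_lit 49], [nat_lit 45], [nat_lit 41], [nat_lit 37]] [])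
(.leaf [[nat_lit 17171893, nat_lit 19772853, nat_lit 22373813, nat_lit 17692085, nat_lit 20293045, nat_lit 5858741], [nat_lit 17159477, nat_lit 19760437, nat_lit 21841205, nat_lit 17679669, nat_lit 5326133], [nat_lit 17147061, nat_lit 19748021, nat_lit 4793525, nat_lit 17667253], [nat_lit 17134645, nat_lit 19735605, nat_lit 4260917, nat_lit 17654837], [nat_lit 34157493, nat_lit 20243381, nat_lit 18162613, nat_lit 3728309], [nat_lit 17109813, nat_lit 19710773, nat_lit 17630005, nat_lit 3195701], [nat_lit 2181612213, nat_lit 2663093], [nat_lit 34120245, nat_lit 2130485], [nat_lit 557493, nat_lit 1597877, nat_lit 49713], [nat_lit 24885, nat_lit 1597873], [nat_lit 24881, nat_lit 1597869, nat_lit 16689], [nat_lit 53], [nat_lit 49], [nat_lit 45], [nat_lit 41], [nat_lit 37]] []))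
(.node (nat_lit 453)
(.leaf [[nat_lit 17171893, nat_lit 19772853, nat_lit 22373813, nat_lit 17692085, nat_lit 20293045, nat_lit 5858741], [nat_lit 17159477, nat_lit 19760437, nat_lit 21841205, nat_lit 17679669, nat_lit 5326133], [nat_lit 17147061, nat_lit 19748021, nat_lit 4793525, nat_lit 17667253], [nat_lit 17134645, nat_lit 19735605, nat_lit 4260917, nat_lit 17654837], [nat_lit 34157493, nat_lit 20243381, nat_lit 18162613, nat_lit 3728309], [nat_lit 17109813, nat_lit 19710773, nat_lit 17630005, nat_lit 3195701], [nat_lit 1091097269, nat_lit 2663093, nat_lit 1107870389], [nat_lit 34120245, nat_lit 2130485], [nat_lit 557493, nat_lit 1597877, nat_lit 49713], [nat_lit 24885, nat_lit 1597873], [nat_lit 24881, nat_lit 1597869, nat_lit 16689], [nat_lit 53], [nat_lit 49], [nat_lit 45], [nat_lit 41]] [])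
(.node (nat_lit 454)
(.leaf [[nat_lit 69810906549, nat_lit 69813507509, nat_lit 69815588277, nat_lit 17171893, nat_lit 18212277], [nat_lit 69810373941, nat_lit 69812974901, nat_lit 69815055669, nat_lit 17679669], [nat_lit 69810881717, nat_lit 69813482677, nat_lit 69814523061, nat_lit 17147061, nat_lit 18187445], [nat_lit 69810349109, nat_lit 69812950069, nat_lit 69813990453, nat_lit 17654837], [nat_lit 34157493, nat_lit 69813457845, nat_lit 18162613], [nat_lit 69810324277, nat_lit 69812925237, nat_lit 17630005], [nat_lit 17617589, nat_lit 2663093, nat_lit 74545], [nat_lit 34120245, nat_lit 2130485], [nat_lit 557493, nat_lit 1597877, nat_lit 49713], [nat_lit 24885, nat_lit 1597873], [nat_lit 24881, nat_lit 1597869, nat_lit 1073581], [nat_lit 53], [nat_lit 49], [nat_lit 45], [nat_lit 41]] [])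
(.leaf [[nat_lit 17171893, nat_lit 21853621, nat_lit 19252661, nat_lit 5858741], [nat_lit 1091159349, nat_lit 20280629, nat_lit 5326133, nat_lit 124213, nat_lit 17679669], [nat_lit 1091146933, nat_lit 1094268085, nat_lit 4793525, nat_lit 1091667125, nat_lit 17147061], [nat_lit 1091134517, nat_lit 1094255669, nat_lit 1091654709, nat_lit 4260917, nat_lit 99381], [nat_lit 34157493, nat_lit 20243381, nat_lit 3728309, nat_lit 17642421], [nat_lit 1091109685, nat_lit 3195701, nat_lit 74549, nat_lit 17630005], [nat_lit 2181612213, nat_lit 2663093], [nat_lit 35160629, nat_lit 49717, nat_lit 2130485], [nat_lit 557493, nat_lit 1597877, nat_lit 49713], [nat_lit 24885, nat_lit 1597873], [nat_lit 24881, nat_lit 1597869], [nat_lit 53], [nat_lit 49], [nat_lit 45], [nat_lit 41], [nat_lit 37]] [[], [], [], [], [], [], [], [], [], [], [], [], [], [], [], [nat_lit 303248]])))))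
(.node (nat_lit 517)
(.node (nat_lit 514)
(.node (nat_lit 513)
(.leaf [[nat_lit 1091171765, nat_lit 1094292917, nat_lit 5858741, nat_lit 1091691957, nat_lit 17171893], [nat_lit 1091159349, nat_lit 1094280501, nat_lit 5326133, nat_lit 1091679541, nat_lit 124213], [nat_lit 1091146933, nat_lit 1094268085, nat_lit 4793525, nat_lit 1091667125, nat_lit 17147061], [nat_lit 1091134517, nat_lit 1094255669, nat_lit 1091654709, nat_lit 4260917, nat_lit 99381], [nat_lit 34157493, nat_lit 1093723061, nat_lit 3728309], [nat_lit 1091109685, nat_lit 19710773, nat_lit 74549, nat_lit 3195701], [nat_lit 2181612213, nat_lit 2663093], [nat_lit 35160629, nat_lit 49717, nat_lit 2130485], [nat_lit 557493, nat_lit 1597877, nat_lit 49713], [nat_lit 24885, nat_lit 1597873], [nat_lit 24881, nat_lit 1597869], [nat_lit 53], [nat_lit 49], [nat_lit 45], [nat_lit 41], [nat_lit 37]] [])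
(.leaf [[nat_lit 17171893, nat_lit 19772853, nat_lit 22373813, nat_lit 5858741, nat_lit 17692085, nat_lit 20293045], [nat_lit 17159477, nat_lit 19760437, nat_lit 5326133, nat_lit 17679669, nat_lit 20280629], [nat_lit 17147061, nat_lit 19748021, nat_lit 4793525, nat_lit 17667253], [nat_lit 17134645, nat_lit 19735605, nat_lit 4260917, nat_lit 17654837], [nat_lit 34157493, nat_lit 20243381, nat_lit 18162613, nat_lit 3728309], [nat_lit 17109813, nat_lit 19710773, nat_lit 3195701, nat_lit 17630005], [nat_lit 2181612213, nat_lit 2663093], [nat_lit 35160629, nat_lit 49717, nat_lit 2130485], [nat_lit 557493, nat_lit 1597877, nat_lit 49713], [nat_lit 24885, nat_lit 1597873], [nat_lit 24881, nat_lit 1597869], [nat_lit 53], [nat_lit 49], [nat_lit 45], [nat_lit 41], [nat_lit 37]] []))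
(.node (nat_lit 515)
(.leaf [[nat_lit 17171893, nat_lit 19772853, nat_lit 22373813, nat_lit 17692085, nat_lit 20293045, nat_lit 5858741], [nat_lit 17159477, nat_lit 19760437, nat_lit 21841205, nat_lit 17679669, nat_lit 5326133], [nat_lit 17147061, nat_lit 19748021, nat_lit 4793525, nat_lit 17667253], [nat_lit 17134645, nat_lit 19735605, nat_lit 4260917, nat_lit 17654837], [nat_lit 34157493, nat_lit 20243381, nat_lit 18162613, nat_lit 3728309], [nat_lit 17109813, nat_lit 19710773, nat_lit 17630005, nat_lit 3195701], [nat_lit 2181612213, nat_lit 2663093], [nat_lit 34120245, nat_lit 2130485], [nat_lit 557493, nat_lit 1597877, nat_lit 49713], [nat_lit 24885, nat_lit 1597873], [nat_lit 24881, nat_lit 1597869, nat_lit 16689], [nat_lit 53], [nat_lit 49], [nat_lit 45], [nat_lit 41], [nat_lit 37]] [])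
(.node (nat_lit 516)
(.leaf [[nat_lit 17171893, nat_lit 19772853, nat_lit 22373813, nat_lit 17692085, nat_lit 20293045, nat_lit 5858741], [nat_lit 17159477, nat_lit 19760437, nat_lit 21841205, nat_lit 17679669, nat_lit 5326133], [nat_lit 17147061, nat_lit 19748021, nat_lit 4793525, nat_lit 17667253], [nat_lit 17134645, nat_lit 19735605, nat_lit 4260917, nat_lit 17654837], [nat_lit 34157493, nat_lit 20243381, nat_lit 18162613, nat_lit 3728309], [nat_lit 17109813, nat_lit 19710773, nat_lit 17630005, nat_lit 3195701], [nat_lit 2181612213, nat_lit 2663093], [nat_lit 35160629, nat_lit 49717, nat_lit 2130485], [nat_lit 557493, nat_lit 1597877, nat_lit 49713], [nat_lit 24885, nat_lit 1597873], [nat_lit 24881, nat_lit 1597869, nat_lit 16689], [nat_lit 53], [nat_lit 49], [nat_lit 45], [nat_lit 41]] [])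
(.leaf [[nat_lit 69810906549, nat_lit 69813507509, nat_lit 69815588277, nat_lit 17171893, nat_lit 18212277], [nat_lit 69810373941, nat_lit 69812974901, nat_lit 69815055669, nat_lit 17679669], [nat_lit 69810881717, nat_lit 69813482677, nat_lit 69814523061, nat_lit 17147061, nat_lit 18187445], [nat_lit 69810349109, nat_lit 69812950069, nat_lit 69813990453, nat_lit 17654837], [nat_lit 34157493, nat_lit 69813457845, nat_lit 18162613], [nat_lit 69810324277, nat_lit 69812925237, nat_lit 17630005], [nat_lit 2181612213, nat_lit 2663093], [nat_lit 35160629, nat_lit 49717, nat_lit 2130485], [nat_lit 557493, nat_lit 1597877, nat_lit 49713], [nat_lit 24885, nat_lit 1597873], [nat_lit 24881, nat_lit 1597869, nat_lit 1073581], [nat_lit 53], [nat_lit 49], [nat_lit 45], [nat_lit 41]] []))))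
(.node (nat_lit 519)
(.node (nat_lit 518)
(.leaf [[nat_lit 69810906549, nat_lit 69813507509, nat_lit 69815588277, nat_lit 17171893, nat_lit 69811426741], [nat_lit 69810373941, nat_lit 69812974901, nat_lit 69815055669, nat_lit 69810894133], [nat_lit 69810881717, nat_lit 69813482677, nat_lit 69814523061, nat_lit 17147061, nat_lit 69811401909], [nat_lit 69810349109, nat_lit 69812950069, nat_lit 69813990453, nat_lit 69810869301], [nat_lit 69827371957, nat_lit 69813457845, nat_lit 69811377077], [nat_lit 69827359541, nat_lit 69812925237], [nat_lit 1107870389, nat_lit 2663093, nat_lit 1091097269], [nat_lit 35160629, nat_lit 49717, nat_lit 2130485], [nat_lit 557493, nat_lit 1597877, nat_lit 49713], [nat_lit 24885, nat_lit 1597873], [nat_lit 24881, nat_lit 1597869, nat_lit 1073581], [nat_lit 53], [nat_lit 49], [nat_lit 45], [nat_lit 41]] [])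
(.leaf [[nat_lit 69827421621, nat_lit 69813507509, nat_lit 69815588277, nat_lit 69811426741], [nat_lit 69810373941, nat_lit 69812974901, nat_lit 69815055669, nat_lit 69810894133], [nat_lit 69827396789, nat_lit 69813482677, nat_lit 69814523061, nat_lit 69811401909], [nat_lit 69810349109, nat_lit 69812950069, nat_lit 69813990453, nat_lit 69810869301], [nat_lit 69827371957, nat_lit 69813457845, nat_lit 69811377077], [nat_lit 139620574005, nat_lit 69812925237], [nat_lit 17617589, nat_lit 2663093, nat_lit 69810324273, nat_lit 18137781], [nat_lit 34120245, nat_lit 2130485], [nat_lit 557493, nat_lit 1597877, nat_lit 49713], [nat_lit 24885, nat_lit 1597873], [nat_lit 24881, nat_lit 35160617, nat_lit 1597869], [nat_lit 53], [nat_lit 49], [nat_lit 45], [nat_lit 41]] []))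
(.node (nat_lit 576)
(.leaf [[nat_lit 1091171765, nat_lit 1094813109, nat_lit 5858741, nat_lit 1092212149, nat_lit 17171893], [nat_lit 1091159349, nat_lit 1094280501, nat_lit 5326133, nat_lit 1091679541, nat_lit 124213], [nat_lit 1091146933, nat_lit 1094268085, nat_lit 4793525, nat_lit 1091667125, nat_lit 17147061], [nat_lit 1091134517, nat_lit 1094255669, nat_lit 1091654709, nat_lit 4260917, nat_lit 99381], [nat_lit 2181637045, nat_lit 1093723061, nat_lit 3728309], [nat_lit 1091109685, nat_lit 3195701, nat_lit 74549, nat_lit 1091629877], [nat_lit 2181612213, nat_lit 2663093], [nat_lit 17084981, nat_lit 2130485], [nat_lit 557493, nat_lit 1597877, nat_lit 49713], [nat_lit 24885, nat_lit 1597873], [nat_lit 24881, nat_lit 1597869], [nat_lit 53], [nat_lit 49], [nat_lit 45], [nat_lit 41], [nat_lit 37]] [])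
(.node (nat_lit 577)
(.leaf [[nat_lit 1091171765, nat_lit 1094292917, nat_lit 5858741, nat_lit 1092212149, nat_lit 17171893], [nat_lit 1091159349, nat_lit 1094280501, nat_lit 5326133, nat_lit 1092199733, nat_lit 124213], [nat_lit 1091146933, nat_lit 1094268085, nat_lit 4793525, nat_lit 1092187317, nat_lit 17147061], [nat_lit 1091134517, nat_lit 1094255669, nat_lit 1092174901, nat_lit 4260917, nat_lit 99381], [nat_lit 2181637045, nat_lit 1093723061, nat_lit 3728309], [nat_lit 1091109685, nat_lit 3195701, nat_lit 74549, nat_lit 1091629877], [nat_lit 2181612213, nat_lit 2663093], [nat_lit 17084981, nat_lit 2130485], [nat_lit 557493, nat_lit 1597877, nat_lit 49713], [nat_lit 24885, nat_lit 1597873], [nat_lit 24881, nat_lit 1597869], [nat_lit 53], [nat_lit 49], [nat_lit 45], [nat_lit 41], [nat_lit 37]] [])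
(.leaf [[nat_lit 1091171765, nat_lit 1093772725, nat_lit 1095853493, nat_lit 5858741, nat_lit 17171893, nat_lit 1091691957], [nat_lit 1091159349, nat_lit 1093760309, nat_lit 5326133, nat_lit 124213, nat_lit 1091679541], [nat_lit 1091146933, nat_lit 1093747893, nat_lit 4793525, nat_lit 17147061, nat_lit 1091667125], [nat_lit 1091134517, nat_lit 1093735477, nat_lit 4260917, nat_lit 99381, nat_lit 1091654709], [nat_lit 2181637045, nat_lit 1093723061, nat_lit 3728309], [nat_lit 1091109685, nat_lit 1093190453, nat_lit 3195701, nat_lit 74549], [nat_lit 2181612213, nat_lit 2663093], [nat_lit 17084981, nat_lit 2130485], [nat_lit 557493, nat_lit 1597877, nat_lit 49713], [nat_lit 24885, nat_lit 1597873], [nat_lit 24881, nat_lit 1597869, nat_lit 16689], [nat_lit 53], [nat_lit 49], [nat_lit 45], [nat_lit 41], [nat_lit 37]] [])))))))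
(.node (nat_lit 706)
(.node (nat_lit 642)
(.node (nat_lit 582)
(.node (nat_lit 580)
(.node (nat_lit 579)
(.leaf [[nat_lit 1091171765, nat_lit 1093772725, nat_lit 1095853493, nat_lit 5858741, nat_lit 17171893, nat_lit 1091691957], [nat_lit 1091159349, nat_lit 1093760309, nat_lit 5326133, nat_lit 124213, nat_lit 1091679541], [nat_lit 1091146933, nat_lit 1093747893, nat_lit 4793525, nat_lit 17147061, nat_lit 1091667125], [nat_lit 1091134517, nat_lit 1093735477, nat_lit 4260917, nat_lit 99381, nat_lit 1091654709], [nat_lit 2181637045, nat_lit 1093723061, nat_lit 3728309, nat_lit 1091642293], [nat_lit 1091109685, nat_lit 1093190453, nat_lit 3195701, nat_lit 74549], [nat_lit 2181612213, nat_lit 2663093], [nat_lit 35160629, nat_lit 49717, nat_lit 2130485], [nat_lit 557493, nat_lit 1597877, nat_lit 49713], [nat_lit 24885, nat_lit 1597873], [nat_lit 24881, nat_lit 1597869, nat_lit 16689], [nat_lit 53], [nat_lit 49], [nat_lit 45], [nat_lit 41]] [])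
(.leaf [[nat_lit 1091171765, nat_lit 1093772725, nat_lit 1095853493, nat_lit 1096111541, nat_lit 17171893, nat_lit 1091691957], [nat_lit 1091159349, nat_lit 1093760309, nat_lit 5326133, nat_lit 124213, nat_lit 1091679541, nat_lit 1094280501], [nat_lit 1091146933, nat_lit 1093747893, nat_lit 4793525, nat_lit 17147061, nat_lit 1091667125], [nat_lit 1091134517, nat_lit 1093735477, nat_lit 4260917, nat_lit 99381, nat_lit 1091654709], [nat_lit 2181637045, nat_lit 1093723061, nat_lit 1093981109, nat_lit 1091642293], [nat_lit 1091109685, nat_lit 1093190453, nat_lit 1093448501, nat_lit 74549], [nat_lit 2181612213, nat_lit 2663093], [nat_lit 35160629, nat_lit 49717, nat_lit 2130485], [nat_lit 557493, nat_lit 1597877, nat_lit 49713], [nat_lit 24885, nat_lit 1597873], [nat_lit 24881, nat_lit 1597869, nat_lit 1073581], [nat_lit 53], [nat_lit 49], [nat_lit 45], [nat_lit 41]] []))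
(.node (nat_lit 581)
(.leaf [[nat_lit 69810906549, nat_lit 69813507509, nat_lit 69815588277, nat_lit 17171893, nat_lit 69811426741], [nat_lit 69810373941, nat_lit 69812974901, nat_lit 69815055669, nat_lit 69810894133], [nat_lit 69810881717, nat_lit 69813482677, nat_lit 69814523061, nat_lit 17147061, nat_lit 69811401909], [nat_lit 69810349109, nat_lit 69812950069, nat_lit 69813990453, nat_lit 69810869301], [nat_lit 69827371957, nat_lit 69813457845, nat_lit 69811377077], [nat_lit 69810324277, nat_lit 69812925237, nat_lit 1091629877], [nat_lit 2181612213, nat_lit 2663093], [nat_lit 35160629, nat_lit 49717, nat_lit 2130485], [nat_lit 557493, nat_lit 1597877, nat_lit 49713], [nat_lit 24885, nat_lit 1597873], [nat_lit 24881, nat_lit 1597869, nat_lit 1073581], [nat_lit 53], [nat_lit 49], [nat_lit 45], [nat_lit 41]] [])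
(.leaf [[nat_lit 69827421621, nat_lit 69813507509, nat_lit 69815588277, nat_lit 69811426741], [nat_lit 69810373941, nat_lit 69812974901, nat_lit 69815055669, nat_lit 69810894133], [nat_lit 69827396789, nat_lit 69813482677, nat_lit 69814523061, nat_lit 69811401909], [nat_lit 69810349109, nat_lit 69812950069, nat_lit 69813990453, nat_lit 69810869301], [nat_lit 69827371957, nat_lit 69813457845, nat_lit 69811377077], [nat_lit 139620574005, nat_lit 69812925237], [nat_lit 2181612213, nat_lit 2663093, nat_lit 18137781], [nat_lit 35160629, nat_lit 49717, nat_lit 2130485], [nat_lit 557493, nat_lit 1597877, nat_lit 49713], [nat_lit 24885, nat_lit 1597873], [nat_lit 24881, nat_lit 35160617, nat_lit 1597869], [nat_lit 53], [nat_lit 49], [nat_lit 45], [nat_lit 41]] [])))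
(.node (nat_lit 584)
(.node (nat_lit 583)
(.leaf [[nat_lit 139620636085, nat_lit 139623757237, nat_lit 139625317813, nat_lit 139621156277], [nat_lit 139620623669, nat_lit 139623744821, nat_lit 139624785205, nat_lit 139621143861], [nat_lit 139620611253, nat_lit 139623732405, nat_lit 139624252597, nat_lit 139621131445], [nat_lit 139620598837, nat_lit 139623719989, nat_lit 139621119029], [nat_lit 139620586421, nat_lit 139623187381], [nat_lit 139620574005, nat_lit 139622654773], [nat_lit 1107870389, nat_lit 19178165, nat_lit 1091097269, nat_lit 2663093], [nat_lit 35160629, nat_lit 49717, nat_lit 2130485], [nat_lit 557493, nat_lit 1597877, nat_lit 49713], [nat_lit 24885, nat_lit 1597873], [nat_lit 24881, nat_lit 35160617, nat_lit 1597869], [nat_lit 53], [nat_lit 49], [nat_lit 45], [nat_lit 41]] [])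
(.leaf [[nat_lit 139620636085, nat_lit 139623757237, nat_lit 139625317813, nat_lit 139621676469], [nat_lit 139620623669, nat_lit 139623744821, nat_lit 139624785205, nat_lit 139621664053], [nat_lit 139620611253, nat_lit 139623732405, nat_lit 139621651637, nat_lit 139624252597], [nat_lit 139620598837, nat_lit 139623719989, nat_lit 139621639221], [nat_lit 139620586421, nat_lit 139623187381, nat_lit 139621106613], [nat_lit 139620574005, nat_lit 139622654773], [nat_lit 139620574001, nat_lit 19178165, nat_lit 2663093, nat_lit 17617589], [nat_lit 35160629, nat_lit 49717, nat_lit 2130485], [nat_lit 557493, nat_lit 1597877, nat_lit 49713], [nat_lit 24885, nat_lit 1597873, nat_lit 16693], [nat_lit 24881, nat_lit 35160617, nat_lit 1597869, nat_lit 16689], [nat_lit 53], [nat_lit 49], [nat_lit 45], [nat_lit 41]] []))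
(.node (nat_lit 640)
(.leaf [[nat_lit 2181686709, nat_lit 2184807861, nat_lit 5858741, nat_lit 1091691957], [nat_lit 2181674293, nat_lit 2184795445, nat_lit 5326133, nat_lit 1091679541], [nat_lit 2181661877, nat_lit 2184783029, nat_lit 4793525, nat_lit 1091667125], [nat_lit 2181649461, nat_lit 2184770613, nat_lit 1094513717, nat_lit 1091654709], [nat_lit 2181637045, nat_lit 2184238005, nat_lit 1093981109], [nat_lit 2181624629, nat_lit 3195701, nat_lit 1091629877], [nat_lit 2181612213, nat_lit 2663093], [nat_lit 17084981, nat_lit 2130485], [nat_lit 557493, nat_lit 1597877, nat_lit 49713], [nat_lit 24885, nat_lit 1597873], [nat_lit 24881, nat_lit 1597869], [nat_lit 53], [nat_lit 49], [nat_lit 45], [nat_lit 41], [nat_lit 37]] [])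
(.node (nat_lit 641)
(.leaf [[nat_lit 2181686709, nat_lit 2184807861, nat_lit 5858741, nat_lit 2182206901], [nat_lit 2181674293, nat_lit 2184795445, nat_lit 5326133, nat_lit 2182194485], [nat_lit 2181661877, nat_lit 2184783029, nat_lit 4793525, nat_lit 2182182069], [nat_lit 2181649461, nat_lit 2184770613, nat_lit 2182169653, nat_lit 4260917], [nat_lit 2181637045, nat_lit 2184238005, nat_lit 3728309], [nat_lit 2181624629, nat_lit 2183705397, nat_lit 3195701], [nat_lit 2181612213, nat_lit 2663093], [nat_lit 17084981, nat_lit 2130485], [nat_lit 557493, nat_lit 1597877, nat_lit 49713], [nat_lit 24885, nat_lit 1597873], [nat_lit 24881, nat_lit 1597869, nat_lit 16689], [nat_lit 53], [nat_lit 49], [nat_lit 45], [nat_lit 41], [nat_lit 37]] [])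
(.leaf [[nat_lit 2181686709, nat_lit 2184807861, nat_lit 5858741, nat_lit 1091691957], [nat_lit 2181674293, nat_lit 2184795445, nat_lit 5326133, nat_lit 1091679541], [nat_lit 2181661877, nat_lit 2184783029, nat_lit 4793525, nat_lit 1091667125], [nat_lit 2181649461, nat_lit 2184770613, nat_lit 1091654709, nat_lit 1094513717], [nat_lit 2181637045, nat_lit 2184238005, nat_lit 1093981109], [nat_lit 2181624629, nat_lit 2183705397, nat_lit 1093448501], [nat_lit 2181612213, nat_lit 2663093], [nat_lit 17084981, nat_lit 2130485], [nat_lit 557493, nat_lit 1597877, nat_lit 49713], [nat_lit 24885, nat_lit 1597873], [nat_lit 24881, nat_lit 1597869, nat_lit 16689], [nat_lit 53], [nat_lit 49], [nat_lit 45], [nat_lit 41]] [])))))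
(.node (nat_lit 647)
(.node (nat_lit 644)
(.node (nat_lit 643)
(.leaf [[nat_lit 2181686709, nat_lit 2184807861, nat_lit 5858741, nat_lit 2182206901], [nat_lit 2181674293, nat_lit 2184795445, nat_lit 5326133, nat_lit 2182194485], [nat_lit 2181661877, nat_lit 2184783029, nat_lit 4793525, nat_lit 2182182069], [nat_lit 2181649461, nat_lit 2184770613, nat_lit 2182169653, nat_lit 1094513717], [nat_lit 2181637045, nat_lit 2184238005, nat_lit 1093981109], [nat_lit 2181624629, nat_lit 2183705397, nat_lit 1093448501], [nat_lit 2181612213, nat_lit 2663093], [nat_lit 17084981, nat_lit 2130485], [nat_lit 557493, nat_lit 1597877, nat_lit 49713], [nat_lit 24885, nat_lit 1597873], [nat_lit 24881, nat_lit 1597869, nat_lit 1073581], [nat_lit 53], [nat_lit 49], [nat_lit 45], [nat_lit 41]] [])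
(.leaf [[nat_lit 2181686709, nat_lit 2184807861, nat_lit 69815588277, nat_lit 1092212149], [nat_lit 2181674293, nat_lit 2184795445, nat_lit 69815055669, nat_lit 1092199733], [nat_lit 2181661877, nat_lit 2184783029, nat_lit 69814523061, nat_lit 1092187317], [nat_lit 2181649461, nat_lit 2184770613, nat_lit 1092174901, nat_lit 69813990453], [nat_lit 2181637045, nat_lit 2184238005, nat_lit 69813457845], [nat_lit 2181624629, nat_lit 69812925237], [nat_lit 2181612213, nat_lit 2663093], [nat_lit 17084981, nat_lit 2130485], [nat_lit 557493, nat_lit 1597877, nat_lit 49713], [nat_lit 24885, nat_lit 1597873], [nat_lit 24881, nat_lit 1597869, nat_lit 1073581], [nat_lit 53], [nat_lit 49], [nat_lit 45], [nat_lit 41]] []))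
(.node (nat_lit 645)
(.leaf [[nat_lit 69810906549, nat_lit 69813507509, nat_lit 69815588277, nat_lit 17171893, nat_lit 69811426741], [nat_lit 69810373941, nat_lit 69812974901, nat_lit 69815055669, nat_lit 69810894133], [nat_lit 69810881717, nat_lit 69813482677, nat_lit 69814523061, nat_lit 17147061, nat_lit 69811401909], [nat_lit 69810349109, nat_lit 69812950069, nat_lit 69813990453, nat_lit 69810869301], [nat_lit 2181637045, nat_lit 69813457845, nat_lit 69811377077], [nat_lit 70901359413, nat_lit 69812925237, nat_lit 74549], [nat_lit 2181612213, nat_lit 2663093, nat_lit 1091355317], [nat_lit 17084981, nat_lit 2130485, nat_lit 827957], [nat_lit 557493, nat_lit 1597877, nat_lit 49713], [nat_lit 24885, nat_lit 1597873], [nat_lit 24881, nat_lit 35160617, nat_lit 1597869], [nat_lit 53], [nat_lit 49], [nat_lit 45], [nat_lit 41]] [])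
(.node (nat_lit 646)
(.leaf [[nat_lit 139620636085, nat_lit 139623757237, nat_lit 139625317813, nat_lit 139621156277], [nat_lit 139620623669, nat_lit 139623744821, nat_lit 139624785205, nat_lit 139621143861], [nat_lit 139620611253, nat_lit 139623732405, nat_lit 139624252597, nat_lit 139621131445], [nat_lit 139620598837, nat_lit 139623719989, nat_lit 139621119029], [nat_lit 139620586421, nat_lit 139623187381], [nat_lit 139620574005, nat_lit 139622654773], [nat_lit 2181612213, nat_lit 2663093, nat_lit 1091355317], [nat_lit 17084981, nat_lit 2130485, nat_lit 827957], [nat_lit 557493, nat_lit 1597877, nat_lit 49713], [nat_lit 24885, nat_lit 1597873], [nat_lit 24881, nat_lit 35160617, nat_lit 1597869], [nat_lit 53], [nat_lit 49], [nat_lit 45], [nat_lit 41]] [])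
(.leaf [[nat_lit 139620636085, nat_lit 139623757237, nat_lit 139625317813, nat_lit 139621676469], [nat_lit 139620623669, nat_lit 139623744821, nat_lit 139624785205, nat_lit 139621664053], [nat_lit 139620611253, nat_lit 139623732405, nat_lit 139621651637, nat_lit 139624252597], [nat_lit 139620598837, nat_lit 139623719989, nat_lit 139621639221], [nat_lit 139620586421, nat_lit 139623187381, nat_lit 139621106613], [nat_lit 139620574005, nat_lit 139622654773], [nat_lit 2181612213, nat_lit 19178165, nat_lit 2663093], [nat_lit 17084981, nat_lit 2130485, nat_lit 827957], [nat_lit 557493, nat_lit 1597877, nat_lit 49713], [nat_lit 24885, nat_lit 1597873, nat_lit 16693], [nat_lit 24881, nat_lit 35160617, nat_lit 1597869, nat_lit 16689], [nat_lit 53], [nat_lit 49], [nat_lit 45], [nat_lit 41]] []))))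
(.node (nat_lit 649)
(.node (nat_lit 648)
(.leaf [[nat_lit 139620636085, nat_lit 139623237045, nat_lit 139625317813, nat_lit 139621156277], [nat_lit 139620623669, nat_lit 139623224629, nat_lit 139624785205, nat_lit 139621143861], [nat_lit 139620611253, nat_lit 139623212213, nat_lit 139624252597, nat_lit 139621131445], [nat_lit 139620598837, nat_lit 139623199797, nat_lit 139623719989, nat_lit 139621119029], [nat_lit 139620586421, nat_lit 139623187381, nat_lit 139621106613], [nat_lit 209431864117, nat_lit 69810324277, nat_lit 139622654773], [nat_lit 1107870389, nat_lit 19178165, nat_lit 1091097269, nat_lit 2663093], [nat_lit 17084981, nat_lit 2130485, nat_lit 17343029], [nat_lit 557493, nat_lit 1597877, nat_lit 49713], [nat_lit 24885, nat_lit 1597873, nat_lit 16693], [nat_lit 418861572897], [nat_lit 53], [nat_lit 49], [nat_lit 45]] [])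
(.leaf [[nat_lit 209430885813, nat_lit 209434006965, nat_lit 209435047349, nat_lit 209431406005], [nat_lit 209430873397, nat_lit 209433994549, nat_lit 209434514741, nat_lit 209431393589], [nat_lit 209430860981, nat_lit 209433982133, nat_lit 209431381173], [nat_lit 209430848565, nat_lit 209433449525], [nat_lit 209431356341, nat_lit 209432916917, nat_lit 139620586421], [nat_lit 209431864117, nat_lit 69810324277, nat_lit 139622654773], [nat_lit 139620574001, nat_lit 19178165, nat_lit 840373, nat_lit 2663093], [nat_lit 17084981, nat_lit 2130485, nat_lit 827957], [nat_lit 557493, nat_lit 1597877, nat_lit 49713], [nat_lit 24885, nat_lit 1597873, nat_lit 1073585], [nat_lit 418861572897], [nat_lit 53], [nat_lit 49], [nat_lit 45]] []))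
(.node (nat_lit 704)
(.leaf [[nat_lit 3276883381, nat_lit 2181686709, nat_lit 2183767477], [nat_lit 3276350773, nat_lit 2181674293, nat_lit 2183234869], [nat_lit 3275818165, nat_lit 2181661877, nat_lit 2182182069], [nat_lit 3275285557, nat_lit 2181649461], [nat_lit 3274752949, nat_lit 2181637045], [nat_lit 2181624629, nat_lit 2183705397, nat_lit 3195701], [nat_lit 3273167541, nat_lit 2181612213, nat_lit 2663093], [nat_lit 49717, nat_lit 2130485, nat_lit 565813], [nat_lit 557493, nat_lit 1597877, nat_lit 49713], [nat_lit 24885, nat_lit 1597873], [nat_lit 24881, nat_lit 1597869, nat_lit 16689], [nat_lit 53], [nat_lit 49], [nat_lit 45], [nat_lit 41], [nat_lit 37]] [])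
(.node (nat_lit 705)
(.leaf [[nat_lit 3276883381, nat_lit 2181686709, nat_lit 2183767477], [nat_lit 3276350773, nat_lit 2181674293, nat_lit 2183234869], [nat_lit 3275818165, nat_lit 2181661877, nat_lit 2182702261], [nat_lit 3275285557, nat_lit 2181649461, nat_lit 2182169653], [nat_lit 3274752949, nat_lit 2181637045], [nat_lit 2181624629, nat_lit 2183705397, nat_lit 1093448501], [nat_lit 3273167541, nat_lit 2181612213, nat_lit 2663093], [nat_lit 49717, nat_lit 2130485, nat_lit 827957], [nat_lit 557493, nat_lit 1597877, nat_lit 49713], [nat_lit 24885, nat_lit 1597873], [nat_lit 24881, nat_lit 1597869, nat_lit 16689], [nat_lit 53], [nat_lit 49], [nat_lit 45], [nat_lit 41]] [])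
(.leaf [[nat_lit 3276883381, nat_lit 2181686709, nat_lit 2183767477], [nat_lit 3276350773, nat_lit 2181674293, nat_lit 2183234869], [nat_lit 3275818165, nat_lit 2181661877, nat_lit 2182702261], [nat_lit 3275285557, nat_lit 2181649461, nat_lit 2182169653], [nat_lit 3274752949, nat_lit 2181637045], [nat_lit 2181624629, nat_lit 2183705397, nat_lit 1093448501], [nat_lit 3273167541, nat_lit 2181612213, nat_lit 2663093], [nat_lit 49717, nat_lit 2130485, nat_lit 565813], [nat_lit 557493, nat_lit 1597877, nat_lit 49713], [nat_lit 24885, nat_lit 1597873], [nat_lit 24881, nat_lit 1597869, nat_lit 1073581], [nat_lit 53], [nat_lit 49], [nat_lit 45], [nat_lit 41]] []))))))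
(.node (nat_lit 769)
(.node (nat_lit 711)
(.node (nat_lit 708)
(.node (nat_lit 707)
(.leaf [[nat_lit 3276883381, nat_lit 2181686709, nat_lit 2183767477], [nat_lit 3276350773, nat_lit 2181674293, nat_lit 2183234869], [nat_lit 3275818165, nat_lit 2181661877, nat_lit 2182702261], [nat_lit 3275285557, nat_lit 2181649461, nat_lit 2182169653], [nat_lit 3274752949, nat_lit 2181637045], [nat_lit 2181624629, nat_lit 2183705397, nat_lit 3195701], [nat_lit 3273167541, nat_lit 2181612213, nat_lit 2663093], [nat_lit 17084981, nat_lit 2130485], [nat_lit 557493, nat_lit 1597877, nat_lit 49713], [nat_lit 24885, nat_lit 1597873], [nat_lit 24881, nat_lit 1597869, nat_lit 1073581], [nat_lit 53], [nat_lit 49], [nat_lit 45], [nat_lit 41]] [])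
(.leaf [[nat_lit 2181686709, nat_lit 2184807861, nat_lit 69815588277, nat_lit 2182727093], [nat_lit 2181674293, nat_lit 2184795445, nat_lit 69815055669, nat_lit 2182714677], [nat_lit 2181661877, nat_lit 2184783029, nat_lit 69814523061, nat_lit 2182702261], [nat_lit 2181649461, nat_lit 2184770613, nat_lit 2182689845, nat_lit 1094513717], [nat_lit 2181637045, nat_lit 2184238005, nat_lit 1093981109, nat_lit 2182157237], [nat_lit 2181624629, nat_lit 69812925237, nat_lit 2182144821], [nat_lit 3273167541, nat_lit 2181612213, nat_lit 2663093], [nat_lit 49717, nat_lit 2130485, nat_lit 827957], [nat_lit 557493, nat_lit 1597877, nat_lit 49713], [nat_lit 24885, nat_lit 1597873], [nat_lit 24881, nat_lit 1597869, nat_lit 4363682469], [nat_lit 53], [nat_lit 49], [nat_lit 45], [nat_lit 41]] []))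
(.node (nat_lit 709)
(.leaf [[nat_lit 70901421493, nat_lit 70904542645, nat_lit 69815588277, nat_lit 2182727093, nat_lit 1090909621], [nat_lit 70901409077, nat_lit 70904530229, nat_lit 69815055669, nat_lit 2182714677, nat_lit 124213], [nat_lit 70901396661, nat_lit 70904517813, nat_lit 2182702261, nat_lit 70904775861, nat_lit 1090884789], [nat_lit 70901384245, nat_lit 70903985205, nat_lit 70904243253, nat_lit 99381, nat_lit 2182169653], [nat_lit 70901371829, nat_lit 2184238005, nat_lit 1090859957, nat_lit 70903710645], [nat_lit 70901359413, nat_lit 69812925237, nat_lit 74549], [nat_lit 2181612213, nat_lit 2663093, nat_lit 2181870261], [nat_lit 49717, nat_lit 2130485, nat_lit 1090101], [nat_lit 557493, nat_lit 1597877, nat_lit 49713], [nat_lit 24885, nat_lit 1597873], [nat_lit 4363682469, nat_lit 24881, nat_lit 1597869], [nat_lit 53], [nat_lit 49], [nat_lit 45], [nat_lit 41]] [])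
(.node (nat_lit 710)
(.leaf [[nat_lit 139620636085, nat_lit 139623757237, nat_lit 139625317813, nat_lit 70901941685], [nat_lit 139620623669, nat_lit 139623744821, nat_lit 139624785205, nat_lit 70901929269], [nat_lit 139620611253, nat_lit 139623732405, nat_lit 70901916853, nat_lit 139624252597], [nat_lit 139620598837, nat_lit 139623719989, nat_lit 70901904437], [nat_lit 139620586421, nat_lit 139623187381, nat_lit 70901371829], [nat_lit 139620574005, nat_lit 139622654773], [nat_lit 2181612213, nat_lit 2663093, nat_lit 2181870261], [nat_lit 17084981, nat_lit 2130485, nat_lit 565813], [nat_lit 557493, nat_lit 1597877, nat_lit 49713], [nat_lit 24885, nat_lit 1597873, nat_lit 16693], [nat_lit 418861572897, nat_lit 24881, nat_lit 1597869], [nat_lit 53], [nat_lit 49], [nat_lit 45], [nat_lit 41]] [])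
(.leaf [[nat_lit 139620636085, nat_lit 139623237045, nat_lit 139625317813, nat_lit 139621156277], [nat_lit 139620623669, nat_lit 139623224629, nat_lit 139624785205, nat_lit 139621143861], [nat_lit 139620611253, nat_lit 139623212213, nat_lit 139624252597, nat_lit 139621131445], [nat_lit 139620598837, nat_lit 139623199797, nat_lit 139623719989, nat_lit 139621119029], [nat_lit 139620586421, nat_lit 139623187381, nat_lit 139621106613], [nat_lit 209431864117, nat_lit 69810324277, nat_lit 139622654773], [nat_lit 2181612213, nat_lit 2663093, nat_lit 2181870261], [nat_lit 17084981, nat_lit 2130485, nat_lit 565813], [nat_lit 557493, nat_lit 1597877, nat_lit 49713], [nat_lit 24885, nat_lit 1597873, nat_lit 16693], [nat_lit 418861572897, nat_lit 1597869], [nat_lit 53], [nat_lit 49], [nat_lit 45]] []))))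
(.node (nat_lit 713)
(.node (nat_lit 712)
(.leaf [[nat_lit 209430885813, nat_lit 209434006965, nat_lit 209435047349, nat_lit 209431406005], [nat_lit 209430873397, nat_lit 209433994549, nat_lit 209434514741, nat_lit 209431393589], [nat_lit 209430860981, nat_lit 209433982133, nat_lit 209431381173], [nat_lit 209430848565, nat_lit 209433449525], [nat_lit 209431356341, nat_lit 209432916917, nat_lit 139620586421], [nat_lit 209431864117, nat_lit 69810324277, nat_lit 139622654773], [nat_lit 2181612213, nat_lit 2663093, nat_lit 1091875509], [nat_lit 17084981, nat_lit 2130485, nat_lit 827957], [nat_lit 557493, nat_lit 1597877, nat_lit 49713], [nat_lit 24885, nat_lit 1597873, nat_lit 1073585], [nat_lit 418861572897], [nat_lit 53], [nat_lit 49], [nat_lit 45]] [])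
(.leaf [[nat_lit 209430885813, nat_lit 209434006965, nat_lit 209435047349, nat_lit 209431406005], [nat_lit 209430873397, nat_lit 209433994549, nat_lit 209434514741, nat_lit 209431393589], [nat_lit 209430860981, nat_lit 209433982133, nat_lit 209431381173], [nat_lit 209430848565, nat_lit 209433449525], [nat_lit 209431356341, nat_lit 209432916917, nat_lit 139620586421], [nat_lit 279241073461, nat_lit 139622654773], [nat_lit 139620574001, nat_lit 1092395701, nat_lit 2663093, nat_lit 1102517], [nat_lit 17084981, nat_lit 2130485, nat_lit 1090101], [nat_lit 557493, nat_lit 1597877, nat_lit 49713], [nat_lit 24885, nat_lit 1597873, nat_lit 1073585], [nat_lit 418861572897], [nat_lit 53], [nat_lit 49], [nat_lit 45]] []))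
(.node (nat_lit 714)
(.leaf [[nat_lit 209430885813, nat_lit 209434006965, nat_lit 209435047349, nat_lit 209431406005], [nat_lit 209430873397, nat_lit 209433994549, nat_lit 209434514741, nat_lit 209431393589], [nat_lit 209430860981, nat_lit 209433982133, nat_lit 209431381173], [nat_lit 209430848565, nat_lit 209433449525], [nat_lit 279241085877, nat_lit 209432916917], [nat_lit 279241073461, nat_lit 279242113845], [nat_lit 279241073457, nat_lit 279242113841], [nat_lit 17084981, nat_lit 2130485, nat_lit 1090101], [nat_lit 557493, nat_lit 1597877, nat_lit 49713], [nat_lit 418861572901], [nat_lit 418861572897], [nat_lit 53], [nat_lit 49], [nat_lit 45]] [])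
(.node (nat_lit 768)
(.leaf [[nat_lit 3272721845, nat_lit 3275842997, nat_lit 3276883381, nat_lit 1090909621], [nat_lit 3272709429, nat_lit 3276350773, nat_lit 3273229621, nat_lit 124213], [nat_lit 3272697013, nat_lit 3275818165, nat_lit 1090884789], [nat_lit 3272684597, nat_lit 3275285557, nat_lit 99381], [nat_lit 3272672181, nat_lit 3274752949, nat_lit 1090859957], [nat_lit 3272659765, nat_lit 3195701, nat_lit 74549], [nat_lit 3273167541, nat_lit 2181612213, nat_lit 2663093], [nat_lit 49717, nat_lit 2130485, nat_lit 827957], [nat_lit 557493, nat_lit 1597877, nat_lit 49713], [nat_lit 24885, nat_lit 1597873], [nat_lit 24881, nat_lit 1597869, nat_lit 16689], [nat_lit 53], [nat_lit 49], [nat_lit 45], [nat_lit 41]] [])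
(.leaf [[nat_lit 3272721845, nat_lit 3276363189, nat_lit 3276883381, nat_lit 3273242037, nat_lit 2181686709], [nat_lit 3272709429, nat_lit 3276350773, nat_lit 3273229621, nat_lit 124213], [nat_lit 3272697013, nat_lit 3275818165, nat_lit 2181661877], [nat_lit 3272684597, nat_lit 3275285557, nat_lit 99381], [nat_lit 3272672181, nat_lit 3274752949, nat_lit 2181637045], [nat_lit 3272659765, nat_lit 3195701, nat_lit 74549], [nat_lit 3273167541, nat_lit 2181612213, nat_lit 2663093], [nat_lit 49717, nat_lit 2130485, nat_lit 565813], [nat_lit 557493, nat_lit 1597877, nat_lit 49713], [nat_lit 24885, nat_lit 1597873], [nat_lit 24881, nat_lit 1597869, nat_lit 1073581], [nat_lit 53], [nat_lit 49], [nat_lit 45], [nat_lit 41]] [])))))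
(.node (nat_lit 774)
(.node (nat_lit 771)
(.node (nat_lit 770)
(.leaf [[nat_lit 3272721845, nat_lit 3276363189, nat_lit 2183247285, nat_lit 3276883381, nat_lit 1090909621], [nat_lit 3272709429, nat_lit 3276350773, nat_lit 2183234869, nat_lit 124213], [nat_lit 3272697013, nat_lit 3275818165, nat_lit 1090884789, nat_lit 2182702261], [nat_lit 3272684597, nat_lit 3275285557, nat_lit 99381], [nat_lit 3272672181, nat_lit 3274752949, nat_lit 1090859957], [nat_lit 3272659765, nat_lit 3195701, nat_lit 74549], [nat_lit 3273167541, nat_lit 2181612213, nat_lit 2663093], [nat_lit 49717, nat_lit 2130485, nat_lit 827957], [nat_lit 557493, nat_lit 1597877, nat_lit 49713], [nat_lit 24885, nat_lit 1597873], [nat_lit 24881, nat_lit 1597869, nat_lit 1073581], [nat_lit 53], [nat_lit 49], [nat_lit 45], [nat_lit 41]] [])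
(.leaf [[nat_lit 3272721845, nat_lit 3275842997, nat_lit 3276883381, nat_lit 2181686709, nat_lit 3273242037], [nat_lit 3272709429, nat_lit 3275830581, nat_lit 3276350773, nat_lit 124213, nat_lit 3273229621], [nat_lit 3272697013, nat_lit 3275818165, nat_lit 2181661877, nat_lit 3273217205], [nat_lit 3272684597, nat_lit 3275285557, nat_lit 99381], [nat_lit 3272672181, nat_lit 3274752949, nat_lit 2181637045], [nat_lit 3272659765, nat_lit 3195701, nat_lit 74549], [nat_lit 3273167541, nat_lit 2181612213, nat_lit 2663093], [nat_lit 49717, nat_lit 2130485, nat_lit 827957], [nat_lit 557493, nat_lit 1597877, nat_lit 49713], [nat_lit 24885, nat_lit 1597873], [nat_lit 6544712357], [nat_lit 53], [nat_lit 49], [nat_lit 45], [nat_lit 41]] []))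
(.node (nat_lit 772)
(.leaf [[nat_lit 3272721845, nat_lit 3275842997, nat_lit 3276883381, nat_lit 1090909621, nat_lit 2182727093], [nat_lit 3272709429, nat_lit 3275830581, nat_lit 3276350773, nat_lit 1090897205, nat_lit 2182714677], [nat_lit 3272697013, nat_lit 3275818165, nat_lit 1090884789, nat_lit 2182702261], [nat_lit 3272684597, nat_lit 3275285557, nat_lit 1090872373], [nat_lit 3272672181, nat_lit 3274752949, nat_lit 1090859957], [nat_lit 3272659765, nat_lit 69812925237, nat_lit 74549], [nat_lit 3273167541, nat_lit 2181612213, nat_lit 2663093], [nat_lit 49717, nat_lit 2130485, nat_lit 1090101], [nat_lit 557493, nat_lit 1597877, nat_lit 49713], [nat_lit 24885, nat_lit 1597873], [nat_lit 6544712357], [nat_lit 53], [nat_lit 49], [nat_lit 45], [nat_lit 41]] [])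
(.node (nat_lit 773)
(.leaf [[nat_lit 3276883381, nat_lit 70901421493, nat_lit 2183767477, nat_lit 2181686709], [nat_lit 3276350773, nat_lit 70901409077, nat_lit 2183234869, nat_lit 69810373941], [nat_lit 3275818165, nat_lit 70901396661, nat_lit 2182702261, nat_lit 2181661877], [nat_lit 3275285557, nat_lit 70901384245, nat_lit 69810349109, nat_lit 2182169653], [nat_lit 3274752949, nat_lit 2181637045], [nat_lit 70901359413, nat_lit 69812925237, nat_lit 69810324277], [nat_lit 3273167541, nat_lit 2181612213, nat_lit 2663093], [nat_lit 49717, nat_lit 2130485, nat_lit 827957], [nat_lit 557493, nat_lit 1597877, nat_lit 49713], [nat_lit 24885, nat_lit 1597873, nat_lit 16693], [nat_lit 6544712357, nat_lit 24881, nat_lit 1597869], [nat_lit 53], [nat_lit 49], [nat_lit 45], [nat_lit 41]] [])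
(.leaf [[nat_lit 139620636085, nat_lit 139623237045, nat_lit 139625317813, nat_lit 70901421493], [nat_lit 139620623669, nat_lit 139623224629, nat_lit 139624785205, nat_lit 70901409077], [nat_lit 139620611253, nat_lit 139623212213, nat_lit 139624252597, nat_lit 70901396661], [nat_lit 139620598837, nat_lit 139623199797, nat_lit 139623719989, nat_lit 70901384245], [nat_lit 139620586421, nat_lit 139623187381, nat_lit 70901371829], [nat_lit 139620574005, nat_lit 139622654773], [nat_lit 3273167541, nat_lit 2181612213, nat_lit 2663093], [nat_lit 49717, nat_lit 2130485, nat_lit 1090101], [nat_lit 557493, nat_lit 1597877, nat_lit 49713], [nat_lit 24885, nat_lit 1597873, nat_lit 16693], [nat_lit 24881, nat_lit 4363682469, nat_lit 1597869], [nat_lit 53], [nat_lit 49], [nat_lit 45]] [[], [], [], [], [], [], [], [], [], [], [nat_lit 35747286786712]]))))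
(.node (nat_lit 776)
(.node (nat_lit 775)
(.leaf [[nat_lit 209430885813, nat_lit 209434006965, nat_lit 209435047349, nat_lit 209431406005], [nat_lit 209430873397, nat_lit 209433994549, nat_lit 209434514741, nat_lit 209431393589], [nat_lit 209430860981, nat_lit 209433982133, nat_lit 209431381173], [nat_lit 209430848565, nat_lit 209433449525], [nat_lit 209431356341, nat_lit 209432916917, nat_lit 139620586421], [nat_lit 209431864117, nat_lit 69810324277, nat_lit 139622654773], [nat_lit 2181612213, nat_lit 2663093, nat_lit 2182390453], [nat_lit 49717, nat_lit 2130485, nat_lit 1090101], [nat_lit 557493, nat_lit 1597877, nat_lit 49713], [nat_lit 24885, nat_lit 1597873, nat_lit 1073585], [nat_lit 418861572897], [nat_lit 53], [nat_lit 49], [nat_lit 45]] [])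
(.leaf [[nat_lit 209430885813, nat_lit 209434006965, nat_lit 209435047349, nat_lit 209431406005], [nat_lit 209430873397, nat_lit 209433994549, nat_lit 209434514741, nat_lit 209431393589], [nat_lit 209430860981, nat_lit 209433982133, nat_lit 209431381173], [nat_lit 209430848565, nat_lit 209433449525], [nat_lit 209431356341, nat_lit 209432916917, nat_lit 139620586421], [nat_lit 279241073461, nat_lit 139622654773], [nat_lit 2181612213, nat_lit 2663093, nat_lit 2182652597], [nat_lit 49717, nat_lit 2130485, nat_lit 1090101], [nat_lit 557493, nat_lit 1597877, nat_lit 49713], [nat_lit 24885, nat_lit 1597873, nat_lit 1073585], [nat_lit 418861572897], [nat_lit 53], [nat_lit 49], [nat_lit 45]] []))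
(.node (nat_lit 777)
(.leaf [[nat_lit 209430885813, nat_lit 209434006965, nat_lit 209435047349, nat_lit 209431406005], [nat_lit 209430873397, nat_lit 209433994549, nat_lit 209434514741, nat_lit 209431393589], [nat_lit 209430860981, nat_lit 209433982133, nat_lit 209431381173], [nat_lit 209430848565, nat_lit 209433449525], [nat_lit 279241085877, nat_lit 209432916917], [nat_lit 279241073461, nat_lit 279242113845], [nat_lit 279242113841, nat_lit 2181612213], [nat_lit 49717, nat_lit 2130485, nat_lit 1090101], [nat_lit 557493, nat_lit 1597877, nat_lit 49713], [nat_lit 418861572901], [nat_lit 418861572897], [nat_lit 53], [nat_lit 49], [nat_lit 45]] [])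
(.node (nat_lit 778)
(.leaf [[nat_lit 279241135541, nat_lit 279244776885, nat_lit 279241655733], [nat_lit 279241123125, nat_lit 279244244277], [nat_lit 279241110709, nat_lit 279243711669], [nat_lit 279241098293, nat_lit 279243179061], [nat_lit 279241085877, nat_lit 279242646453], [nat_lit 279241073461, nat_lit 279242113845], [nat_lit 279241073457, nat_lit 279242113841], [nat_lit 49717, nat_lit 2130485, nat_lit 1090101], [nat_lit 557493, nat_lit 1597877, nat_lit 49713], [nat_lit 418861572901], [nat_lit 418861572897], [nat_lit 53], [], [nat_lit 45]] [])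
(.leaf [[nat_lit 279241135541, nat_lit 279244776885, nat_lit 279242175925], [nat_lit 279241123125, nat_lit 279244244277, nat_lit 279241643317], [nat_lit 279241110709, nat_lit 279243711669], [nat_lit 279241098293, nat_lit 279243179061], [nat_lit 279241085877, nat_lit 279242646453], [nat_lit 279241073461, nat_lit 279242113845], [nat_lit 279241073457, nat_lit 279242113841], [nat_lit 1090101, nat_lit 2130485, nat_lit 49717, nat_lit 565813, nat_lit 1086005], [nat_lit 557493, nat_lit 1597877, nat_lit 49713, nat_lit 33205, nat_lit 1073589], [nat_lit 418861572901], [nat_lit 418861572897], [nat_lit 53], [], [nat_lit 45]] []))))))))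

noncomputable def ct14 : Tc :=
(.node (nat_lit 584)
(.node (nat_lit 448)
(.node (nat_lit 320)
(.node (nat_lit 193)
(.node (nat_lit 128)
(.node (nat_lit 64)
(.leaf [[nat_lit 68723406, nat_lit 2663118, nat_lit 17085010], [nat_lit 68190798, nat_lit 2663114], [nat_lit 90, nat_lit 49738], [nat_lit 86, nat_lit 1597898], [nat_lit 82], [nat_lit 78], [nat_lit 74], [nat_lit 70], [nat_lit 66], [nat_lit 62], [nat_lit 58], [nat_lit 53], [nat_lit 49], [nat_lit 45], [nat_lit 41]] [[], [], [], [], [], [], [], [], [], [], [], [], [], [nat_lit 369430], [nat_lit 335894, nat_lit 336149, nat_lit 336276, nat_lit 336404]])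
(.leaf [[nat_lit 1142203086, nat_lit 1110225738, nat_lit 1107870414, nat_lit 1091097294], [nat_lit 1125688010, nat_lit 1107870410, nat_lit 1110225734, nat_lit 1091097290], [nat_lit 1126208198, nat_lit 1091097286, nat_lit 1107870406, nat_lit 1126204102], [nat_lit 1109172930, nat_lit 99381, nat_lit 1110225726], [nat_lit 1126208190, nat_lit 34157493, nat_lit 3728309], [nat_lit 34145077, nat_lit 19710773, nat_lit 3195701, nat_lit 34665269], [nat_lit 34652853, nat_lit 2663093, nat_lit 74545], [nat_lit 35160629, nat_lit 49717, nat_lit 2130485], [nat_lit 1597877, nat_lit 49713, nat_lit 557493], [nat_lit 24885, nat_lit 1597873], [nat_lit 24881, nat_lit 1597869], [nat_lit 53], [nat_lit 49], [nat_lit 45], [nat_lit 41], [nat_lit 37]] [[], [], [], [nat_lit 9094969150634], [nat_lit 30542310312], [nat_lit 26179185318], [], [], [], [nat_lit 13089777310], [nat_lit 203826078, nat_lit 13089743901, nat_lit 13089744029, nat_lit 13089744156, nat_lit 13089744283, nat_lit 13089744284], [], [], [], [nat_lit 336276], [nat_lit 303122, nat_lit 303249, nat_lit 303250]]))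
(.node (nat_lit 129)
(.leaf [[nat_lit 69844915018, nat_lit 69813457862, nat_lit 69810324298], [nat_lit 69810324294, nat_lit 69812925254], [nat_lit 69810324290, nat_lit 69812925250], [nat_lit 69810324286, nat_lit 69812925246], [nat_lit 34157493, nat_lit 20243381, nat_lit 34677685, nat_lit 3728309], [nat_lit 34145077, nat_lit 3195701, nat_lit 34665269], [nat_lit 35693237, nat_lit 74545, nat_lit 2663093], [nat_lit 51155509, nat_lit 2130485], [nat_lit 557493, nat_lit 1597877, nat_lit 49713], [nat_lit 24885, nat_lit 1597873], [nat_lit 24881, nat_lit 1597869], [nat_lit 53], [nat_lit 49], [nat_lit 45], [nat_lit 41], [nat_lit 37]] [[], [], [], [], [], [], [], [], [], [], [], [], [], [], [], [nat_lit 303122]])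
(.node (nat_lit 192)
(.leaf [[nat_lit 2215682766, nat_lit 2216723150, nat_lit 2181612238], [nat_lit 2215682762, nat_lit 2216723146, nat_lit 2181612234], [nat_lit 2216723142, nat_lit 2181612230], [nat_lit 2181612226, nat_lit 2216723138], [nat_lit 2181612222, nat_lit 3728309], [nat_lit 34145077, nat_lit 19710773, nat_lit 3195701], [nat_lit 34652853, nat_lit 2663093, nat_lit 74545], [nat_lit 51155509, nat_lit 2130485], [nat_lit 557493, nat_lit 1597877, nat_lit 49713], [nat_lit 24885, nat_lit 1597873], [nat_lit 24881, nat_lit 1597869], [nat_lit 53], [nat_lit 49], [nat_lit 45], [nat_lit 41], [nat_lit 37]] [[], [], [], [], [], [], [], [], [], [], [nat_lit 13089743901, nat_lit 13089744156, nat_lit 13089744283], [], [], [], [], [nat_lit 303122, nat_lit 303249]])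
(.leaf [[nat_lit 70935429962, nat_lit 70920487878, nat_lit 17171893], [nat_lit 70901359430, nat_lit 5326133, nat_lit 124213], [nat_lit 70901359426, nat_lit 4793525, nat_lit 17147061], [nat_lit 34169909, nat_lit 37291061, nat_lit 4260917, nat_lit 34690101], [nat_lit 34157493, nat_lit 20243381, nat_lit 3728309, nat_lit 34677685], [nat_lit 34145077, nat_lit 3195701, nat_lit 34665269], [nat_lit 34652853, nat_lit 2663093, nat_lit 74545], [nat_lit 51155509, nat_lit 2130485], [nat_lit 557493, nat_lit 1597877, nat_lit 49713], [nat_lit 24885, nat_lit 1597873], [nat_lit 24881, nat_lit 1597869], [nat_lit 53], [nat_lit 49], [nat_lit 45], [nat_lit 41], [nat_lit 37]] [[], [], [], [], [], [], [], [], [], [], [], [], [], [], [], [nat_lit 303249]]))))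
(.node (nat_lit 257)
(.node (nat_lit 194)
(.leaf [[nat_lit 139654644554, nat_lit 139622654794], [nat_lit 139620574022, nat_lit 139622654790], [nat_lit 139620574018, nat_lit 139622654786], [nat_lit 34169909, nat_lit 37291061, nat_lit 4260917, nat_lit 34690101], [nat_lit 34157493, nat_lit 36758453, nat_lit 3728309], [nat_lit 34145077, nat_lit 19710773, nat_lit 3195701], [nat_lit 34652853, nat_lit 2663093, nat_lit 74545], [nat_lit 51155509, nat_lit 2130485], [nat_lit 557493, nat_lit 1597877, nat_lit 49713], [nat_lit 24885, nat_lit 1597873], [nat_lit 24881, nat_lit 1597869], [nat_lit 53], [nat_lit 49], [nat_lit 45], [nat_lit 41], [nat_lit 37]] [])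
(.node (nat_lit 256)
(.leaf [[nat_lit 3273167566, nat_lit 17171893, nat_lit 3274752966], [nat_lit 3273167562, nat_lit 124213, nat_lit 5326133], [nat_lit 3273167558, nat_lit 17147061, nat_lit 4793525], [nat_lit 3273167554, nat_lit 99381, nat_lit 4260917], [nat_lit 36758453, nat_lit 34157493, nat_lit 3728309], [nat_lit 34145077, nat_lit 3195701, nat_lit 34665269], [nat_lit 34652853, nat_lit 2663093, nat_lit 74545], [nat_lit 51155509, nat_lit 2130485], [nat_lit 557493, nat_lit 1597877, nat_lit 49713], [nat_lit 24885, nat_lit 1597873], [nat_lit 24881, nat_lit 1597869], [nat_lit 53], [nat_lit 49], [nat_lit 45], [nat_lit 41], [nat_lit 37]] [[nat_lit 26826776301487], [nat_lit 43631685293], [nat_lit 39268560299], [], [], [], [], [], [], [], [nat_lit 13089744283], [], [], [], [], [nat_lit 303249]])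
(.leaf [[nat_lit 72008909642, nat_lit 72026985290, nat_lit 17171893], [nat_lit 71992394566, nat_lit 5326133, nat_lit 124213], [nat_lit 34182325, nat_lit 37303477, nat_lit 4793525, nat_lit 34702517], [nat_lit 34169909, nat_lit 37291061, nat_lit 4260917, nat_lit 34690101], [nat_lit 34157493, nat_lit 36758453, nat_lit 3728309], [nat_lit 34145077, nat_lit 19710773, nat_lit 3195701], [nat_lit 34652853, nat_lit 2663093, nat_lit 74545], [nat_lit 51155509, nat_lit 2130485], [nat_lit 557493, nat_lit 1597877, nat_lit 49713], [nat_lit 24885, nat_lit 1597873], [nat_lit 24881, nat_lit 1597869], [nat_lit 53], [nat_lit 49], [nat_lit 45], [nat_lit 41], [nat_lit 37]] [])))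
(.node (nat_lit 258)
(.leaf [[nat_lit 140728644426, nat_lit 5858741, nat_lit 17171893], [nat_lit 34194741, nat_lit 37315893, nat_lit 5326133, nat_lit 34714933], [nat_lit 34182325, nat_lit 37303477, nat_lit 4793525, nat_lit 34702517], [nat_lit 34169909, nat_lit 37291061, nat_lit 4260917, nat_lit 34690101], [nat_lit 34157493, nat_lit 36758453, nat_lit 3728309], [nat_lit 34145077, nat_lit 19710773, nat_lit 3195701], [nat_lit 34652853, nat_lit 2663093, nat_lit 74545], [nat_lit 51155509, nat_lit 2130485], [nat_lit 557493, nat_lit 1597877, nat_lit 49713], [nat_lit 24885, nat_lit 1597873], [nat_lit 24881, nat_lit 1597869], [nat_lit 53], [nat_lit 49], [nat_lit 45], [nat_lit 41], [nat_lit 37]] [])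
(.node (nat_lit 259)
(.leaf [[nat_lit 209447859018, nat_lit 55924149], [nat_lit 55391541, nat_lit 34194741, nat_lit 35755317], [nat_lit 54858933, nat_lit 34182325, nat_lit 35222709], [nat_lit 54326325, nat_lit 34169909, nat_lit 34690101], [nat_lit 53793717, nat_lit 34157493], [nat_lit 53261109, nat_lit 17109813], [nat_lit 34652853, nat_lit 2663093, nat_lit 74545], [nat_lit 51155509, nat_lit 2130485], [nat_lit 557493, nat_lit 1597877, nat_lit 49713], [nat_lit 24885, nat_lit 1597873], [nat_lit 24881, nat_lit 1597869, nat_lit 16689], [nat_lit 53], [nat_lit 49], [nat_lit 45], [nat_lit 41], [nat_lit 37]] [])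
(.leaf [[nat_lit 4363682510, nat_lit 17171893, nat_lit 5858741, nat_lit 4363158222], [nat_lit 4363682506, nat_lit 124213, nat_lit 5326133, nat_lit 4363158218], [nat_lit 4363682502, nat_lit 17147061, nat_lit 4793525], [nat_lit 34169909, nat_lit 37291061, nat_lit 34690101, nat_lit 4260917], [nat_lit 34157493, nat_lit 36758453, nat_lit 3728309], [nat_lit 34145077, nat_lit 19710773, nat_lit 3195701], [nat_lit 34652853, nat_lit 2663093, nat_lit 74545], [nat_lit 51155509, nat_lit 2130485], [nat_lit 557493, nat_lit 1597877, nat_lit 49713], [nat_lit 24885, nat_lit 1597873], [nat_lit 24881, nat_lit 1597869], [nat_lit 53], [nat_lit 49], [nat_lit 45], [nat_lit 41], [nat_lit 37]] [[], [], [], [], [], [], [], [], [], [], [], [], [], [], [], [nat_lit 303121]])))))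
(.node (nat_lit 384)
(.node (nat_lit 322)
(.node (nat_lit 321)
(.leaf [[nat_lit 73082909514, nat_lit 5858741, nat_lit 17171893, nat_lit 18732469], [nat_lit 37836085, nat_lit 34194741, nat_lit 35235125, nat_lit 5326133], [nat_lit 34182325, nat_lit 37303477, nat_lit 4793525, nat_lit 34702517], [nat_lit 34169909, nat_lit 37291061, nat_lit 4260917, nat_lit 34690101], [nat_lit 34157493, nat_lit 36758453, nat_lit 3728309], [nat_lit 34145077, nat_lit 19710773, nat_lit 3195701], [nat_lit 34652853, nat_lit 2663093, nat_lit 1107870389, nat_lit 1091097269], [nat_lit 51155509, nat_lit 2130485], [nat_lit 557493, nat_lit 1597877, nat_lit 49713], [nat_lit 24885, nat_lit 1597873], [nat_lit 24881, nat_lit 1597869], [nat_lit 53], [nat_lit 49], [nat_lit 45], [nat_lit 41], [nat_lit 37]] [])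
(.leaf [[nat_lit 34207157, nat_lit 37328309, nat_lit 5858741, nat_lit 34727349], [nat_lit 34194741, nat_lit 37315893, nat_lit 5326133, nat_lit 34714933], [nat_lit 34182325, nat_lit 37303477, nat_lit 4793525, nat_lit 34702517], [nat_lit 34169909, nat_lit 37291061, nat_lit 34690101, nat_lit 4260917], [nat_lit 34157493, nat_lit 36758453, nat_lit 3728309], [nat_lit 34145077, nat_lit 19710773, nat_lit 3195701], [nat_lit 34652853, nat_lit 2663093, nat_lit 74545], [nat_lit 51155509, nat_lit 2130485], [nat_lit 557493, nat_lit 1597877, nat_lit 49713], [nat_lit 24885, nat_lit 1597873], [nat_lit 24881, nat_lit 1597869, nat_lit 16689], [nat_lit 53], [nat_lit 49], [nat_lit 45], [nat_lit 41], [nat_lit 37]] []))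
(.node (nat_lit 323)
(.leaf [[nat_lit 34207157, nat_lit 37328309, nat_lit 5858741, nat_lit 34727349], [nat_lit 34194741, nat_lit 37315893, nat_lit 5326133, nat_lit 34714933], [nat_lit 34182325, nat_lit 37303477, nat_lit 4793525, nat_lit 34702517], [nat_lit 34169909, nat_lit 37291061, nat_lit 34690101, nat_lit 4260917], [nat_lit 34157493, nat_lit 36758453, nat_lit 3728309], [nat_lit 34145077, nat_lit 19710773, nat_lit 3195701], [nat_lit 34652853, nat_lit 2663093, nat_lit 17109809], [nat_lit 51155509, nat_lit 2130485], [nat_lit 557493, nat_lit 1597877, nat_lit 17084977], [nat_lit 24885, nat_lit 1597873], [nat_lit 24881, nat_lit 1597869, nat_lit 16689], [nat_lit 53], [nat_lit 49], [nat_lit 45], [nat_lit 41]] [])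
(.node (nat_lit 324)
(.leaf [[nat_lit 55924149, nat_lit 34207157, nat_lit 36287925, nat_lit 36808117], [nat_lit 55391541, nat_lit 34194741, nat_lit 36275509], [nat_lit 54858933, nat_lit 34182325, nat_lit 35742901], [nat_lit 54326325, nat_lit 34169909, nat_lit 35210293], [nat_lit 53793717, nat_lit 34157493, nat_lit 34677685], [nat_lit 53261109, nat_lit 17109813], [nat_lit 34652853, nat_lit 2663093, nat_lit 17109809], [nat_lit 51155509, nat_lit 2130485], [nat_lit 557493, nat_lit 1597877, nat_lit 17084977], [nat_lit 24885, nat_lit 1597873], [nat_lit 24881, nat_lit 1597869, nat_lit 1073581], [nat_lit 53], [nat_lit 49], [nat_lit 45], [nat_lit 41]] [])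
(.leaf [[nat_lit 5454730058, nat_lit 34207157, nat_lit 5858741, nat_lit 5454467914], [nat_lit 34194741, nat_lit 37315893, nat_lit 5326133, nat_lit 34714933], [nat_lit 34182325, nat_lit 37303477, nat_lit 4793525, nat_lit 34702517], [nat_lit 37291061, nat_lit 34169909, nat_lit 34690101, nat_lit 4260917], [nat_lit 36758453, nat_lit 34157493, nat_lit 3728309], [nat_lit 35185461, nat_lit 3195701, nat_lit 74549], [nat_lit 2181612213, nat_lit 2663093], [nat_lit 51155509, nat_lit 2130485], [nat_lit 557493, nat_lit 1597877, nat_lit 49713], [nat_lit 24885, nat_lit 1597873], [nat_lit 24881, nat_lit 1597869], [nat_lit 53], [nat_lit 49], [nat_lit 45], [nat_lit 41], [nat_lit 37]] []))))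
(.node (nat_lit 387)
(.node (nat_lit 385)
(.leaf [[nat_lit 34207157, nat_lit 37328309, nat_lit 5858741, nat_lit 34727349], [nat_lit 34194741, nat_lit 37315893, nat_lit 5326133, nat_lit 34714933], [nat_lit 34182325, nat_lit 37303477, nat_lit 4793525, nat_lit 34702517], [nat_lit 34169909, nat_lit 37291061, nat_lit 34690101, nat_lit 4260917], [nat_lit 34157493, nat_lit 36758453, nat_lit 3728309], [nat_lit 34145077, nat_lit 19710773, nat_lit 3195701], [nat_lit 2181612213, nat_lit 2663093], [nat_lit 51155509, nat_lit 2130485], [nat_lit 557493, nat_lit 1597877, nat_lit 49713], [nat_lit 24885, nat_lit 1597873], [nat_lit 24881, nat_lit 1597869, nat_lit 16689], [nat_lit 53], [nat_lit 49], [nat_lit 45], [nat_lit 41], [nat_lit 37]] [])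
(.node (nat_lit 386)
(.leaf [[nat_lit 34207157, nat_lit 37328309, nat_lit 5858741, nat_lit 34727349], [nat_lit 34194741, nat_lit 37315893, nat_lit 5326133, nat_lit 34714933], [nat_lit 34182325, nat_lit 37303477, nat_lit 4793525, nat_lit 34702517], [nat_lit 34169909, nat_lit 37291061, nat_lit 34690101, nat_lit 4260917], [nat_lit 34157493, nat_lit 36758453, nat_lit 3728309], [nat_lit 34145077, nat_lit 19710773, nat_lit 3195701], [nat_lit 34652853, nat_lit 2663093, nat_lit 1107870389, nat_lit 1091097269], [nat_lit 51155509, nat_lit 2130485], [nat_lit 557493, nat_lit 1597877, nat_lit 17084977], [nat_lit 24885, nat_lit 1597873], [nat_lit 24881, nat_lit 1597869, nat_lit 16689], [nat_lit 53], [nat_lit 49], [nat_lit 45], [nat_lit 41]] [])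
(.leaf [[nat_lit 55924149, nat_lit 34207157, nat_lit 36287925, nat_lit 36808117], [nat_lit 55391541, nat_lit 34194741, nat_lit 36275509], [nat_lit 54858933, nat_lit 34182325, nat_lit 35742901], [nat_lit 54326325, nat_lit 34169909, nat_lit 35210293], [nat_lit 53793717, nat_lit 34157493, nat_lit 34677685], [nat_lit 53261109, nat_lit 17109813], [nat_lit 2181612213, nat_lit 2663093], [nat_lit 51155509, nat_lit 2130485], [nat_lit 557493, nat_lit 1597877, nat_lit 17084977], [nat_lit 24885, nat_lit 1597873], [nat_lit 24881, nat_lit 1597869, nat_lit 1073581], [nat_lit 53], [nat_lit 49], [nat_lit 45], [nat_lit 41]] [])))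
(.node (nat_lit 388)
(.leaf [[nat_lit 55924149, nat_lit 34207157, nat_lit 36287925, nat_lit 36808117], [nat_lit 55391541, nat_lit 34194741, nat_lit 36275509], [nat_lit 54858933, nat_lit 34182325, nat_lit 35742901], [nat_lit 54326325, nat_lit 34169909, nat_lit 35210293], [nat_lit 53793717, nat_lit 34157493, nat_lit 34677685], [nat_lit 53261109, nat_lit 17109813], [nat_lit 34652853, nat_lit 2663093, nat_lit 1107870389, nat_lit 1091097269], [nat_lit 51155509, nat_lit 2130485], [nat_lit 557493, nat_lit 1597877, nat_lit 17084977], [nat_lit 24885, nat_lit 1597873], [nat_lit 24881, nat_lit 1597869, nat_lit 1073581], [nat_lit 53], [nat_lit 49], [nat_lit 45], [nat_lit 41]] [])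
(.node (nat_lit 389)
(.leaf [[nat_lit 55924149, nat_lit 34207157, nat_lit 36287925, nat_lit 36808117], [nat_lit 55391541, nat_lit 34194741, nat_lit 36275509], [nat_lit 54858933, nat_lit 34182325, nat_lit 35742901], [nat_lit 54326325, nat_lit 34169909, nat_lit 35210293], [nat_lit 53793717, nat_lit 34157493, nat_lit 34677685], [nat_lit 53261109, nat_lit 34145077], [nat_lit 34652853, nat_lit 2663093, nat_lit 17109809], [nat_lit 51155509, nat_lit 2130485], [nat_lit 557493, nat_lit 1597877, nat_lit 17084977], [nat_lit 24885, nat_lit 1597873], [nat_lit 102261289], [nat_lit 53], [nat_lit 49], [nat_lit 45], [nat_lit 41]] [])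
(.leaf [[nat_lit 6544712398, nat_lit 17171893], [nat_lit 6544712394, nat_lit 124213, nat_lit 5326133], [nat_lit 34182325, nat_lit 37303477, nat_lit 4793525, nat_lit 34702517], [nat_lit 34169909, nat_lit 37291061, nat_lit 34690101, nat_lit 4260917], [nat_lit 34157493, nat_lit 36758453, nat_lit 3728309], [nat_lit 34145077, nat_lit 19710773, nat_lit 3195701], [nat_lit 2181612213, nat_lit 2663093], [nat_lit 34120245, nat_lit 2130485], [nat_lit 557493, nat_lit 1597877, nat_lit 49713], [nat_lit 24885, nat_lit 1597873], [nat_lit 24881, nat_lit 1597869, nat_lit 16689], [nat_lit 53], [nat_lit 49], [nat_lit 45], [nat_lit 41]] [[], [], [], [], [], [], [], [], [], [], [], [], [], [], [], [nat_lit 303120]]))))))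
(.node (nat_lit 516)
(.node (nat_lit 453)
(.node (nat_lit 450)
(.node (nat_lit 449)
(.leaf [[nat_lit 34207157, nat_lit 37328309, nat_lit 5858741, nat_lit 34727349], [nat_lit 34194741, nat_lit 37315893, nat_lit 5326133, nat_lit 34714933], [nat_lit 34182325, nat_lit 37303477, nat_lit 4793525, nat_lit 34702517], [nat_lit 34169909, nat_lit 37291061, nat_lit 34690101, nat_lit 4260917], [nat_lit 34157493, nat_lit 36758453, nat_lit 3728309], [nat_lit 34145077, nat_lit 19710773, nat_lit 3195701], [nat_lit 2181612213, nat_lit 2663093], [nat_lit 34120245, nat_lit 2130485], [nat_lit 557493, nat_lit 1597877, nat_lit 49713], [nat_lit 24885, nat_lit 1597873], [nat_lit 24881, nat_lit 1597869, nat_lit 16689], [nat_lit 53], [nat_lit 49], [nat_lit 45], [nat_lit 41]] [])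
(.leaf [[nat_lit 34207157, nat_lit 37328309, nat_lit 5858741, nat_lit 35247541, nat_lit 37848501], [nat_lit 34194741, nat_lit 37315893, nat_lit 5326133, nat_lit 35235125], [nat_lit 34182325, nat_lit 37303477, nat_lit 4793525, nat_lit 35222709], [nat_lit 34169909, nat_lit 37291061, nat_lit 35210293, nat_lit 37549109], [nat_lit 34157493, nat_lit 36758453, nat_lit 37016501, nat_lit 34677685], [nat_lit 34145077, nat_lit 19710773, nat_lit 36483893], [nat_lit 2181612213, nat_lit 2663093], [nat_lit 51155509, nat_lit 2130485], [nat_lit 557493, nat_lit 1597877, nat_lit 17084977], [nat_lit 24885, nat_lit 1597873], [nat_lit 24881, nat_lit 1597869, nat_lit 1073581], [nat_lit 53], [nat_lit 49], [nat_lit 45], [nat_lit 41]] []))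
(.node (nat_lit 451)
(.leaf [[nat_lit 55924149, nat_lit 34207157, nat_lit 36287925, nat_lit 36808117], [nat_lit 55391541, nat_lit 34194741, nat_lit 36275509], [nat_lit 54858933, nat_lit 34182325, nat_lit 35742901], [nat_lit 54326325, nat_lit 34169909, nat_lit 35210293], [nat_lit 53793717, nat_lit 34157493, nat_lit 34677685], [nat_lit 53261109, nat_lit 17109813], [nat_lit 2181612213, nat_lit 2663093], [nat_lit 51155509, nat_lit 2130485], [nat_lit 557493, nat_lit 1597877, nat_lit 17084977], [nat_lit 24885, nat_lit 1597873], [nat_lit 24881, nat_lit 1597869, nat_lit 1073581], [nat_lit 53], [nat_lit 49], [nat_lit 45], [nat_lit 41]] [])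
(.node (nat_lit 452)
(.leaf [[nat_lit 55924149, nat_lit 34207157, nat_lit 36287925, nat_lit 36808117], [nat_lit 55391541, nat_lit 34194741, nat_lit 36275509], [nat_lit 54858933, nat_lit 34182325, nat_lit 35742901], [nat_lit 54326325, nat_lit 34169909, nat_lit 35210293], [nat_lit 53793717, nat_lit 34157493, nat_lit 34677685], [nat_lit 53261109, nat_lit 34145077], [nat_lit 2181612213, nat_lit 2663093, nat_lit 34652853], [nat_lit 51155509, nat_lit 2130485], [nat_lit 557493, nat_lit 1597877, nat_lit 17084977], [nat_lit 24885, nat_lit 1597873], [nat_lit 102261289], [nat_lit 53], [nat_lit 49], [nat_lit 45], [nat_lit 41]] [])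
(.leaf [[nat_lit 55924149, nat_lit 34207157, nat_lit 36287925, nat_lit 36808117], [nat_lit 55391541, nat_lit 34194741, nat_lit 36275509], [nat_lit 54858933, nat_lit 34182325, nat_lit 35742901], [nat_lit 54326325, nat_lit 34169909, nat_lit 35210293], [nat_lit 53793717, nat_lit 34157493, nat_lit 34677685], [nat_lit 53261109, nat_lit 34145077], [nat_lit 34652853, nat_lit 2663093, nat_lit 1107870389, nat_lit 1091097269], [nat_lit 51155509, nat_lit 2130485], [nat_lit 557493, nat_lit 1597877, nat_lit 17084977], [nat_lit 24885, nat_lit 1597873], [nat_lit 102261289], [nat_lit 53], [nat_lit 49], [nat_lit 45], [nat_lit 41]] []))))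
(.node (nat_lit 513)
(.node (nat_lit 454)
(.leaf [[nat_lit 69827421621, nat_lit 69830022581, nat_lit 69832103349, nat_lit 34727349, nat_lit 69815588277], [nat_lit 69827409205, nat_lit 69830010165, nat_lit 69815055669, nat_lit 34714933], [nat_lit 69827396789, nat_lit 69829997749, nat_lit 69814523061, nat_lit 34702517], [nat_lit 69827384373, nat_lit 69829985333, nat_lit 69813990453, nat_lit 34690101], [nat_lit 69827371957, nat_lit 69829972917, nat_lit 34677685, nat_lit 69813457845], [nat_lit 69827359541, nat_lit 69829440309, nat_lit 69812925237], [nat_lit 34652853, nat_lit 2663093, nat_lit 69810324273], [nat_lit 51155509, nat_lit 2130485], [nat_lit 34120241, nat_lit 1597877], [nat_lit 24885, nat_lit 1597873, nat_lit 16693], [nat_lit 102261289], [nat_lit 53], [nat_lit 49], [nat_lit 45], [nat_lit 41]] [])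
(.node (nat_lit 512)
(.leaf [[nat_lit 1108207029, nat_lit 1112368565, nat_lit 36287925, nat_lit 1112888757, nat_lit 17171893], [nat_lit 1108194613, nat_lit 37315893, nat_lit 1112356149, nat_lit 124213, nat_lit 34714933], [nat_lit 1108182197, nat_lit 1111303349, nat_lit 1111823541, nat_lit 1108702389, nat_lit 17147061], [nat_lit 1108169781, nat_lit 1111290933, nat_lit 1108689973, nat_lit 99381], [nat_lit 1108157365, nat_lit 1110758325, nat_lit 1090859957], [nat_lit 1108144949, nat_lit 1110225717, nat_lit 74549], [nat_lit 2181612213, nat_lit 2663093], [nat_lit 34120245, nat_lit 2130485], [nat_lit 557493, nat_lit 1597877, nat_lit 49713], [nat_lit 24885, nat_lit 1597873], [nat_lit 24881, nat_lit 1597869, nat_lit 16689], [nat_lit 53], [nat_lit 49], [nat_lit 45], [nat_lit 41]] [])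
(.leaf [[nat_lit 1108207029, nat_lit 1111328181, nat_lit 1112888757, nat_lit 1108727221, nat_lit 17171893], [nat_lit 1108194613, nat_lit 1111315765, nat_lit 1112356149, nat_lit 1108714805, nat_lit 124213], [nat_lit 1108182197, nat_lit 1111303349, nat_lit 1111823541, nat_lit 1108702389, nat_lit 17147061], [nat_lit 1108169781, nat_lit 1111290933, nat_lit 1108689973, nat_lit 99381], [nat_lit 1108157365, nat_lit 1110758325, nat_lit 34157493], [nat_lit 1108144949, nat_lit 1110225717, nat_lit 74549], [nat_lit 2181612213, nat_lit 2663093], [nat_lit 34120245, nat_lit 2130485], [nat_lit 557493, nat_lit 1597877, nat_lit 49713], [nat_lit 24885, nat_lit 1597873], [nat_lit 24881, nat_lit 1597869, nat_lit 1073581], [nat_lit 53], [nat_lit 49], [nat_lit 45], [nat_lit 41]] [])))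
(.node (nat_lit 514)
(.leaf [[nat_lit 1112888757, nat_lit 34207157, nat_lit 36808117, nat_lit 34727349], [nat_lit 1112356149, nat_lit 34194741, nat_lit 36275509], [nat_lit 1111823541, nat_lit 34182325, nat_lit 35742901], [nat_lit 1111290933, nat_lit 34169909, nat_lit 35210293], [nat_lit 1110758325, nat_lit 34157493, nat_lit 34677685], [nat_lit 1110225717, nat_lit 34145077], [nat_lit 2181612213, nat_lit 2663093], [nat_lit 34120245, nat_lit 2130485], [nat_lit 557493, nat_lit 1597877, nat_lit 17084977], [nat_lit 24885, nat_lit 1597873], [nat_lit 24881, nat_lit 1597869, nat_lit 1073581], [nat_lit 53], [nat_lit 49], [nat_lit 45], [nat_lit 41]] [])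
(.node (nat_lit 515)
(.leaf [[nat_lit 1112888757, nat_lit 34207157, nat_lit 36808117, nat_lit 34727349], [nat_lit 1112356149, nat_lit 34194741, nat_lit 36275509], [nat_lit 1111823541, nat_lit 34182325, nat_lit 35742901], [nat_lit 1111290933, nat_lit 34169909, nat_lit 35210293], [nat_lit 1110758325, nat_lit 34157493, nat_lit 34677685], [nat_lit 1110225717, nat_lit 34145077], [nat_lit 2181612213, nat_lit 2663093, nat_lit 34652853], [nat_lit 51155509, nat_lit 2130485], [nat_lit 557493, nat_lit 1597877, nat_lit 17084977], [nat_lit 24885, nat_lit 1597873], [nat_lit 24881, nat_lit 35160617, nat_lit 1597869], [nat_lit 53], [nat_lit 49], [nat_lit 45], [nat_lit 41]] [])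
(.leaf [[nat_lit 1112888757, nat_lit 34207157, nat_lit 36808117, nat_lit 34727349, nat_lit 20293045], [nat_lit 1112356149, nat_lit 34194741, nat_lit 36275509, nat_lit 19760437], [nat_lit 1111823541, nat_lit 34182325, nat_lit 19227829], [nat_lit 1111290933, nat_lit 34169909, nat_lit 18695221], [nat_lit 1110758325, nat_lit 34157493, nat_lit 18162613], [nat_lit 1110225717, nat_lit 34145077, nat_lit 17630005], [nat_lit 2181612213, nat_lit 2663093, nat_lit 34652853], [nat_lit 51155509, nat_lit 2130485], [nat_lit 557493, nat_lit 1597877, nat_lit 17084977], [nat_lit 24885, nat_lit 1597873], [nat_lit 24881, nat_lit 35160617, nat_lit 1597869], [nat_lit 53], [nat_lit 49], [nat_lit 45], [nat_lit 41]] [])))))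
(.node (nat_lit 578)
(.node (nat_lit 519)
(.node (nat_lit 517)
(.leaf [[nat_lit 69827421621, nat_lit 69830022581, nat_lit 69832103349, nat_lit 34727349, nat_lit 69815588277], [nat_lit 69827409205, nat_lit 69830010165, nat_lit 69815055669, nat_lit 34714933], [nat_lit 69827396789, nat_lit 69829997749, nat_lit 69814523061, nat_lit 34702517], [nat_lit 69827384373, nat_lit 69829985333, nat_lit 69813990453, nat_lit 34690101], [nat_lit 69827371957, nat_lit 69829972917, nat_lit 34677685, nat_lit 69813457845], [nat_lit 69827359541, nat_lit 69829440309, nat_lit 69812925237], [nat_lit 2181612213, nat_lit 19178165, nat_lit 2663093], [nat_lit 51155509, nat_lit 2130485], [nat_lit 557493, nat_lit 1597877, nat_lit 17084977], [nat_lit 24885, nat_lit 1597873, nat_lit 16693], [nat_lit 24881, nat_lit 35160617, nat_lit 1597869, nat_lit 16689], [nat_lit 53], [nat_lit 49], [nat_lit 45], [nat_lit 41]] [])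
(.node (nat_lit 518)
(.leaf [[nat_lit 69827421621, nat_lit 69830022581, nat_lit 69832103349, nat_lit 69827941813, nat_lit 69815588277], [nat_lit 69827409205, nat_lit 69830010165, nat_lit 69815055669, nat_lit 69827929397], [nat_lit 69827396789, nat_lit 69829997749, nat_lit 69814523061, nat_lit 69827916981], [nat_lit 69827384373, nat_lit 69829985333, nat_lit 69813990453, nat_lit 69827904565], [nat_lit 69827371957, nat_lit 69829972917, nat_lit 69827892149, nat_lit 69813457845], [nat_lit 69827359541, nat_lit 69829440309, nat_lit 69812925237], [nat_lit 34652853, nat_lit 2663093, nat_lit 1107870389, nat_lit 1091097269], [nat_lit 51155509, nat_lit 2130485], [nat_lit 34120241, nat_lit 1597877], [nat_lit 24885, nat_lit 1597873, nat_lit 16693], [nat_lit 68190761, nat_lit 1597869, nat_lit 1073581], [nat_lit 53], [nat_lit 49], [nat_lit 45]] [])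
(.leaf [[nat_lit 139620636085, nat_lit 139623237045, nat_lit 139625317813, nat_lit 69827941813], [nat_lit 139620623669, nat_lit 139623224629, nat_lit 139624785205, nat_lit 69827929397], [nat_lit 139620611253, nat_lit 139623212213, nat_lit 139624252597, nat_lit 69827916981], [nat_lit 139620598837, nat_lit 139623199797, nat_lit 139623719989, nat_lit 69827904565], [nat_lit 139620586421, nat_lit 139623187381, nat_lit 69827892149], [nat_lit 139620574005, nat_lit 139622654773], [nat_lit 34652853, nat_lit 2663093, nat_lit 69810324273, nat_lit 35173045], [nat_lit 51155509, nat_lit 2130485], [nat_lit 34120241, nat_lit 1597877, nat_lit 557493], [nat_lit 24885, nat_lit 1597873, nat_lit 1073585], [nat_lit 68190761, nat_lit 68706857, nat_lit 35160617, nat_lit 1597869], [nat_lit 53], [nat_lit 49], [nat_lit 45]] [])))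
(.node (nat_lit 576)
(.leaf [[nat_lit 2181686709, nat_lit 1111848373, nat_lit 1109247413, nat_lit 1112888757], [nat_lit 2181674293, nat_lit 1110795573, nat_lit 1112356149, nat_lit 1108194613], [nat_lit 2181661877, nat_lit 2184783029, nat_lit 1111823541, nat_lit 2182182069], [nat_lit 2181649461, nat_lit 2184770613, nat_lit 2182169653, nat_lit 1111290933], [nat_lit 2181637045, nat_lit 1110758325, nat_lit 1108157365], [nat_lit 2181624629, nat_lit 1110225717], [nat_lit 2181612213, nat_lit 2663093], [nat_lit 34120245, nat_lit 2130485], [nat_lit 557493, nat_lit 1597877, nat_lit 49713], [nat_lit 24885, nat_lit 1597873], [nat_lit 24881, nat_lit 1597869, nat_lit 1073581], [nat_lit 53], [nat_lit 49], [nat_lit 45], [nat_lit 41]] [])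
(.node (nat_lit 577)
(.leaf [[nat_lit 2181686709, nat_lit 2184807861, nat_lit 1112888757, nat_lit 2182206901], [nat_lit 2181674293, nat_lit 2184795445, nat_lit 1112356149, nat_lit 2182194485], [nat_lit 2181661877, nat_lit 2184783029, nat_lit 1111823541, nat_lit 2182182069], [nat_lit 2181649461, nat_lit 2184770613, nat_lit 2182169653, nat_lit 1111290933], [nat_lit 2181637045, nat_lit 2184238005, nat_lit 1110758325], [nat_lit 2181624629, nat_lit 1110225717], [nat_lit 2181612213, nat_lit 2663093], [nat_lit 34120245, nat_lit 2130485], [nat_lit 557493, nat_lit 1597877, nat_lit 49713], [nat_lit 24885, nat_lit 1597873], [nat_lit 24881, nat_lit 1597869, nat_lit 1073581], [nat_lit 53], [nat_lit 49], [nat_lit 45], [nat_lit 41]] [])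
(.leaf [[nat_lit 1108207029, nat_lit 1110807989, nat_lit 1112888757, nat_lit 17171893, nat_lit 1108727221], [nat_lit 1108194613, nat_lit 1110795573, nat_lit 1112356149, nat_lit 124213, nat_lit 1108714805], [nat_lit 1108182197, nat_lit 1110783157, nat_lit 1111823541, nat_lit 17147061, nat_lit 1108702389], [nat_lit 1108169781, nat_lit 1110770741, nat_lit 1111290933, nat_lit 99381, nat_lit 1108689973], [nat_lit 2181637045, nat_lit 1110758325, nat_lit 1108677557], [nat_lit 1108144949, nat_lit 1110225717, nat_lit 74549], [nat_lit 2181612213, nat_lit 2663093, nat_lit 1108132533], [nat_lit 34120245, nat_lit 2130485], [nat_lit 557493, nat_lit 1597877, nat_lit 17084977], [nat_lit 24885, nat_lit 1597873], [nat_lit 24881, nat_lit 35160617, nat_lit 1597869], [nat_lit 53], [nat_lit 49], [nat_lit 45], [nat_lit 41]] []))))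
(.node (nat_lit 581)
(.node (nat_lit 579)
(.leaf [[nat_lit 1108207029, nat_lit 1110807989, nat_lit 1112888757, nat_lit 17171893, nat_lit 1108727221], [nat_lit 1108194613, nat_lit 1110795573, nat_lit 1112356149, nat_lit 124213, nat_lit 1108714805], [nat_lit 1108182197, nat_lit 1110783157, nat_lit 1111823541, nat_lit 17147061, nat_lit 1108702389], [nat_lit 1108169781, nat_lit 1110770741, nat_lit 1111290933, nat_lit 99381, nat_lit 1108689973], [nat_lit 2181637045, nat_lit 1110758325, nat_lit 1108677557], [nat_lit 1108144949, nat_lit 1110225717, nat_lit 74549], [nat_lit 2181612213, nat_lit 2663093, nat_lit 1108132533], [nat_lit 34120245, nat_lit 2130485], [nat_lit 557493, nat_lit 1597877, nat_lit 17084977], [nat_lit 24885, nat_lit 1597873], [nat_lit 24881, nat_lit 35160617, nat_lit 1597869], [nat_lit 53], [nat_lit 49], [nat_lit 45], [nat_lit 41]] [])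
(.node (nat_lit 580)
(.leaf [[nat_lit 1108207029, nat_lit 1110807989, nat_lit 1112888757, nat_lit 17171893, nat_lit 1108727221], [nat_lit 1108194613, nat_lit 1110795573, nat_lit 1112356149, nat_lit 124213, nat_lit 1108714805], [nat_lit 1108182197, nat_lit 1110783157, nat_lit 1111823541, nat_lit 17147061, nat_lit 1108702389], [nat_lit 1108169781, nat_lit 1110770741, nat_lit 1111290933, nat_lit 99381, nat_lit 1108689973], [nat_lit 1108157365, nat_lit 1110758325, nat_lit 34157493, nat_lit 1108677557], [nat_lit 1108144949, nat_lit 1110225717, nat_lit 74549], [nat_lit 2181612213, nat_lit 19178165, nat_lit 2663093], [nat_lit 34120245, nat_lit 2130485], [nat_lit 557493, nat_lit 1597877, nat_lit 17084977], [nat_lit 24885, nat_lit 1597873, nat_lit 16693], [nat_lit 24881, nat_lit 35160617, nat_lit 1597869, nat_lit 16689], [nat_lit 53], [nat_lit 49], [nat_lit 45], [nat_lit 41]] [])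
(.leaf [[nat_lit 69827421621, nat_lit 69830022581, nat_lit 69832103349, nat_lit 69827941813, nat_lit 69815588277], [nat_lit 69827409205, nat_lit 69830010165, nat_lit 69815055669, nat_lit 69827929397], [nat_lit 69827396789, nat_lit 69829997749, nat_lit 69814523061, nat_lit 69827916981], [nat_lit 69827384373, nat_lit 69829985333, nat_lit 69813990453, nat_lit 69827904565], [nat_lit 69827371957, nat_lit 69829972917, nat_lit 69827892149, nat_lit 69813457845], [nat_lit 69827359541, nat_lit 69829440309, nat_lit 69812925237], [nat_lit 2181612213, nat_lit 19178165, nat_lit 2663093], [nat_lit 34120245, nat_lit 2130485], [nat_lit 557493, nat_lit 1597877, nat_lit 17084977], [nat_lit 24885, nat_lit 1597873, nat_lit 16693], [nat_lit 68190761, nat_lit 35160617, nat_lit 1597869], [nat_lit 53], [nat_lit 49], [nat_lit 45]] [])))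
(.node (nat_lit 582)
(.leaf [[nat_lit 139620636085, nat_lit 139623237045, nat_lit 139625317813, nat_lit 69827941813], [nat_lit 139620623669, nat_lit 139623224629, nat_lit 139624785205, nat_lit 69827929397], [nat_lit 139620611253, nat_lit 139623212213, nat_lit 139624252597, nat_lit 69827916981], [nat_lit 139620598837, nat_lit 139623199797, nat_lit 139623719989, nat_lit 69827904565], [nat_lit 139620586421, nat_lit 139623187381, nat_lit 69827892149], [nat_lit 139620574005, nat_lit 139622654773], [nat_lit 2181612213, nat_lit 19178165, nat_lit 2663093], [nat_lit 34120245, nat_lit 2130485, nat_lit 17863221], [nat_lit 34120241, nat_lit 1597877, nat_lit 557493], [nat_lit 24885, nat_lit 1597873, nat_lit 1073585], [nat_lit 24881, nat_lit 68706857, nat_lit 35160617, nat_lit 1597869], [nat_lit 53], [nat_lit 49], [nat_lit 45]] [])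
(.node (nat_lit 583)
(.leaf [[nat_lit 139620636085, nat_lit 139623237045, nat_lit 139625317813, nat_lit 139621156277], [nat_lit 139620623669, nat_lit 139623224629, nat_lit 139624785205, nat_lit 139621143861], [nat_lit 139620611253, nat_lit 139623212213, nat_lit 139624252597, nat_lit 139621131445], [nat_lit 139620598837, nat_lit 139623199797, nat_lit 139623719989, nat_lit 139621119029], [nat_lit 139620586421, nat_lit 139623187381, nat_lit 139621106613], [nat_lit 139637609269, nat_lit 139622654773], [nat_lit 34652853, nat_lit 2663093, nat_lit 1107870389, nat_lit 1091097269, nat_lit 34910901], [nat_lit 34120245, nat_lit 2130485, nat_lit 17863221], [nat_lit 34120241, nat_lit 1597877, nat_lit 557493], [nat_lit 24885, nat_lit 1597873, nat_lit 1073585], [nat_lit 68190761, nat_lit 68706857, nat_lit 1597869, nat_lit 35160617], [nat_lit 53], [nat_lit 49], [nat_lit 45]] [])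
(.leaf [[nat_lit 139620636085, nat_lit 139623237045, nat_lit 139625317813, nat_lit 139621156277], [nat_lit 139620623669, nat_lit 139623224629, nat_lit 139624785205, nat_lit 139621143861], [nat_lit 139620611253, nat_lit 139623212213, nat_lit 139624252597, nat_lit 139621131445], [nat_lit 139620598837, nat_lit 139623199797, nat_lit 139623719989, nat_lit 139621119029], [nat_lit 139620586421, nat_lit 139623187381, nat_lit 139621106613], [nat_lit 209431864117, nat_lit 69810324277, nat_lit 139622654773], [nat_lit 34652853, nat_lit 19178165, nat_lit 139620574001, nat_lit 2663093], [nat_lit 34120245, nat_lit 2130485, nat_lit 17863221], [nat_lit 34120241, nat_lit 1597877, nat_lit 557493], [nat_lit 24885, nat_lit 35160621, nat_lit 1597873], [nat_lit 418861572897, nat_lit 1597869], [nat_lit 53], [nat_lit 49], [nat_lit 45]] [])))))))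
(.node (nat_lit 769)
(.node (nat_lit 704)
(.node (nat_lit 644)
(.node (nat_lit 641)
(.node (nat_lit 640)
(.leaf [[nat_lit 2181686709, nat_lit 2184807861, nat_lit 1112888757, nat_lit 2182206901], [nat_lit 2181674293, nat_lit 2184795445, nat_lit 1112356149, nat_lit 2182194485], [nat_lit 2181661877, nat_lit 2184783029, nat_lit 1111823541, nat_lit 2182182069], [nat_lit 2181649461, nat_lit 2184770613, nat_lit 2182169653, nat_lit 1111290933], [nat_lit 2181637045, nat_lit 2184238005, nat_lit 1110758325], [nat_lit 2181624629, nat_lit 1110225717], [nat_lit 2199687861, nat_lit 2181612213, nat_lit 2663093], [nat_lit 35160629, nat_lit 49717, nat_lit 2130485], [nat_lit 557493, nat_lit 1597877, nat_lit 49713], [nat_lit 24885, nat_lit 1597873], [nat_lit 24881, nat_lit 1597869, nat_lit 1073581], [nat_lit 53], [nat_lit 49], [nat_lit 45], [nat_lit 41]] [])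
(.leaf [[nat_lit 2181686709, nat_lit 2184807861, nat_lit 1112888757, nat_lit 2182727093], [nat_lit 2181674293, nat_lit 2184795445, nat_lit 1112356149, nat_lit 2182714677], [nat_lit 2181661877, nat_lit 2184783029, nat_lit 1111823541, nat_lit 2182702261], [nat_lit 2181649461, nat_lit 2184770613, nat_lit 2182689845, nat_lit 1111290933], [nat_lit 2181637045, nat_lit 2184238005, nat_lit 1110758325, nat_lit 2182157237], [nat_lit 2181624629, nat_lit 1110225717], [nat_lit 2199687861, nat_lit 2181612213, nat_lit 2663093], [nat_lit 34120245, nat_lit 2130485], [nat_lit 557493, nat_lit 1597877, nat_lit 49713], [nat_lit 24885, nat_lit 1597873], [nat_lit 6544712357, nat_lit 24881, nat_lit 1597869], [nat_lit 53], [nat_lit 49], [nat_lit 45], [nat_lit 41]] []))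
(.node (nat_lit 642)
(.leaf [[nat_lit 2181686709, nat_lit 2184287669, nat_lit 1112888757, nat_lit 2182206901], [nat_lit 2181674293, nat_lit 2184275253, nat_lit 1112356149, nat_lit 2182194485], [nat_lit 2181661877, nat_lit 2184262837, nat_lit 1111823541, nat_lit 2182182069], [nat_lit 2181649461, nat_lit 2184250421, nat_lit 1111290933, nat_lit 2182169653], [nat_lit 2181637045, nat_lit 2184238005, nat_lit 1110758325, nat_lit 2182157237], [nat_lit 2181624629, nat_lit 1110225717], [nat_lit 2199687861, nat_lit 2181612213, nat_lit 2663093], [nat_lit 34120245, nat_lit 2130485], [nat_lit 557493, nat_lit 1597877, nat_lit 17084977], [nat_lit 24885, nat_lit 1597873, nat_lit 16693], [nat_lit 24881, nat_lit 1597869, nat_lit 1073581], [nat_lit 53], [nat_lit 49], [nat_lit 45], [nat_lit 41]] [[], [], [], [], [], [], [], [], [], [], [nat_lit 288035775130]])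
(.node (nat_lit 643)
(.leaf [[nat_lit 2181686709, nat_lit 2184287669, nat_lit 1112888757, nat_lit 2182206901], [nat_lit 2181674293, nat_lit 2184275253, nat_lit 1112356149, nat_lit 2182194485], [nat_lit 2181661877, nat_lit 2184262837, nat_lit 1111823541, nat_lit 2182182069], [nat_lit 2181649461, nat_lit 2184250421, nat_lit 1111290933, nat_lit 2182169653], [nat_lit 2181637045, nat_lit 2184238005, nat_lit 2182157237, nat_lit 1110758325], [nat_lit 2181624629, nat_lit 1110225717], [nat_lit 2199687861, nat_lit 2181612213, nat_lit 2663093], [nat_lit 34120245, nat_lit 2130485], [nat_lit 557493, nat_lit 1597877, nat_lit 17084977], [nat_lit 24885, nat_lit 1597873, nat_lit 16693], [nat_lit 24881, nat_lit 35160617, nat_lit 1597869, nat_lit 16689], [nat_lit 53], [nat_lit 49], [nat_lit 45], [nat_lit 41]] [])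
(.leaf [[nat_lit 2181686709, nat_lit 2184287669, nat_lit 1112888757, nat_lit 2182206901, nat_lit 2184807861], [nat_lit 2181674293, nat_lit 2184275253, nat_lit 1112356149, nat_lit 2182194485], [nat_lit 2181661877, nat_lit 2184262837, nat_lit 1111823541, nat_lit 2182182069], [nat_lit 2181649461, nat_lit 2184250421, nat_lit 1111290933, nat_lit 2182169653], [nat_lit 2181637045, nat_lit 2184238005, nat_lit 2182157237, nat_lit 1110758325], [nat_lit 2181624629, nat_lit 1110225717, nat_lit 2182144821], [nat_lit 2199687861, nat_lit 2181612213, nat_lit 2663093], [nat_lit 34120245, nat_lit 2130485], [nat_lit 557493, nat_lit 1597877, nat_lit 17084977], [nat_lit 24885, nat_lit 1597873, nat_lit 16693], [nat_lit 24881, nat_lit 35160617, nat_lit 1597869, nat_lit 16689], [nat_lit 53], [nat_lit 49], [nat_lit 45]] []))))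
(.node (nat_lit 647)
(.node (nat_lit 645)
(.leaf [[nat_lit 70901421493, nat_lit 70904022453, nat_lit 69815588277, nat_lit 17171893, nat_lit 70901941685, nat_lit 70904542645], [nat_lit 70901409077, nat_lit 70904010037, nat_lit 69815055669, nat_lit 69810373941, nat_lit 70901929269], [nat_lit 70901396661, nat_lit 70903997621, nat_lit 69814523061, nat_lit 17147061, nat_lit 70901916853], [nat_lit 70901384245, nat_lit 70903985205, nat_lit 70904243253, nat_lit 69810349109, nat_lit 70901904437], [nat_lit 70901371829, nat_lit 70903452597, nat_lit 70903710645, nat_lit 2181637045], [nat_lit 70901359413, nat_lit 69812925237, nat_lit 69810324277, nat_lit 70901879605], [nat_lit 2181612213, nat_lit 19178165, nat_lit 2663093], [nat_lit 34120245, nat_lit 2130485, nat_lit 17863221], [nat_lit 557493, nat_lit 1597877, nat_lit 17084977], [nat_lit 24885, nat_lit 1597873, nat_lit 1073585], [nat_lit 24881, nat_lit 51929641, nat_lit 35160617, nat_lit 1597869], [nat_lit 53], [nat_lit 49], [nat_lit 45]] [])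
(.node (nat_lit 646)
(.leaf [[nat_lit 139620636085, nat_lit 139623237045, nat_lit 139625317813, nat_lit 139621156277], [nat_lit 139620623669, nat_lit 139623224629, nat_lit 139624785205, nat_lit 139621143861], [nat_lit 139620611253, nat_lit 139623212213, nat_lit 139624252597, nat_lit 139621131445], [nat_lit 139620598837, nat_lit 139623199797, nat_lit 139623719989, nat_lit 139621119029], [nat_lit 139620586421, nat_lit 139623187381, nat_lit 139621106613], [nat_lit 139620574005, nat_lit 139622654773], [nat_lit 2181612213, nat_lit 19178165, nat_lit 2663093], [nat_lit 34120245, nat_lit 2130485, nat_lit 17863221], [nat_lit 557493, nat_lit 1597877, nat_lit 17084977], [nat_lit 24885, nat_lit 1597873, nat_lit 1073585], [nat_lit 24881, nat_lit 51671593, nat_lit 1597869, nat_lit 35160617, nat_lit 51929641], [nat_lit 53], [nat_lit 49], [nat_lit 45]] [[], [], [], [], [], [], [], [], [], [], [nat_lit 288035775128]])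
(.leaf [[nat_lit 139620636085, nat_lit 139623237045, nat_lit 139625317813, nat_lit 139621156277], [nat_lit 139620623669, nat_lit 139623224629, nat_lit 139624785205, nat_lit 139621143861], [nat_lit 139620611253, nat_lit 139623212213, nat_lit 139624252597, nat_lit 139621131445], [nat_lit 139620598837, nat_lit 139623199797, nat_lit 139623719989, nat_lit 139621119029], [nat_lit 139620586421, nat_lit 139623187381, nat_lit 139621106613], [nat_lit 209431864117, nat_lit 69810324277, nat_lit 139622654773], [nat_lit 2181612213, nat_lit 19178165, nat_lit 2663093, nat_lit 1108132533], [nat_lit 34120245, nat_lit 2130485, nat_lit 17863221], [nat_lit 34120241, nat_lit 1597877, nat_lit 557493], [nat_lit 24885, nat_lit 35160621, nat_lit 1597873], [nat_lit 418861572897, nat_lit 1597869], [nat_lit 53], [nat_lit 49], [nat_lit 45]] [])))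
(.node (nat_lit 648)
(.leaf [[nat_lit 209430885813, nat_lit 209434006965, nat_lit 209435047349, nat_lit 209431406005], [nat_lit 209430873397, nat_lit 209433994549, nat_lit 209434514741, nat_lit 209431393589], [nat_lit 209430860981, nat_lit 209433982133, nat_lit 209431381173], [nat_lit 209430848565, nat_lit 209433449525], [nat_lit 209431356341, nat_lit 209432916917, nat_lit 139620586421], [nat_lit 209431864117, nat_lit 69810324277, nat_lit 139622654773], [nat_lit 1108132533, nat_lit 19178165, nat_lit 1107870389, nat_lit 2663093], [nat_lit 34120245, nat_lit 2130485, nat_lit 17601077], [nat_lit 34120241, nat_lit 1597877, nat_lit 557493], [nat_lit 24885, nat_lit 35160621, nat_lit 1597873], [nat_lit 418861572897], [nat_lit 53], [nat_lit 49], [nat_lit 45]] [])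
(.node (nat_lit 649)
(.leaf [[nat_lit 209430885813, nat_lit 209434006965, nat_lit 209435047349, nat_lit 209431926197], [nat_lit 209430873397, nat_lit 209433994549, nat_lit 209431913781, nat_lit 209434514741], [nat_lit 209430860981, nat_lit 209433982133, nat_lit 209431901365], [nat_lit 209430848565, nat_lit 209433449525, nat_lit 209431368757], [nat_lit 209431356341, nat_lit 209432916917, nat_lit 139620586421], [nat_lit 279241073461, nat_lit 279242113845], [nat_lit 34652853, nat_lit 19178165, nat_lit 139620574001, nat_lit 2663093], [nat_lit 34120245, nat_lit 35160629, nat_lit 2130485], [nat_lit 34120241, nat_lit 1597877, nat_lit 557493, nat_lit 1073589], [nat_lit 24885, nat_lit 35160621, nat_lit 1597873, nat_lit 16693], [nat_lit 418861572897], [nat_lit 53], [nat_lit 49], [nat_lit 45]] [])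
(.leaf [[nat_lit 3272721845, nat_lit 3275842997, nat_lit 3276883381, nat_lit 2181686709, nat_lit 2182727093], [nat_lit 3272709429, nat_lit 3275830581, nat_lit 3276350773, nat_lit 124213, nat_lit 2182714677], [nat_lit 3272697013, nat_lit 3275818165, nat_lit 2181661877, nat_lit 2182702261], [nat_lit 3272684597, nat_lit 3275285557, nat_lit 99381], [nat_lit 3272672181, nat_lit 3274752949, nat_lit 2181637045], [nat_lit 3272659765, nat_lit 1110225717, nat_lit 74549], [nat_lit 3273167541, nat_lit 2181612213, nat_lit 2663093], [nat_lit 17084981, nat_lit 2130485, nat_lit 17343029], [nat_lit 557493, nat_lit 1597877, nat_lit 49713], [nat_lit 24885, nat_lit 1597873, nat_lit 16693], [nat_lit 24881, nat_lit 1597869, nat_lit 1073581], [nat_lit 53], [nat_lit 49], [nat_lit 45], [nat_lit 41]] [[], [], [], [], [], [], [], [], [], [], [nat_lit 53614283629210]])))))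
(.node (nat_lit 710)
(.node (nat_lit 707)
(.node (nat_lit 705)
(.leaf [[nat_lit 3272721845, nat_lit 3275842997, nat_lit 3276883381, nat_lit 1090909621, nat_lit 3273242037], [nat_lit 3272709429, nat_lit 3275830581, nat_lit 3276350773, nat_lit 1090897205, nat_lit 3273229621], [nat_lit 3272697013, nat_lit 3275818165, nat_lit 1090884789, nat_lit 3273217205], [nat_lit 3272684597, nat_lit 3275285557, nat_lit 1090872373], [nat_lit 3272672181, nat_lit 3274752949, nat_lit 1090859957], [nat_lit 3272659765, nat_lit 1110225717, nat_lit 74549], [nat_lit 3273167541, nat_lit 2181612213, nat_lit 2663093], [nat_lit 17084981, nat_lit 2130485, nat_lit 17343029], [nat_lit 557493, nat_lit 1597877, nat_lit 49713], [nat_lit 24885, nat_lit 1597873, nat_lit 16693], [nat_lit 24881, nat_lit 1597869, nat_lit 1073581], [nat_lit 53], [nat_lit 49], [nat_lit 45], [nat_lit 41]] [[], [], [], [], [], [], [], [], [], [], [nat_lit 53614283629210]])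
(.node (nat_lit 706)
(.leaf [[nat_lit 3272721845, nat_lit 3275842997, nat_lit 3276883381, nat_lit 2181686709, nat_lit 2182727093], [nat_lit 3272709429, nat_lit 3275830581, nat_lit 3276350773, nat_lit 124213, nat_lit 2182714677], [nat_lit 3272697013, nat_lit 3275818165, nat_lit 2181661877, nat_lit 2182702261], [nat_lit 3272684597, nat_lit 3275285557, nat_lit 99381], [nat_lit 3272672181, nat_lit 3274752949, nat_lit 2181637045], [nat_lit 3272659765, nat_lit 1110225717, nat_lit 74549], [nat_lit 3273167541, nat_lit 2181612213, nat_lit 2663093], [nat_lit 35160629, nat_lit 49717, nat_lit 2130485], [nat_lit 557493, nat_lit 1597877, nat_lit 49713], [nat_lit 24885, nat_lit 1597873, nat_lit 16693], [nat_lit 6544712357, nat_lit 1597869], [nat_lit 53], [nat_lit 49], [nat_lit 45], [nat_lit 41]] [])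
(.leaf [[nat_lit 3272721845, nat_lit 3275842997, nat_lit 3276883381, nat_lit 3273242037, nat_lit 1090909621], [nat_lit 3272709429, nat_lit 3275830581, nat_lit 3276350773, nat_lit 3273229621, nat_lit 1090897205], [nat_lit 3272697013, nat_lit 3275818165, nat_lit 3273217205, nat_lit 1090884789], [nat_lit 3272684597, nat_lit 3275285557, nat_lit 1090872373], [nat_lit 3272672181, nat_lit 3274752949, nat_lit 1090859957], [nat_lit 3272659765, nat_lit 1110225717, nat_lit 74549], [nat_lit 3273167541, nat_lit 2181612213, nat_lit 2663093], [nat_lit 35160629, nat_lit 49717, nat_lit 2130485], [nat_lit 557493, nat_lit 1597877, nat_lit 49713], [nat_lit 24885, nat_lit 1597873, nat_lit 16693], [nat_lit 6544712357, nat_lit 1597869], [nat_lit 53], [nat_lit 49], [nat_lit 45]] [])))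
(.node (nat_lit 708)
(.leaf [[nat_lit 3272721845, nat_lit 3275842997, nat_lit 3276883381, nat_lit 2183247285, nat_lit 2181686709], [nat_lit 3272709429, nat_lit 3275830581, nat_lit 3276350773, nat_lit 2183234869, nat_lit 124213], [nat_lit 3272697013, nat_lit 3275818165, nat_lit 2183222453, nat_lit 2181661877], [nat_lit 3272684597, nat_lit 3275285557, nat_lit 99381], [nat_lit 3272672181, nat_lit 3274752949, nat_lit 2181637045], [nat_lit 3272659765, nat_lit 1110225717, nat_lit 74549], [nat_lit 3273167541, nat_lit 2181612213, nat_lit 2663093], [nat_lit 35160629, nat_lit 49717, nat_lit 2130485], [nat_lit 557493, nat_lit 1597877, nat_lit 17084977], [nat_lit 24885, nat_lit 1597873, nat_lit 1073585], [nat_lit 6544712357, nat_lit 1597869], [nat_lit 53], [nat_lit 49], [nat_lit 45]] [])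
(.node (nat_lit 709)
(.leaf [[nat_lit 3276883381, nat_lit 70901421493, nat_lit 70903502261, nat_lit 1090909621], [nat_lit 3276350773, nat_lit 70901409077, nat_lit 70902969653, nat_lit 69810373941], [nat_lit 3275818165, nat_lit 70901396661, nat_lit 70902437045, nat_lit 1090884789], [nat_lit 3275285557, nat_lit 70901384245, nat_lit 70901904437, nat_lit 69810349109], [nat_lit 3274752949, nat_lit 2181637045, nat_lit 70901371829], [nat_lit 70901359413, nat_lit 69812925237, nat_lit 69810324277, nat_lit 70901879605], [nat_lit 3273167541, nat_lit 2181612213, nat_lit 2663093], [nat_lit 35160629, nat_lit 49717, nat_lit 2130485], [nat_lit 557493, nat_lit 1597877, nat_lit 17084977], [nat_lit 24885, nat_lit 1597873, nat_lit 1073585], [nat_lit 4397228709, nat_lit 24881, nat_lit 4363682469, nat_lit 1597869], [nat_lit 53], [nat_lit 49], [nat_lit 45]] [[], [], [], [], [], [], [], [], [], [], [nat_lit 35747286786712]])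
(.leaf [[nat_lit 139620636085, nat_lit 139623237045, nat_lit 139625317813, nat_lit 139621156277], [nat_lit 139620623669, nat_lit 139623224629, nat_lit 139624785205, nat_lit 139621143861], [nat_lit 139620611253, nat_lit 139623212213, nat_lit 139624252597, nat_lit 139621131445], [nat_lit 139620598837, nat_lit 139623199797, nat_lit 139623719989, nat_lit 139621119029], [nat_lit 139620586421, nat_lit 139623187381, nat_lit 139621106613], [nat_lit 139620574005, nat_lit 139622654773], [nat_lit 2199687861, nat_lit 2181612213, nat_lit 2663093], [nat_lit 34120245, nat_lit 2130485, nat_lit 17863221], [nat_lit 557493, nat_lit 1597877, nat_lit 17084977], [nat_lit 24885, nat_lit 35160621, nat_lit 1597873], [nat_lit 418861572897, nat_lit 24881, nat_lit 1597869], [nat_lit 53], [nat_lit 49], [nat_lit 45]] [[], [], [], [], [], [], [], [], [], [], [nat_lit 3431314005172760, nat_lit 3431314005172887]]))))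
(.node (nat_lit 713)
(.node (nat_lit 711)
(.leaf [[nat_lit 209430885813, nat_lit 209434006965, nat_lit 209435047349, nat_lit 209431406005], [nat_lit 209430873397, nat_lit 209433994549, nat_lit 209434514741, nat_lit 209431393589], [nat_lit 209430860981, nat_lit 209433982133, nat_lit 209431381173], [nat_lit 209430848565, nat_lit 209433449525], [nat_lit 209431356341, nat_lit 209432916917, nat_lit 139620586421], [nat_lit 209431864117, nat_lit 69810324277, nat_lit 139622654773], [nat_lit 2199687861, nat_lit 2181612213, nat_lit 2663093], [nat_lit 34120245, nat_lit 2130485, nat_lit 17601077], [nat_lit 557493, nat_lit 1597877, nat_lit 17084977], [nat_lit 24885, nat_lit 35160621, nat_lit 1597873], [nat_lit 418861572897], [nat_lit 53], [nat_lit 49], [nat_lit 45]] [])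
(.node (nat_lit 712)
(.leaf [[nat_lit 209430885813, nat_lit 209434006965, nat_lit 209435047349, nat_lit 209431926197], [nat_lit 209430873397, nat_lit 209433994549, nat_lit 209431913781, nat_lit 209434514741], [nat_lit 209430860981, nat_lit 209433982133, nat_lit 209431901365], [nat_lit 209430848565, nat_lit 209433449525, nat_lit 209431368757], [nat_lit 209431356341, nat_lit 209432916917, nat_lit 139620586421], [nat_lit 279241073461, nat_lit 139622654773], [nat_lit 2181612213, nat_lit 19178165, nat_lit 2183168693, nat_lit 2663093], [nat_lit 34120245, nat_lit 35160629, nat_lit 2130485], [nat_lit 557493, nat_lit 1597877, nat_lit 17084977, nat_lit 1073589], [nat_lit 418861572901], [nat_lit 418861572897, nat_lit 1597869], [nat_lit 53], [nat_lit 49], [nat_lit 45]] [])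
(.leaf [[nat_lit 209430885813, nat_lit 209433486773, nat_lit 209435047349, nat_lit 209431406005], [nat_lit 209430873397, nat_lit 209433474357, nat_lit 209434514741, nat_lit 209431393589], [nat_lit 209430860981, nat_lit 209433461941, nat_lit 209433982133, nat_lit 209431381173], [nat_lit 209430848565, nat_lit 209433449525, nat_lit 209431368757], [nat_lit 279241085877, nat_lit 209432916917], [nat_lit 279241073461, nat_lit 279242113845], [nat_lit 1108132533, nat_lit 19178165, nat_lit 1107870389, nat_lit 2663093, nat_lit 1108390581], [nat_lit 34120245, nat_lit 35160629, nat_lit 2130485], [nat_lit 557493, nat_lit 1597877, nat_lit 17084977, nat_lit 811445], [nat_lit 418861572901], [nat_lit 418861572897], [nat_lit 53], [nat_lit 49]] [])))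
(.node (nat_lit 714)
(.leaf [[nat_lit 279241135541, nat_lit 279244256693, nat_lit 279244776885, nat_lit 279241655733], [nat_lit 279241123125, nat_lit 279244244277, nat_lit 279241643317], [nat_lit 279241110709, nat_lit 279243711669], [nat_lit 279241098293, nat_lit 279243179061], [nat_lit 279241085877, nat_lit 279242646453], [nat_lit 279241073461, nat_lit 279242113845], [nat_lit 279241073457, nat_lit 279242113841], [nat_lit 34120245, nat_lit 35160629, nat_lit 2130485], [nat_lit 557493, nat_lit 1597877, nat_lit 17084977, nat_lit 811445], [nat_lit 418861572901], [nat_lit 418861572897], [nat_lit 53], [nat_lit 49]] [])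
(.node (nat_lit 768)
(.leaf [[nat_lit 3272721845, nat_lit 3275842997, nat_lit 3276883381, nat_lit 1090909621, nat_lit 3273242037], [nat_lit 3272709429, nat_lit 3275830581, nat_lit 3276350773, nat_lit 1090897205, nat_lit 3273229621], [nat_lit 3272697013, nat_lit 3275818165, nat_lit 1090884789, nat_lit 3273217205], [nat_lit 3272684597, nat_lit 3275285557, nat_lit 1090872373], [nat_lit 3272672181, nat_lit 3274752949, nat_lit 1090859957], [nat_lit 3272659765, nat_lit 3195701, nat_lit 2181624629], [nat_lit 4363682485, nat_lit 2181612213, nat_lit 2663093], [nat_lit 17084981, nat_lit 2130485, nat_lit 565813], [nat_lit 557493, nat_lit 1597877, nat_lit 49713], [nat_lit 24885, nat_lit 1597873, nat_lit 16693], [nat_lit 6544712357, nat_lit 24881, nat_lit 1597869], [nat_lit 53], [nat_lit 49], [nat_lit 45], [nat_lit 41]] [[], [], [], [], [], [], [], [], [], [], [nat_lit 53614283629210, nat_lit 13089743769]])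
(.leaf [[nat_lit 3272721845, nat_lit 3275842997, nat_lit 3276883381, nat_lit 2181686709, nat_lit 3273242037], [nat_lit 3272709429, nat_lit 3275830581, nat_lit 3276350773, nat_lit 2181674293, nat_lit 3273229621], [nat_lit 3272697013, nat_lit 3275818165, nat_lit 2181661877, nat_lit 3273217205], [nat_lit 3272684597, nat_lit 3275285557, nat_lit 2181649461], [nat_lit 3272672181, nat_lit 3274752949, nat_lit 2181637045], [nat_lit 3272659765, nat_lit 1110225717, nat_lit 2181624629], [nat_lit 4363682485, nat_lit 2181612213, nat_lit 2663093], [nat_lit 17084981, nat_lit 2130485, nat_lit 827957], [nat_lit 557493, nat_lit 1597877, nat_lit 49713], [nat_lit 24885, nat_lit 1597873, nat_lit 16693], [nat_lit 6544712357, nat_lit 1597869], [nat_lit 53], [nat_lit 49], [nat_lit 45], [nat_lit 41]] []))))))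
(.node (nat_lit 832)
(.node (nat_lit 774)
(.node (nat_lit 771)
(.node (nat_lit 770)
(.leaf [[nat_lit 3272721845, nat_lit 3275842997, nat_lit 3276883381, nat_lit 3273242037, nat_lit 1090909621], [nat_lit 3272709429, nat_lit 3275830581, nat_lit 3276350773, nat_lit 3273229621, nat_lit 1090897205], [nat_lit 3272697013, nat_lit 3275818165, nat_lit 3273217205, nat_lit 1090884789], [nat_lit 3272684597, nat_lit 3275285557, nat_lit 1090872373], [nat_lit 3272672181, nat_lit 3274752949, nat_lit 1090859957], [nat_lit 3272659765, nat_lit 1110225717, nat_lit 2181624629], [nat_lit 4363682485, nat_lit 2181612213, nat_lit 2663093], [nat_lit 17084981, nat_lit 2130485, nat_lit 565813], [nat_lit 557493, nat_lit 1597877, nat_lit 49713], [nat_lit 24885, nat_lit 1597873, nat_lit 16693], [nat_lit 6544712357], [nat_lit 53], [nat_lit 49], [nat_lit 45]] [])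
(.leaf [[nat_lit 3272721845, nat_lit 3275842997, nat_lit 3276883381, nat_lit 3273242037, nat_lit 2181686709], [nat_lit 3272709429, nat_lit 3275830581, nat_lit 3276350773, nat_lit 3273229621, nat_lit 2181674293], [nat_lit 3272697013, nat_lit 3275818165, nat_lit 3273217205, nat_lit 2181661877], [nat_lit 3272684597, nat_lit 3275285557, nat_lit 2181649461], [nat_lit 3272672181, nat_lit 3274752949, nat_lit 2181637045], [nat_lit 3272659765, nat_lit 1110225717, nat_lit 2181624629], [nat_lit 4363682485, nat_lit 2181612213, nat_lit 2663093], [nat_lit 17084981, nat_lit 2130485, nat_lit 827957], [nat_lit 557493, nat_lit 1597877, nat_lit 49713], [nat_lit 24885, nat_lit 1597873, nat_lit 1073585], [nat_lit 6544712357], [nat_lit 53], [nat_lit 49], [nat_lit 45]] []))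
(.node (nat_lit 772)
(.leaf [[nat_lit 3272721845, nat_lit 3275842997, nat_lit 3276883381, nat_lit 3273762229, nat_lit 2181686709], [nat_lit 3272709429, nat_lit 3275830581, nat_lit 3273749813, nat_lit 3276350773, nat_lit 2181674293], [nat_lit 3272697013, nat_lit 3275818165, nat_lit 3273737397, nat_lit 2181661877], [nat_lit 3272684597, nat_lit 3275285557, nat_lit 2181649461, nat_lit 3273204789], [nat_lit 3272672181, nat_lit 3274752949, nat_lit 2181637045], [nat_lit 3272659765, nat_lit 69812925237, nat_lit 2181624629], [nat_lit 4363682485, nat_lit 2181612213, nat_lit 2663093], [nat_lit 17084981, nat_lit 2130485, nat_lit 1090101], [nat_lit 557493, nat_lit 1597877, nat_lit 49713], [nat_lit 24885, nat_lit 1597873, nat_lit 1073585], [nat_lit 6544712357, nat_lit 1597869], [nat_lit 53], [nat_lit 49], [nat_lit 45]] [])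
(.node (nat_lit 773)
(.leaf [[nat_lit 71991936437, nat_lit 71995057589, nat_lit 3276883381, nat_lit 3273242037], [nat_lit 71991924021, nat_lit 71995045173, nat_lit 3276350773, nat_lit 3273229621], [nat_lit 71991911605, nat_lit 71995032757, nat_lit 3273217205, nat_lit 3275818165], [nat_lit 71991899189, nat_lit 71994500149, nat_lit 3275285557, nat_lit 3272684597], [nat_lit 71991886773, nat_lit 3274752949], [nat_lit 71992394549, nat_lit 139622654773, nat_lit 69810324277], [nat_lit 4363682485, nat_lit 2181612213, nat_lit 2663093], [nat_lit 17084981, nat_lit 18383413, nat_lit 2130485], [nat_lit 557493, nat_lit 1597877, nat_lit 49713], [nat_lit 4363682473, nat_lit 24885, nat_lit 1597873], [nat_lit 6544712357, nat_lit 1597869], [nat_lit 53], [nat_lit 49], [nat_lit 45]] [])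
(.leaf [[nat_lit 140711671221, nat_lit 140714792373, nat_lit 139625317813, nat_lit 71992976821, nat_lit 139620636085], [nat_lit 140711658805, nat_lit 140714779957, nat_lit 71992964405, nat_lit 140715038005, nat_lit 69810373941], [nat_lit 140711646389, nat_lit 140714247349, nat_lit 140714505397, nat_lit 139620611253, nat_lit 71992431797], [nat_lit 140711633973, nat_lit 71994500149, nat_lit 69810349109, nat_lit 140713972789], [nat_lit 140711621557, nat_lit 139623187381, nat_lit 139620586421], [nat_lit 140712129333, nat_lit 139622654773, nat_lit 69810324277], [nat_lit 4363682485, nat_lit 2181612213, nat_lit 2663093], [nat_lit 17084981, nat_lit 18383413, nat_lit 2130485, nat_lit 1090101], [nat_lit 557493, nat_lit 1597877, nat_lit 49713], [nat_lit 4363682473, nat_lit 24885, nat_lit 1597873], [nat_lit 418861572897, nat_lit 24881, nat_lit 1597869], [nat_lit 53], [nat_lit 49], [nat_lit 45]] [[], [], [], [], [], [], [], [], [], [], [nat_lit 3431314005172632, nat_lit 3431314005172887]]))))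
(.node (nat_lit 777)
(.node (nat_lit 775)
(.leaf [[nat_lit 209430885813, nat_lit 209434006965, nat_lit 209435047349, nat_lit 140712191413], [nat_lit 209430873397, nat_lit 209433994549, nat_lit 140712178997, nat_lit 209434514741], [nat_lit 209430860981, nat_lit 209433982133, nat_lit 140712166581], [nat_lit 209430848565, nat_lit 209433449525, nat_lit 140711633973], [nat_lit 209431356341, nat_lit 209432916917, nat_lit 139620586421], [nat_lit 209431864117, nat_lit 139620574005, nat_lit 139622654773], [nat_lit 3273167541, nat_lit 2181612213, nat_lit 2663093], [nat_lit 17084981, nat_lit 18383413, nat_lit 2130485, nat_lit 1090101], [nat_lit 557493, nat_lit 1597877, nat_lit 17084977, nat_lit 1073589], [nat_lit 418861572901], [nat_lit 418861572897, nat_lit 1597869], [nat_lit 53], [nat_lit 49], [nat_lit 45]] [])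
(.node (nat_lit 776)
(.leaf [[nat_lit 209430885813, nat_lit 209433486773, nat_lit 209435047349, nat_lit 209431406005], [nat_lit 209430873397, nat_lit 209433474357, nat_lit 209434514741, nat_lit 209431393589], [nat_lit 209430860981, nat_lit 209433461941, nat_lit 209433982133, nat_lit 209431381173], [nat_lit 209430848565, nat_lit 209433449525, nat_lit 209431368757], [nat_lit 279241085877, nat_lit 209432916917], [nat_lit 279241073461, nat_lit 279242113845], [nat_lit 2199687861, nat_lit 2181612213, nat_lit 2663093], [nat_lit 17084981, nat_lit 18383413, nat_lit 2130485, nat_lit 1090101], [nat_lit 557493, nat_lit 1597877, nat_lit 17084977, nat_lit 811445], [nat_lit 418861572901], [nat_lit 418861572897], [nat_lit 53], [nat_lit 49]] [])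
(.leaf [[nat_lit 279241135541, nat_lit 279244256693, nat_lit 279244776885, nat_lit 279241655733], [nat_lit 279241123125, nat_lit 279244244277, nat_lit 279241643317], [nat_lit 279241110709, nat_lit 279243711669], [nat_lit 279241098293, nat_lit 279243179061], [nat_lit 279241085877, nat_lit 279242646453], [nat_lit 279241073461, nat_lit 279242113845], [nat_lit 279241073457, nat_lit 279242113841], [nat_lit 17084981, nat_lit 18383413, nat_lit 2130485, nat_lit 1090101], [nat_lit 557493, nat_lit 1597877, nat_lit 17084977, nat_lit 811445], [nat_lit 418861572901], [nat_lit 418861572897], [nat_lit 53], [nat_lit 49]] [])))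
(.node (nat_lit 778)
(.leaf [[nat_lit 279241135541, nat_lit 279244256693, nat_lit 279244776885, nat_lit 279241655733], [nat_lit 279241123125, nat_lit 279244244277, nat_lit 279241643317], [nat_lit 279241110709, nat_lit 279243711669], [nat_lit 279241098293, nat_lit 279243179061], [nat_lit 279241085877, nat_lit 279242646453], [nat_lit 279241073461, nat_lit 279242113845], [nat_lit 279241073457, nat_lit 279242113841], [nat_lit 418861572909], [nat_lit 557493, nat_lit 1597877, nat_lit 17084977, nat_lit 1073589], [nat_lit 418861572901], [nat_lit 418861572897], [nat_lit 53], [nat_lit 49]] [])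
(.node (nat_lit 779)
(.leaf [[nat_lit 279241135541, nat_lit 279244256693, nat_lit 279244776885, nat_lit 279241655733], [nat_lit 279241123125, nat_lit 279244244277, nat_lit 279241643317], [nat_lit 279241110709, nat_lit 279243711669], [nat_lit 279241098293, nat_lit 279243179061], [nat_lit 279241085877, nat_lit 279242646453], [nat_lit 279241073461, nat_lit 279242113845], [nat_lit 418861572913], [nat_lit 418861572909], [nat_lit 418861572905], [nat_lit 418861572901], [nat_lit 418861572897], [nat_lit 53], [nat_lit 49]] [])
(.leaf [[nat_lit 4363236789, nat_lit 4366357941, nat_lit 3276883381], [nat_lit 4363224373, nat_lit 4366345525, nat_lit 3276350773], [nat_lit 4363211957, nat_lit 3275818165, nat_lit 3273217205], [nat_lit 4363199541, nat_lit 3275285557], [nat_lit 4363187125, nat_lit 3274752949], [nat_lit 4363174709, nat_lit 3195701], [nat_lit 6544712373], [nat_lit 49717, nat_lit 2130485, nat_lit 827957], [nat_lit 557493, nat_lit 1597877, nat_lit 49713], [nat_lit 24885, nat_lit 1597873, nat_lit 16693], [nat_lit 6544712357, nat_lit 24881, nat_lit 1597869],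 [nat_lit 53], [nat_lit 49], [nat_lit 45], [nat_lit 41]] [[], [], [], [], [], [], [], [], [], [], [nat_lit 53614283629337, nat_lit 13089743896]])))))
(.node (nat_lit 838)
(.node (nat_lit 835)
(.node (nat_lit 833)
(.leaf [[nat_lit 4363236789, nat_lit 4366878133, nat_lit 4363756981, nat_lit 3276883381], [nat_lit 4363224373, nat_lit 4366345525, nat_lit 3276350773], [nat_lit 4363211957, nat_lit 3275818165, nat_lit 4363732149], [nat_lit 4363199541, nat_lit 3275285557], [nat_lit 4363187125, nat_lit 3274752949], [nat_lit 4363174709, nat_lit 3195701], [nat_lit 6544712373], [nat_lit 49717, nat_lit 2130485, nat_lit 1090101], [nat_lit 557493, nat_lit 1597877, nat_lit 49713], [nat_lit 24885, nat_lit 1597873, nat_lit 16693], [nat_lit 6544712357, nat_lit 1597869], [nat_lit 53], [nat_lit 49], [nat_lit 45]] [])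
(.node (nat_lit 834)
(.leaf [[nat_lit 4363236789, nat_lit 4366878133, nat_lit 3273762229, nat_lit 3276883381], [nat_lit 4363224373, nat_lit 4366345525, nat_lit 3276350773, nat_lit 3273229621], [nat_lit 4363211957, nat_lit 3275818165, nat_lit 3273217205], [nat_lit 4363199541, nat_lit 3275285557], [nat_lit 4363187125, nat_lit 3274752949], [nat_lit 4363174709, nat_lit 3195701, nat_lit 3273179957], [nat_lit 6544712373], [nat_lit 49717, nat_lit 2130485, nat_lit 1090101], [nat_lit 557493, nat_lit 1597877, nat_lit 49713], [nat_lit 24885, nat_lit 1597873, nat_lit 1073585], [nat_lit 6544712357], [nat_lit 53], [nat_lit 49], [nat_lit 45]] [])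
(.leaf [[nat_lit 4363236789, nat_lit 4366357941, nat_lit 3276883381, nat_lit 4363756981], [nat_lit 4363224373, nat_lit 4366345525, nat_lit 3276350773, nat_lit 4363744565], [nat_lit 4363211957, nat_lit 4365812917, nat_lit 3275818165], [nat_lit 4363199541, nat_lit 3275285557], [nat_lit 4363187125, nat_lit 3274752949], [nat_lit 4363174709, nat_lit 69812925237], [nat_lit 6544712373], [nat_lit 4363682481, nat_lit 49717, nat_lit 2130485], [nat_lit 557493, nat_lit 1597877, nat_lit 49713], [nat_lit 24885, nat_lit 1597873, nat_lit 1073585], [nat_lit 6544712357], [nat_lit 53], [nat_lit 49], [nat_lit 45]] [])))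
(.node (nat_lit 836)
(.leaf [[nat_lit 4363236789, nat_lit 4366357941, nat_lit 3276883381, nat_lit 3273242037], [nat_lit 4363224373, nat_lit 4366345525, nat_lit 3276350773, nat_lit 3273229621], [nat_lit 4363211957, nat_lit 4365812917, nat_lit 3275818165], [nat_lit 4363199541, nat_lit 3275285557], [nat_lit 4363187125, nat_lit 3274752949], [nat_lit 4363174709, nat_lit 69812925237], [nat_lit 6544712373], [nat_lit 49717, nat_lit 2130485, nat_lit 1090101], [nat_lit 557493, nat_lit 1597877, nat_lit 49713], [nat_lit 6544712361], [nat_lit 6544712357], [nat_lit 53], [nat_lit 49], [nat_lit 45]] [])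
(.node (nat_lit 837)
(.leaf [[nat_lit 71991936437, nat_lit 71994537397, nat_lit 3276883381, nat_lit 3272721845], [nat_lit 71991924021, nat_lit 71994524981, nat_lit 3276350773, nat_lit 3272709429], [nat_lit 71991911605, nat_lit 71994512565, nat_lit 3275818165, nat_lit 3272697013], [nat_lit 71991899189, nat_lit 71994500149, nat_lit 3275285557, nat_lit 3272684597], [nat_lit 71991886773, nat_lit 3274752949], [nat_lit 71992394549, nat_lit 139622654773, nat_lit 2181624629], [nat_lit 4363682485, nat_lit 2181612213, nat_lit 2663093], [nat_lit 49717, nat_lit 2130485, nat_lit 1090101], [nat_lit 557493, nat_lit 1597877, nat_lit 49713], [nat_lit 6544712361], [nat_lit 6544712357], [nat_lit 53], [nat_lit 49], [nat_lit 45]] [])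
(.leaf [[nat_lit 73086612917, nat_lit 140711671221, nat_lit 71993497013, nat_lit 139620636085], [nat_lit 73086080309, nat_lit 140711658805, nat_lit 71992964405, nat_lit 139620623669], [nat_lit 73085547701, nat_lit 140711646389, nat_lit 139620611253, nat_lit 71992431797], [nat_lit 73085015093, nat_lit 71991899189], [nat_lit 73084482485, nat_lit 139620586421], [nat_lit 140712129333, nat_lit 139622654773, nat_lit 139620574005], [nat_lit 4363682485, nat_lit 2181612213, nat_lit 2663093], [nat_lit 49717, nat_lit 2130485, nat_lit 1090101, nat_lit 565813, nat_lit 1086005], [nat_lit 557493, nat_lit 1597877, nat_lit 49713, nat_lit 33205, nat_lit 1073589], [nat_lit 6544712361], [nat_lit 6544712357, nat_lit 1597869], [nat_lit 53], [nat_lit 49], [nat_lit 45]] []))))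
(.node (nat_lit 841)
(.node (nat_lit 839)
(.leaf [[nat_lit 209430885813, nat_lit 209433486773, nat_lit 209435047349, nat_lit 140711671221], [nat_lit 209430873397, nat_lit 209433474357, nat_lit 209434514741, nat_lit 140711658805], [nat_lit 209430860981, nat_lit 209433461941, nat_lit 209433982133, nat_lit 140711646389], [nat_lit 209430848565, nat_lit 209433449525, nat_lit 140711633973], [nat_lit 209431356341, nat_lit 209432916917, nat_lit 139620586421], [nat_lit 279241073461, nat_lit 279242113845], [nat_lit 4363682485, nat_lit 2181612213, nat_lit 2663093], [nat_lit 49717, nat_lit 1090101, nat_lit 2130485, nat_lit 303669, nat_lit 1348149], [nat_lit 557493, nat_lit 1597877, nat_lit 49713, nat_lit 33205, nat_lit 811445], [nat_lit 418861572901], [nat_lit 418861572897], [nat_lit 53], [nat_lit 49]] [])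
(.node (nat_lit 840)
(.leaf [[nat_lit 279241135541, nat_lit 279244256693, nat_lit 279244776885, nat_lit 279241655733], [nat_lit 279241123125, nat_lit 279244244277, nat_lit 279241643317], [nat_lit 279241110709, nat_lit 279243711669], [nat_lit 279241098293, nat_lit 279243179061], [nat_lit 279241085877, nat_lit 279242646453], [nat_lit 279241073461, nat_lit 279242113845], [nat_lit 279242113841, nat_lit 2181612213], [nat_lit 49717, nat_lit 1090101, nat_lit 2130485, nat_lit 303669, nat_lit 1348149], [nat_lit 279241073449, nat_lit 1597877, nat_lit 811445], [nat_lit 418861572901], [nat_lit 418861572897], [nat_lit 53], [nat_lit 49]] [])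
(.leaf [[nat_lit 279241135541, nat_lit 279244256693, nat_lit 279244776885, nat_lit 279241655733], [nat_lit 279241123125, nat_lit 279244244277, nat_lit 279241643317], [nat_lit 279241110709, nat_lit 279243711669], [nat_lit 279241098293, nat_lit 279243179061], [nat_lit 279241085877, nat_lit 279242646453], [nat_lit 279241073461, nat_lit 279242113845], [nat_lit 279241073457, nat_lit 279242113841], [nat_lit 418861572909], [nat_lit 418861572905], [nat_lit 418861572901], [nat_lit 418861572897], [nat_lit 53], [nat_lit 49]] [])))
(.node (nat_lit 842)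
(.leaf [[nat_lit 279241135541, nat_lit 279244256693, nat_lit 279244776885, nat_lit 279241655733], [nat_lit 279241123125, nat_lit 279244244277, nat_lit 279241643317], [nat_lit 279241110709, nat_lit 279243711669], [nat_lit 279241098293, nat_lit 279243179061], [nat_lit 279241085877, nat_lit 279242646453], [nat_lit 279241073461, nat_lit 279242113845], [nat_lit 418861572913], [nat_lit 418861572909], [nat_lit 418861572905], [nat_lit 418861572901], [nat_lit 418861572897], [nat_lit 53], [nat_lit 49]] [])
(.node (nat_lit 843)
(.leaf [[nat_lit 349051385269, nat_lit 349054506421], [nat_lit 349051372853, nat_lit 349053973813], [nat_lit 349051360437, nat_lit 349053441205], [nat_lit 349051348021, nat_lit 349052908597], [nat_lit 349051855797, nat_lit 139620586421, nat_lit 349052375989], [nat_lit 279241073461, nat_lit 279242113845], [nat_lit 418861572913], [nat_lit 418861572909], [nat_lit 418861572905], [nat_lit 418861572901], [nat_lit 418861572897], [nat_lit 53], [nat_lit 49]] [])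
(.leaf [[nat_lit 349051385269, nat_lit 349054506421, nat_lit 349051905461], [nat_lit 349051372853, nat_lit 349053973813], [nat_lit 349051360437, nat_lit 349053441205], [nat_lit 349051348021, nat_lit 349052908597], [nat_lit 349051855797, nat_lit 279241085877, nat_lit 349052375989], [nat_lit 418861572917], [nat_lit 418861572913], [nat_lit 418861572909], [nat_lit 418861572905], [nat_lit 418861572901], [nat_lit 418861572897], [nat_lit 53], [nat_lit 49]] []))))))))

end Vale.Agent.P181.K
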