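import Vale.Agent.P181.S.Eng2

namespace Vale.Agent.P181.K

noncomputable def ct15 : Tc :=
(.node (nat_lit 646)
(.node (nat_lit 452)
(.node (nat_lit 322)
(.node (nat_lit 194)
(.node (nat_lit 129)
(.node (nat_lit 64)
(.leaf [[nat_lit 85758670, nat_lit 49746, nat_lit 3728326], [nat_lit 51155534, nat_lit 2130510], [nat_lit 24914, nat_lit 1597902], [nat_lit 24910, nat_lit 2130502], [nat_lit 82], [nat_lit 78], [nat_lit 74], [nat_lit 70], [nat_lit 66], [nat_lit 62], [nat_lit 58], [nat_lit 53], [nat_lit 49], [nat_lit 45], [nat_lit 41]] [[], [], [], [], [], [], [], [], [], [], [], [], [], [nat_lit 369174], [nat_lit 335893, nat_lit 336020, nat_lit 336148], [nat_lit 303121, nat_lit 303122]])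
(.node (nat_lit 128)
(.leaf [[nat_lit 1159238350, nat_lit 1110758342, nat_lit 1107870414, nat_lit 1091097294], [nat_lit 1125167818, nat_lit 1110225734, nat_lit 1107870410], [nat_lit 1126208198, nat_lit 1107870406, nat_lit 1091097286, nat_lit 1142981318], [nat_lit 1126208194, nat_lit 99381, nat_lit 1142981314, nat_lit 1091097282], [nat_lit 1126208190, nat_lit 34157493, nat_lit 53793717], [nat_lit 51180341, nat_lit 53261109], [nat_lit 51688117, nat_lit 2663093, nat_lit 17109809], [nat_lit 51155509, nat_lit 2130485], [nat_lit 1597877, nat_lit 17084977, nat_lit 557493], [nat_lit 24885, nat_lit 1597873], [], [nat_lit 53], [nat_lit 49], [nat_lit 45], [nat_lit 41]] [[], [], [], [], [nat_lit 9225897495208], [nat_lit 436315007398], [], [], [], [nat_lit 13089777054], [], [], [], [], [nat_lit 336020], [nat_lit 303121]])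
(.leaf [[nat_lit 69844394826, nat_lit 69812925258], [nat_lit 69827359558, nat_lit 69812925254], [nat_lit 69812405058, nat_lit 69810324290, nat_lit 69812925250], [nat_lit 69827879742, nat_lit 69812925246, nat_lit 99381], [nat_lit 51192757, nat_lit 53793717], [nat_lit 53261109, nat_lit 17109813], [nat_lit 52208309, nat_lit 17109809, nat_lit 2663093], [nat_lit 68190773, nat_lit 2130485], [nat_lit 34120241, nat_lit 1597877], [nat_lit 24885, nat_lit 1597873], [nat_lit 24881, nat_lit 1597869, nat_lit 16689], [nat_lit 53], [nat_lit 49], [nat_lit 45], [nat_lit 41]] [[], [], [], [], [], [], [], [], [], [], [nat_lit 13089744155], [], [], [], [], [nat_lit 303121]])))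
(.node (nat_lit 192)
(.leaf [[nat_lit 2232718030, nat_lit 2216723150, nat_lit 2181612238], [nat_lit 2215682762, nat_lit 2216723146], [nat_lit 2216723142, nat_lit 2181612230], [nat_lit 2199687874, nat_lit 99381, nat_lit 2216723138], [nat_lit 2199687870, nat_lit 34157493, nat_lit 53793717], [nat_lit 51180341, nat_lit 53261109], [nat_lit 51688117, nat_lit 2663093, nat_lit 17109809], [nat_lit 68190773, nat_lit 2130485], [nat_lit 34120241, nat_lit 1597877], [nat_lit 24885, nat_lit 1597873], [nat_lit 24881, nat_lit 1597869, nat_lit 16689], [nat_lit 53], [nat_lit 49], [nat_lit 45], [nat_lit 41]] [[], [], [], [nat_lit 18159395949609], [nat_lit 440678132519], [], [], [], [], [], [nat_lit 203825949, nat_lit 13089743900, nat_lit 13089744027, nat_lit 13089744155], [], [], [], [nat_lit 336147], [nat_lit 303121]])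
(.node (nat_lit 193)
(.leaf [[nat_lit 70935950154, nat_lit 17171893, nat_lit 70920487878], [nat_lit 70901359430, nat_lit 55391541, nat_lit 124213], [nat_lit 70901879618, nat_lit 54858933, nat_lit 17147061], [nat_lit 51205173, nat_lit 54326325, nat_lit 51725365], [nat_lit 51192757, nat_lit 53793717], [nat_lit 51180341, nat_lit 53261109], [nat_lit 51688117, nat_lit 2663093, nat_lit 17109809], [nat_lit 68190773, nat_lit 2130485], [nat_lit 34120241, nat_lit 1597877], [nat_lit 24885, nat_lit 1597873], [nat_lit 24881, nat_lit 1597869, nat_lit 16689], [nat_lit 53], [nat_lit 49], [nat_lit 45], [nat_lit 41]] [])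
(.leaf [[nat_lit 139654644554, nat_lit 139623187398], [nat_lit 139620574022, nat_lit 139622654790], [nat_lit 139620574018, nat_lit 139622654786], [nat_lit 51205173, nat_lit 54326325, nat_lit 51725365], [nat_lit 51192757, nat_lit 53793717], [nat_lit 51180341, nat_lit 53261109], [nat_lit 51688117, nat_lit 2663093, nat_lit 17109809], [nat_lit 68190773, nat_lit 2130485], [nat_lit 34120241, nat_lit 1597877], [nat_lit 24885, nat_lit 1597873], [nat_lit 102261289], [nat_lit 53], [nat_lit 49], [nat_lit 45], [nat_lit 41]] []))))
(.node (nat_lit 258)
(.node (nat_lit 256)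
(.leaf [[nat_lit 3273167566, nat_lit 17171893, nat_lit 3274752966], [nat_lit 3273167562, nat_lit 124213, nat_lit 3274752962], [nat_lit 3273167558, nat_lit 17147061, nat_lit 54858933], [nat_lit 3273167554, nat_lit 99381, nat_lit 54326325], [nat_lit 53273525, nat_lit 34157493, nat_lit 53793717], [nat_lit 51180341, nat_lit 53261109], [nat_lit 51688117, nat_lit 2663093, nat_lit 1107870389, nat_lit 1091097269], [nat_lit 68190773, nat_lit 2130485], [nat_lit 34120241, nat_lit 1597877], [nat_lit 24885, nat_lit 1597873], [nat_lit 24881, nat_lit 1597869, nat_lit 16689], [nat_lit 53], [nat_lit 49], [nat_lit 45], [nat_lit 41]] [[], [nat_lit 26826776268205], [], [], [], [], [], [], [], [], [nat_lit 13089743772, nat_lit 13089744027]])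
(.node (nat_lit 257)
(.leaf [[nat_lit 72025944906, nat_lit 72026985290, nat_lit 17171893], [nat_lit 71992394566, nat_lit 55391541, nat_lit 124213], [nat_lit 51217589, nat_lit 54338741, nat_lit 54858933, nat_lit 51737781], [nat_lit 51205173, nat_lit 54326325, nat_lit 51725365], [nat_lit 51192757, nat_lit 53793717], [nat_lit 51180341, nat_lit 53261109], [nat_lit 51688117, nat_lit 2663093, nat_lit 17109809], [nat_lit 68190773, nat_lit 2130485], [nat_lit 34120241, nat_lit 1597877], [nat_lit 24885, nat_lit 1597873], [nat_lit 102261289], [nat_lit 53], [nat_lit 49], [nat_lit 45], [nat_lit 41]] [])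
(.leaf [[nat_lit 140745679690, nat_lit 55924149, nat_lit 17171893], [nat_lit 140712129350, nat_lit 55391541, nat_lit 124213], [nat_lit 51217589, nat_lit 54338741, nat_lit 54858933, nat_lit 51737781], [nat_lit 51205173, nat_lit 54326325, nat_lit 51725365], [nat_lit 51192757, nat_lit 53793717], [nat_lit 51180341, nat_lit 53261109], [nat_lit 51688117, nat_lit 2663093, nat_lit 17109809], [nat_lit 68190773, nat_lit 2130485], [nat_lit 34120241, nat_lit 1597877], [nat_lit 24885, nat_lit 1597873], [nat_lit 102261289], [nat_lit 53], [nat_lit 49], [nat_lit 45], [nat_lit 41]] [])))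
(.node (nat_lit 320)
(.node (nat_lit 259)
(.leaf [[nat_lit 209464894282, nat_lit 209432916934], [nat_lit 209431864134, nat_lit 124213, nat_lit 55391541], [nat_lit 51217589, nat_lit 54338741, nat_lit 54858933, nat_lit 51737781], [nat_lit 51205173, nat_lit 54326325, nat_lit 51725365], [nat_lit 51192757, nat_lit 53793717], [nat_lit 51180341, nat_lit 53261109], [nat_lit 51688117, nat_lit 2663093, nat_lit 17109809], [nat_lit 68190773, nat_lit 2130485], [nat_lit 34120241, nat_lit 1597877], [nat_lit 24885, nat_lit 1597873], [nat_lit 102261289], [nat_lit 53], [nat_lit 49], [nat_lit 45], [nat_lit 41]] [])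
(.leaf [[nat_lit 4363682510, nat_lit 4363174730, nat_lit 55924149], [nat_lit 4363682506, nat_lit 124213, nat_lit 55391541], [nat_lit 4363682502, nat_lit 17147061, nat_lit 54858933], [nat_lit 51205173, nat_lit 54326325, nat_lit 51725365], [nat_lit 51192757, nat_lit 53793717], [nat_lit 51180341, nat_lit 53261109], [nat_lit 51688117, nat_lit 2663093, nat_lit 2181612213], [nat_lit 68190773, nat_lit 2130485], [nat_lit 34120241, nat_lit 1597877], [nat_lit 24885, nat_lit 1597873], [nat_lit 102261289, nat_lit 24881, nat_lit 1597869], [nat_lit 53], [nat_lit 49], [nat_lit 45], [nat_lit 41]] [[], [], [], [], [], [], [], [], [], [], [nat_lit 13089743644, nat_lit 13089743899]]))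
(.node (nat_lit 321)
(.leaf [[nat_lit 73099944778, nat_lit 55924149, nat_lit 17171893, nat_lit 35767733], [nat_lit 54871349, nat_lit 51230005, nat_lit 52270389, nat_lit 55391541], [nat_lit 51217589, nat_lit 54338741, nat_lit 54858933, nat_lit 51737781], [nat_lit 51205173, nat_lit 54326325, nat_lit 51725365], [nat_lit 51192757, nat_lit 53793717], [nat_lit 51180341, nat_lit 53261109], [nat_lit 51688117, nat_lit 2663093, nat_lit 1107870389, nat_lit 1091097269], [nat_lit 68190773, nat_lit 2130485], [nat_lit 34120241, nat_lit 1597877], [nat_lit 24885, nat_lit 1597873], [nat_lit 102261289, nat_lit 1597869], [nat_lit 53], [nat_lit 49], [nat_lit 45], [nat_lit 41]] [])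
(.leaf [[nat_lit 51242421, nat_lit 54363573, nat_lit 55924149, nat_lit 51762613], [nat_lit 51230005, nat_lit 54351157, nat_lit 55391541, nat_lit 51750197], [nat_lit 51217589, nat_lit 54338741, nat_lit 54858933, nat_lit 51737781], [nat_lit 51205173, nat_lit 54326325, nat_lit 51725365], [nat_lit 51192757, nat_lit 53793717], [nat_lit 51180341, nat_lit 53261109], [nat_lit 51688117, nat_lit 2663093, nat_lit 17109809], [nat_lit 51155509, nat_lit 2130485], [nat_lit 34120241, nat_lit 1597877], [nat_lit 24885, nat_lit 1597873], [nat_lit 102261289], [nat_lit 53], [nat_lit 49], [nat_lit 45], [nat_lit 41]] [])))))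
(.node (nat_lit 387)
(.node (nat_lit 384)
(.node (nat_lit 323)
(.leaf [[nat_lit 51242421, nat_lit 54363573, nat_lit 55924149, nat_lit 51762613], [nat_lit 51230005, nat_lit 54351157, nat_lit 55391541, nat_lit 51750197], [nat_lit 51217589, nat_lit 54338741, nat_lit 54858933, nat_lit 51737781], [nat_lit 51205173, nat_lit 54326325, nat_lit 51725365], [nat_lit 51192757, nat_lit 53793717], [nat_lit 51180341, nat_lit 53261109], [nat_lit 51688117, nat_lit 2663093, nat_lit 1107870389, nat_lit 1091097269], [nat_lit 68190773, nat_lit 2130485], [nat_lit 34120241, nat_lit 1597877], [nat_lit 24885, nat_lit 1597873], [nat_lit 102261289], [nat_lit 53], [nat_lit 49], [nat_lit 45], [nat_lit 41]] [])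
(.node (nat_lit 324)
(.leaf [[nat_lit 279241073482, nat_lit 279242113866], [nat_lit 51230005, nat_lit 54351157, nat_lit 55391541, nat_lit 52270389], [nat_lit 51217589, nat_lit 54338741, nat_lit 52257973, nat_lit 54858933], [nat_lit 51205173, nat_lit 54326325, nat_lit 52245557], [nat_lit 51192757, nat_lit 53793717, nat_lit 51712949], [nat_lit 51180341, nat_lit 53261109], [nat_lit 51688117, nat_lit 2663093, nat_lit 34145073], [nat_lit 68190773, nat_lit 2130485], [nat_lit 34120241, nat_lit 1597877], [nat_lit 24885, nat_lit 1597873, nat_lit 16693], [nat_lit 102261289], [nat_lit 53], [nat_lit 49], [nat_lit 45], [nat_lit 41]] [])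
(.leaf [[nat_lit 5454730058, nat_lit 17171893, nat_lit 5471503178], [nat_lit 5454730054, nat_lit 17159477, nat_lit 55391541], [nat_lit 54858933, nat_lit 51217589, nat_lit 52257973], [nat_lit 54326325, nat_lit 51205173, nat_lit 51725365], [nat_lit 53273525, nat_lit 34157493, nat_lit 53793717], [nat_lit 51700533, nat_lit 53261109, nat_lit 74549], [nat_lit 51688117, nat_lit 2663093, nat_lit 2181612213], [nat_lit 51155509, nat_lit 2130485], [nat_lit 34120241, nat_lit 1597877], [nat_lit 24885, nat_lit 1597873], [nat_lit 102261289, nat_lit 24881, nat_lit 1597869], [nat_lit 53], [nat_lit 49], [nat_lit 45], [nat_lit 41]] [[nat_lit 458130632366], [], [], [], [], [], [], [], [], [], [nat_lit 13089744026]])))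
(.node (nat_lit 385)
(.leaf [[nat_lit 51242421, nat_lit 54363573, nat_lit 55924149, nat_lit 51762613], [nat_lit 51230005, nat_lit 54351157, nat_lit 55391541, nat_lit 51750197], [nat_lit 51217589, nat_lit 54338741, nat_lit 54858933, nat_lit 51737781], [nat_lit 51205173, nat_lit 54326325, nat_lit 51725365], [nat_lit 51192757, nat_lit 53793717], [nat_lit 51180341, nat_lit 53261109], [nat_lit 51688117, nat_lit 2663093, nat_lit 2181612213], [nat_lit 51155509, nat_lit 2130485], [nat_lit 34120241, nat_lit 1597877], [nat_lit 24885, nat_lit 1597873], [nat_lit 102261289], [nat_lit 53], [nat_lit 49], [nat_lit 45], [nat_lit 41]] [])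
(.node (nat_lit 386)
(.leaf [[nat_lit 51242421, nat_lit 54363573, nat_lit 55924149, nat_lit 51762613], [nat_lit 51230005, nat_lit 54351157, nat_lit 55391541, nat_lit 51750197], [nat_lit 51217589, nat_lit 54338741, nat_lit 54858933, nat_lit 51737781], [nat_lit 51205173, nat_lit 54326325, nat_lit 51725365], [nat_lit 51192757, nat_lit 53793717], [nat_lit 51180341, nat_lit 53261109], [nat_lit 51688117, nat_lit 2663093, nat_lit 1107870389, nat_lit 1091097269], [nat_lit 68190773, nat_lit 2130485], [nat_lit 34120241, nat_lit 1597877], [nat_lit 24885, nat_lit 1597873], [nat_lit 102261289], [nat_lit 53], [nat_lit 49], [nat_lit 45], [nat_lit 41]] [])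
(.leaf [[nat_lit 51242421, nat_lit 54363573, nat_lit 55924149, nat_lit 52282805], [nat_lit 51230005, nat_lit 54351157, nat_lit 55391541, nat_lit 52270389], [nat_lit 51217589, nat_lit 54338741, nat_lit 52257973, nat_lit 54858933], [nat_lit 51205173, nat_lit 54326325, nat_lit 52245557], [nat_lit 51192757, nat_lit 53793717, nat_lit 51712949], [nat_lit 51180341, nat_lit 53261109], [nat_lit 51688117, nat_lit 2663093, nat_lit 2181612213], [nat_lit 68190773, nat_lit 2130485], [nat_lit 34120241, nat_lit 1597877], [nat_lit 24885, nat_lit 1597873, nat_lit 16693], [nat_lit 102261289], [nat_lit 53], [nat_lit 49], [nat_lit 45], [nat_lit 41]] []))))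
(.node (nat_lit 448)
(.node (nat_lit 388)
(.leaf [[nat_lit 51242421, nat_lit 53843381, nat_lit 55924149, nat_lit 51762613], [nat_lit 51230005, nat_lit 53830965, nat_lit 55391541, nat_lit 51750197], [nat_lit 51217589, nat_lit 53818549, nat_lit 54858933, nat_lit 51737781], [nat_lit 51205173, nat_lit 53806133, nat_lit 54326325, nat_lit 51725365], [nat_lit 51192757, nat_lit 53793717, nat_lit 51712949], [nat_lit 51180341, nat_lit 53261109], [nat_lit 51688117, nat_lit 2663093, nat_lit 1107870389, nat_lit 1091097269], [nat_lit 68190773, nat_lit 2130485], [nat_lit 34120241, nat_lit 1597877], [nat_lit 24885, nat_lit 1597873, nat_lit 16693], [nat_lit 102261289], [nat_lit 53], [nat_lit 49], [nat_lit 45]] [])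
(.node (nat_lit 389)
(.leaf [[nat_lit 51242421, nat_lit 53843381, nat_lit 55924149, nat_lit 51762613], [nat_lit 51230005, nat_lit 53830965, nat_lit 55391541, nat_lit 51750197], [nat_lit 51217589, nat_lit 53818549, nat_lit 54858933, nat_lit 51737781], [nat_lit 51205173, nat_lit 53806133, nat_lit 54326325, nat_lit 51725365], [nat_lit 51192757, nat_lit 53793717, nat_lit 51712949], [nat_lit 51180341, nat_lit 53261109], [nat_lit 51688117, nat_lit 2663093, nat_lit 34145073], [nat_lit 68190773, nat_lit 2130485], [nat_lit 34120241, nat_lit 1597877, nat_lit 557493], [nat_lit 24885, nat_lit 1597873, nat_lit 1073585], [nat_lit 102261289], [nat_lit 53], [nat_lit 49], [nat_lit 45]] [])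
(.leaf [[nat_lit 6544712398, nat_lit 17171893, nat_lit 6545245002], [nat_lit 6544712394, nat_lit 124213, nat_lit 53830965], [nat_lit 51217589, nat_lit 54338741, nat_lit 54858933, nat_lit 51737781], [nat_lit 51205173, nat_lit 54326325, nat_lit 51725365], [nat_lit 51192757, nat_lit 53793717], [nat_lit 51180341, nat_lit 53261109], [nat_lit 51688117, nat_lit 2663093, nat_lit 2181612213], [nat_lit 51155509, nat_lit 2130485], [nat_lit 34120241, nat_lit 1597877], [nat_lit 24885, nat_lit 1597873], [nat_lit 102261289, nat_lit 24881, nat_lit 1597869], [nat_lit 53], [nat_lit 49], [nat_lit 45], [nat_lit 41]] [])))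
(.node (nat_lit 450)
(.node (nat_lit 449)
(.leaf [[nat_lit 51242421, nat_lit 54363573, nat_lit 55924149, nat_lit 51762613], [nat_lit 51230005, nat_lit 54351157, nat_lit 55391541, nat_lit 51750197], [nat_lit 51217589, nat_lit 54338741, nat_lit 54858933, nat_lit 51737781], [nat_lit 51205173, nat_lit 54326325, nat_lit 51725365], [nat_lit 51192757, nat_lit 53793717], [nat_lit 51180341, nat_lit 53261109], [nat_lit 51688117, nat_lit 2663093, nat_lit 2181612213], [nat_lit 51155509, nat_lit 2130485], [nat_lit 34120241, nat_lit 1597877], [nat_lit 24885, nat_lit 1597873], [nat_lit 102261289], [nat_lit 53], [nat_lit 49], [nat_lit 45], [nat_lit 41]] [])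
(.leaf [[nat_lit 51242421, nat_lit 54363573, nat_lit 55924149, nat_lit 52282805], [nat_lit 51230005, nat_lit 54351157, nat_lit 55391541, nat_lit 52270389], [nat_lit 51217589, nat_lit 54338741, nat_lit 52257973, nat_lit 54858933], [nat_lit 51205173, nat_lit 54326325, nat_lit 52245557], [nat_lit 51192757, nat_lit 53793717, nat_lit 51712949], [nat_lit 51180341, nat_lit 53261109], [nat_lit 51688117, nat_lit 2663093, nat_lit 2181612213], [nat_lit 68190773, nat_lit 2130485], [nat_lit 34120241, nat_lit 1597877], [nat_lit 24885, nat_lit 1597873, nat_lit 16693], [nat_lit 102261289], [nat_lit 53], [nat_lit 49], [nat_lit 45], [nat_lit 41]] []))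
(.node (nat_lit 451)
(.leaf [[nat_lit 51242421, nat_lit 53843381, nat_lit 55924149, nat_lit 51762613], [nat_lit 51230005, nat_lit 53830965, nat_lit 55391541, nat_lit 51750197], [nat_lit 51217589, nat_lit 53818549, nat_lit 54858933, nat_lit 51737781], [nat_lit 51205173, nat_lit 53806133, nat_lit 54326325, nat_lit 51725365], [nat_lit 51192757, nat_lit 53793717, nat_lit 51712949], [nat_lit 51180341, nat_lit 53261109], [nat_lit 51688117, nat_lit 2663093, nat_lit 2181612213], [nat_lit 68190773, nat_lit 2130485], [nat_lit 34120241, nat_lit 1597877], [nat_lit 24885, nat_lit 1597873, nat_lit 16693], [nat_lit 102261289], [nat_lit 53], [nat_lit 49], [nat_lit 45]] [])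
(.leaf [[nat_lit 51242421, nat_lit 53843381, nat_lit 55924149, nat_lit 51762613], [nat_lit 51230005, nat_lit 53830965, nat_lit 55391541, nat_lit 51750197], [nat_lit 51217589, nat_lit 53818549, nat_lit 54858933, nat_lit 51737781], [nat_lit 51205173, nat_lit 53806133, nat_lit 54326325, nat_lit 51725365], [nat_lit 51192757, nat_lit 53793717, nat_lit 51712949], [nat_lit 51180341, nat_lit 53261109], [nat_lit 51688117, nat_lit 2663093, nat_lit 2181612213], [nat_lit 68190773, nat_lit 2130485], [nat_lit 34120241, nat_lit 1597877, nat_lit 557493], [nat_lit 24885, nat_lit 1597873, nat_lit 1073585], [nat_lit 102261289], [nat_lit 53], [nat_lit 49], [nat_lit 45]] []))))))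
(.node (nat_lit 578)
(.node (nat_lit 515)
(.node (nat_lit 512)
(.node (nat_lit 453)
(.leaf [[nat_lit 51242421, nat_lit 53843381, nat_lit 55924149, nat_lit 51762613], [nat_lit 51230005, nat_lit 53830965, nat_lit 55391541, nat_lit 51750197], [nat_lit 51217589, nat_lit 53818549, nat_lit 54858933, nat_lit 51737781], [nat_lit 51205173, nat_lit 53806133, nat_lit 54326325, nat_lit 51725365], [nat_lit 51192757, nat_lit 53793717, nat_lit 51712949], [nat_lit 51180341, nat_lit 53261109], [nat_lit 51688117, nat_lit 2663093, nat_lit 1107870389, nat_lit 1091097269], [nat_lit 68190773, nat_lit 2130485], [nat_lit 34120241, nat_lit 1597877, nat_lit 557493], [nat_lit 24885, nat_lit 1597873, nat_lit 1073585], [nat_lit 102261289], [nat_lit 53], [nat_lit 49], [nat_lit 45]] [])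
(.node (nat_lit 454)
(.leaf [[nat_lit 69844456885, nat_lit 69847057845, nat_lit 55924149, nat_lit 51762613], [nat_lit 69844444469, nat_lit 69847045429, nat_lit 55391541, nat_lit 51750197], [nat_lit 69844432053, nat_lit 69847033013, nat_lit 54858933, nat_lit 51737781], [nat_lit 69844419637, nat_lit 69847020597, nat_lit 54326325, nat_lit 51725365], [nat_lit 69844407221, nat_lit 53793717, nat_lit 51712949], [nat_lit 69844394805, nat_lit 53261109], [nat_lit 51688117, nat_lit 2663093, nat_lit 69827359537], [nat_lit 68190773, nat_lit 2130485], [nat_lit 51155505, nat_lit 1597877], [nat_lit 102261293], [nat_lit 102261289], [nat_lit 53], [nat_lit 49], [nat_lit 45]] [])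
(.leaf [[nat_lit 1125242293, nat_lit 1129403829, nat_lit 1127323061, nat_lit 17171893, nat_lit 55924149], [nat_lit 51230005, nat_lit 54351157, nat_lit 55391541, nat_lit 51750197], [nat_lit 1125217461, nat_lit 54338741, nat_lit 54858933, nat_lit 17147061, nat_lit 51737781], [nat_lit 1125205045, nat_lit 54326325, nat_lit 99381, nat_lit 51725365], [nat_lit 1125192629, nat_lit 53793717, nat_lit 1090859957], [nat_lit 1125180213, nat_lit 53261109, nat_lit 74549], [nat_lit 1125167797, nat_lit 2663093, nat_lit 2181612213], [nat_lit 51155509, nat_lit 2130485], [nat_lit 34120241, nat_lit 1597877], [nat_lit 24885, nat_lit 1597873, nat_lit 16693], [nat_lit 24881, nat_lit 102261289, nat_lit 1597869], [nat_lit 53], [nat_lit 49], [nat_lit 45], [nat_lit 41]] [[], [], [], [], [], [], [], [], [], [], [nat_lit 837724480155]])))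
(.node (nat_lit 513)
(.leaf [[nat_lit 1125242293, nat_lit 1128363445, nat_lit 55924149, nat_lit 1125762485, nat_lit 17171893], [nat_lit 1125229877, nat_lit 1128351029, nat_lit 55391541, nat_lit 1125750069, nat_lit 17159477], [nat_lit 1125217461, nat_lit 1128338613, nat_lit 1125737653, nat_lit 17147061, nat_lit 54858933], [nat_lit 1125205045, nat_lit 1127806005, nat_lit 17134645, nat_lit 54326325], [nat_lit 1125192629, nat_lit 53793717, nat_lit 34157493], [nat_lit 1125180213, nat_lit 53261109, nat_lit 17109813], [nat_lit 1125167797, nat_lit 2663093, nat_lit 2181612213], [nat_lit 51155509, nat_lit 2130485], [nat_lit 34120241, nat_lit 1597877], [nat_lit 24885, nat_lit 1597873, nat_lit 16693], [nat_lit 102261289, nat_lit 24881, nat_lit 1597869], [nat_lit 53], [nat_lit 49], [nat_lit 45], [nat_lit 41]] [])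
(.node (nat_lit 514)
(.leaf [[nat_lit 51242421, nat_lit 53843381, nat_lit 55924149, nat_lit 51762613], [nat_lit 51230005, nat_lit 53830965, nat_lit 55391541, nat_lit 51750197], [nat_lit 51217589, nat_lit 53818549, nat_lit 54858933, nat_lit 51737781], [nat_lit 51205173, nat_lit 53806133, nat_lit 54326325, nat_lit 51725365], [nat_lit 51192757, nat_lit 53793717, nat_lit 51712949], [nat_lit 51180341, nat_lit 53261109], [nat_lit 1126208181, nat_lit 2181612213, nat_lit 2663093], [nat_lit 51155509, nat_lit 2130485], [nat_lit 34120241, nat_lit 1597877], [nat_lit 24885, nat_lit 1597873, nat_lit 16693], [nat_lit 102261289], [nat_lit 53], [nat_lit 49], [nat_lit 45]] [])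
(.leaf [[nat_lit 51242421, nat_lit 53843381, nat_lit 55924149, nat_lit 51762613], [nat_lit 51230005, nat_lit 53830965, nat_lit 55391541, nat_lit 51750197], [nat_lit 51217589, nat_lit 53818549, nat_lit 54858933, nat_lit 51737781], [nat_lit 51205173, nat_lit 53806133, nat_lit 54326325, nat_lit 51725365], [nat_lit 51192757, nat_lit 53793717, nat_lit 51712949], [nat_lit 51180341, nat_lit 53261109], [nat_lit 1126208181, nat_lit 2181612213, nat_lit 2663093], [nat_lit 68190773, nat_lit 2130485], [nat_lit 34120241, nat_lit 1597877, nat_lit 557493], [nat_lit 24885, nat_lit 1597873, nat_lit 1073585], [nat_lit 102261289], [nat_lit 53], [nat_lit 49], [nat_lit 45]] []))))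
(.node (nat_lit 518)
(.node (nat_lit 516)
(.leaf [[nat_lit 51242421, nat_lit 53843381, nat_lit 55924149, nat_lit 51762613], [nat_lit 51230005, nat_lit 53830965, nat_lit 55391541, nat_lit 51750197], [nat_lit 51217589, nat_lit 53818549, nat_lit 54858933, nat_lit 51737781], [nat_lit 51205173, nat_lit 53806133, nat_lit 54326325, nat_lit 51725365], [nat_lit 51192757, nat_lit 53793717, nat_lit 51712949], [nat_lit 51180341, nat_lit 53261109], [nat_lit 1126208181, nat_lit 2181612213, nat_lit 2663093], [nat_lit 51155509, nat_lit 2130485], [nat_lit 34120241, nat_lit 1597877, nat_lit 557493], [nat_lit 24885, nat_lit 1597873, nat_lit 1073585], [nat_lit 102261289], [nat_lit 53], [nat_lit 49], [nat_lit 45]] [])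
(.node (nat_lit 517)
(.leaf [[nat_lit 69844456885, nat_lit 69847057845, nat_lit 55924149, nat_lit 51762613], [nat_lit 69844444469, nat_lit 69847045429, nat_lit 55391541, nat_lit 51750197], [nat_lit 69844432053, nat_lit 69847033013, nat_lit 54858933, nat_lit 51737781], [nat_lit 69844419637, nat_lit 69847020597, nat_lit 54326325, nat_lit 51725365], [nat_lit 69844407221, nat_lit 53793717, nat_lit 51712949], [nat_lit 69844394805, nat_lit 53261109], [nat_lit 51688117, nat_lit 2663093, nat_lit 2181612213], [nat_lit 68190773, nat_lit 2130485], [nat_lit 34120241, nat_lit 1597877, nat_lit 557493], [nat_lit 102261293], [nat_lit 102261289], [nat_lit 53], [nat_lit 49], [nat_lit 45]] [])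
(.leaf [[nat_lit 69844456885, nat_lit 69847057845, nat_lit 55924149, nat_lit 69844977077], [nat_lit 69844444469, nat_lit 69847045429, nat_lit 55391541, nat_lit 69844964661], [nat_lit 69844432053, nat_lit 69847033013, nat_lit 54858933, nat_lit 69844952245], [nat_lit 69844419637, nat_lit 69847020597, nat_lit 69847278645, nat_lit 69844939829], [nat_lit 69844407221, nat_lit 53793717, nat_lit 69844927413], [nat_lit 69844394805, nat_lit 53261109], [nat_lit 51688117, nat_lit 2663093, nat_lit 1107870389, nat_lit 1091097269], [nat_lit 68190773, nat_lit 2130485], [nat_lit 51155505, nat_lit 1597877], [nat_lit 102261293], [nat_lit 102261289], [nat_lit 53], [nat_lit 49], [nat_lit 45]] [])))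
(.node (nat_lit 576)
(.node (nat_lit 519)
(.leaf [[nat_lit 139637671349, nat_lit 139640272309, nat_lit 139625317813, nat_lit 69844977077], [nat_lit 139637658933, nat_lit 139640259893, nat_lit 139624785205, nat_lit 69844964661], [nat_lit 139637646517, nat_lit 139640247477, nat_lit 139624252597, nat_lit 69844952245], [nat_lit 139637634101, nat_lit 139640235061, nat_lit 69844939829, nat_lit 139623719989], [nat_lit 139637621685, nat_lit 139639702453, nat_lit 139623187381], [nat_lit 139637609269, nat_lit 139622654773], [nat_lit 51688117, nat_lit 2663093, nat_lit 139620574001, nat_lit 52208309], [nat_lit 68190773, nat_lit 2130485], [nat_lit 51155505, nat_lit 1597877, nat_lit 1073589], [nat_lit 102261293], [nat_lit 102261289], [nat_lit 53], [nat_lit 49], [nat_lit 45]] [])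
(.leaf [[nat_lit 2198721973, nat_lit 1128883637, nat_lit 1126282677, nat_lit 1112888757], [nat_lit 2198709557, nat_lit 1127830837, nat_lit 1112356149, nat_lit 1125229877], [nat_lit 2198697141, nat_lit 2201818293, nat_lit 2199217333, nat_lit 1111823541], [nat_lit 2198684725, nat_lit 1127806005, nat_lit 1111290933, nat_lit 1125205045], [nat_lit 2198672309, nat_lit 1110758325, nat_lit 1125192629], [nat_lit 2198659893, nat_lit 1110225717], [nat_lit 2216723125, nat_lit 2181612213], [nat_lit 51155509, nat_lit 2130485], [nat_lit 34120241, nat_lit 1597877], [nat_lit 24885, nat_lit 1597873, nat_lit 16693], [nat_lit 24881, nat_lit 1073581, nat_lit 1597869, nat_lit 16689], [nat_lit 53], [nat_lit 49], [nat_lit 45], [nat_lit 41]] [[], [], [], [], [], [], [], [], [], [], [nat_lit 53614283629210, nat_lit 13089743642, nat_lit 13089743897]]))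
(.node (nat_lit 577)
(.leaf [[nat_lit 2198721973, nat_lit 2201843125, nat_lit 1112888757, nat_lit 2199242165], [nat_lit 2198709557, nat_lit 2201830709, nat_lit 1112356149, nat_lit 2199229749], [nat_lit 2198697141, nat_lit 2201818293, nat_lit 2199217333, nat_lit 1111823541], [nat_lit 2198684725, nat_lit 2201285685, nat_lit 1111290933], [nat_lit 2198672309, nat_lit 1127273397, nat_lit 1110758325], [nat_lit 2198659893, nat_lit 1110225717], [nat_lit 2216723125, nat_lit 2181612213], [nat_lit 51155509, nat_lit 2130485], [nat_lit 34120241, nat_lit 1597877], [nat_lit 24885, nat_lit 1597873, nat_lit 16693], [nat_lit 68190761, nat_lit 1597869, nat_lit 1073581], [nat_lit 53], [nat_lit 49], [nat_lit 45]] [[], [], [], [], [], [], [], [], [], [], [nat_lit 288035775130]])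
(.leaf [[nat_lit 1125242293, nat_lit 1127843253, nat_lit 1112888757, nat_lit 17171893, nat_lit 1125762485], [nat_lit 1125229877, nat_lit 1127830837, nat_lit 1112356149, nat_lit 17159477, nat_lit 1125750069], [nat_lit 1125217461, nat_lit 1127818421, nat_lit 1111823541, nat_lit 17147061, nat_lit 1125737653], [nat_lit 1125205045, nat_lit 1127806005, nat_lit 17134645, nat_lit 1111290933, nat_lit 1125725237], [nat_lit 1125192629, nat_lit 1110758325, nat_lit 2181637045, nat_lit 1125712821], [nat_lit 1125180213, nat_lit 1110225717, nat_lit 17109813], [nat_lit 2216723125, nat_lit 2181612213], [nat_lit 51155509, nat_lit 2130485], [nat_lit 34120241, nat_lit 1597877, nat_lit 557493], [nat_lit 24885, nat_lit 1597873, nat_lit 1073585], [nat_lit 68190761, nat_lit 68706857, nat_lit 1597869, nat_lit 35160617], [nat_lit 53], [nat_lit 49], [nat_lit 45]] [])))))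
(.node (nat_lit 584)
(.node (nat_lit 581)
(.node (nat_lit 579)
(.leaf [[nat_lit 1125242293, nat_lit 1127843253, nat_lit 1112888757, nat_lit 17171893, nat_lit 1125762485], [nat_lit 1125229877, nat_lit 1127830837, nat_lit 1112356149, nat_lit 17159477, nat_lit 1125750069], [nat_lit 1125217461, nat_lit 1127818421, nat_lit 1111823541, nat_lit 17147061, nat_lit 1125737653], [nat_lit 1125205045, nat_lit 1127806005, nat_lit 17134645, nat_lit 1125725237, nat_lit 1111290933], [nat_lit 1125192629, nat_lit 1127273397, nat_lit 1090859957, nat_lit 1110758325], [nat_lit 1125180213, nat_lit 1110225717, nat_lit 17109813], [nat_lit 2216723125, nat_lit 2181612213], [nat_lit 51155509, nat_lit 2130485], [nat_lit 34120241, nat_lit 1597877, nat_lit 557493], [nat_lit 24885, nat_lit 1597873, nat_lit 1073585], [nat_lit 68190761, nat_lit 68706857, nat_lit 1597869], [nat_lit 53], [nat_lit 49], [nat_lit 45]] [[], [], [], [], [], [], [], [], [], [], [nat_lit 288035775129]])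
(.node (nat_lit 580)
(.leaf [[nat_lit 1125242293, nat_lit 1127843253, nat_lit 1112888757, nat_lit 17171893, nat_lit 1125762485], [nat_lit 1125229877, nat_lit 1127830837, nat_lit 1112356149, nat_lit 17159477, nat_lit 1125750069], [nat_lit 1125217461, nat_lit 1127818421, nat_lit 1111823541, nat_lit 17147061, nat_lit 1125737653], [nat_lit 1125205045, nat_lit 1127806005, nat_lit 17134645, nat_lit 1125725237, nat_lit 1111290933], [nat_lit 1125192629, nat_lit 1127273397, nat_lit 34157493, nat_lit 1110758325], [nat_lit 1125180213, nat_lit 1110225717, nat_lit 17109813], [nat_lit 2216723125, nat_lit 2181612213], [nat_lit 51155509, nat_lit 2130485], [nat_lit 34120241, nat_lit 1597877, nat_lit 557493], [nat_lit 24885, nat_lit 35160621, nat_lit 1597873], [nat_lit 68190761, nat_lit 68706857, nat_lit 35160617, nat_lit 1597869], [nat_lit 53], [nat_lit 49], [nat_lit 45]] [])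
(.leaf [[nat_lit 69844456885, nat_lit 69847057845, nat_lit 1112888757, nat_lit 69844977077, nat_lit 69830542773], [nat_lit 69844444469, nat_lit 69847045429, nat_lit 1112356149, nat_lit 69844964661], [nat_lit 69844432053, nat_lit 69847033013, nat_lit 1111823541, nat_lit 69844952245], [nat_lit 69844419637, nat_lit 69847020597, nat_lit 69847278645, nat_lit 69844939829], [nat_lit 69844407221, nat_lit 69846487989, nat_lit 69846746037], [nat_lit 69844394805, nat_lit 1110225717, nat_lit 69827879733], [nat_lit 2216723125, nat_lit 2181612213], [nat_lit 51155509, nat_lit 2130485], [nat_lit 34120241, nat_lit 1597877, nat_lit 557493], [nat_lit 24885, nat_lit 35160621, nat_lit 1597873], [nat_lit 68190761, nat_lit 68706857, nat_lit 35160617, nat_lit 1597869], [nat_lit 53], [nat_lit 49], [nat_lit 45]] [[], [], [], [], [], [], [], [], [], [], [nat_lit 288035775128]])))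
(.node (nat_lit 582)
(.leaf [[nat_lit 139637671349, nat_lit 139640272309, nat_lit 139625317813, nat_lit 69844977077], [nat_lit 139637658933, nat_lit 139640259893, nat_lit 139624785205, nat_lit 69844964661], [nat_lit 139637646517, nat_lit 139640247477, nat_lit 139624252597, nat_lit 69844952245], [nat_lit 139637634101, nat_lit 139640235061, nat_lit 69844939829, nat_lit 139623719989], [nat_lit 139637621685, nat_lit 139639702453, nat_lit 139623187381], [nat_lit 139637609269, nat_lit 139622654773], [nat_lit 1125167797, nat_lit 1126208181, nat_lit 2181612213, nat_lit 2663093], [nat_lit 51155509, nat_lit 2130485, nat_lit 34898485], [nat_lit 51155505, nat_lit 1597877, nat_lit 1073589], [nat_lit 24885, nat_lit 35160621, nat_lit 1597873, nat_lit 16693, nat_lit 1065393], [nat_lit 68190761, nat_lit 68706857, nat_lit 1597869], [nat_lit 53], [nat_lit 49], [nat_lit 45]] [[], [], [], [], [], [], [], [], [], [], [nat_lit 288035775000, nat_lit 3431314005172887]])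
(.node (nat_lit 583)
(.leaf [[nat_lit 139637671349, nat_lit 139640272309, nat_lit 139625317813, nat_lit 139638191541], [nat_lit 139637658933, nat_lit 139640259893, nat_lit 139624785205, nat_lit 139638179125], [nat_lit 139637646517, nat_lit 139640247477, nat_lit 139624252597, nat_lit 139638166709], [nat_lit 139637634101, nat_lit 139640235061, nat_lit 139638154293, nat_lit 139623719989], [nat_lit 139637621685, nat_lit 139639702453, nat_lit 139623187381], [nat_lit 139655684917, nat_lit 69810324277, nat_lit 139622654773], [nat_lit 51688117, nat_lit 2663093, nat_lit 1107870389, nat_lit 1091097269, nat_lit 51946165], [nat_lit 51155509, nat_lit 2130485, nat_lit 34898485], [nat_lit 51155505, nat_lit 1597877, nat_lit 811445], [nat_lit 68190765, nat_lit 1597873, nat_lit 1073585, nat_lit 1065393], [nat_lit 418861572897, nat_lit 68190761], [nat_lit 53], [nat_lit 49]] [[], [], [], [], [], [], [], [], [], [], [nat_lit 3431314005172887]])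
(.leaf [[nat_lit 209430885813, nat_lit 209433486773, nat_lit 209435047349, nat_lit 139638191541], [nat_lit 209430873397, nat_lit 209433474357, nat_lit 209434514741, nat_lit 139638179125], [nat_lit 209430860981, nat_lit 209433461941, nat_lit 209433982133, nat_lit 139638166709], [nat_lit 209430848565, nat_lit 209433449525, nat_lit 139638154293], [nat_lit 209431356341, nat_lit 209432916917, nat_lit 139620586421], [nat_lit 209448899381, nat_lit 139620574005, nat_lit 139622654773], [nat_lit 51688117, nat_lit 19178165, nat_lit 139620574001, nat_lit 2663093], [nat_lit 51155509, nat_lit 2130485, nat_lit 34898485], [nat_lit 51155505, nat_lit 1597877, nat_lit 1073589], [nat_lit 68190765, nat_lit 68706861, nat_lit 35160621, nat_lit 1597873], [nat_lit 418861572897], [nat_lit 53], [nat_lit 49]] []))))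
(.node (nat_lit 642)
(.node (nat_lit 640)
(.leaf [[nat_lit 2198721973, nat_lit 2201843125, nat_lit 3276883381, nat_lit 2199242165], [nat_lit 3272709429, nat_lit 2201830709, nat_lit 3276350773, nat_lit 1090897205, nat_lit 2199229749], [nat_lit 3272697013, nat_lit 3275818165, nat_lit 3273217205, nat_lit 1090884789], [nat_lit 3272684597, nat_lit 3275285557, nat_lit 1090872373], [nat_lit 3272672181, nat_lit 3274752949, nat_lit 1090859957], [nat_lit 3272659765, nat_lit 1110225717, nat_lit 2181624629], [nat_lit 2216723125, nat_lit 2181612213], [nat_lit 51155509, nat_lit 2130485], [nat_lit 34120241, nat_lit 1597877], [nat_lit 24885, nat_lit 1597873, nat_lit 16693, nat_lit 8501], [nat_lit 24881, nat_lit 1597869, nat_lit 1073581, nat_lit 16689], [nat_lit 53], [nat_lit 49], [nat_lit 45]] [[], [], [], [], [], [], [], [], [], [], [nat_lit 53614283629082, nat_lit 53614283629209, nat_lit 53614283629210, nat_lit 13089743769]])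
(.node (nat_lit 641)
(.leaf [[nat_lit 3272721845, nat_lit 3275842997, nat_lit 3276883381, nat_lit 3273242037, nat_lit 2181686709], [nat_lit 3272709429, nat_lit 3275830581, nat_lit 3276350773, nat_lit 3273229621, nat_lit 2181674293], [nat_lit 3272697013, nat_lit 3275818165, nat_lit 3273217205, nat_lit 2181661877], [nat_lit 3272684597, nat_lit 3275285557, nat_lit 2181649461], [nat_lit 3272672181, nat_lit 3274752949, nat_lit 2181637045], [nat_lit 3272659765, nat_lit 1110225717, nat_lit 2181624629], [nat_lit 2216723125, nat_lit 2181612213], [nat_lit 51155509, nat_lit 2130485], [nat_lit 34120241, nat_lit 1597877, nat_lit 557493], [nat_lit 24885, nat_lit 1597873, nat_lit 1073585], [nat_lit 6544712357, nat_lit 24881, nat_lit 1597869], [nat_lit 53], [nat_lit 49], [nat_lit 45]] [[], [], [], [], [], [], [], [], [], [], [nat_lit 53614283629082]])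
(.leaf [[nat_lit 3276883381, nat_lit 2198721973, nat_lit 2200802741], [nat_lit 3276350773, nat_lit 2198709557, nat_lit 2200270133], [nat_lit 3275818165, nat_lit 2198697141, nat_lit 2199737525], [nat_lit 3275285557, nat_lit 2198684725, nat_lit 2199204917], [nat_lit 3274752949, nat_lit 2198672309], [nat_lit 2198659893, nat_lit 1110225717], [nat_lit 2216723125, nat_lit 2181612213], [nat_lit 51155509, nat_lit 2130485], [nat_lit 34120241, nat_lit 1597877, nat_lit 557493], [nat_lit 24885, nat_lit 1597873, nat_lit 1073585], [nat_lit 6544712357, nat_lit 1597869], [nat_lit 53], [nat_lit 49], [nat_lit 45]] [[], [], [], [], [], [], [], [], [], [], [nat_lit 53614283629209]])))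
(.node (nat_lit 644)
(.node (nat_lit 643)
(.leaf [[nat_lit 3276883381, nat_lit 2198721973, nat_lit 2200802741], [nat_lit 3276350773, nat_lit 2198709557, nat_lit 2200270133], [nat_lit 3275818165, nat_lit 2198697141, nat_lit 2199737525], [nat_lit 3275285557, nat_lit 2198684725, nat_lit 2199204917], [nat_lit 3274752949, nat_lit 2198672309], [nat_lit 2198659893, nat_lit 1110225717], [nat_lit 2216723125, nat_lit 2181612213], [nat_lit 51155509, nat_lit 2130485], [nat_lit 34120241, nat_lit 1597877, nat_lit 557493], [nat_lit 24885, nat_lit 35160621, nat_lit 1597873], [nat_lit 6544712357, nat_lit 1597869], [nat_lit 53], [nat_lit 49], [nat_lit 45]] [[], [], [], [], [], [], [], [], [], [], [nat_lit 53614283629081]])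
(.leaf [[nat_lit 2198721973, nat_lit 2201322933, nat_lit 1112888757, nat_lit 2199242165, nat_lit 2184807861], [nat_lit 2198709557, nat_lit 2201310517, nat_lit 1112356149, nat_lit 2199229749], [nat_lit 2198697141, nat_lit 2201298101, nat_lit 1111823541, nat_lit 2199217333], [nat_lit 2198684725, nat_lit 2201285685, nat_lit 2201543733, nat_lit 2199204917], [nat_lit 2198672309, nat_lit 2200753077, nat_lit 2201011125], [nat_lit 2198659893, nat_lit 1110225717, nat_lit 2182144821], [nat_lit 2216723125, nat_lit 2181612213], [nat_lit 51155509, nat_lit 2130485], [nat_lit 34120241, nat_lit 1597877, nat_lit 557493], [nat_lit 24885, nat_lit 35160621, nat_lit 1597873], [nat_lit 68190761, nat_lit 68706857, nat_lit 35160617, nat_lit 1597869], [nat_lit 53], [nat_lit 49], [nat_lit 45]] [[], [], [], [], [], [], [], [], [], [], [nat_lit 288035775128]]))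
(.node (nat_lit 645)
(.leaf [[nat_lit 70918456757, nat_lit 70921057717, nat_lit 70922618293, nat_lit 2181686709, nat_lit 70918976949], [nat_lit 70918444341, nat_lit 70921045301, nat_lit 70922085685, nat_lit 69810373941, nat_lit 70918964533], [nat_lit 70918431925, nat_lit 70921032885, nat_lit 70921553077, nat_lit 2181661877, nat_lit 70918952117], [nat_lit 70918419509, nat_lit 70921020469, nat_lit 69810349109, nat_lit 70918939701], [nat_lit 70918407093, nat_lit 70920487861, nat_lit 2181637045], [nat_lit 70918394677, nat_lit 1110225717, nat_lit 69810324277], [nat_lit 2216723125, nat_lit 2181612213], [nat_lit 51155509, nat_lit 2130485, nat_lit 34898485], [nat_lit 34120241, nat_lit 1597877, nat_lit 557493, nat_lit 1073589], [nat_lit 24885, nat_lit 35160621, nat_lit 1597873, nat_lit 16693, nat_lit 1065393], [nat_lit 68190761, nat_lit 68706857, nat_lit 1597869], [nat_lit 53], [nat_lit 49], [nat_lit 45]] [[], [], [], [], [], [], [], [], [], [], [nat_lit 288035775000, nat_lit 18159395709591]])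
(.leaf [[nat_lit 139637671349, nat_lit 139640272309, nat_lit 139625317813, nat_lit 139638191541], [nat_lit 139637658933, nat_lit 139640259893, nat_lit 139624785205, nat_lit 139638179125], [nat_lit 139637646517, nat_lit 139640247477, nat_lit 139624252597, nat_lit 139638166709], [nat_lit 139637634101, nat_lit 139640235061, nat_lit 139638154293, nat_lit 139623719989], [nat_lit 139637621685, nat_lit 139639702453, nat_lit 139623187381], [nat_lit 139637609269, nat_lit 139622654773], [nat_lit 2216723125, nat_lit 2181612213], [nat_lit 51155509, nat_lit 2130485, nat_lit 34898485], [nat_lit 34120241, nat_lit 1597877, nat_lit 557493, nat_lit 811445], [nat_lit 68190765, nat_lit 35160621, nat_lit 1597873, nat_lit 1065393], [nat_lit 68190761, nat_lit 68706857], [nat_lit 53], [nat_lit 49]] [[], [], [], [], [], [], [], [], [], [], [nat_lit 558618714520, nat_lit 3431314005172759, nat_lit 3431314005172887]])))))))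
(.node (nat_lit 779)
(.node (nat_lit 713)
(.node (nat_lit 706)
(.node (nat_lit 649)
(.node (nat_lit 647)
(.leaf [[nat_lit 209430885813, nat_lit 209433486773, nat_lit 209435047349, nat_lit 139638191541], [nat_lit 209430873397, nat_lit 209433474357, nat_lit 209434514741, nat_lit 139638179125], [nat_lit 209430860981, nat_lit 209433461941, nat_lit 209433982133, nat_lit 139638166709], [nat_lit 209430848565, nat_lit 209433449525, nat_lit 139638154293], [nat_lit 209431356341, nat_lit 209432916917, nat_lit 139620586421], [nat_lit 209448899381, nat_lit 139620574005, nat_lit 139622654773], [nat_lit 2216723125, nat_lit 2181612213], [nat_lit 51155509, nat_lit 2130485, nat_lit 34898485], [nat_lit 51155505, nat_lit 1597877, nat_lit 1073589], [nat_lit 68706861, nat_lit 24885, nat_lit 35160621, nat_lit 1597873], [nat_lit 418861572897], [nat_lit 53], [nat_lit 49]] [[], [], [], [], [], [], [], [], [], [], [nat_lit 3431314005172759]])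
(.node (nat_lit 648)
(.leaf [[nat_lit 209430885813, nat_lit 209433486773, nat_lit 209435047349, nat_lit 209431406005], [nat_lit 209430873397, nat_lit 209433474357, nat_lit 209434514741, nat_lit 209431393589], [nat_lit 209430860981, nat_lit 209433461941, nat_lit 209433982133, nat_lit 209431381173], [nat_lit 209430848565, nat_lit 209433449525, nat_lit 209431368757], [nat_lit 209431356341, nat_lit 209432916917, nat_lit 139620586421], [nat_lit 209447858997, nat_lit 139622654773], [nat_lit 1125167797, nat_lit 1126208181, nat_lit 1107870389, nat_lit 2663093], [nat_lit 51155509, nat_lit 2130485, nat_lit 34636341], [nat_lit 51155505, nat_lit 1597877, nat_lit 1073589], [nat_lit 68190765, nat_lit 68706861, nat_lit 1597873, nat_lit 35160621], [nat_lit 418861572897], [nat_lit 53], [nat_lit 49]] [[], [], [], [], [], [], [], [], [], [], [nat_lit 3431314005172886]])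
(.leaf [[nat_lit 209430885813, nat_lit 209433486773, nat_lit 209435047349, nat_lit 209431406005], [nat_lit 209430873397, nat_lit 209433474357, nat_lit 209434514741, nat_lit 209431393589], [nat_lit 209430860981, nat_lit 209433461941, nat_lit 209433982133, nat_lit 209431381173], [nat_lit 209430848565, nat_lit 209433449525, nat_lit 209431368757], [nat_lit 209447871413, nat_lit 209432916917], [nat_lit 279241073461, nat_lit 279242113845], [nat_lit 279241073457, nat_lit 19178165, nat_lit 19174069], [nat_lit 51155509, nat_lit 35160629, nat_lit 2130485], [nat_lit 51155505, nat_lit 35160625, nat_lit 1597877], [nat_lit 418861572901], [nat_lit 418861572897], [nat_lit 53], [nat_lit 49]] [])))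
(.node (nat_lit 704)
(.leaf [[nat_lit 3272721845, nat_lit 3275842997, nat_lit 3276883381, nat_lit 3273242037, nat_lit 2181686709], [nat_lit 3272709429, nat_lit 3275830581, nat_lit 3276350773, nat_lit 3273229621, nat_lit 2181674293], [nat_lit 3272697013, nat_lit 3275818165, nat_lit 3273217205, nat_lit 2181661877], [nat_lit 3272684597, nat_lit 3275285557, nat_lit 2181649461], [nat_lit 3272672181, nat_lit 3274752949, nat_lit 2181637045], [nat_lit 3272659765, nat_lit 1110225717, nat_lit 2181624629], [nat_lit 2216723125, nat_lit 2181612213], [nat_lit 34120245, nat_lit 2130485, nat_lit 17863221], [nat_lit 34120241, nat_lit 1597877, nat_lit 557493], [nat_lit 24885, nat_lit 1597873, nat_lit 1073585], [nat_lit 6544712357, nat_lit 24881, nat_lit 1597869], [nat_lit 53], [nat_lit 49], [nat_lit 45]] [[], [], [], [], [], [], [], [], [], [], [nat_lit 53614283629082, nat_lit 53614283629209, nat_lit 13089743641]])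
(.node (nat_lit 705)
(.leaf [[nat_lit 3272721845, nat_lit 3275842997, nat_lit 3276883381, nat_lit 3273762229, nat_lit 2181686709], [nat_lit 3272709429, nat_lit 3275830581, nat_lit 3273749813, nat_lit 3276350773, nat_lit 2181674293], [nat_lit 3272697013, nat_lit 3275818165, nat_lit 3273737397, nat_lit 2181661877], [nat_lit 3272684597, nat_lit 3275285557, nat_lit 2181649461, nat_lit 3273204789], [nat_lit 3272672181, nat_lit 3274752949, nat_lit 2181637045], [nat_lit 3272659765, nat_lit 1110225717, nat_lit 2181624629], [nat_lit 2216723125, nat_lit 2181612213], [nat_lit 34120245, nat_lit 2130485, nat_lit 17863221], [nat_lit 34120241, nat_lit 1597877, nat_lit 557493], [nat_lit 24885, nat_lit 1597873, nat_lit 1073585], [nat_lit 6544712357, nat_lit 1597869], [nat_lit 53], [nat_lit 49], [nat_lit 45]] [[], [], [], [], [], [], [], [], [], [], [nat_lit 53614283629209]])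
(.leaf [[nat_lit 3272721845, nat_lit 3275322805, nat_lit 3276883381, nat_lit 2181686709, nat_lit 3273242037], [nat_lit 3272709429, nat_lit 3275310389, nat_lit 3276350773, nat_lit 2181674293, nat_lit 3273229621], [nat_lit 3272697013, nat_lit 3275297973, nat_lit 3275818165, nat_lit 2181661877, nat_lit 3273217205], [nat_lit 3272684597, nat_lit 3275285557, nat_lit 2181649461, nat_lit 3273204789], [nat_lit 3272672181, nat_lit 3274752949, nat_lit 2181637045], [nat_lit 3272659765, nat_lit 1110225717, nat_lit 2181624629], [nat_lit 2216723125, nat_lit 2181612213], [nat_lit 34120245, nat_lit 2130485, nat_lit 17863221], [nat_lit 34120241, nat_lit 1597877, nat_lit 557493], [nat_lit 6544712361], [nat_lit 6544712357, nat_lit 1597869], [nat_lit 53], [nat_lit 49], [nat_lit 45]] []))))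
(.node (nat_lit 709)
(.node (nat_lit 707)
(.leaf [[nat_lit 3272721845, nat_lit 3275322805, nat_lit 3276883381, nat_lit 2181686709, nat_lit 3273242037], [nat_lit 3272709429, nat_lit 3275310389, nat_lit 3276350773, nat_lit 2181674293, nat_lit 3273229621], [nat_lit 3272697013, nat_lit 3275297973, nat_lit 3275818165, nat_lit 2181661877, nat_lit 3273217205], [nat_lit 3272684597, nat_lit 3275285557, nat_lit 2181649461, nat_lit 3273204789], [nat_lit 3272672181, nat_lit 3274752949, nat_lit 2181637045], [nat_lit 3272659765, nat_lit 1110225717, nat_lit 2181624629], [nat_lit 2215682741, nat_lit 2216723125], [nat_lit 34120245, nat_lit 2130485, nat_lit 34898485], [nat_lit 34120241, nat_lit 1597877, nat_lit 557493], [nat_lit 24885, nat_lit 35160621, nat_lit 1597873], [nat_lit 6544712357], [nat_lit 53], [nat_lit 49], [nat_lit 45]] [])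
(.node (nat_lit 708)
(.leaf [[nat_lit 3272721845, nat_lit 3275322805, nat_lit 3276883381, nat_lit 2181686709, nat_lit 3273242037], [nat_lit 3272709429, nat_lit 3275310389, nat_lit 3276350773, nat_lit 2181674293, nat_lit 3273229621], [nat_lit 3272697013, nat_lit 3275297973, nat_lit 3275818165, nat_lit 2181661877, nat_lit 3273217205], [nat_lit 3272684597, nat_lit 3275285557, nat_lit 2181649461, nat_lit 3273204789], [nat_lit 3272672181, nat_lit 3274752949, nat_lit 2181637045], [nat_lit 3272659765, nat_lit 1110225717, nat_lit 2181624629], [nat_lit 2215682741, nat_lit 2216723125], [nat_lit 34120245, nat_lit 35160629, nat_lit 2130485], [nat_lit 34120241, nat_lit 1597877, nat_lit 557493, nat_lit 1073589], [nat_lit 24885, nat_lit 35160621, nat_lit 1597873, nat_lit 16693], [nat_lit 6544712357, nat_lit 1597869], [nat_lit 53], [nat_lit 49], [nat_lit 45]] [])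
(.leaf [[nat_lit 71991936437, nat_lit 71994537397, nat_lit 3276883381, nat_lit 71992456629], [nat_lit 71991924021, nat_lit 71994524981, nat_lit 3276350773, nat_lit 71992444213], [nat_lit 71991911605, nat_lit 71994512565, nat_lit 3275818165, nat_lit 71992431797], [nat_lit 71991899189, nat_lit 71994500149, nat_lit 71992419381, nat_lit 3275285557], [nat_lit 71991886773, nat_lit 3274752949, nat_lit 71992406965], [nat_lit 71992394549, nat_lit 139622654773, nat_lit 2181624629], [nat_lit 2215682741, nat_lit 2216723125], [nat_lit 34120245, nat_lit 35160629, nat_lit 2130485], [nat_lit 34120241, nat_lit 1597877, nat_lit 557493, nat_lit 811445], [nat_lit 24885, nat_lit 35160621, nat_lit 1597873, nat_lit 16693, nat_lit 1065393], [nat_lit 4397228709, nat_lit 24881, nat_lit 4363682469], [nat_lit 53], [nat_lit 49]] [[], [], [], [], [], [], [], [], [], [], [nat_lit 35747286786456, nat_lit 35747286786583, nat_lit 36022097584790, nat_lit 18159395709591]])))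
(.node (nat_lit 711)
(.node (nat_lit 710)
(.leaf [[nat_lit 140711671221, nat_lit 140714272181, nat_lit 139625317813, nat_lit 139620636085, nat_lit 140712191413], [nat_lit 140711658805, nat_lit 140714259765, nat_lit 139624785205, nat_lit 139620623669, nat_lit 140712178997], [nat_lit 140711646389, nat_lit 140714247349, nat_lit 140714505397, nat_lit 139620611253, nat_lit 140712166581], [nat_lit 140711633973, nat_lit 140713714741, nat_lit 140713972789, nat_lit 139620598837], [nat_lit 140711621557, nat_lit 139623187381, nat_lit 139620586421, nat_lit 140712141749], [nat_lit 140712129333, nat_lit 139622654773, nat_lit 139620574005], [nat_lit 2215682741, nat_lit 2216723125], [nat_lit 51155509, nat_lit 2130485, nat_lit 34636341], [nat_lit 34120241, nat_lit 1597877, nat_lit 557493, nat_lit 1073589], [nat_lit 24885, nat_lit 51929645, nat_lit 35160621, nat_lit 1597873, nat_lit 16693], [nat_lit 418861572897, nat_lit 24881], [nat_lit 53], [nat_lit 49]] [[], [], [], [], [], [], [], [], [], [], [nat_lit 3431314005172504, nat_lit 3431314005172759, nat_lit 3431314005172886]])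
(.leaf [[nat_lit 209430885813, nat_lit 209433486773, nat_lit 209435047349, nat_lit 209431406005], [nat_lit 209430873397, nat_lit 209433474357, nat_lit 209434514741, nat_lit 209431393589], [nat_lit 209430860981, nat_lit 209433461941, nat_lit 209433982133, nat_lit 209431381173], [nat_lit 209430848565, nat_lit 209433449525, nat_lit 209431368757], [nat_lit 209431356341, nat_lit 209432916917, nat_lit 139620586421], [nat_lit 209447858997, nat_lit 139622654773], [nat_lit 2216723125, nat_lit 2181612213], [nat_lit 51155509, nat_lit 2130485, nat_lit 34636341], [nat_lit 34120241, nat_lit 1597877, nat_lit 557493, nat_lit 1073589], [nat_lit 418861572901], [nat_lit 418861572897], [nat_lit 53], [nat_lit 49]] [[], [], [], [], [], [], [], [], [], [], [nat_lit 3431314005172886]]))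
(.node (nat_lit 712)
(.leaf [[nat_lit 209430885813, nat_lit 209433486773, nat_lit 209435047349, nat_lit 209431406005], [nat_lit 209430873397, nat_lit 209433474357, nat_lit 209434514741, nat_lit 209431393589], [nat_lit 209430860981, nat_lit 209433461941, nat_lit 209433982133, nat_lit 209431381173], [nat_lit 209430848565, nat_lit 209433449525, nat_lit 209431368757], [nat_lit 209447871413, nat_lit 209432916917], [nat_lit 279241073461, nat_lit 279242113845], [nat_lit 2216723125, nat_lit 2181612213], [nat_lit 51155509, nat_lit 35160629, nat_lit 2130485], [nat_lit 34120241, nat_lit 35160625, nat_lit 1597877, nat_lit 557493], [nat_lit 418861572901], [nat_lit 418861572897], [nat_lit 53], [nat_lit 49]] [])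
(.leaf [[nat_lit 279241135541, nat_lit 279244256693, nat_lit 279244776885, nat_lit 279241655733], [nat_lit 279241123125, nat_lit 279244244277, nat_lit 279241643317], [nat_lit 279241110709, nat_lit 279243711669], [nat_lit 279241098293, nat_lit 279243179061], [nat_lit 279241085877, nat_lit 279242646453], [nat_lit 279241073461, nat_lit 279242113845], [nat_lit 279241073457, nat_lit 279242113841], [nat_lit 51155509, nat_lit 35160629, nat_lit 2130485], [nat_lit 34120241, nat_lit 35160625, nat_lit 1597877, nat_lit 557493], [nat_lit 418861572901], [nat_lit 418861572897], [nat_lit 53], [nat_lit 49]] [])))))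
(.node (nat_lit 772)
(.node (nat_lit 769)
(.node (nat_lit 714)
(.leaf [[nat_lit 279241135541, nat_lit 279244256693, nat_lit 279242175925, nat_lit 279244776885], [nat_lit 279241123125, nat_lit 279244244277, nat_lit 279242163509], [nat_lit 279241110709, nat_lit 279243711669, nat_lit 279241630901], [nat_lit 279241098293, nat_lit 279243179061], [nat_lit 279241085877, nat_lit 279242646453], [nat_lit 279241073461, nat_lit 279242113845], [nat_lit 418861572913], [nat_lit 51155509, nat_lit 35160629, nat_lit 2130485], [nat_lit 418861572905], [nat_lit 418861572901], [nat_lit 418861572897], [nat_lit 53], [nat_lit 49]] [])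
(.node (nat_lit 768)
(.leaf [[nat_lit 4363236789, nat_lit 4366357941, nat_lit 3276883381, nat_lit 3273242037], [nat_lit 4363224373, nat_lit 4366345525, nat_lit 3276350773, nat_lit 3273229621], [nat_lit 4363211957, nat_lit 4365812917, nat_lit 3275818165], [nat_lit 4363199541, nat_lit 3275285557], [nat_lit 4363187125, nat_lit 3274752949], [nat_lit 4363174709, nat_lit 1110225717], [nat_lit 4363682485, nat_lit 2181612213, nat_lit 2216723125], [nat_lit 35160629, nat_lit 49717, nat_lit 2130485], [nat_lit 557493, nat_lit 1597877, nat_lit 17084977], [nat_lit 24885, nat_lit 1597873, nat_lit 1073585], [nat_lit 6544712357, nat_lit 24881], [nat_lit 53], [nat_lit 49], [nat_lit 45]] [[], [], [], [], [], [], [], [], [], [], [nat_lit 53614283629209, nat_lit 13089743640, nat_lit 13089743768]])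
(.leaf [[nat_lit 4363236789, nat_lit 4366357941, nat_lit 3276883381, nat_lit 4363756981], [nat_lit 4363224373, nat_lit 4366345525, nat_lit 3276350773, nat_lit 4363744565], [nat_lit 4363211957, nat_lit 4365812917, nat_lit 3275818165], [nat_lit 4363199541, nat_lit 3275285557], [nat_lit 4363187125, nat_lit 3274752949], [nat_lit 4363174709, nat_lit 1110225717], [nat_lit 4363682485, nat_lit 2181612213, nat_lit 2216723125], [nat_lit 34120245, nat_lit 2130485, nat_lit 17863221], [nat_lit 557493, nat_lit 1597877, nat_lit 17084977], [nat_lit 6544712361], [nat_lit 6544712357], [nat_lit 53], [nat_lit 49], [nat_lit 45]] [[], [], [], [], [], [], [], [], [], [], [nat_lit 13089743640]])))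
(.node (nat_lit 770)
(.leaf [[nat_lit 4363236789, nat_lit 4366357941, nat_lit 3276883381, nat_lit 3273242037], [nat_lit 4363224373, nat_lit 4366345525, nat_lit 3276350773, nat_lit 3273229621], [nat_lit 4363211957, nat_lit 4365812917, nat_lit 3275818165], [nat_lit 4363199541, nat_lit 3275285557, nat_lit 3273204789], [nat_lit 4363187125, nat_lit 3274752949], [nat_lit 4363174709, nat_lit 1110225717], [nat_lit 4363682485, nat_lit 2181612213, nat_lit 2216723125], [nat_lit 34120245, nat_lit 2130485, nat_lit 17601077], [nat_lit 557493, nat_lit 1597877, nat_lit 17084977], [nat_lit 6544712361], [nat_lit 6544712357], [nat_lit 53], [nat_lit 49], [nat_lit 45]] [])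
(.node (nat_lit 771)
(.leaf [[nat_lit 4363236789, nat_lit 4366357941, nat_lit 3276883381, nat_lit 4363756981], [nat_lit 4363224373, nat_lit 4366345525, nat_lit 4363744565, nat_lit 3276350773], [nat_lit 4363211957, nat_lit 4365812917, nat_lit 3275818165], [nat_lit 4363199541, nat_lit 3275285557, nat_lit 4363719733], [nat_lit 4363187125, nat_lit 3274752949], [nat_lit 4363174709, nat_lit 1110225717], [nat_lit 4363682485, nat_lit 2181612213, nat_lit 2216723125], [nat_lit 34120245, nat_lit 35160629, nat_lit 2130485], [nat_lit 34120241, nat_lit 1597877, nat_lit 557493, nat_lit 1073589], [nat_lit 6544712361], [nat_lit 6544712357], [nat_lit 53], [nat_lit 49], [nat_lit 45]] [])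
(.leaf [[nat_lit 4363236789, nat_lit 4366357941, nat_lit 3276883381, nat_lit 3273762229], [nat_lit 4363224373, nat_lit 4366345525, nat_lit 3273749813, nat_lit 3276350773], [nat_lit 4363211957, nat_lit 4365812917, nat_lit 3275818165], [nat_lit 4363199541, nat_lit 3275285557, nat_lit 3273204789], [nat_lit 4363187125, nat_lit 3274752949], [nat_lit 4363174709, nat_lit 1110225717], [nat_lit 4363682485, nat_lit 2181612213, nat_lit 2216723125], [nat_lit 34120245, nat_lit 35160629, nat_lit 2130485], [nat_lit 34120241, nat_lit 1597877, nat_lit 557493, nat_lit 811445], [nat_lit 6544712361], [nat_lit 6544712357], [nat_lit 53], [nat_lit 49]] []))))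
(.node (nat_lit 775)
(.node (nat_lit 773)
(.leaf [[nat_lit 71991936437, nat_lit 71994537397, nat_lit 3276883381, nat_lit 71992456629], [nat_lit 71991924021, nat_lit 71994524981, nat_lit 3276350773, nat_lit 71992444213], [nat_lit 71991911605, nat_lit 71994512565, nat_lit 3275818165, nat_lit 71992431797], [nat_lit 71991899189, nat_lit 71994500149, nat_lit 71992419381, nat_lit 3275285557], [nat_lit 71991886773, nat_lit 3274752949, nat_lit 71992406965], [nat_lit 71992394549, nat_lit 139622654773, nat_lit 2181624629], [nat_lit 4363682485, nat_lit 2181612213, nat_lit 2216723125], [nat_lit 34120245, nat_lit 35160629, nat_lit 2130485], [nat_lit 34120241, nat_lit 1597877, nat_lit 557493, nat_lit 1073589], [nat_lit 6544712361], [nat_lit 6544712357], [nat_lit 53], [nat_lit 49]] [])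
(.node (nat_lit 774)
(.leaf [[nat_lit 73086612917, nat_lit 140711671221, nat_lit 140713231797, nat_lit 139620636085], [nat_lit 73086080309, nat_lit 140711658805, nat_lit 140712699189, nat_lit 139620623669], [nat_lit 73085547701, nat_lit 140711646389, nat_lit 140712166581, nat_lit 139620611253], [nat_lit 73085015093, nat_lit 71991899189, nat_lit 140711633973], [nat_lit 73084482485, nat_lit 71991886773], [nat_lit 140712129333, nat_lit 139622654773, nat_lit 139620574005], [nat_lit 2216723125, nat_lit 2181612213], [nat_lit 34120245, nat_lit 35160629, nat_lit 2130485], [nat_lit 34120241, nat_lit 1597877, nat_lit 557493, nat_lit 1073589], [nat_lit 4397228713, nat_lit 24885, nat_lit 4363682473, nat_lit 1597873], [nat_lit 418861572897, nat_lit 24881], [nat_lit 53], [nat_lit 49]] [[], [], [], [], [], [], [], [], [], [], [nat_lit 3431314005172631, nat_lit 3431314005172886]])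
(.leaf [[nat_lit 209430885813, nat_lit 209433486773, nat_lit 209435047349, nat_lit 209431406005], [nat_lit 209430873397, nat_lit 209433474357, nat_lit 209434514741, nat_lit 209431393589], [nat_lit 209430860981, nat_lit 209433461941, nat_lit 209433982133, nat_lit 209431381173], [nat_lit 209430848565, nat_lit 209433449525, nat_lit 209431368757], [nat_lit 209431356341, nat_lit 209432916917, nat_lit 139620586421], [nat_lit 279241073461, nat_lit 279242113845], [nat_lit 2216723125, nat_lit 2181612213], [nat_lit 34120245, nat_lit 35160629, nat_lit 2130485], [nat_lit 34120241, nat_lit 35160625, nat_lit 1597877, nat_lit 557493], [nat_lit 418861572901], [nat_lit 418861572897], [nat_lit 53], [nat_lit 49]] [])))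
(.node (nat_lit 777)
(.node (nat_lit 776)
(.leaf [[nat_lit 279241135541, nat_lit 279244256693, nat_lit 279244776885, nat_lit 279241655733], [nat_lit 279241123125, nat_lit 279244244277, nat_lit 279241643317], [nat_lit 279241110709, nat_lit 279243711669], [nat_lit 279241098293, nat_lit 279243179061], [nat_lit 279241085877, nat_lit 279242646453], [nat_lit 279241073461, nat_lit 279242113845], [nat_lit 2216723125, nat_lit 2181612213], [nat_lit 34120245, nat_lit 35160629, nat_lit 2130485], [nat_lit 34120241, nat_lit 35160625, nat_lit 1597877, nat_lit 557493], [nat_lit 418861572901], [nat_lit 418861572897], [nat_lit 53], [nat_lit 49]] [])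
(.leaf [[nat_lit 279241135541, nat_lit 279244256693, nat_lit 279242175925, nat_lit 279244776885], [nat_lit 279241123125, nat_lit 279244244277, nat_lit 279242163509], [nat_lit 279241110709, nat_lit 279243711669, nat_lit 279241630901], [nat_lit 279241098293, nat_lit 279243179061], [nat_lit 279241085877, nat_lit 279242646453], [nat_lit 279241073461, nat_lit 279242113845], [nat_lit 279241073457, nat_lit 279242113841], [nat_lit 34120245, nat_lit 35160629, nat_lit 2130485], [nat_lit 418861572905], [nat_lit 418861572901], [nat_lit 418861572897], [nat_lit 53], [nat_lit 49]] []))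
(.node (nat_lit 778)
(.leaf [[nat_lit 279241135541, nat_lit 279243736501, nat_lit 279244776885, nat_lit 279241655733], [nat_lit 279241123125, nat_lit 279243724085, nat_lit 279244244277, nat_lit 279241643317], [nat_lit 279241110709, nat_lit 279243711669, nat_lit 279241630901], [nat_lit 279241098293, nat_lit 279243179061], [nat_lit 279241085877, nat_lit 279242646453], [nat_lit 279241073461, nat_lit 279242113845], [nat_lit 418861572913], [nat_lit 34120245, nat_lit 35160629, nat_lit 2130485], [nat_lit 418861572905], [nat_lit 418861572901], [nat_lit 418861572897], [nat_lit 53]] [])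
(.leaf [[nat_lit 349051385269, nat_lit 349054506421, nat_lit 349051905461], [nat_lit 349051372853, nat_lit 349053973813], [nat_lit 349051360437, nat_lit 349053441205], [nat_lit 349051348021, nat_lit 349052908597], [nat_lit 349051855797, nat_lit 279241085877, nat_lit 349052375989], [nat_lit 279241073461, nat_lit 279242113845], [nat_lit 418861572913], [nat_lit 418861572909], [nat_lit 418861572905], [nat_lit 418861572901], [nat_lit 418861572897], [nat_lit 53]] []))))))
(.node (nat_lit 844)
(.node (nat_lit 837)
(.node (nat_lit 834)
(.node (nat_lit 832)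
(.leaf [[nat_lit 4363236789, nat_lit 4366357941, nat_lit 3276883381, nat_lit 4363756981], [nat_lit 4363224373, nat_lit 4366345525, nat_lit 3276350773, nat_lit 4363744565], [nat_lit 4363211957, nat_lit 4365812917, nat_lit 3275818165], [nat_lit 4363199541, nat_lit 3275285557], [nat_lit 4363187125, nat_lit 3274752949], [nat_lit 6545244981, nat_lit 2181624629], [nat_lit 6544712373], [nat_lit 6544712369], [nat_lit 557493, nat_lit 1597877, nat_lit 49713], [nat_lit 6544712361], [nat_lit 6544712357, nat_lit 24881], [nat_lit 53], [nat_lit 49], [nat_lit 45]] [[], [], [], [], [], [], [], [], [], [], [nat_lit 53614283629081, nat_lit 53614283629336]])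
(.node (nat_lit 833)
(.leaf [[nat_lit 4363236789, nat_lit 4366357941, nat_lit 3276883381, nat_lit 4363756981], [nat_lit 4363224373, nat_lit 4366345525, nat_lit 3276350773, nat_lit 4363744565], [nat_lit 4363211957, nat_lit 4365812917, nat_lit 3275818165], [nat_lit 4363199541, nat_lit 3275285557, nat_lit 4363719733], [nat_lit 4363187125, nat_lit 3274752949], [nat_lit 6545244981, nat_lit 2181624629], [nat_lit 6544712373], [nat_lit 6544712369], [nat_lit 557493, nat_lit 1597877, nat_lit 17084977], [nat_lit 6544712361], [nat_lit 6544712357], [nat_lit 53], [nat_lit 49], [nat_lit 45]] [])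
(.leaf [[nat_lit 4363236789, nat_lit 4366357941, nat_lit 3276883381, nat_lit 4363756981], [nat_lit 4363224373, nat_lit 4366345525, nat_lit 4363744565, nat_lit 3276350773], [nat_lit 4363211957, nat_lit 4365812917, nat_lit 3275818165], [nat_lit 4363199541, nat_lit 3275285557, nat_lit 4363719733], [nat_lit 4363187125, nat_lit 3274752949], [nat_lit 6545244981, nat_lit 2181624629], [nat_lit 6544712373], [nat_lit 6544712369], [nat_lit 557493, nat_lit 1597877, nat_lit 17084977, nat_lit 1073589], [nat_lit 6544712361], [nat_lit 6544712357], [nat_lit 53], [nat_lit 49], [nat_lit 45]] [])))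
(.node (nat_lit 835)
(.leaf [[nat_lit 4363236789, nat_lit 4366357941, nat_lit 3276883381, nat_lit 4363756981], [nat_lit 4363224373, nat_lit 4366345525, nat_lit 4363744565, nat_lit 3276350773], [nat_lit 4363211957, nat_lit 4365812917, nat_lit 3275818165], [nat_lit 4363199541, nat_lit 3275285557, nat_lit 4363719733], [nat_lit 4363187125, nat_lit 3274752949], [nat_lit 6545244981, nat_lit 2181624629], [nat_lit 6544712373], [nat_lit 6544712369], [nat_lit 6544712365], [nat_lit 6544712361], [nat_lit 6544712357], [nat_lit 53], [nat_lit 49]] [])
(.node (nat_lit 836)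
(.leaf [[nat_lit 4363236789, nat_lit 4366357941, nat_lit 3276883381, nat_lit 4364277173], [nat_lit 4363224373, nat_lit 4366345525, nat_lit 4364264757, nat_lit 4366603573], [nat_lit 4363211957, nat_lit 4365812917, nat_lit 4366070965, nat_lit 4363732149], [nat_lit 4363199541, nat_lit 3275285557, nat_lit 4363719733], [nat_lit 4363187125, nat_lit 3274752949], [nat_lit 6545244981, nat_lit 2181624629], [nat_lit 6544712373], [nat_lit 4363682481, nat_lit 49717, nat_lit 2130485], [nat_lit 6544712365], [nat_lit 6544712361], [nat_lit 6544712357], [nat_lit 53], [nat_lit 49]] [])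
(.leaf [[nat_lit 73082971573, nat_lit 73086092725, nat_lit 4364277173, nat_lit 73086612917, nat_lit 2181686709], [nat_lit 73082959157, nat_lit 73086080309, nat_lit 4364264757, nat_lit 2181674293], [nat_lit 73082946741, nat_lit 73085547701, nat_lit 2181661877, nat_lit 4363732149], [nat_lit 73082934325, nat_lit 73085015093, nat_lit 2181649461], [nat_lit 73082921909, nat_lit 73084482485, nat_lit 2181637045], [nat_lit 73082909493, nat_lit 139622654773, nat_lit 2181624629], [nat_lit 6544712373], [nat_lit 4363682481, nat_lit 17084981, nat_lit 2130485], [nat_lit 6544712365], [nat_lit 6544712361], [nat_lit 6544712357], [nat_lit 53], [nat_lit 49]] []))))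
(.node (nat_lit 840)
(.node (nat_lit 838)
(.leaf [[nat_lit 141802186165, nat_lit 141805307317, nat_lit 73086612917, nat_lit 73083491765], [nat_lit 141802173749, nat_lit 141805294901, nat_lit 73083479349, nat_lit 73086080309], [nat_lit 141802161333, nat_lit 141804762293, nat_lit 73085547701, nat_lit 73082946741], [nat_lit 141802148917, nat_lit 73085015093], [nat_lit 141802136501, nat_lit 73084482485], [nat_lit 141802644277, nat_lit 139622654773, nat_lit 139620574005], [nat_lit 6544712373], [nat_lit 4363682481, nat_lit 17084981, nat_lit 2130485], [nat_lit 6544712365], [nat_lit 6544712361], [nat_lit 6544712357], [nat_lit 53], [nat_lit 49]] [])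
(.node (nat_lit 839)
(.leaf [[nat_lit 210521920949, nat_lit 210525042101, nat_lit 141803226549, nat_lit 210525300149, nat_lit 139620636085], [nat_lit 210521908533, nat_lit 210524509493, nat_lit 210524767541, nat_lit 139620623669, nat_lit 141802693941], [nat_lit 210521896117, nat_lit 141804762293, nat_lit 139620611253, nat_lit 210524234933], [nat_lit 210521883701, nat_lit 209433449525, nat_lit 139620598837], [nat_lit 210521871285, nat_lit 209432916917, nat_lit 139620586421], [nat_lit 279241073461, nat_lit 279242113845], [nat_lit 4363682485, nat_lit 2181612213, nat_lit 2663093], [nat_lit 4363682481, nat_lit 17084981, nat_lit 2130485], [nat_lit 4363682477, nat_lit 17084977, nat_lit 1597877, nat_lit 33205], [nat_lit 418861572901], [nat_lit 418861572897], [nat_lit 53], [nat_lit 49]] [])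
(.leaf [[nat_lit 279241135541, nat_lit 279244256693, nat_lit 210522441141, nat_lit 279244776885], [nat_lit 279241123125, nat_lit 279244244277, nat_lit 210522428725], [nat_lit 279241110709, nat_lit 279243711669, nat_lit 210521896117], [nat_lit 279241098293, nat_lit 279243179061], [nat_lit 279241085877, nat_lit 279242646453], [nat_lit 279241073461, nat_lit 279242113845], [nat_lit 4363682485, nat_lit 2181612213, nat_lit 279242113841], [nat_lit 4363682481, nat_lit 17084981, nat_lit 2130485], [nat_lit 418861572905], [nat_lit 418861572901], [nat_lit 418861572897], [nat_lit 53], [nat_lit 49]] [])))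
(.node (nat_lit 842)
(.node (nat_lit 841)
(.leaf [[nat_lit 279241135541, nat_lit 279243736501, nat_lit 279244776885, nat_lit 279241655733], [nat_lit 279241123125, nat_lit 279243724085, nat_lit 279244244277, nat_lit 279241643317], [nat_lit 279241110709, nat_lit 279243711669, nat_lit 279241630901], [nat_lit 279241098293, nat_lit 279243179061], [nat_lit 279241085877, nat_lit 279242646453], [nat_lit 279241073461, nat_lit 279242113845], [nat_lit 279241073457, nat_lit 279242113841], [nat_lit 418861572909], [nat_lit 418861572905], [nat_lit 418861572901], [nat_lit 418861572897], [nat_lit 53]] [])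
(.leaf [[nat_lit 349051385269, nat_lit 349054506421, nat_lit 349051905461], [nat_lit 349051372853, nat_lit 349053973813], [nat_lit 349051360437, nat_lit 349053441205], [nat_lit 349051348021, nat_lit 349052908597], [nat_lit 349051855797, nat_lit 279241085877, nat_lit 349052375989], [nat_lit 279241073461, nat_lit 279242113845], [nat_lit 418861572913], [nat_lit 418861572909], [nat_lit 418861572905], [nat_lit 418861572901], [nat_lit 418861572897], [nat_lit 53]] []))
(.node (nat_lit 843)
(.leaf [[nat_lit 349051385269, nat_lit 349054506421, nat_lit 349051905461], [nat_lit 349051372853, nat_lit 349053973813], [nat_lit 349051360437, nat_lit 349053441205], [nat_lit 349051348021, nat_lit 349052908597], [nat_lit 349051855797, nat_lit 279241085877, nat_lit 349052375989], [nat_lit 418861572917], [nat_lit 418861572913], [nat_lit 418861572909], [nat_lit 418861572905], [nat_lit 418861572901], [nat_lit 418861572897], [nat_lit 53]] [])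
(.leaf [[nat_lit 349051385269, nat_lit 349054506421, nat_lit 349051905461], [nat_lit 349051372853, nat_lit 349053973813], [nat_lit 349051360437, nat_lit 349053441205], [nat_lit 349051348021, nat_lit 349052908597], [nat_lit 349051855797, nat_lit 279241085877, nat_lit 349052375989], [nat_lit 418861572917], [nat_lit 418861572913], [nat_lit 418861572909], [nat_lit 418861572905], [nat_lit 418861572901], [nat_lit 418861572897], [nat_lit 53]] [])))))
(.node (nat_lit 902)
(.node (nat_lit 898)
(.node (nat_lit 896)
(.leaf [[nat_lit 5454271925, nat_lit 5457393077, nat_lit 2181686709, nat_lit 4367136181], [nat_lit 5454259509, nat_lit 5456860469, nat_lit 2181674293, nat_lit 4366603573], [nat_lit 5454247093, nat_lit 3275818165, nat_lit 2181661877], [nat_lit 5454234677, nat_lit 3275285557, nat_lit 2181649461], [nat_lit 5454222261, nat_lit 3274752949, nat_lit 2181637045], [nat_lit 6545244981, nat_lit 2181624629], [nat_lit 6544712373], [nat_lit 6544712369], [nat_lit 6544712365], [nat_lit 6544712361], [nat_lit 6544712357], [nat_lit 53], [nat_lit 49], [nat_lit 45]] [[], [], [], [], [], [], [], [], [],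 [], [nat_lit 53614283628953, nat_lit 53614283629208, nat_lit 53614283629335]])
(.node (nat_lit 897)
(.leaf [[nat_lit 5454271925, nat_lit 5457393077, nat_lit 2181686709, nat_lit 3276883381], [nat_lit 5454259509, nat_lit 5456860469, nat_lit 2181674293, nat_lit 3276350773], [nat_lit 5454247093, nat_lit 3275818165, nat_lit 2181661877], [nat_lit 5454234677, nat_lit 3275285557, nat_lit 2181649461], [nat_lit 5454222261, nat_lit 3274752949, nat_lit 2181637045], [nat_lit 6545244981, nat_lit 2181624629], [nat_lit 6544712373], [nat_lit 6544712369], [nat_lit 6544712365], [nat_lit 6544712361], [nat_lit 6544712357], [nat_lit 53], [nat_lit 49], [nat_lit 45]] [[], [], [], [], [], [], [], [], [], [], [nat_lit 53614283629335]])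
(.leaf [[nat_lit 5454271925, nat_lit 5457393077, nat_lit 2181686709, nat_lit 4367136181, nat_lit 4364277173], [nat_lit 5454259509, nat_lit 5456860469, nat_lit 2181674293, nat_lit 4366603573], [nat_lit 5454247093, nat_lit 3275818165, nat_lit 2181661877, nat_lit 4364252341], [nat_lit 5454234677, nat_lit 3275285557, nat_lit 2181649461], [nat_lit 5454222261, nat_lit 3274752949, nat_lit 2181637045], [nat_lit 6545244981, nat_lit 2181624629], [nat_lit 6544712373], [nat_lit 6544712369], [nat_lit 6544712365], [nat_lit 6544712361], [nat_lit 6544712357], [nat_lit 53], [nat_lit 49]] [])))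
(.node (nat_lit 900)
(.node (nat_lit 899)
(.leaf [[nat_lit 5454271925, nat_lit 5457393077, nat_lit 2181686709, nat_lit 4367136181, nat_lit 5454792117], [nat_lit 5454259509, nat_lit 5456860469, nat_lit 2181674293, nat_lit 4366603573], [nat_lit 5454247093, nat_lit 3275818165, nat_lit 2181661877, nat_lit 5454767285], [nat_lit 5454234677, nat_lit 3275285557, nat_lit 2181649461], [nat_lit 5454222261, nat_lit 3274752949, nat_lit 2181637045], [nat_lit 6545244981, nat_lit 2181624629], [nat_lit 6544712373], [nat_lit 6544712369], [nat_lit 6544712365], [nat_lit 6544712361], [nat_lit 6544712357], [nat_lit 53], [nat_lit 49]] [])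
(.leaf [[nat_lit 5454271925, nat_lit 5457393077, nat_lit 3272459701, nat_lit 4364277173, nat_lit 3276883381], [nat_lit 5454259509, nat_lit 5456860469, nat_lit 3272447285, nat_lit 3276350773], [nat_lit 5454247093, nat_lit 5456327861, nat_lit 3272434869, nat_lit 3275818165], [nat_lit 5454234677, nat_lit 3275285557, nat_lit 3272422453], [nat_lit 5454222261, nat_lit 3274752949, nat_lit 3272410037], [nat_lit 6545244981, nat_lit 2181624629], [nat_lit 6544712373], [nat_lit 6544712369], [nat_lit 6544712365], [nat_lit 6544712361], [nat_lit 6544712357], [nat_lit 53], [nat_lit 49]] []))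
(.node (nat_lit 901)
(.leaf [[nat_lit 73082971573, nat_lit 73085572533, nat_lit 73086612917, nat_lit 71991936437, nat_lit 4363756981], [nat_lit 73082959157, nat_lit 73085560117, nat_lit 73086080309, nat_lit 71991924021, nat_lit 4363744565], [nat_lit 73082946741, nat_lit 73085547701, nat_lit 71991911605, nat_lit 4363732149], [nat_lit 73082934325, nat_lit 73085015093, nat_lit 71991899189], [nat_lit 73082921909, nat_lit 73084482485, nat_lit 71991886773], [nat_lit 6545244981, nat_lit 2181624629], [nat_lit 6544712373], [nat_lit 6544712369], [nat_lit 6544712365], [nat_lit 6544712361], [nat_lit 6544712357], [nat_lit 53], [nat_lit 49]] [])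
(.leaf [[nat_lit 141802186165, nat_lit 141804787125, nat_lit 73086612917, nat_lit 73082971573], [nat_lit 141802173749, nat_lit 141804774709, nat_lit 73086080309, nat_lit 73082959157], [nat_lit 141802161333, nat_lit 141804762293, nat_lit 73085547701, nat_lit 73082946741], [nat_lit 141802148917, nat_lit 73085015093], [nat_lit 141802136501, nat_lit 73084482485], [nat_lit 74173944629, nat_lit 139620574005, nat_lit 140712907573], [nat_lit 6544712373], [nat_lit 6544712369], [nat_lit 6544712365], [nat_lit 6544712361], [nat_lit 6544712357], [nat_lit 53], [nat_lit 49]] []))))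
(.node (nat_lit 905)
(.node (nat_lit 903)
(.leaf [[nat_lit 142896342453, nat_lit 210521920949, nat_lit 141803226549, nat_lit 209430885813], [nat_lit 142895809845, nat_lit 210521908533, nat_lit 209430873397, nat_lit 141802693941], [nat_lit 142895277237, nat_lit 141802161333], [nat_lit 142894744629, nat_lit 209430848565], [nat_lit 142894212021, nat_lit 139620586421], [nat_lit 142893159221, nat_lit 279242113845, nat_lit 139620574005], [nat_lit 6544712373], [nat_lit 6544712369], [nat_lit 6544712365], [nat_lit 6544712361], [nat_lit 418861572897], [nat_lit 53], [nat_lit 49]] [[], [], [], [], [], [], [], [], [], [], [nat_lit 3431314005172757]])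
(.node (nat_lit 904)
(.leaf [[nat_lit 279241135541, nat_lit 279243736501, nat_lit 279244776885, nat_lit 210521920949], [nat_lit 279241123125, nat_lit 279243724085, nat_lit 279244244277, nat_lit 210521908533], [nat_lit 279241110709, nat_lit 279243711669, nat_lit 210521896117], [nat_lit 279241098293, nat_lit 279243179061], [nat_lit 279241085877, nat_lit 279242646453], [nat_lit 279241073461, nat_lit 279242113845], [nat_lit 4363682485, nat_lit 2181612213, nat_lit 279242113841], [nat_lit 418861572909], [nat_lit 418861572905], [nat_lit 418861572901], [nat_lit 418861572897], [nat_lit 53]] [])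
(.leaf [[nat_lit 349051385269, nat_lit 349054506421, nat_lit 349051905461], [nat_lit 349051372853, nat_lit 349053973813], [nat_lit 349051360437, nat_lit 349053441205], [nat_lit 349051348021, nat_lit 349052908597], [nat_lit 349051855797, nat_lit 279241085877, nat_lit 349052375989], [nat_lit 279241073461, nat_lit 279242113845], [nat_lit 418861572913], [nat_lit 418861572909], [nat_lit 418861572905], [nat_lit 418861572901], [nat_lit 418861572897], [nat_lit 53]] [])))
(.node (nat_lit 907)
(.node (nat_lit 906)
(.leaf [[nat_lit 349051385269, nat_lit 349054506421, nat_lit 349051905461], [nat_lit 349051372853, nat_lit 349053973813], [nat_lit 349051360437, nat_lit 349053441205], [nat_lit 349051348021, nat_lit 349052908597], [nat_lit 349051855797, nat_lit 279241085877, nat_lit 349052375989], [nat_lit 418861572917], [nat_lit 418861572913], [nat_lit 418861572909], [nat_lit 418861572905], [nat_lit 418861572901], [nat_lit 418861572897], [nat_lit 53]] [])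
(.leaf [[nat_lit 349051385269, nat_lit 349054506421, nat_lit 349051905461], [nat_lit 349051372853, nat_lit 349053973813], [nat_lit 349051360437, nat_lit 349053441205], [nat_lit 349051348021, nat_lit 349052908597], [nat_lit 349051855797, nat_lit 279241085877, nat_lit 349052375989], [nat_lit 418861572917], [nat_lit 418861572913], [nat_lit 418861572909], [nat_lit 418861572905], [nat_lit 418861572901], [nat_lit 418861572897], [nat_lit 53]] []))
(.node (nat_lit 908)
(.leaf [[nat_lit 418861634997, nat_lit 418864235957], [nat_lit 418861622581, nat_lit 418863703349], [nat_lit 418861610165, nat_lit 418863170741], [nat_lit 418861597749, nat_lit 418862638133], [nat_lit 418862105525, nat_lit 279241085877], [nat_lit 418861572917], [nat_lit 418861572913], [nat_lit 418861572909], [nat_lit 418861572905], [nat_lit 418861572901], [], [nat_lit 53]] [])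
(.leaf [[nat_lit 418861634997, nat_lit 418864235957], [nat_lit 418861622581, nat_lit 418863703349], [nat_lit 418861610165, nat_lit 418863170741], [nat_lit 418861597749, nat_lit 418862638133], [nat_lit 418862105525, nat_lit 279241085877], [nat_lit 418861572917], [nat_lit 418861572913], [nat_lit 418861572909], [nat_lit 418861572905], [nat_lit 418861572901], [], [nat_lit 53]] []))))))))

noncomputable def ct16 : Tc :=
(.node (nat_lit 708)
(.node (nat_lit 513)
(.node (nat_lit 324)
(.node (nat_lit 256)
(.node (nat_lit 129)
(.node (nat_lit 64)
(.leaf [[nat_lit 102793934, nat_lit 17085010], [nat_lit 102261326, nat_lit 34120270], [nat_lit 68190794, nat_lit 2663110], [nat_lit 86], [nat_lit 82], [nat_lit 78], [nat_lit 74], [nat_lit 70], [nat_lit 66], [nat_lit 62], [nat_lit 58], [nat_lit 53], [nat_lit 49], [nat_lit 45], [nat_lit 41]] [[], [], [], [], [], [], [], [], [], [], [], [], [], [nat_lit 368918], [nat_lit 335892, nat_lit 336019]])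
(.node (nat_lit 128)
(.leaf [[nat_lit 1125167822, nat_lit 1110758342, nat_lit 1107870414], [nat_lit 1142203082, nat_lit 1110225734, nat_lit 1107870410], [nat_lit 1125688006, nat_lit 1110225730, nat_lit 1107870406, nat_lit 1091097286], [nat_lit 1126208194, nat_lit 1107870402, nat_lit 1091097282, nat_lit 1142981314], [nat_lit 1126208190, nat_lit 34157493, nat_lit 1142981310], [nat_lit 68215605, nat_lit 53261109], [nat_lit 102793909, nat_lit 34145073, nat_lit 17617589], [nat_lit 102261301], [nat_lit 1597877, nat_lit 34120241, nat_lit 557493], [nat_lit 24885, nat_lit 1597873, nat_lit 16693], [nat_lit 24881, nat_lit 102261289], [nat_lit 53], [nat_lit 49], [nat_lit 45], [nat_lit 41]] [[], [], [], [nat_lit 9094969150377], [nat_lit 440678132391], [nat_lit 436315007397], [nat_lit 21816060067], [nat_lit 17452935073], [], [nat_lit 13089776543, nat_lit 13089776798, nat_lit 13089777053], [nat_lit 837724480156, nat_lit 837724480157, nat_lit 837724480283, nat_lit 837724480284, nat_lit 837724480411, nat_lit 13089743772, nat_lit 13089743898, nat_lit 13089743899, nat_lit 13089744027], [], [], [], [nat_lit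 336019]])
(.leaf [[nat_lit 69861430090, nat_lit 69813457862], [nat_lit 69845955398, nat_lit 69810324294, nat_lit 69812925254], [nat_lit 69827359554, nat_lit 69812925250], [nat_lit 69827359550, nat_lit 69812925246], [nat_lit 68228021, nat_lit 53793717], [nat_lit 69776181, nat_lit 17109813, nat_lit 53261109], [nat_lit 102793909, nat_lit 34145073], [nat_lit 102261301], [nat_lit 51155505, nat_lit 1597877], [nat_lit 24885, nat_lit 1597873], [nat_lit 102261289, nat_lit 24881], [nat_lit 53], [nat_lit 49], [nat_lit 45], [nat_lit 41]] [[], [], [], [], [], [], [], [], [], [], [nat_lit 837724480284, nat_lit 13089743899]])))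
(.node (nat_lit 193)
(.node (nat_lit 192)
(.leaf [[nat_lit 2249753294, nat_lit 2216723150, nat_lit 2181612238], [nat_lit 2215682762, nat_lit 2216723146], [nat_lit 2216723142, nat_lit 2181612230], [nat_lit 2216723138, nat_lit 2181612226], [nat_lit 2216723134, nat_lit 34157493, nat_lit 53793717], [nat_lit 68215605, nat_lit 53261109], [nat_lit 102793909, nat_lit 34145073], [nat_lit 102261301], [nat_lit 51155505, nat_lit 1597877], [nat_lit 24885, nat_lit 1597873, nat_lit 16693], [nat_lit 102261289, nat_lit 24881], [nat_lit 53], [nat_lit 49], [nat_lit 45], [nat_lit 41]] [[], [], [], [], [], [], [], [], [], [], [nat_lit 837724480156, nat_lit 837724480284, nat_lit 13089743771, nat_lit 13089743898, nat_lit 13089743899], [], [], [], [nat_lit 335891]])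
(.leaf [[nat_lit 70935429962, nat_lit 70920487878, nat_lit 70901097290], [nat_lit 70936470342, nat_lit 17159477, nat_lit 70903178054], [nat_lit 70901359426, nat_lit 54858933, nat_lit 17147061], [nat_lit 68240437, nat_lit 54326325, nat_lit 68760629], [nat_lit 68228021, nat_lit 53793717], [nat_lit 68215605, nat_lit 53261109], [nat_lit 102793909, nat_lit 34145073], [nat_lit 102261301], [nat_lit 51155505, nat_lit 1597877], [nat_lit 24885, nat_lit 1597873], [nat_lit 102261289], [nat_lit 53], [nat_lit 49], [nat_lit 45], [nat_lit 41]] [[], [], [], [], [], [], [], [], [], [], [nat_lit 13089743771]]))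
(.node (nat_lit 194)
(.leaf [[nat_lit 139672720202, nat_lit 139620574026], [nat_lit 139637609286, nat_lit 139622654790], [nat_lit 139621614402, nat_lit 17147061, nat_lit 139622654786], [nat_lit 68240437, nat_lit 70841397, nat_lit 54326325], [nat_lit 68228021, nat_lit 53793717], [nat_lit 68215605, nat_lit 53261109], [nat_lit 102793909, nat_lit 34145073], [nat_lit 102261301], [nat_lit 51155505, nat_lit 1597877], [nat_lit 24885, nat_lit 1597873, nat_lit 16693], [nat_lit 102261289], [nat_lit 53], [nat_lit 49], [nat_lit 45], [nat_lit 41]] [])
(.leaf [[nat_lit 3306730314, nat_lit 3274752966, nat_lit 17171893], [nat_lit 3273167562, nat_lit 3272397638, nat_lit 3274752962, nat_lit 17159477], [nat_lit 3273167558, nat_lit 17147061, nat_lit 54858933], [nat_lit 3273167554, nat_lit 17134645, nat_lit 54326325], [nat_lit 70308789, nat_lit 34157493, nat_lit 53793717], [nat_lit 68215605, nat_lit 53261109], [nat_lit 102793909, nat_lit 1107870389, nat_lit 1091097269], [nat_lit 102261301], [nat_lit 51155505, nat_lit 1597877], [nat_lit 24885, nat_lit 1597873, nat_lit 16693], [nat_lit 102261289, nat_lit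 24881], [nat_lit 53], [nat_lit 49], [nat_lit 45], [nat_lit 41]] [[], [], [], [], [], [], [], [], [], [], [nat_lit 837724480156, nat_lit 13089743771, nat_lit 13089743898]]))))
(.node (nat_lit 320)
(.node (nat_lit 258)
(.node (nat_lit 257)
(.leaf [[nat_lit 72025944906, nat_lit 72026985290], [nat_lit 71992394566, nat_lit 55391541, nat_lit 17159477], [nat_lit 68252853, nat_lit 71374005, nat_lit 68773045, nat_lit 54858933], [nat_lit 68240437, nat_lit 70841397, nat_lit 54326325], [nat_lit 68228021, nat_lit 53793717], [nat_lit 68215605, nat_lit 53261109], [nat_lit 102793909, nat_lit 34145073], [nat_lit 102261301], [nat_lit 51155505, nat_lit 1597877], [nat_lit 24885, nat_lit 1597873, nat_lit 16693], [nat_lit 102261289], [nat_lit 53], [nat_lit 49], [nat_lit 45], [nat_lit 41]] [[], [], [], [], [], [], [], [], [], [], [nat_lit 13089743898]])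
(.leaf [[nat_lit 140745679690, nat_lit 55924149, nat_lit 17171893], [nat_lit 140712129350, nat_lit 55391541, nat_lit 17159477], [nat_lit 68252853, nat_lit 71374005, nat_lit 68773045, nat_lit 54858933], [nat_lit 68240437, nat_lit 70841397, nat_lit 54326325], [nat_lit 68228021, nat_lit 53793717], [nat_lit 68215605, nat_lit 53261109], [nat_lit 102793909, nat_lit 1107870389, nat_lit 1091097269], [nat_lit 102261301], [nat_lit 51155505, nat_lit 1597877], [nat_lit 24885, nat_lit 1597873, nat_lit 16693], [nat_lit 102261289], [nat_lit 53], [nat_lit 49], [nat_lit 45]] []))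
(.node (nat_lit 259)
(.leaf [[nat_lit 209464894282, nat_lit 209432916934], [nat_lit 209447859014, nat_lit 55391541], [nat_lit 68252853, nat_lit 71374005, nat_lit 68773045, nat_lit 54858933], [nat_lit 68240437, nat_lit 70841397, nat_lit 54326325], [nat_lit 68228021, nat_lit 53793717], [nat_lit 68215605, nat_lit 53261109], [nat_lit 102793909, nat_lit 34145073], [nat_lit 102261301], [nat_lit 51155505, nat_lit 1597877], [nat_lit 102261293], [nat_lit 102261289], [nat_lit 53], [nat_lit 49], [nat_lit 45]] [])
(.leaf [[nat_lit 4363682510, nat_lit 4363174730, nat_lit 4365005766], [nat_lit 4363682506, nat_lit 4363174726, nat_lit 55391541], [nat_lit 4363682502, nat_lit 17147061, nat_lit 54858933], [nat_lit 4363682498, nat_lit 17134645, nat_lit 54326325], [nat_lit 68228021, nat_lit 53793717], [nat_lit 68215605, nat_lit 53261109], [nat_lit 102793909, nat_lit 2181612213], [nat_lit 102261301], [nat_lit 51155505, nat_lit 1597877], [nat_lit 24885, nat_lit 1597873, nat_lit 16693], [nat_lit 102261289, nat_lit 24881, nat_lit 1597869], [nat_lit 53], [nat_lit 49], [nat_lit 45], [nat_lit 41]] [[nat_lit 35895566192174],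 [nat_lit 453767507244], [], [], [], [], [], [], [], [], [nat_lit 837724480283, nat_lit 13089743898]])))
(.node (nat_lit 322)
(.node (nat_lit 321)
(.leaf [[nat_lit 73116980042, nat_lit 17171893, nat_lit 73084482502], [nat_lit 73082909510, nat_lit 55391541, nat_lit 17159477], [nat_lit 68252853, nat_lit 71374005, nat_lit 68773045, nat_lit 54858933], [nat_lit 68240437, nat_lit 70841397, nat_lit 54326325], [nat_lit 68228021, nat_lit 53793717], [nat_lit 68215605, nat_lit 53261109], [nat_lit 102793909, nat_lit 1107870389, nat_lit 1091097269], [nat_lit 102261301], [nat_lit 51155505, nat_lit 1597877], [nat_lit 24885, nat_lit 1597873, nat_lit 16693], [nat_lit 102261289], [nat_lit 53], [nat_lit 49], [nat_lit 45]] [])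
(.leaf [[nat_lit 141802644298, nat_lit 55924149, nat_lit 17171893], [nat_lit 68265269, nat_lit 71386421, nat_lit 55391541, nat_lit 68785461], [nat_lit 68252853, nat_lit 71374005, nat_lit 68773045, nat_lit 54858933], [nat_lit 68240437, nat_lit 70841397, nat_lit 54326325], [nat_lit 68228021, nat_lit 53793717], [nat_lit 68215605, nat_lit 53261109], [nat_lit 102793909, nat_lit 2181612213], [nat_lit 102261301], [nat_lit 51155505, nat_lit 1597877], [nat_lit 102261293], [nat_lit 102261289], [nat_lit 53], [nat_lit 49], [nat_lit 45]] []))
(.node (nat_lit 323)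
(.leaf [[nat_lit 68277685, nat_lit 71398837, nat_lit 55924149, nat_lit 68797877], [nat_lit 68265269, nat_lit 71386421, nat_lit 55391541, nat_lit 68785461], [nat_lit 68252853, nat_lit 71374005, nat_lit 68773045, nat_lit 54858933], [nat_lit 68240437, nat_lit 70841397, nat_lit 54326325], [nat_lit 68228021, nat_lit 53793717], [nat_lit 68215605, nat_lit 53261109], [nat_lit 102793909, nat_lit 1107870389, nat_lit 1091097269], [nat_lit 102261301], [nat_lit 51155505, nat_lit 1597877], [nat_lit 102261293], [nat_lit 102261289], [nat_lit 53], [nat_lit 49], [nat_lit 45]] [])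
(.leaf [[nat_lit 279241073482, nat_lit 279242113866], [nat_lit 68265269, nat_lit 71386421, nat_lit 55391541, nat_lit 69305653], [nat_lit 68252853, nat_lit 71374005, nat_lit 69293237, nat_lit 54858933], [nat_lit 68240437, nat_lit 70841397, nat_lit 54326325, nat_lit 68760629], [nat_lit 68228021, nat_lit 53793717, nat_lit 68748213], [nat_lit 68215605, nat_lit 53261109], [nat_lit 102793909, nat_lit 51180337], [nat_lit 102261301], [nat_lit 51155505, nat_lit 1597877], [nat_lit 102261293], [nat_lit 102261289], [nat_lit 53], [nat_lit 49], [nat_lit 45]] [])))))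
(.node (nat_lit 448)
(.node (nat_lit 386)
(.node (nat_lit 384)
(.leaf [[nat_lit 5471245130, nat_lit 17171893, nat_lit 5471503178, nat_lit 5454730058], [nat_lit 5454730054, nat_lit 17159477, nat_lit 55391541], [nat_lit 68252853, nat_lit 71374005, nat_lit 68773045, nat_lit 54858933], [nat_lit 70841397, nat_lit 68240437, nat_lit 54326325], [nat_lit 70308789, nat_lit 34157493, nat_lit 53793717], [nat_lit 68215605, nat_lit 53261109], [nat_lit 102793909, nat_lit 2181612213], [nat_lit 102261301], [nat_lit 51155505, nat_lit 1597877], [nat_lit 24885, nat_lit 1597873, nat_lit 16693], [nat_lit 102261289, nat_lit 24881], [nat_lit 53], [nat_lit 49], [nat_lit 45]] [[], [], [], [], [], [], [], [], [], [], [nat_lit 837724480155, nat_lit 13089743770]])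
(.node (nat_lit 385)
(.leaf [[nat_lit 74173944650, nat_lit 17171893, nat_lit 55924149], [nat_lit 68265269, nat_lit 71386421, nat_lit 55391541, nat_lit 68785461], [nat_lit 68252853, nat_lit 71374005, nat_lit 68773045, nat_lit 54858933], [nat_lit 68240437, nat_lit 70841397, nat_lit 54326325], [nat_lit 68228021, nat_lit 53793717], [nat_lit 68215605, nat_lit 53261109], [nat_lit 102793909, nat_lit 2181612213], [nat_lit 102261301], [nat_lit 51155505, nat_lit 1597877], [nat_lit 102261293], [nat_lit 102261289], [nat_lit 53], [nat_lit 49], [nat_lit 45]] [])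
(.leaf [[nat_lit 68277685, nat_lit 71398837, nat_lit 55924149, nat_lit 68797877], [nat_lit 68265269, nat_lit 71386421, nat_lit 55391541, nat_lit 68785461], [nat_lit 68252853, nat_lit 71374005, nat_lit 68773045, nat_lit 54858933], [nat_lit 68240437, nat_lit 70841397, nat_lit 54326325], [nat_lit 68228021, nat_lit 53793717], [nat_lit 68215605, nat_lit 53261109], [nat_lit 102793909, nat_lit 1107870389, nat_lit 1091097269], [nat_lit 102261301], [nat_lit 51155505, nat_lit 1597877], [nat_lit 102261293], [nat_lit 102261289], [nat_lit 53], [nat_lit 49], [nat_lit 45]] [])))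
(.node (nat_lit 388)
(.node (nat_lit 387)
(.leaf [[nat_lit 68277685, nat_lit 71398837, nat_lit 55924149, nat_lit 69318069], [nat_lit 68265269, nat_lit 71386421, nat_lit 55391541, nat_lit 69305653], [nat_lit 68252853, nat_lit 71374005, nat_lit 69293237, nat_lit 54858933], [nat_lit 68240437, nat_lit 70841397, nat_lit 54326325, nat_lit 68760629], [nat_lit 68228021, nat_lit 53793717, nat_lit 68748213], [nat_lit 68215605, nat_lit 53261109], [nat_lit 102793909, nat_lit 2181612213], [nat_lit 102261301], [nat_lit 51155505, nat_lit 1597877], [nat_lit 102261293], [nat_lit 102261289], [nat_lit 53], [nat_lit 49], [nat_lit 45]] [])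
(.leaf [[nat_lit 68277685, nat_lit 70878645, nat_lit 55924149, nat_lit 68797877], [nat_lit 68265269, nat_lit 70866229, nat_lit 55391541, nat_lit 68785461], [nat_lit 68252853, nat_lit 70853813, nat_lit 54858933, nat_lit 68773045], [nat_lit 68240437, nat_lit 70841397, nat_lit 54326325, nat_lit 68760629], [nat_lit 68228021, nat_lit 53793717, nat_lit 68748213], [nat_lit 68215605, nat_lit 53261109], [nat_lit 102793909, nat_lit 1107870389, nat_lit 1108132533], [nat_lit 102261301], [nat_lit 51155505, nat_lit 1597877], [nat_lit 102261293], [nat_lit 102261289], [nat_lit 53], [nat_lit 49], [nat_lit 45]] []))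
(.node (nat_lit 389)
(.leaf [[nat_lit 68277685, nat_lit 70878645, nat_lit 55924149, nat_lit 68797877], [nat_lit 68265269, nat_lit 70866229, nat_lit 55391541, nat_lit 68785461], [nat_lit 68252853, nat_lit 70853813, nat_lit 54858933, nat_lit 68773045], [nat_lit 68240437, nat_lit 70841397, nat_lit 68760629, nat_lit 54326325], [nat_lit 68228021, nat_lit 70308789, nat_lit 53793717], [nat_lit 68215605, nat_lit 53261109], [nat_lit 102793909, nat_lit 51180337], [nat_lit 102261301], [nat_lit 51155505, nat_lit 1597877, nat_lit 1073589], [nat_lit 102261293], [nat_lit 102261289], [nat_lit 53], [nat_lit 49], [nat_lit 45]] [])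
(.leaf [[nat_lit 6544712398, nat_lit 17171893, nat_lit 6544720714], [nat_lit 6544712394, nat_lit 17159477, nat_lit 69825845], [nat_lit 6544712390, nat_lit 17147061], [nat_lit 68240437, nat_lit 70841397, nat_lit 54326325], [nat_lit 68228021, nat_lit 53793717], [nat_lit 68215605, nat_lit 53261109], [nat_lit 68723381, nat_lit 2663093, nat_lit 2181612213], [nat_lit 102261301], [nat_lit 51155505, nat_lit 1597877], [nat_lit 102261293], [nat_lit 102261289, nat_lit 24881, nat_lit 1597869], [nat_lit 53], [nat_lit 49], [nat_lit 45]] [[], [], [], [], [], [], [], [], [], [], [nat_lit 837724480027, nat_lit 837724480282]]))))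
(.node (nat_lit 452)
(.node (nat_lit 450)
(.node (nat_lit 449)
(.leaf [[nat_lit 68277685, nat_lit 71398837, nat_lit 55924149, nat_lit 68797877], [nat_lit 68265269, nat_lit 71386421, nat_lit 55391541, nat_lit 68785461], [nat_lit 68252853, nat_lit 71374005, nat_lit 68773045, nat_lit 54858933], [nat_lit 68240437, nat_lit 70841397, nat_lit 54326325], [nat_lit 68228021, nat_lit 53793717], [nat_lit 68215605, nat_lit 53261109], [nat_lit 68723381, nat_lit 2663093, nat_lit 2181612213], [nat_lit 102261301], [nat_lit 51155505, nat_lit 1597877], [nat_lit 102261293], [nat_lit 102261289], [nat_lit 53], [nat_lit 49], [nat_lit 45]] [])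
(.leaf [[nat_lit 68277685, nat_lit 71398837, nat_lit 55924149, nat_lit 69318069], [nat_lit 68265269, nat_lit 71386421, nat_lit 55391541, nat_lit 69305653], [nat_lit 68252853, nat_lit 71374005, nat_lit 69293237, nat_lit 54858933], [nat_lit 68240437, nat_lit 70841397, nat_lit 54326325, nat_lit 68760629], [nat_lit 68228021, nat_lit 53793717, nat_lit 68748213], [nat_lit 68215605, nat_lit 53261109], [nat_lit 102793909, nat_lit 2181612213], [nat_lit 102261301], [nat_lit 51155505, nat_lit 1597877], [nat_lit 102261293], [nat_lit 102261289], [nat_lit 53], [nat_lit 49], [nat_lit 45]] []))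
(.node (nat_lit 451)
(.leaf [[nat_lit 68277685, nat_lit 70878645, nat_lit 55924149, nat_lit 68797877], [nat_lit 68265269, nat_lit 70866229, nat_lit 55391541, nat_lit 68785461], [nat_lit 68252853, nat_lit 70853813, nat_lit 54858933, nat_lit 68773045], [nat_lit 68240437, nat_lit 70841397, nat_lit 54326325, nat_lit 68760629], [nat_lit 68228021, nat_lit 53793717, nat_lit 68748213], [nat_lit 68215605, nat_lit 53261109], [nat_lit 102793909, nat_lit 2181612213], [nat_lit 102261301], [nat_lit 51155505, nat_lit 1597877], [nat_lit 102261293], [nat_lit 102261289], [nat_lit 53], [nat_lit 49], [nat_lit 45]] [])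
(.leaf [[nat_lit 68277685, nat_lit 70878645, nat_lit 55924149, nat_lit 68797877], [nat_lit 68265269, nat_lit 70866229, nat_lit 55391541, nat_lit 68785461], [nat_lit 68252853, nat_lit 70853813, nat_lit 54858933, nat_lit 68773045], [nat_lit 68240437, nat_lit 70841397, nat_lit 68760629, nat_lit 54326325], [nat_lit 68228021, nat_lit 70308789, nat_lit 53793717], [nat_lit 68215605, nat_lit 53261109], [nat_lit 102793909, nat_lit 2181612213], [nat_lit 102261301], [nat_lit 51155505, nat_lit 1597877, nat_lit 1073589], [nat_lit 102261293], [nat_lit 102261289], [nat_lit 53], [nat_lit 49], [nat_lit 45]] [])))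
(.node (nat_lit 454)
(.node (nat_lit 453)
(.leaf [[nat_lit 68277685, nat_lit 70878645, nat_lit 55924149, nat_lit 68797877], [nat_lit 68265269, nat_lit 70866229, nat_lit 55391541, nat_lit 68785461], [nat_lit 68252853, nat_lit 70853813, nat_lit 54858933, nat_lit 68773045], [nat_lit 68240437, nat_lit 70841397, nat_lit 68760629, nat_lit 54326325], [nat_lit 68228021, nat_lit 70308789, nat_lit 53793717], [nat_lit 68215605, nat_lit 53261109], [nat_lit 102793909, nat_lit 1107870389, nat_lit 1108132533], [nat_lit 102261301], [nat_lit 51155505, nat_lit 1597877, nat_lit 811445], [nat_lit 102261293], [nat_lit 102261289], [nat_lit 53], [nat_lit 49]] [])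
(.leaf [[nat_lit 69861492149, nat_lit 69864093109, nat_lit 69865653685, nat_lit 68797877], [nat_lit 69861479733, nat_lit 69864080693, nat_lit 69865121077, nat_lit 68785461], [nat_lit 69861467317, nat_lit 69864068277, nat_lit 69864588469, nat_lit 68773045], [nat_lit 69861454901, nat_lit 69864055861, nat_lit 68760629], [nat_lit 69861442485, nat_lit 69863523253], [nat_lit 69861430069, nat_lit 53261109], [nat_lit 102793909, nat_lit 69844394801], [nat_lit 102261301], [nat_lit 68190769, nat_lit 1597877], [nat_lit 102261293], [nat_lit 102261289], [nat_lit 53], [nat_lit 49]] []))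
(.node (nat_lit 512)
(.leaf [[nat_lit 1142277557, nat_lit 1145918901, nat_lit 1143838133, nat_lit 55924149, nat_lit 17171893], [nat_lit 1142265141, nat_lit 71386421, nat_lit 55391541, nat_lit 17159477, nat_lit 68785461], [nat_lit 1142252725, nat_lit 71374005, nat_lit 17147061, nat_lit 54858933, nat_lit 68773045], [nat_lit 1142240309, nat_lit 54326325, nat_lit 17134645, nat_lit 68760629], [nat_lit 1142227893, nat_lit 53793717, nat_lit 34157493], [nat_lit 1142215477, nat_lit 53261109, nat_lit 17109813], [nat_lit 2216723125, nat_lit 2181612213], [nat_lit 68190773, nat_lit 2130485], [nat_lit 51155505, nat_lit 1597877], [nat_lit 102261293, nat_lit 1597873], [nat_lit 102261289, nat_lit 24881], [nat_lit 53], [nat_lit 49], [nat_lit 45]] [[], [], [], [], [], [], [], [], [], [], [nat_lit 837724480154, nat_lit 837724480281, nat_lit 13089743769]])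
(.leaf [[nat_lit 1142277557, nat_lit 1145398709, nat_lit 55924149, nat_lit 1142797749, nat_lit 34207157], [nat_lit 1142265141, nat_lit 1145386293, nat_lit 1142785333, nat_lit 55391541, nat_lit 34194741], [nat_lit 1142252725, nat_lit 1144853685, nat_lit 54858933, nat_lit 34182325], [nat_lit 1142240309, nat_lit 70841397, nat_lit 34169909, nat_lit 54326325], [nat_lit 1142227893, nat_lit 53793717, nat_lit 34157493], [nat_lit 1142215477, nat_lit 53261109, nat_lit 34145077], [nat_lit 2216723125, nat_lit 2181612213], [nat_lit 68190773, nat_lit 2130485], [nat_lit 51155505, nat_lit 1597877], [nat_lit 102261293], [nat_lit 102261289], [nat_lit 53], [nat_lit 49], [nat_lit 45]] []))))))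
(.node (nat_lit 584)
(.node (nat_lit 576)
(.node (nat_lit 516)
(.node (nat_lit 514)
(.leaf [[nat_lit 68277685, nat_lit 70878645, nat_lit 55924149, nat_lit 68797877], [nat_lit 68265269, nat_lit 70866229, nat_lit 55391541, nat_lit 68785461], [nat_lit 68252853, nat_lit 70853813, nat_lit 54858933, nat_lit 68773045], [nat_lit 68240437, nat_lit 70841397, nat_lit 54326325, nat_lit 68760629], [nat_lit 68228021, nat_lit 53793717, nat_lit 68748213], [nat_lit 68215605, nat_lit 53261109], [nat_lit 2216723125, nat_lit 2181612213], [nat_lit 102261301], [nat_lit 51155505, nat_lit 1597877], [nat_lit 102261293], [nat_lit 102261289], [nat_lit 53], [nat_lit 49], [nat_lit 45]] [])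
(.node (nat_lit 515)
(.leaf [[nat_lit 68277685, nat_lit 70878645, nat_lit 55924149, nat_lit 68797877], [nat_lit 68265269, nat_lit 70866229, nat_lit 55391541, nat_lit 68785461], [nat_lit 68252853, nat_lit 70853813, nat_lit 54858933, nat_lit 68773045], [nat_lit 68240437, nat_lit 70841397, nat_lit 68760629, nat_lit 54326325], [nat_lit 68228021, nat_lit 70308789, nat_lit 53793717], [nat_lit 68215605, nat_lit 53261109], [nat_lit 2216723125, nat_lit 2181612213], [nat_lit 102261301], [nat_lit 51155505, nat_lit 1597877, nat_lit 1073589], [nat_lit 102261293], [nat_lit 102261289], [nat_lit 53], [nat_lit 49], [nat_lit 45]] [])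
(.leaf [[nat_lit 68277685, nat_lit 70878645, nat_lit 55924149, nat_lit 68797877], [nat_lit 68265269, nat_lit 70866229, nat_lit 55391541, nat_lit 68785461], [nat_lit 68252853, nat_lit 70853813, nat_lit 54858933, nat_lit 68773045], [nat_lit 68240437, nat_lit 70841397, nat_lit 68760629, nat_lit 54326325], [nat_lit 68228021, nat_lit 70308789, nat_lit 53793717], [nat_lit 68215605, nat_lit 53261109], [nat_lit 2216723125, nat_lit 2181612213], [nat_lit 102261301], [nat_lit 51155505, nat_lit 1597877, nat_lit 811445], [nat_lit 102261293], [nat_lit 102261289], [nat_lit 53], [nat_lit 49]] [])))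
(.node (nat_lit 518)
(.node (nat_lit 517)
(.leaf [[nat_lit 69861492149, nat_lit 69864093109, nat_lit 69865653685, nat_lit 68797877], [nat_lit 69861479733, nat_lit 69864080693, nat_lit 69865121077, nat_lit 68785461], [nat_lit 69861467317, nat_lit 69864068277, nat_lit 69864588469, nat_lit 68773045], [nat_lit 69861454901, nat_lit 69864055861, nat_lit 68760629], [nat_lit 69861442485, nat_lit 69863523253], [nat_lit 69861430069, nat_lit 53261109], [nat_lit 102793909, nat_lit 2181612213], [nat_lit 102261301], [nat_lit 51155505, nat_lit 1597877, nat_lit 1073589], [nat_lit 102261293], [nat_lit 102261289], [nat_lit 53], [nat_lit 49]] [])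
(.leaf [[nat_lit 69861492149, nat_lit 69864093109, nat_lit 69865653685, nat_lit 69862012341], [nat_lit 69861479733, nat_lit 69864080693, nat_lit 69865121077, nat_lit 69861999925], [nat_lit 69861467317, nat_lit 69864068277, nat_lit 69864588469, nat_lit 69861987509], [nat_lit 69861454901, nat_lit 69864055861, nat_lit 69861975093], [nat_lit 69861442485, nat_lit 69863523253], [nat_lit 69861430069, nat_lit 53261109], [nat_lit 102793909, nat_lit 1107870389, nat_lit 1108132533], [nat_lit 102261301], [nat_lit 68190769, nat_lit 1597877], [nat_lit 102261293], [nat_lit 102261289], [nat_lit 53], [nat_lit 49]] []))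
(.node (nat_lit 519)
(.leaf [[nat_lit 139654706613, nat_lit 139657307573, nat_lit 69865653685, nat_lit 69862012341], [nat_lit 139654694197, nat_lit 139657295157, nat_lit 69865121077, nat_lit 69861999925], [nat_lit 139654681781, nat_lit 139657282741, nat_lit 69864588469, nat_lit 69861987509], [nat_lit 139654669365, nat_lit 69864055861, nat_lit 69861975093], [nat_lit 139654656949, nat_lit 69863523253], [nat_lit 139672720181, nat_lit 69827359541], [nat_lit 102793909, nat_lit 139637609265], [nat_lit 102261301], [nat_lit 102261297], [nat_lit 102261293], [nat_lit 102261289], [nat_lit 53], [nat_lit 49]] [])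
(.leaf [[nat_lit 2215757237, nat_lit 2219398581, nat_lit 1143317941, nat_lit 2219918773], [nat_lit 2215744821, nat_lit 1144866101, nat_lit 2219386165, nat_lit 1142265141], [nat_lit 2215732405, nat_lit 2218853557, nat_lit 2216252597], [nat_lit 2215719989, nat_lit 2218320949], [nat_lit 2215707573, nat_lit 2217788341], [nat_lit 2215695157, nat_lit 2217255733], [nat_lit 2215682741, nat_lit 2216723125], [nat_lit 68190773, nat_lit 2130485], [nat_lit 51155505, nat_lit 1597877], [nat_lit 102261293, nat_lit 1597873], [nat_lit 102261289, nat_lit 24881, nat_lit 1597869], [nat_lit 53], [nat_lit 49], [nat_lit 45]] [[], [], [], [], [], [], [], [], [], [], [nat_lit 837724479898, nat_lit 837724480026, nat_lit 837724480153, nat_lit 13089743641]]))))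
(.node (nat_lit 580)
(.node (nat_lit 578)
(.node (nat_lit 577)
(.leaf [[nat_lit 2215757237, nat_lit 2218878389, nat_lit 2219918773, nat_lit 2216277429], [nat_lit 2215744821, nat_lit 2218865973, nat_lit 2219386165, nat_lit 2216265013], [nat_lit 2215732405, nat_lit 2218853557, nat_lit 2216252597], [nat_lit 2215719989, nat_lit 2218320949], [nat_lit 2215707573, nat_lit 2217788341], [nat_lit 2215695157, nat_lit 2217255733], [nat_lit 2215682741, nat_lit 2216723125], [nat_lit 68190773, nat_lit 2130485], [nat_lit 51155505, nat_lit 1597877], [nat_lit 102261293], [nat_lit 102261289], [nat_lit 53], [nat_lit 49], [nat_lit 45]] [[], [], [], [], [], [], [], [], [], [], [nat_lit 837724480153]])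
(.leaf [[nat_lit 2219918773, nat_lit 1142277557, nat_lit 1143838133, nat_lit 34207157], [nat_lit 2219386165, nat_lit 1142265141, nat_lit 1143305525, nat_lit 34194741], [nat_lit 2218853557, nat_lit 1142252725, nat_lit 1142772917, nat_lit 34182325], [nat_lit 2218320949, nat_lit 1142240309, nat_lit 34169909], [nat_lit 2217788341, nat_lit 2198672309], [nat_lit 2217255733, nat_lit 34145077], [nat_lit 2216723125, nat_lit 2181612213], [nat_lit 68190773, nat_lit 2130485], [nat_lit 51155505, nat_lit 1597877, nat_lit 1073589], [nat_lit 102261293], [nat_lit 102261289], [nat_lit 53], [nat_lit 49], [nat_lit 45]] []))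
(.node (nat_lit 579)
(.leaf [[nat_lit 2219918773, nat_lit 1142277557, nat_lit 1143838133, nat_lit 34207157], [nat_lit 2219386165, nat_lit 1142265141, nat_lit 1143305525, nat_lit 34194741], [nat_lit 2218853557, nat_lit 1142252725, nat_lit 1142772917, nat_lit 34182325], [nat_lit 2218320949, nat_lit 1142240309, nat_lit 34169909], [nat_lit 2217788341, nat_lit 2198672309], [nat_lit 2217255733, nat_lit 34145077], [nat_lit 2216723125, nat_lit 2181612213], [nat_lit 68190773, nat_lit 2130485], [nat_lit 51155505, nat_lit 1597877, nat_lit 811445], [nat_lit 102261293], [nat_lit 102261289], [nat_lit 53], [nat_lit 49]] [])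
(.leaf [[nat_lit 1142277557, nat_lit 1144878517, nat_lit 55924149, nat_lit 34207157, nat_lit 1142797749], [nat_lit 1142265141, nat_lit 1144866101, nat_lit 55391541, nat_lit 34194741, nat_lit 1142785333], [nat_lit 1142252725, nat_lit 1144853685, nat_lit 1145111733, nat_lit 34182325, nat_lit 1142772917], [nat_lit 1142240309, nat_lit 1144321077, nat_lit 1144579125, nat_lit 34169909], [nat_lit 1142227893, nat_lit 53793717, nat_lit 34157493, nat_lit 1125712821], [nat_lit 1142215477, nat_lit 53261109, nat_lit 34145077], [nat_lit 2216723125, nat_lit 2181612213], [nat_lit 68190773, nat_lit 2130485], [nat_lit 51155505, nat_lit 1597877, nat_lit 1073589], [nat_lit 102261293], [nat_lit 102261289], [nat_lit 53], [nat_lit 49]] [])))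
(.node (nat_lit 582)
(.node (nat_lit 581)
(.leaf [[nat_lit 69861492149, nat_lit 69864093109, nat_lit 69865653685, nat_lit 69862012341], [nat_lit 69861479733, nat_lit 69864080693, nat_lit 69865121077, nat_lit 69861999925], [nat_lit 69861467317, nat_lit 69864068277, nat_lit 69864588469, nat_lit 69861987509], [nat_lit 69861454901, nat_lit 69864055861, nat_lit 69861975093], [nat_lit 69861442485, nat_lit 69863523253], [nat_lit 69861430069, nat_lit 53261109], [nat_lit 2216723125, nat_lit 2181612213], [nat_lit 102261301], [nat_lit 51155505, nat_lit 1597877, nat_lit 1073589], [nat_lit 102261293], [nat_lit 102261289], [nat_lit 53], [nat_lit 49]] [])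
(.leaf [[nat_lit 139654706613, nat_lit 139657307573, nat_lit 69865653685, nat_lit 69862012341], [nat_lit 139654694197, nat_lit 139657295157, nat_lit 69865121077, nat_lit 69861999925], [nat_lit 139654681781, nat_lit 139657282741, nat_lit 69864588469, nat_lit 69861987509], [nat_lit 139654669365, nat_lit 69864055861, nat_lit 69861975093], [nat_lit 139654656949, nat_lit 69863523253], [nat_lit 139672720181, nat_lit 69827359541], [nat_lit 2216723125, nat_lit 2181612213], [nat_lit 102261301], [nat_lit 102261297], [nat_lit 102261293], [nat_lit 102261289], [nat_lit 53], [nat_lit 49]] []))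
(.node (nat_lit 583)
(.leaf [[nat_lit 139654706613, nat_lit 139657307573, nat_lit 69865653685, nat_lit 139655226805], [nat_lit 139654694197, nat_lit 139657295157, nat_lit 69865121077, nat_lit 139655214389], [nat_lit 139654681781, nat_lit 139657282741, nat_lit 139657540789, nat_lit 139655201973], [nat_lit 139654669365, nat_lit 69864055861, nat_lit 139655189557], [nat_lit 139654656949, nat_lit 69863523253], [nat_lit 139672720181, nat_lit 139620574005], [nat_lit 68723381, nat_lit 1142981301, nat_lit 1107870389, nat_lit 1108132533, nat_lit 1126208181], [nat_lit 102261301], [nat_lit 102261297], [nat_lit 102261293], [nat_lit 102261289], [nat_lit 53], [nat_lit 49]] [])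
(.leaf [[nat_lit 209447921077, nat_lit 209450522037, nat_lit 209435047349, nat_lit 139655226805], [nat_lit 209447908661, nat_lit 209450509621, nat_lit 209434514741, nat_lit 139655214389], [nat_lit 209447896245, nat_lit 209450497205, nat_lit 139655201973, nat_lit 209433982133], [nat_lit 209447883829, nat_lit 209449964597, nat_lit 209433449525], [nat_lit 209447871413, nat_lit 209432916917], [nat_lit 139672720181, nat_lit 139620574005], [nat_lit 68723381, nat_lit 139637609265, nat_lit 86016693, nat_lit 2663093], [nat_lit 102261301], [nat_lit 102261297], [nat_lit 102261293], [nat_lit 102261289], [nat_lit 53], [nat_lit 49]] [])))))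
(.node (nat_lit 646)
(.node (nat_lit 642)
(.node (nat_lit 640)
(.leaf [[nat_lit 3289757109, nat_lit 2218878389, nat_lit 2219918773, nat_lit 2181686709, nat_lit 2216277429], [nat_lit 3289744693, nat_lit 2218865973, nat_lit 2219386165, nat_lit 2181674293, nat_lit 2216265013], [nat_lit 3289732277, nat_lit 2218853557, nat_lit 2181661877, nat_lit 2216252597], [nat_lit 3289719861, nat_lit 2218320949, nat_lit 2181649461], [nat_lit 3289707445, nat_lit 2217788341, nat_lit 2181637045], [nat_lit 3289695029, nat_lit 2217255733, nat_lit 2181624629], [nat_lit 2215682741, nat_lit 2216723125], [nat_lit 68190773, nat_lit 2130485], [nat_lit 51155505, nat_lit 1597877, nat_lit 811445], [nat_lit 24885, nat_lit 1597873, nat_lit 1073585, nat_lit 16693, nat_lit 1065393], [nat_lit 6544712357, nat_lit 24881], [nat_lit 53], [nat_lit 49], [nat_lit 45]] [[], [], [], [], [], [], [], [], [], [nat_lit 288035807900], [nat_lit 53614283628953, nat_lit 53614283628954, nat_lit 53614283629081, nat_lit 53614283629208, nat_lit 53614283629209, nat_lit 13089743640]])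
(.node (nat_lit 641)
(.leaf [[nat_lit 3289757109, nat_lit 3292878261, nat_lit 2219918773, nat_lit 3290277301, nat_lit 2181686709], [nat_lit 3289744693, nat_lit 3292865845, nat_lit 3290264885, nat_lit 2181674293, nat_lit 2219386165], [nat_lit 3289732277, nat_lit 3292333237, nat_lit 2181661877, nat_lit 2218853557], [nat_lit 3289719861, nat_lit 2218320949, nat_lit 2181649461], [nat_lit 3289707445, nat_lit 2217788341, nat_lit 2181637045], [nat_lit 3289695029, nat_lit 2217255733, nat_lit 2181624629], [nat_lit 2215682741, nat_lit 2216723125], [nat_lit 68190773, nat_lit 2130485], [nat_lit 51155505, nat_lit 1597877, nat_lit 1073589], [nat_lit 24885, nat_lit 35160621, nat_lit 1597873, nat_lit 16693, nat_lit 1065393], [nat_lit 6544712357, nat_lit 24881], [nat_lit 53], [nat_lit 49], [nat_lit 45]] [[], [], [], [], [], [], [], [], [], [], [nat_lit 53614283629081, nat_lit 53614283629208, nat_lit 13089743640]])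
(.leaf [[nat_lit 2215757237, nat_lit 2218358197, nat_lit 2219918773, nat_lit 2216277429], [nat_lit 2215744821, nat_lit 2218345781, nat_lit 2219386165, nat_lit 2216265013], [nat_lit 2215732405, nat_lit 2218333365, nat_lit 2218853557, nat_lit 2216252597], [nat_lit 2215719989, nat_lit 2218320949, nat_lit 2216240181], [nat_lit 2215707573, nat_lit 2217788341], [nat_lit 2215695157, nat_lit 2217255733], [nat_lit 2215682741, nat_lit 2216723125], [nat_lit 68190773, nat_lit 2130485], [nat_lit 51155505, nat_lit 1597877, nat_lit 811445], [nat_lit 68190765, nat_lit 68706861, nat_lit 1597873], [nat_lit 6544712357], [nat_lit 53], [nat_lit 49]] [[], [], [], [], [], [], [], [], [], [], [nat_lit 53614283628953, nat_lit 53614283629208]])))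
(.node (nat_lit 644)
(.node (nat_lit 643)
(.leaf [[nat_lit 2215757237, nat_lit 2218358197, nat_lit 2219918773, nat_lit 2216277429], [nat_lit 2215744821, nat_lit 2218345781, nat_lit 2219386165, nat_lit 2216265013], [nat_lit 2215732405, nat_lit 2218333365, nat_lit 2218853557, nat_lit 2216252597], [nat_lit 2215719989, nat_lit 2218320949, nat_lit 2216240181], [nat_lit 2215707573, nat_lit 2217788341], [nat_lit 2215695157, nat_lit 2217255733], [nat_lit 2215682741, nat_lit 2216723125], [nat_lit 68190773, nat_lit 2130485], [nat_lit 51155505, nat_lit 1597877, nat_lit 1073589], [nat_lit 68190765, nat_lit 68706861, nat_lit 35160621, nat_lit 1597873], [nat_lit 6544712357], [nat_lit 53], [nat_lit 49]] [[], [], [], [], [], [], [], [], [], [], [nat_lit 53614283629080]])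
(.leaf [[nat_lit 2215757237, nat_lit 2218358197, nat_lit 2219918773, nat_lit 2216277429], [nat_lit 2215744821, nat_lit 2218345781, nat_lit 2219386165, nat_lit 2216265013], [nat_lit 2215732405, nat_lit 2218333365, nat_lit 2218853557, nat_lit 2216252597], [nat_lit 2215719989, nat_lit 2218320949, nat_lit 2216240181], [nat_lit 2215707573, nat_lit 2217788341], [nat_lit 2215695157, nat_lit 2217255733], [nat_lit 2215682741, nat_lit 2216723125], [nat_lit 68190773, nat_lit 2130485], [nat_lit 51155505, nat_lit 1597877, nat_lit 1073589], [nat_lit 68190765, nat_lit 68706861, nat_lit 1597873, nat_lit 35160621], [nat_lit 68190761, nat_lit 68706857], [nat_lit 53], [nat_lit 49]] [[], [], [], [], [], [], [], [], [], [], [nat_lit 18429978648984, nat_lit 18159395709463, nat_lit 18159395709591]]))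
(.node (nat_lit 645)
(.leaf [[nat_lit 70935492021, nat_lit 70938092981, nat_lit 70922618293, nat_lit 69827421621, nat_lit 70936012213], [nat_lit 70935479605, nat_lit 70938080565, nat_lit 70922085685, nat_lit 69827409205, nat_lit 70935999797], [nat_lit 70935467189, nat_lit 70938068149, nat_lit 69827396789, nat_lit 70935987381, nat_lit 70921553077], [nat_lit 70935454773, nat_lit 70937535541, nat_lit 69827384373, nat_lit 70921020469], [nat_lit 70935442357, nat_lit 70920487861, nat_lit 69827371957], [nat_lit 70935429941, nat_lit 2217255733, nat_lit 69827359541], [nat_lit 2215682741, nat_lit 2216723125], [nat_lit 68190773, nat_lit 2130485, nat_lit 51671605], [nat_lit 51155505, nat_lit 35160625, nat_lit 1597877], [nat_lit 68190765, nat_lit 68706861, nat_lit 35160621, nat_lit 1597873], [nat_lit 68190761, nat_lit 68706857, nat_lit 68182569], [nat_lit 53], [nat_lit 49]] [[], [], [], [], [], [], [], [], [], [], [nat_lit 558618714392, nat_lit 18429978648983, nat_lit 18159395709463]])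
(.leaf [[nat_lit 139654706613, nat_lit 139657307573, nat_lit 70922618293, nat_lit 139655226805], [nat_lit 139654694197, nat_lit 139657295157, nat_lit 70922085685, nat_lit 139655214389], [nat_lit 139654681781, nat_lit 139657282741, nat_lit 139657540789, nat_lit 139655201973], [nat_lit 139654669365, nat_lit 139656750133, nat_lit 139657008181], [nat_lit 139654656949, nat_lit 70920487861, nat_lit 139638141877], [nat_lit 139672720181, nat_lit 139620574005], [nat_lit 2215682741, nat_lit 2216723125], [nat_lit 68190773, nat_lit 2130485, nat_lit 51671605], [nat_lit 51155505, nat_lit 35160625, nat_lit 1597877], [nat_lit 68190765, nat_lit 68706861, nat_lit 35160621, nat_lit 1597873], [nat_lit 68190761, nat_lit 68706857, nat_lit 68182569], [nat_lit 53], [nat_lit 49]] [[], [], [], [], [], [], [], [], [], [], [nat_lit 3431314005172503, nat_lit 3431314005172631, nat_lit 3431314005172758]]))))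
(.node (nat_lit 704)
(.node (nat_lit 648)
(.node (nat_lit 647)
(.leaf [[nat_lit 209447921077, nat_lit 209450522037, nat_lit 209435047349, nat_lit 139655226805], [nat_lit 209447908661, nat_lit 209450509621, nat_lit 209434514741, nat_lit 139655214389], [nat_lit 209447896245, nat_lit 209450497205, nat_lit 139655201973, nat_lit 209433982133], [nat_lit 209447883829, nat_lit 209449964597, nat_lit 209433449525], [nat_lit 209447871413, nat_lit 209432916917], [nat_lit 139672720181, nat_lit 139620574005], [nat_lit 2216723125, nat_lit 2181612213], [nat_lit 68190773, nat_lit 2130485, nat_lit 68706869], [nat_lit 68190769, nat_lit 1597877, nat_lit 1073589], [nat_lit 418861572901], [nat_lit 418861572897], [nat_lit 53], [nat_lit 49]] [[], [], [], [], [], [], [], [], [], [], [nat_lit 3431314005172758]])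
(.leaf [[nat_lit 209447921077, nat_lit 209450522037, nat_lit 209435047349, nat_lit 209448441269], [nat_lit 209447908661, nat_lit 209450509621, nat_lit 209434514741, nat_lit 209448428853], [nat_lit 209447896245, nat_lit 209450497205, nat_lit 209448416437, nat_lit 209433982133], [nat_lit 209447883829, nat_lit 209449964597, nat_lit 209433449525], [nat_lit 209447871413, nat_lit 209432916917], [nat_lit 209464894261, nat_lit 279242113845], [nat_lit 1142203061, nat_lit 1142981301, nat_lit 1107870389, nat_lit 1126208181], [nat_lit 68190773, nat_lit 68706869, nat_lit 2130485], [nat_lit 68190769, nat_lit 1597877, nat_lit 1073589], [nat_lit 418861572901], [nat_lit 418861572897], [nat_lit 53]] []))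
(.node (nat_lit 649)
(.leaf [[nat_lit 279241135541, nat_lit 279243736501, nat_lit 279244776885, nat_lit 209448441269], [nat_lit 279241123125, nat_lit 279243724085, nat_lit 279244244277, nat_lit 209448428853], [nat_lit 279241110709, nat_lit 279243711669, nat_lit 209448416437], [nat_lit 279241098293, nat_lit 279243179061], [nat_lit 279241085877, nat_lit 279242646453], [nat_lit 209464894261, nat_lit 279242113845], [nat_lit 279241073457, nat_lit 279242113841], [nat_lit 68190773, nat_lit 68706869, nat_lit 35160629, nat_lit 2130485], [nat_lit 68190769, nat_lit 68706865, nat_lit 35160625, nat_lit 1597877], [nat_lit 418861572901], [nat_lit 418861572897], [nat_lit 53]] [])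
(.leaf [[nat_lit 4363236789, nat_lit 3292358069, nat_lit 3276883381, nat_lit 3289757109], [nat_lit 4363224373, nat_lit 4366345525, nat_lit 4363744565, nat_lit 3276350773], [nat_lit 4363211957, nat_lit 3292333237, nat_lit 3275818165, nat_lit 3289732277], [nat_lit 4363199541, nat_lit 3275285557, nat_lit 3289719861], [nat_lit 4363187125, nat_lit 3274752949], [nat_lit 4363174709, nat_lit 2217255733], [nat_lit 4363682485, nat_lit 2181612213, nat_lit 2216723125], [nat_lit 51155509, nat_lit 2130485, nat_lit 34898485], [nat_lit 51155505, nat_lit 1597877, nat_lit 1073589], [nat_lit 6544712361, nat_lit 1597873], [nat_lit 6544712357, nat_lit 24881], [nat_lit 53], [nat_lit 49], [nat_lit 45]] [[], [], [], [], [], [], [], [], [], [], [nat_lit 53614283628953, nat_lit 53614283629081, nat_lit 53614283629208, nat_lit 53614283629336]])))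
(.node (nat_lit 706)
(.node (nat_lit 705)
(.leaf [[nat_lit 4363236789, nat_lit 4366357941, nat_lit 3276883381, nat_lit 4363756981], [nat_lit 4363224373, nat_lit 4366345525, nat_lit 4363744565, nat_lit 3276350773], [nat_lit 4363211957, nat_lit 4365812917, nat_lit 3275818165], [nat_lit 4363199541, nat_lit 3291800629, nat_lit 3275285557], [nat_lit 4363187125, nat_lit 3274752949], [nat_lit 4363174709, nat_lit 2217255733], [nat_lit 4363682485, nat_lit 2181612213, nat_lit 2216723125], [nat_lit 51155509, nat_lit 2130485, nat_lit 34898485], [nat_lit 51155505, nat_lit 1597877, nat_lit 811445], [nat_lit 6544712361], [nat_lit 6544712357], [nat_lit 53], [nat_lit 49]] [[], [], [], [], [], [], [], [], [], [], [nat_lit 53614283629208]])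
(.leaf [[nat_lit 3289757109, nat_lit 3292358069, nat_lit 3276883381, nat_lit 2181686709, nat_lit 3290277301], [nat_lit 3289744693, nat_lit 3292345653, nat_lit 3276350773, nat_lit 2181674293, nat_lit 3290264885], [nat_lit 3289732277, nat_lit 3292333237, nat_lit 2181661877, nat_lit 3275818165, nat_lit 3290252469], [nat_lit 3289719861, nat_lit 3275285557, nat_lit 2181649461, nat_lit 3290240053], [nat_lit 3289707445, nat_lit 3274752949, nat_lit 2181637045], [nat_lit 3289695029, nat_lit 2217255733, nat_lit 2181624629], [nat_lit 4363682485, nat_lit 2181612213, nat_lit 2216723125], [nat_lit 51155509, nat_lit 2130485, nat_lit 34898485], [nat_lit 51155505, nat_lit 1597877, nat_lit 1073589], [nat_lit 6544712361], [nat_lit 6544712357], [nat_lit 53], [nat_lit 49]] []))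
(.node (nat_lit 707)
(.leaf [[nat_lit 3289757109, nat_lit 3292358069, nat_lit 3276883381, nat_lit 2181686709, nat_lit 3290277301], [nat_lit 3289744693, nat_lit 3292345653, nat_lit 3276350773, nat_lit 2181674293, nat_lit 3290264885], [nat_lit 3289732277, nat_lit 3292333237, nat_lit 2181661877, nat_lit 3290252469, nat_lit 3275818165], [nat_lit 3289719861, nat_lit 3291800629, nat_lit 2181649461, nat_lit 3275285557], [nat_lit 3289707445, nat_lit 3274752949, nat_lit 2181637045], [nat_lit 3289695029, nat_lit 2217255733, nat_lit 2181624629], [nat_lit 4363682485, nat_lit 2181612213, nat_lit 2216723125], [nat_lit 51155509, nat_lit 2130485, nat_lit 34898485], [nat_lit 51155505, nat_lit 1597877, nat_lit 1073589], [nat_lit 6544712361], [nat_lit 6544712357], [nat_lit 53], [nat_lit 49]] [[], [], [], [], [], [], [], [], [], [], [nat_lit 53614283629207]])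
(.leaf [[nat_lit 3289757109, nat_lit 3292358069, nat_lit 3276883381, nat_lit 2181686709, nat_lit 3290277301], [nat_lit 3289744693, nat_lit 3292345653, nat_lit 3276350773, nat_lit 2181674293, nat_lit 3290264885], [nat_lit 3289732277, nat_lit 3292333237, nat_lit 2181661877, nat_lit 3290252469, nat_lit 3275818165], [nat_lit 3289719861, nat_lit 3291800629, nat_lit 2181649461, nat_lit 3275285557], [nat_lit 3289707445, nat_lit 3274752949, nat_lit 2181637045], [nat_lit 3289695029, nat_lit 2217255733, nat_lit 2181624629], [nat_lit 2215682741, nat_lit 2216723125], [nat_lit 51155509, nat_lit 35160629, nat_lit 2130485], [nat_lit 51155505, nat_lit 35160625, nat_lit 1597877], [nat_lit 6544712361], [nat_lit 6544712357], [nat_lit 53], [nat_lit 49]] [[], [], [], [], [], [], [], [], [], [], [nat_lit 53614283629079]])))))))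
(.node (nat_lit 843)
(.node (nat_lit 776)
(.node (nat_lit 768)
(.node (nat_lit 711)
(.node (nat_lit 709)
(.leaf [[nat_lit 72008971701, nat_lit 72011572661, nat_lit 70922618293, nat_lit 72009491893], [nat_lit 72008959285, nat_lit 72011560245, nat_lit 70922085685, nat_lit 72009479477], [nat_lit 72008946869, nat_lit 72011547829, nat_lit 72011805877, nat_lit 72009467061], [nat_lit 72008934453, nat_lit 72011015221, nat_lit 72011273269], [nat_lit 72008922037, nat_lit 70920487861, nat_lit 71992406965], [nat_lit 72008909621, nat_lit 2217255733], [nat_lit 2215682741, nat_lit 2216723125], [nat_lit 51155509, nat_lit 35160629, nat_lit 2130485], [nat_lit 51155505, nat_lit 35160625, nat_lit 1597877], [nat_lit 68190765, nat_lit 68706861, nat_lit 35160621, nat_lit 1597873], [nat_lit 4397228709, nat_lit 24881], [nat_lit 53], [nat_lit 49]] [[], [], [], [], [], [], [], [], [], [], [nat_lit 558618714264, nat_lit 18429978648855, nat_lit 35747286786455, nat_lit 1161926367519254]])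
(.node (nat_lit 710)
(.leaf [[nat_lit 140728706485, nat_lit 140731307445, nat_lit 140732347829, nat_lit 139620636085, nat_lit 140729226677], [nat_lit 140728694069, nat_lit 140731295029, nat_lit 140731815221, nat_lit 139620623669, nat_lit 140729214261], [nat_lit 140728681653, nat_lit 140731282613, nat_lit 139620611253, nat_lit 140729201845], [nat_lit 140728669237, nat_lit 140730750005, nat_lit 139620598837], [nat_lit 140728656821, nat_lit 140730217397, nat_lit 139620586421], [nat_lit 140728644405, nat_lit 139622654773, nat_lit 139620574005], [nat_lit 2215682741, nat_lit 2216723125], [nat_lit 68190773, nat_lit 2130485, nat_lit 51671605], [nat_lit 51155505, nat_lit 35160625, nat_lit 1597877, nat_lit 811445], [nat_lit 68190765, nat_lit 68706861, nat_lit 2216723113], [nat_lit 418861572897, nat_lit 24881], [nat_lit 53], [nat_lit 49]] [[], [], [], [], [], [], [], [], [], [], [nat_lit 3431314005172503, nat_lit 3431314005172630, nat_lit 3431314005172758]])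
(.leaf [[nat_lit 209447921077, nat_lit 209450522037, nat_lit 209435047349, nat_lit 209448441269], [nat_lit 209447908661, nat_lit 209450509621, nat_lit 209434514741, nat_lit 209448428853], [nat_lit 209447896245, nat_lit 209450497205, nat_lit 209448416437, nat_lit 209433982133], [nat_lit 209447883829, nat_lit 209449964597, nat_lit 209433449525], [nat_lit 209447871413, nat_lit 209432916917], [nat_lit 209447858997, nat_lit 139622654773], [nat_lit 2215682741, nat_lit 2216723125], [nat_lit 68190773, nat_lit 68706869, nat_lit 2130485], [nat_lit 68190769, nat_lit 1597877, nat_lit 1073589], [nat_lit 418861572901], [nat_lit 418861572897], [nat_lit 53]] [[], [], [], [], [], [], [], [], [], [], [nat_lit 3431314005172630]])))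
(.node (nat_lit 713)
(.node (nat_lit 712)
(.leaf [[nat_lit 279241135541, nat_lit 279243736501, nat_lit 279244776885, nat_lit 209448441269], [nat_lit 279241123125, nat_lit 279243724085, nat_lit 279244244277, nat_lit 209448428853], [nat_lit 279241110709, nat_lit 279243711669, nat_lit 209448416437], [nat_lit 279241098293, nat_lit 279243179061], [nat_lit 279241085877, nat_lit 279242646453], [nat_lit 279241073461, nat_lit 279242113845], [nat_lit 2215682741, nat_lit 2216723125], [nat_lit 68190773, nat_lit 68706869, nat_lit 35160629, nat_lit 2130485], [nat_lit 68190769, nat_lit 68706865, nat_lit 35160625, nat_lit 1597877], [nat_lit 418861572901], [nat_lit 418861572897], [nat_lit 53]] [])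
(.leaf [[nat_lit 279241135541, nat_lit 279243736501, nat_lit 279244776885, nat_lit 279241655733], [nat_lit 279241123125, nat_lit 279243724085, nat_lit 279244244277, nat_lit 279241643317], [nat_lit 279241110709, nat_lit 279243711669, nat_lit 279241630901], [nat_lit 279241098293, nat_lit 279243179061], [nat_lit 279241085877, nat_lit 279242646453], [nat_lit 279241073461, nat_lit 279242113845], [nat_lit 279241073457, nat_lit 279242113841], [nat_lit 68190773, nat_lit 68706869, nat_lit 2130485, nat_lit 35160629], [nat_lit 68190769, nat_lit 68706865, nat_lit 1597877, nat_lit 35160625], [nat_lit 418861572901], [nat_lit 418861572897], [nat_lit 53]] []))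
(.node (nat_lit 714)
(.leaf [[nat_lit 279241135541, nat_lit 279243736501, nat_lit 279244776885, nat_lit 279241655733], [nat_lit 279241123125, nat_lit 279243724085, nat_lit 279244244277, nat_lit 279241643317], [nat_lit 279241110709, nat_lit 279243711669, nat_lit 279241630901], [nat_lit 279241098293, nat_lit 279243179061], [nat_lit 279241085877, nat_lit 279242646453], [nat_lit 279241073461, nat_lit 279242113845], [nat_lit 418861572913], [nat_lit 68190773, nat_lit 68706869, nat_lit 35160629, nat_lit 2130485], [nat_lit 418861572905], [nat_lit 418861572901], [nat_lit 418861572897], [nat_lit 53]] [])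
(.leaf [[nat_lit 4363236789, nat_lit 4366357941, nat_lit 3276883381, nat_lit 4363756981], [nat_lit 4363224373, nat_lit 4366345525, nat_lit 4363744565, nat_lit 3276350773], [nat_lit 4363211957, nat_lit 4365812917, nat_lit 3275818165], [nat_lit 4363199541, nat_lit 3275285557, nat_lit 4363719733], [nat_lit 4363187125, nat_lit 3274752949], [nat_lit 4363174709, nat_lit 2217255733], [nat_lit 4363682485, nat_lit 2181612213, nat_lit 2216723125], [nat_lit 51155509, nat_lit 2130485, nat_lit 34636341], [nat_lit 34120241, nat_lit 1597877, nat_lit 557493, nat_lit 811445], [nat_lit 6544712361], [nat_lit 6544712357, nat_lit 24881], [nat_lit 53], [nat_lit 49]] [[], [], [], [], [], [], [], [], [], [], [nat_lit 53614283628953, nat_lit 53614283629080, nat_lit 53614283629208]]))))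
(.node (nat_lit 772)
(.node (nat_lit 770)
(.node (nat_lit 769)
(.leaf [[nat_lit 4363236789, nat_lit 4366357941, nat_lit 3276883381, nat_lit 4364277173], [nat_lit 4363224373, nat_lit 4366345525, nat_lit 4364264757, nat_lit 3276350773], [nat_lit 4363211957, nat_lit 4365812917, nat_lit 3275818165, nat_lit 4363732149], [nat_lit 4363199541, nat_lit 3275285557, nat_lit 4363719733], [nat_lit 4363187125, nat_lit 3274752949], [nat_lit 4363174709, nat_lit 2217255733], [nat_lit 4363682485, nat_lit 2181612213, nat_lit 2216723125], [nat_lit 51155509, nat_lit 2130485, nat_lit 34898485], [nat_lit 34120241, nat_lit 1597877, nat_lit 557493, nat_lit 1073589], [nat_lit 6544712361], [nat_lit 6544712357], [nat_lit 53], [nat_lit 49]] [])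
(.leaf [[nat_lit 4363236789, nat_lit 4365837749, nat_lit 3276883381, nat_lit 4363756981], [nat_lit 4363224373, nat_lit 4365825333, nat_lit 3276350773, nat_lit 4363744565], [nat_lit 4363211957, nat_lit 4365812917, nat_lit 3275818165, nat_lit 4363732149], [nat_lit 4363199541, nat_lit 4365280309, nat_lit 3275285557], [nat_lit 4363187125, nat_lit 3274752949], [nat_lit 4363174709, nat_lit 2217255733], [nat_lit 4363682485, nat_lit 2181612213, nat_lit 2216723125], [nat_lit 51155509, nat_lit 2130485, nat_lit 34636341], [nat_lit 34120241, nat_lit 1597877, nat_lit 557493, nat_lit 1073589], [nat_lit 6544712361], [nat_lit 6544712357], [nat_lit 53], [nat_lit 49]] [[], [], [], [], [], [], [], [], [], [], [nat_lit 53614283629207]]))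
(.node (nat_lit 771)
(.leaf [[nat_lit 4363236789, nat_lit 4365837749, nat_lit 3276883381, nat_lit 4363756981], [nat_lit 4363224373, nat_lit 4365825333, nat_lit 3276350773, nat_lit 4363744565], [nat_lit 4363211957, nat_lit 4365812917, nat_lit 3275818165, nat_lit 4363732149], [nat_lit 4363199541, nat_lit 4365280309, nat_lit 3275285557], [nat_lit 4363187125, nat_lit 3274752949], [nat_lit 4363174709, nat_lit 2217255733], [nat_lit 4363682485, nat_lit 2181612213, nat_lit 2216723125], [nat_lit 51155509, nat_lit 35160629, nat_lit 2130485], [nat_lit 6544712365], [nat_lit 6544712361], [nat_lit 6544712357], [nat_lit 53], [nat_lit 49]] [])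
(.leaf [[nat_lit 4363236789, nat_lit 4365837749, nat_lit 3276883381, nat_lit 4363756981], [nat_lit 4363224373, nat_lit 4365825333, nat_lit 3276350773, nat_lit 4363744565], [nat_lit 4363211957, nat_lit 4365812917, nat_lit 4366070965, nat_lit 4363732149], [nat_lit 4363199541, nat_lit 4365280309, nat_lit 4365538357], [nat_lit 4363187125, nat_lit 3274752949, nat_lit 4363707317], [nat_lit 4363174709, nat_lit 2217255733], [nat_lit 4363682485, nat_lit 2181612213, nat_lit 2216723125], [nat_lit 51155509, nat_lit 35160629, nat_lit 2130485], [nat_lit 6544712365], [nat_lit 6544712361], [nat_lit 6544712357], [nat_lit 53], [nat_lit 49]] [])))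
(.node (nat_lit 774)
(.node (nat_lit 773)
(.leaf [[nat_lit 73082971573, nat_lit 73085572533, nat_lit 73086612917, nat_lit 71991936437, nat_lit 73083491765], [nat_lit 73082959157, nat_lit 73085560117, nat_lit 73086080309, nat_lit 71991924021, nat_lit 73083479349], [nat_lit 73082946741, nat_lit 73085547701, nat_lit 71991911605, nat_lit 73083466933], [nat_lit 73082934325, nat_lit 73085015093, nat_lit 71991899189], [nat_lit 73082921909, nat_lit 73084482485, nat_lit 71991886773], [nat_lit 73082909493, nat_lit 2217255733, nat_lit 2181624629], [nat_lit 4363682485, nat_lit 2181612213, nat_lit 2216723125], [nat_lit 51155509, nat_lit 35160629, nat_lit 2130485], [nat_lit 51155505, nat_lit 35160625, nat_lit 1597877, nat_lit 811445], [nat_lit 6544712361], [nat_lit 6544712357], [nat_lit 53], [nat_lit 49]] [[], [], [], [], [], [], [], [], [], [], [nat_lit 53614283629078]])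
(.leaf [[nat_lit 141802186165, nat_lit 141804787125, nat_lit 73086612917, nat_lit 141802706357], [nat_lit 141802173749, nat_lit 141804774709, nat_lit 73086080309, nat_lit 141802693941], [nat_lit 141802161333, nat_lit 141804762293, nat_lit 141802681525, nat_lit 73085547701], [nat_lit 141802148917, nat_lit 73085015093, nat_lit 141802669109], [nat_lit 141802136501, nat_lit 73084482485], [nat_lit 141802644277, nat_lit 139622654773, nat_lit 139620574005], [nat_lit 4363682485, nat_lit 2181612213, nat_lit 2216723125], [nat_lit 51155509, nat_lit 35160629, nat_lit 2130485], [nat_lit 51155505, nat_lit 35160625, nat_lit 1597877, nat_lit 549301], [nat_lit 418861572901], [nat_lit 418861572897], [nat_lit 53]] [[], [], [], [], [], [], [], [], [], [], [nat_lit 3431314005172375, nat_lit 3431314005172630]]))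
(.node (nat_lit 775)
(.leaf [[nat_lit 210521920949, nat_lit 210524521909, nat_lit 209435047349, nat_lit 209430885813, nat_lit 210522441141], [nat_lit 210521908533, nat_lit 210524509493, nat_lit 210524767541, nat_lit 209430873397, nat_lit 210522428725], [nat_lit 210521896117, nat_lit 210523976885, nat_lit 210524234933, nat_lit 209430860981], [nat_lit 210521883701, nat_lit 209433449525, nat_lit 209430848565, nat_lit 210522403893], [nat_lit 210521871285, nat_lit 209432916917, nat_lit 139620586421], [nat_lit 279242113845, nat_lit 139620574005], [nat_lit 2215682741, nat_lit 2216723125], [nat_lit 51155509, nat_lit 35160629, nat_lit 2130485, nat_lit 51929653], [nat_lit 51155505, nat_lit 35160625, nat_lit 51929649, nat_lit 1597877], [nat_lit 418861572901], [nat_lit 418861572897], [nat_lit 53]] [])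
(.leaf [[nat_lit 279241135541, nat_lit 279243736501, nat_lit 279244776885, nat_lit 279241655733], [nat_lit 279241123125, nat_lit 279243724085, nat_lit 279244244277, nat_lit 279241643317], [nat_lit 279241110709, nat_lit 279243711669, nat_lit 279241630901], [nat_lit 279241098293, nat_lit 279243179061], [nat_lit 279241085877, nat_lit 279242646453], [nat_lit 279241073461, nat_lit 279242113845], [nat_lit 2215682741, nat_lit 2216723125], [nat_lit 51155509, nat_lit 35160629, nat_lit 2130485, nat_lit 51929653], [nat_lit 418861572905], [nat_lit 418861572901], [nat_lit 418861572897], [nat_lit 53]] [])))))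
(.node (nat_lit 835)
(.node (nat_lit 779)
(.node (nat_lit 777)
(.leaf [[nat_lit 279241135541, nat_lit 279243736501, nat_lit 279244776885, nat_lit 279241655733], [nat_lit 279241123125, nat_lit 279243724085, nat_lit 279244244277, nat_lit 279241643317], [nat_lit 279241110709, nat_lit 279243711669, nat_lit 279241630901], [nat_lit 279241098293, nat_lit 279243179061], [nat_lit 279241085877, nat_lit 279242646453], [nat_lit 279241073461, nat_lit 279242113845], [nat_lit 418861572913], [nat_lit 51155509, nat_lit 35160629, nat_lit 51929653, nat_lit 2130485], [nat_lit 418861572905], [nat_lit 418861572901], [nat_lit 418861572897], [nat_lit 53]] [])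
(.node (nat_lit 778)
(.leaf [[nat_lit 349051385269, nat_lit 349054506421, nat_lit 349051905461], [nat_lit 349051372853, nat_lit 349053973813], [nat_lit 349051360437, nat_lit 349053441205], [nat_lit 349051348021, nat_lit 349052908597], [nat_lit 349051855797, nat_lit 279241085877, nat_lit 349052375989], [nat_lit 279241073461, nat_lit 279242113845], [nat_lit 418861572913], [nat_lit 418861572909], [nat_lit 418861572905], [nat_lit 418861572901], [nat_lit 418861572897], [nat_lit 53]] [])
(.leaf [[nat_lit 349051385269, nat_lit 349054506421, nat_lit 349052425653], [nat_lit 349051372853, nat_lit 349053973813, nat_lit 349051893045], [nat_lit 349051360437, nat_lit 349053441205], [nat_lit 349051348021, nat_lit 349052908597], [nat_lit 349051855797, nat_lit 279241085877, nat_lit 349052375989], [nat_lit 418861572917], [nat_lit 418861572913], [nat_lit 418861572909], [nat_lit 418861572905], [nat_lit 418861572901], [nat_lit 418861572897], [nat_lit 53]] [])))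
(.node (nat_lit 833)
(.node (nat_lit 832)
(.leaf [[nat_lit 5454271925, nat_lit 5457393077, nat_lit 2181686709, nat_lit 4367136181, nat_lit 4364277173], [nat_lit 5454259509, nat_lit 5456860469, nat_lit 2181674293, nat_lit 4366603573], [nat_lit 5454247093, nat_lit 3275818165, nat_lit 2181661877, nat_lit 4364252341], [nat_lit 5454234677, nat_lit 3275285557, nat_lit 2181649461], [nat_lit 5454222261, nat_lit 3274752949, nat_lit 2181637045], [nat_lit 6545244981, nat_lit 2181624629], [nat_lit 6544712373], [nat_lit 6544712369], [nat_lit 6544712365], [nat_lit 6544712361], [nat_lit 6544712357, nat_lit 24881], [nat_lit 53], [nat_lit 49]] [[], [], [], [], [], [], [], [], [], [], [nat_lit 53614283628825, nat_lit 53614283629080, nat_lit 53614283629207]])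
(.leaf [[nat_lit 5454271925, nat_lit 5457393077, nat_lit 3272459701, nat_lit 5454792117, nat_lit 3276883381], [nat_lit 5454259509, nat_lit 5456860469, nat_lit 3272447285, nat_lit 3276350773], [nat_lit 5454247093, nat_lit 5456327861, nat_lit 3272434869, nat_lit 3275818165], [nat_lit 5454234677, nat_lit 3275285557, nat_lit 3272422453], [nat_lit 5454222261, nat_lit 3274752949, nat_lit 3272410037], [nat_lit 6545244981, nat_lit 2181624629], [nat_lit 6544712373], [nat_lit 6544712369], [nat_lit 6544712365], [nat_lit 6544712361], [nat_lit 6544712357], [nat_lit 53], [nat_lit 49]] [[], [], [], [], [], [], [], [], [], [], [nat_lit 53614283629207]]))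
(.node (nat_lit 834)
(.leaf [[nat_lit 5454271925, nat_lit 5457393077, nat_lit 2181686709, nat_lit 4364277173, nat_lit 4367136181], [nat_lit 5454259509, nat_lit 5456860469, nat_lit 2181674293, nat_lit 4366603573], [nat_lit 5454247093, nat_lit 5456327861, nat_lit 2181661877, nat_lit 4366070965], [nat_lit 5454234677, nat_lit 3275285557, nat_lit 2181649461], [nat_lit 5454222261, nat_lit 3274752949, nat_lit 2181637045], [nat_lit 6545244981, nat_lit 2181624629], [nat_lit 6544712373], [nat_lit 6544712369], [nat_lit 6544712365], [nat_lit 6544712361], [nat_lit 6544712357], [nat_lit 53], [nat_lit 49]] [])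
(.leaf [[nat_lit 5454271925, nat_lit 5457393077, nat_lit 5454792117, nat_lit 3272459701, nat_lit 4367136181], [nat_lit 5454259509, nat_lit 5456860469, nat_lit 3272447285, nat_lit 4366603573], [nat_lit 5454247093, nat_lit 5456327861, nat_lit 3272434869, nat_lit 4366070965], [nat_lit 5454234677, nat_lit 3275285557, nat_lit 3272422453], [nat_lit 5454222261, nat_lit 3274752949, nat_lit 3272410037], [nat_lit 6545244981, nat_lit 2181624629], [nat_lit 6544712373], [nat_lit 6544712369], [nat_lit 6544712365], [nat_lit 6544712361], [nat_lit 6544712357], [nat_lit 53], [nat_lit 49]] []))))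
(.node (nat_lit 839)
(.node (nat_lit 837)
(.node (nat_lit 836)
(.leaf [[nat_lit 5454271925, nat_lit 5457393077, nat_lit 4364797365, nat_lit 2181686709, nat_lit 73086612917], [nat_lit 5454259509, nat_lit 5456860469, nat_lit 2181674293, nat_lit 73086080309], [nat_lit 5454247093, nat_lit 73085547701, nat_lit 2181661877], [nat_lit 5454234677, nat_lit 73085015093, nat_lit 2181649461], [nat_lit 5454222261, nat_lit 73084482485, nat_lit 2181637045], [nat_lit 6545244981, nat_lit 2181624629], [nat_lit 6544712373], [nat_lit 6544712369], [nat_lit 6544712365], [nat_lit 6544712361], [nat_lit 6544712357], [nat_lit 53], [nat_lit 49]] [])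
(.leaf [[nat_lit 73082971573, nat_lit 73085572533, nat_lit 73086612917, nat_lit 73083491765, nat_lit 71991936437], [nat_lit 73082959157, nat_lit 73085560117, nat_lit 73086080309, nat_lit 73083479349, nat_lit 71991924021], [nat_lit 73082946741, nat_lit 73085547701, nat_lit 73083466933, nat_lit 71991911605], [nat_lit 73082934325, nat_lit 73085015093, nat_lit 71991899189], [nat_lit 73082921909, nat_lit 73084482485, nat_lit 71991886773], [nat_lit 5454730037, nat_lit 2181624629, nat_lit 72010208053], [nat_lit 6544712373], [nat_lit 6544712369], [nat_lit 6544712365], [nat_lit 6544712361], [nat_lit 6544712357], [nat_lit 53]] []))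
(.node (nat_lit 838)
(.leaf [[nat_lit 141802186165, nat_lit 141804787125, nat_lit 73086612917, nat_lit 141802706357], [nat_lit 141802173749, nat_lit 141804774709, nat_lit 73086080309, nat_lit 141802693941], [nat_lit 141802161333, nat_lit 141804762293, nat_lit 141802681525, nat_lit 73085547701], [nat_lit 141802148917, nat_lit 73085015093, nat_lit 141802669109], [nat_lit 141802136501, nat_lit 73084482485], [nat_lit 141802644277, nat_lit 139622654773, nat_lit 139620574005], [nat_lit 4363682485, nat_lit 2181612213, nat_lit 2216723125], [nat_lit 6544712369], [nat_lit 6544712365], [nat_lit 6544712361], [nat_lit 6544712357], [nat_lit 53]] [])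
(.leaf [[nat_lit 142896342453, nat_lit 210521920949, nat_lit 210522961333, nat_lit 209430885813], [nat_lit 142895809845, nat_lit 210521908533, nat_lit 210522428725, nat_lit 209430873397], [nat_lit 142895277237, nat_lit 141802161333, nat_lit 210521896117], [nat_lit 142894744629, nat_lit 141802148917], [nat_lit 142894212021, nat_lit 71991886773], [nat_lit 279241073461, nat_lit 279242113845], [nat_lit 4363682485, nat_lit 2181612213, nat_lit 2216723125], [nat_lit 4363682481, nat_lit 34120245, nat_lit 2130485, nat_lit 35152437], [nat_lit 4397228717, nat_lit 4363682477, nat_lit 34120241, nat_lit 1597877], [nat_lit 418861572901], [nat_lit 418861572897], [nat_lit 53]] [[], [], [], [], [], [], [], [], [], [], [nat_lit 3431314005172629]])))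
(.node (nat_lit 841)
(.node (nat_lit 840)
(.leaf [[nat_lit 279241135541, nat_lit 279243736501, nat_lit 279244776885, nat_lit 279241655733], [nat_lit 279241123125, nat_lit 279243724085, nat_lit 279244244277, nat_lit 279241643317], [nat_lit 279241110709, nat_lit 279243711669, nat_lit 279241630901], [nat_lit 279241098293, nat_lit 279243179061], [nat_lit 279241085877, nat_lit 279242646453], [nat_lit 279241073461, nat_lit 279242113845], [nat_lit 4363682485, nat_lit 2181612213, nat_lit 2216723125], [nat_lit 418861572909], [nat_lit 418861572905], [nat_lit 418861572901], [nat_lit 418861572897], [nat_lit 53]] [])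
(.leaf [[nat_lit 349051385269, nat_lit 349054506421, nat_lit 349051905461], [nat_lit 349051372853, nat_lit 349053973813], [nat_lit 349051360437, nat_lit 349053441205], [nat_lit 349051348021, nat_lit 349052908597], [nat_lit 349051855797, nat_lit 279241085877, nat_lit 349052375989], [nat_lit 279241073461, nat_lit 279242113845], [nat_lit 418861572913], [nat_lit 418861572909], [nat_lit 418861572905], [nat_lit 418861572901], [nat_lit 418861572897], [nat_lit 53]] []))
(.node (nat_lit 842)
(.leaf [[nat_lit 349051385269, nat_lit 349054506421, nat_lit 349052425653], [nat_lit 349051372853, nat_lit 349053973813, nat_lit 349051893045], [nat_lit 349051360437, nat_lit 349053441205], [nat_lit 349051348021, nat_lit 349052908597], [nat_lit 349051855797, nat_lit 279241085877, nat_lit 349052375989], [nat_lit 418861572917], [nat_lit 418861572913], [nat_lit 418861572909], [nat_lit 418861572905], [nat_lit 418861572901], [nat_lit 418861572897], [nat_lit 53]] [])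
(.leaf [[nat_lit 349051385269, nat_lit 349053986229, nat_lit 349054506421, nat_lit 349051905461], [nat_lit 349051372853, nat_lit 349053973813, nat_lit 349051893045], [nat_lit 349051360437, nat_lit 349053441205], [nat_lit 349051348021, nat_lit 349052908597], [nat_lit 349051855797, nat_lit 279241085877, nat_lit 349052375989], [nat_lit 418861572917], [nat_lit 418861572913], [nat_lit 418861572909], [nat_lit 418861572905], [nat_lit 418861572901], [nat_lit 418861572897]] []))))))
(.node (nat_lit 909)
(.node (nat_lit 901)
(.node (nat_lit 897)
(.node (nat_lit 844)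
(.leaf [[nat_lit 418861634997, nat_lit 418864235957], [nat_lit 418861622581, nat_lit 418863703349], [nat_lit 418861610165, nat_lit 418863170741], [nat_lit 418861597749, nat_lit 418862638133], [nat_lit 418862105525, nat_lit 279241085877], [nat_lit 418861572917], [nat_lit 418861572913], [nat_lit 418861572909], [nat_lit 418861572905], [nat_lit 418861572901], [nat_lit 418861572897]] [])
(.node (nat_lit 896)
(.leaf [[nat_lit 6547908021, nat_lit 5454271925, nat_lit 3272459701], [nat_lit 6547375413, nat_lit 4363224373, nat_lit 5454259509], [nat_lit 6546842805, nat_lit 4363211957], [nat_lit 6546310197, nat_lit 4363199541], [nat_lit 6545777589, nat_lit 4363187125], [nat_lit 6545244981, nat_lit 4363174709], [nat_lit 6544712373], [nat_lit 6544712369], [nat_lit 6544712365], [nat_lit 6544712361], [nat_lit 6544712357, nat_lit 24881], [nat_lit 53], [nat_lit 49]] [[], [], [], [], [], [], [], [], [], [], [nat_lit 53614283628952, nat_lit 53614283629207]])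
(.leaf [[nat_lit 6547908021, nat_lit 5454271925, nat_lit 4363236789, nat_lit 5454792117], [nat_lit 6547375413, nat_lit 4363224373, nat_lit 5453997365], [nat_lit 6546842805, nat_lit 4363211957], [nat_lit 6546310197, nat_lit 4363199541], [nat_lit 6545777589, nat_lit 4363187125], [nat_lit 6545244981, nat_lit 4363174709], [nat_lit 6544712373], [nat_lit 6544712369], [nat_lit 6544712365], [nat_lit 6544712361], [nat_lit 6544712357], [nat_lit 53], [nat_lit 49]] [])))
(.node (nat_lit 899)
(.node (nat_lit 898)
(.leaf [[nat_lit 6547908021, nat_lit 5454271925, nat_lit 3272459701, nat_lit 5454792117], [nat_lit 6547375413, nat_lit 4363224373, nat_lit 5454259509], [nat_lit 6546842805, nat_lit 4363211957], [nat_lit 6546310197, nat_lit 4363199541], [nat_lit 6545777589, nat_lit 4363187125], [nat_lit 6545244981, nat_lit 4363174709], [nat_lit 6544712373], [nat_lit 6544712369], [nat_lit 6544712365], [nat_lit 6544712361], [nat_lit 6544712357], [nat_lit 53], [nat_lit 49]] [])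
(.leaf [[nat_lit 6547908021, nat_lit 5454271925, nat_lit 4363236789, nat_lit 5454792117], [nat_lit 6547375413, nat_lit 5454259509, nat_lit 4363224373], [nat_lit 6546842805, nat_lit 4363211957], [nat_lit 6546310197, nat_lit 4363199541], [nat_lit 6545777589, nat_lit 4363187125], [nat_lit 6545244981, nat_lit 4363174709], [nat_lit 6544712373], [nat_lit 6544712369], [nat_lit 6544712365], [nat_lit 6544712361], [nat_lit 6544712357], [nat_lit 53], [nat_lit 49]] []))
(.node (nat_lit 900)
(.leaf [[nat_lit 5454271925, nat_lit 5457393077, nat_lit 5455312309, nat_lit 4363236789, nat_lit 4367136181], [nat_lit 5454259509, nat_lit 5456860469, nat_lit 4363224373, nat_lit 4366603573, nat_lit 5454779701], [nat_lit 5454247093, nat_lit 73085547701, nat_lit 4363211957, nat_lit 5454767285], [nat_lit 5454234677, nat_lit 73085015093, nat_lit 4363199541], [nat_lit 5454222261, nat_lit 73084482485, nat_lit 4363187125], [nat_lit 6545244981, nat_lit 4363174709], [nat_lit 6544712373], [nat_lit 6544712369], [nat_lit 6544712365], [nat_lit 6544712361], [nat_lit 6544712357], [nat_lit 53]] [])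
(.leaf [[nat_lit 74173486517, nat_lit 74176607669, nat_lit 5454792117, nat_lit 74176865717], [nat_lit 74173474101, nat_lit 74176075061, nat_lit 74176333109, nat_lit 5454259509], [nat_lit 74173461685, nat_lit 5456327861, nat_lit 74175800501], [nat_lit 74173449269, nat_lit 73085015093], [nat_lit 74173436853, nat_lit 73084482485], [nat_lit 6545244981, nat_lit 4363174709], [nat_lit 6544712373], [nat_lit 6544712369], [nat_lit 6544712365], [nat_lit 6544712361], [nat_lit 6544712357], [nat_lit 53]] []))))
(.node (nat_lit 905)
(.node (nat_lit 903)
(.node (nat_lit 902)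
(.leaf [[nat_lit 142893221301, nat_lit 142896342453, nat_lit 74174526901, nat_lit 71991936437], [nat_lit 142893208885, nat_lit 142895809845, nat_lit 71991924021, nat_lit 74173994293], [nat_lit 142893196469, nat_lit 142895277237, nat_lit 71991911605], [nat_lit 142893184053, nat_lit 142894744629, nat_lit 71991899189], [nat_lit 142893171637, nat_lit 142894212021, nat_lit 71991886773], [nat_lit 6545244981, nat_lit 4363174709], [nat_lit 6544712373], [nat_lit 6544712369], [nat_lit 6544712365], [nat_lit 6544712361], [nat_lit 6544712357], [nat_lit 53]] [])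
(.leaf [[nat_lit 211612435893, nat_lit 211615557045, nat_lit 142893741493, nat_lit 142896342453], [nat_lit 211612423477, nat_lit 211615024437, nat_lit 142895809845, nat_lit 142893208885], [nat_lit 211612411061, nat_lit 142895277237], [nat_lit 211612398645, nat_lit 142894744629], [nat_lit 211612386229, nat_lit 142894212021], [nat_lit 142893159221, nat_lit 279242113845, nat_lit 139620574005], [nat_lit 6544712373], [nat_lit 6544712369], [nat_lit 6544712365], [nat_lit 6544712361], [nat_lit 6544712357], [nat_lit 53]] []))
(.node (nat_lit 904)
(.leaf [[nat_lit 280332170677, nat_lit 280334771637, nat_lit 280335029685, nat_lit 209430885813, nat_lit 211612956085], [nat_lit 280332158261, nat_lit 211615024437, nat_lit 209430873397, nat_lit 280334497077], [nat_lit 280332145845, nat_lit 279243711669, nat_lit 209430860981], [nat_lit 280332133429, nat_lit 279243179061, nat_lit 209430848565], [nat_lit 280332121013, nat_lit 279242646453, nat_lit 279241085877], [nat_lit 142893159221, nat_lit 279242113845, nat_lit 279241073461], [nat_lit 4363682485, nat_lit 2181612213, nat_lit 279242113841], [nat_lit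 418861572909], [nat_lit 418861572905], [nat_lit 418861572901], [nat_lit 418861572897], [nat_lit 53]] [])
(.leaf [[nat_lit 349051385269, nat_lit 349054506421, nat_lit 280332690869], [nat_lit 349051372853, nat_lit 349053973813, nat_lit 280332158261], [nat_lit 349051360437, nat_lit 349053441205], [nat_lit 349051348021, nat_lit 349052908597], [nat_lit 349051855797, nat_lit 279241085877, nat_lit 349052375989], [nat_lit 418861572917], [nat_lit 418861572913], [nat_lit 418861572909], [nat_lit 418861572905], [nat_lit 418861572901], [nat_lit 418861572897], [nat_lit 53]] [])))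
(.node (nat_lit 907)
(.node (nat_lit 906)
(.leaf [[nat_lit 349051385269, nat_lit 349053986229, nat_lit 349054506421, nat_lit 349051905461], [nat_lit 349051372853, nat_lit 349053973813, nat_lit 349051893045], [nat_lit 349051360437, nat_lit 349053441205], [nat_lit 349051348021, nat_lit 349052908597], [nat_lit 349051855797, nat_lit 279241085877, nat_lit 349052375989], [nat_lit 418861572917], [nat_lit 418861572913], [nat_lit 418861572909], [nat_lit 418861572905], [nat_lit 418861572901], [nat_lit 418861572897]] [])
(.leaf [[nat_lit 418861634997, nat_lit 418864235957], [nat_lit 418861622581, nat_lit 418863703349], [nat_lit 418861610165, nat_lit 418863170741], [nat_lit 418861597749, nat_lit 418862638133], [nat_lit 418862105525, nat_lit 279241085877], [nat_lit 418861572917], [nat_lit 418861572913], [nat_lit 418861572909], [nat_lit 418861572905], [nat_lit 418861572901], [nat_lit 418861572897]] []))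
(.node (nat_lit 908)
(.leaf [[nat_lit 418861634997, nat_lit 418864235957], [nat_lit 418861622581, nat_lit 418863703349], [nat_lit 418861610165, nat_lit 418863170741], [nat_lit 418861597749, nat_lit 418862638133], [nat_lit 418862105525, nat_lit 279241085877], [nat_lit 418861572917], [nat_lit 418861572913], [nat_lit 418861572909], [nat_lit 418861572905], [nat_lit 418861572901], [nat_lit 418861572897]] [])
(.leaf [[nat_lit 418861634997, nat_lit 418864235957], [nat_lit 418861622581, nat_lit 418863703349], [nat_lit 418861610165, nat_lit 418863170741], [nat_lit 418861597749, nat_lit 418862638133], [nat_lit 418862105525, nat_lit 279241085877], [nat_lit 418861572917], [nat_lit 418861572913], [nat_lit 418861572909], [nat_lit 418861572905], [nat_lit 418861572901], [nat_lit 418861572897]] [])))))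
(.node (nat_lit 966)
(.node (nat_lit 962)
(.node (nat_lit 960)
(.leaf [[nat_lit 6544786869, nat_lit 6547908021], [nat_lit 6544774453, nat_lit 6547375413], [nat_lit 6544762037, nat_lit 6546842805], [nat_lit 6544749621, nat_lit 6546310197], [nat_lit 6544737205, nat_lit 6545777589], [nat_lit 6545244981, nat_lit 4363174709], [nat_lit 6544712373], [nat_lit 6544712369], [nat_lit 6544712365], [nat_lit 6544712361], [nat_lit 6544712357, nat_lit 24881], [nat_lit 53], [nat_lit 49]] [[], [], [], [], [], [], [], [], [], [], [nat_lit 53614283628824, nat_lit 53614283629079]])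
(.node (nat_lit 961)
(.leaf [[nat_lit 6544786869, nat_lit 6547908021], [nat_lit 6544774453, nat_lit 6547375413], [nat_lit 6544762037, nat_lit 6546842805], [nat_lit 6544749621, nat_lit 6546310197], [nat_lit 6544737205, nat_lit 6545777589], [nat_lit 6545244981, nat_lit 4363174709], [nat_lit 6544712373], [nat_lit 6544712369], [nat_lit 6544712365], [nat_lit 6544712361], [nat_lit 6544712357], [nat_lit 53], [nat_lit 49]] [])
(.leaf [[nat_lit 6544786869, nat_lit 6547908021, nat_lit 5454792117], [nat_lit 6544774453, nat_lit 6547375413], [nat_lit 6544762037, nat_lit 6546842805], [nat_lit 6544749621, nat_lit 6546310197], [nat_lit 6544737205, nat_lit 6545777589], [nat_lit 6545244981, nat_lit 4363174709], [nat_lit 6544712373], [nat_lit 6544712369], [nat_lit 6544712365], [nat_lit 6544712361], [nat_lit 6544712357], [nat_lit 53], [nat_lit 49]] [])))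
(.node (nat_lit 964)
(.node (nat_lit 963)
(.leaf [[nat_lit 6544786869, nat_lit 6547908021, nat_lit 6545307061], [nat_lit 6544774453, nat_lit 6547375413], [nat_lit 6544762037, nat_lit 6546842805], [nat_lit 6544749621, nat_lit 6546310197], [nat_lit 6544737205, nat_lit 6545777589], [nat_lit 6545244981, nat_lit 4363174709], [nat_lit 6544712373], [nat_lit 6544712369], [nat_lit 6544712365], [nat_lit 6544712361], [nat_lit 6544712357], [nat_lit 53]] [])
(.leaf [[nat_lit 6544786869, nat_lit 6547908021, nat_lit 5454792117], [nat_lit 6544774453, nat_lit 6547375413], [nat_lit 6544762037, nat_lit 6546842805], [nat_lit 6544749621, nat_lit 6546310197], [nat_lit 6544737205, nat_lit 6545777589], [nat_lit 6545244981, nat_lit 4363174709], [nat_lit 6544712373], [nat_lit 6544712369], [nat_lit 6544712365], [nat_lit 6544712361], [nat_lit 6544712357], [nat_lit 53]] []))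
(.node (nat_lit 965)
(.leaf [[nat_lit 6547908021, nat_lit 74173486517, nat_lit 5454792117], [nat_lit 6547375413, nat_lit 74173474101, nat_lit 5454259509], [nat_lit 6546842805, nat_lit 74173461685], [nat_lit 6546310197, nat_lit 4363199541], [nat_lit 6545777589, nat_lit 4363187125], [nat_lit 6545244981, nat_lit 4363174709], [nat_lit 6544712373], [nat_lit 6544712369], [nat_lit 6544712365], [nat_lit 6544712361], [nat_lit 6544712357], [nat_lit 53]] [])
(.leaf [[nat_lit 142893221301, nat_lit 142895822261, nat_lit 142896342453, nat_lit 141802186165, nat_lit 74174006709], [nat_lit 142893208885, nat_lit 142895809845, nat_lit 141802173749, nat_lit 74173994293], [nat_lit 142893196469, nat_lit 142895277237, nat_lit 141802161333], [nat_lit 142893184053, nat_lit 142894744629, nat_lit 141802148917], [nat_lit 142893171637, nat_lit 142894212021, nat_lit 141802136501], [nat_lit 6545244981, nat_lit 4363174709], [nat_lit 6544712373], [nat_lit 6544712369], [nat_lit 6544712365], [nat_lit 6544712361], [nat_lit 6544712357], [nat_lit 53]] []))))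
(.node (nat_lit 970)
(.node (nat_lit 968)
(.node (nat_lit 967)
(.leaf [[nat_lit 211612435893, nat_lit 211615036853, nat_lit 142896342453, nat_lit 142893221301], [nat_lit 211612423477, nat_lit 211615024437, nat_lit 142895809845, nat_lit 142893208885], [nat_lit 211612411061, nat_lit 142895277237], [nat_lit 211612398645, nat_lit 142894744629], [nat_lit 211612386229, nat_lit 142894212021], [nat_lit 143983674165, nat_lit 279242113845], [nat_lit 6544712373], [nat_lit 6544712369], [nat_lit 6544712365], [nat_lit 6544712361], [nat_lit 6544712357], [nat_lit 53]] [])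
(.leaf [[nat_lit 212706071989, nat_lit 280332170677, nat_lit 279241135541, nat_lit 211612956085], [nat_lit 212705539381, nat_lit 211612423477], [nat_lit 212705006773, nat_lit 279241110709], [nat_lit 212704474165, nat_lit 279241098293], [nat_lit 212703941557, nat_lit 279241085877], [nat_lit 142893159221, nat_lit 281422619445, nat_lit 279242113845, nat_lit 279241073461], [nat_lit 6544712373], [nat_lit 6544712369], [nat_lit 418861572905], [nat_lit 418861572901], [nat_lit 418861572897], [nat_lit 53]] [[], [], [], [], [], [], [], [], [], [], [nat_lit 3431314005172500]]))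
(.node (nat_lit 969)
(.leaf [[nat_lit 349051385269, nat_lit 349053986229, nat_lit 349054506421, nat_lit 280332170677], [nat_lit 349051372853, nat_lit 349053973813, nat_lit 280332158261], [nat_lit 349051360437, nat_lit 349053441205], [nat_lit 349051348021, nat_lit 349052908597], [nat_lit 349051855797, nat_lit 279241085877, nat_lit 349052375989], [nat_lit 418861572917], [nat_lit 418861572913], [nat_lit 418861572909], [nat_lit 418861572905], [nat_lit 418861572901], [nat_lit 418861572897]] [])
(.leaf [[nat_lit 418861634997, nat_lit 418864235957], [nat_lit 418861622581, nat_lit 418863703349], [nat_lit 418861610165, nat_lit 418863170741], [nat_lit 418861597749, nat_lit 418862638133], [nat_lit 418862105525, nat_lit 279241085877], [nat_lit 418861572917], [nat_lit 418861572913], [nat_lit 418861572909], [nat_lit 418861572905], [nat_lit 418861572901], [nat_lit 418861572897]] [])))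
(.node (nat_lit 972)
(.node (nat_lit 971)
(.leaf [[nat_lit 418861634997, nat_lit 418864235957], [nat_lit 418861622581, nat_lit 418863703349], [nat_lit 418861610165, nat_lit 418863170741], [nat_lit 418861597749, nat_lit 418862638133], [nat_lit 418862105525, nat_lit 279241085877], [nat_lit 418861572917], [nat_lit 418861572913], [nat_lit 418861572909], [nat_lit 418861572905], [nat_lit 418861572901], [nat_lit 418861572897]] [])
(.leaf [[nat_lit 418861634997, nat_lit 418864235957], [nat_lit 418861622581, nat_lit 418863703349], [nat_lit 418861610165, nat_lit 418863170741], [nat_lit 418861597749, nat_lit 418862638133], [nat_lit 418862105525, nat_lit 279241085877], [nat_lit 418861572917], [nat_lit 418861572913], [nat_lit 418861572909], [nat_lit 418861572905], [nat_lit 418861572901], [nat_lit 418861572897]] [[], [], [], [], [], [], [], [], [], [], [nat_lit 3431314005172243]]))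
(.node (nat_lit 973)
(.leaf [[nat_lit 488671884725, nat_lit 488673965493], [nat_lit 488671872309, nat_lit 488673432885], [nat_lit 488671859893, nat_lit 488672900277], [nat_lit 488671847477, nat_lit 418862638133], [nat_lit 418862105525, nat_lit 279241085877], [nat_lit 418861572917], [nat_lit 418861572913], [nat_lit 418861572909], [nat_lit 418861572905], [nat_lit 418861572901], [nat_lit 418861572897]] [])
(.leaf [[nat_lit 488671884725, nat_lit 488673965493], [nat_lit 488671872309, nat_lit 488673432885], [nat_lit 488671859893, nat_lit 488672900277], [nat_lit 488671847477, nat_lit 418862638133], [nat_lit 418862105525, nat_lit 279241085877], [nat_lit 418861572917], [nat_lit 418861572913], [nat_lit 418861572909], [nat_lit 418861572905], [nat_lit 418861572901], [nat_lit 418861572897]] []))))))))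

noncomputable def ct17 : Tc :=
(.node (nat_lit 769)
(.node (nat_lit 517)
(.node (nat_lit 385)
(.node (nat_lit 257)
(.node (nat_lit 192)
(.node (nat_lit 128)
(.node (nat_lit 64)
(.leaf [[nat_lit 102793934, nat_lit 74570], [nat_lit 102261326], [nat_lit 68190794, nat_lit 1597902], [nat_lit 86, nat_lit 24910], [nat_lit 82], [nat_lit 78], [nat_lit 74], [nat_lit 70], [nat_lit 66], [nat_lit 62], [nat_lit 58], [nat_lit 53], [nat_lit 49], [nat_lit 45]] [[], [], [], [], [], [], [], [], [], [], [], [], [], [nat_lit 368917], [nat_lit 335891]])
(.leaf [[nat_lit 1159238350, nat_lit 1110758342, nat_lit 1107870414], [nat_lit 1142203082, nat_lit 1110225734, nat_lit 1107870410], [nat_lit 1125688006, nat_lit 1107870406, nat_lit 1110225730, nat_lit 1091097286], [nat_lit 1126208194, nat_lit 1107870402, nat_lit 1091097282, nat_lit 1142981314], [nat_lit 1125167806, nat_lit 1126208190, nat_lit 1107870398, nat_lit 1142981310], [nat_lit 85250869, nat_lit 53261109], [nat_lit 102793909, nat_lit 51180337, nat_lit 34652853], [nat_lit 102261301], [nat_lit 102261297, nat_lit 1597877], [nat_lit 102261293, nat_lit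 24885, nat_lit 1597873], [nat_lit 24881, nat_lit 102261289], [nat_lit 53], [nat_lit 49], [nat_lit 45]] [[], [], [], [], [nat_lit 9225897494951], [nat_lit 436315007141], [nat_lit 419269320874], [], [], [nat_lit 13089776542, nat_lit 13089776797], [nat_lit 203825565, nat_lit 837724480028, nat_lit 837724480155, nat_lit 837724480156, nat_lit 837724480282, nat_lit 837724480283, nat_lit 837724480410, nat_lit 837724480411]]))
(.node (nat_lit 129)
(.leaf [[nat_lit 69862470474, nat_lit 69844394826, nat_lit 69863523270], [nat_lit 69862470470, nat_lit 69810324294, nat_lit 69812925254], [nat_lit 69827359554, nat_lit 69812925250], [nat_lit 69844394814, nat_lit 69812925246], [nat_lit 85263285, nat_lit 53793717], [nat_lit 86291253, nat_lit 34145077, nat_lit 53261109], [nat_lit 102793909, nat_lit 51180337], [nat_lit 102261301], [nat_lit 68190769, nat_lit 1597877], [nat_lit 102261293], [nat_lit 102261289, nat_lit 24881], [nat_lit 53], [nat_lit 49], [nat_lit 45]] [[], [], [], [], [], [], [], [], [], [], [nat_lit 837724480028, nat_lit 837724480283, nat_lit 837724480410]])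
(.leaf [[nat_lit 2232718030, nat_lit 2216723150], [nat_lit 2232718026, nat_lit 2217255750], [nat_lit 2216723142, nat_lit 2181612230], [nat_lit 2216723138, nat_lit 2181612226], [nat_lit 2216723134, nat_lit 34157493], [nat_lit 85250869, nat_lit 53261109], [nat_lit 102793909, nat_lit 51180337], [nat_lit 102261301], [nat_lit 68190769, nat_lit 1597877], [nat_lit 102261293, nat_lit 1597873], [nat_lit 102261289, nat_lit 24881], [nat_lit 53], [nat_lit 49], [nat_lit 45]] [[], [], [], [], [], [], [], [], [], [], [nat_lit 837724480028, nat_lit 837724480155, nat_lit 837724480283, nat_lit 837724480410]])))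
(.node (nat_lit 194)
(.node (nat_lit 193)
(.leaf [[nat_lit 70935950154, nat_lit 70901097290, nat_lit 70920487878, nat_lit 70901359434], [nat_lit 70935950150, nat_lit 34194741, nat_lit 70920487874], [nat_lit 70901359426, nat_lit 54858933, nat_lit 34182325], [nat_lit 85275701, nat_lit 54326325, nat_lit 85795893], [nat_lit 85263285, nat_lit 53793717], [nat_lit 85250869, nat_lit 53261109], [nat_lit 102793909, nat_lit 51180337], [nat_lit 102261301], [nat_lit 68190769, nat_lit 1597877], [nat_lit 102261293], [nat_lit 102261289], [nat_lit 53], [nat_lit 49], [nat_lit 45]] [[], [], [], [], [], [], [], [], [], [], [nat_lit 837724480410]])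
(.leaf [[nat_lit 139671679818, nat_lit 139623187398], [nat_lit 139655164742, nat_lit 139622654790, nat_lit 139620574022], [nat_lit 139638649666, nat_lit 34182325, nat_lit 139622654786], [nat_lit 85275701, nat_lit 70841397, nat_lit 54326325], [nat_lit 85263285, nat_lit 53793717], [nat_lit 85250869, nat_lit 53261109], [nat_lit 102793909, nat_lit 51180337], [nat_lit 102261301], [nat_lit 102261297], [nat_lit 102261293], [nat_lit 102261289], [nat_lit 53], [nat_lit 49], [nat_lit 45]] []))
(.node (nat_lit 256)
(.leaf [[nat_lit 3306730314, nat_lit 3274752966, nat_lit 3272397642, nat_lit 3272659786], [nat_lit 3324285766, nat_lit 34194741], [nat_lit 3273167558, nat_lit 34182325, nat_lit 54858933], [nat_lit 3273167554, nat_lit 34169909, nat_lit 54326325], [nat_lit 86823861, nat_lit 34157493, nat_lit 53793717], [nat_lit 85250869, nat_lit 53261109], [nat_lit 102793909, nat_lit 1107870389, nat_lit 1108132533], [nat_lit 102261301], [nat_lit 68190769, nat_lit 1597877], [nat_lit 102261293, nat_lit 1597873], [nat_lit 102261289, nat_lit 24881], [nat_lit 53], [nat_lit 49], [nat_lit 45]] [[], [], [nat_lit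 449404382122], [], [], [], [], [], [], [], [nat_lit 837724479900, nat_lit 837724480155, nat_lit 837724480282, nat_lit 837724480410]])
(.leaf [[nat_lit 72025944906, nat_lit 72026985290], [nat_lit 72008909638, nat_lit 55391541], [nat_lit 85288117, nat_lit 87889077, nat_lit 54858933], [nat_lit 85275701, nat_lit 70841397, nat_lit 54326325], [nat_lit 85263285, nat_lit 53793717], [nat_lit 85250869, nat_lit 53261109], [nat_lit 102793909, nat_lit 51180337], [nat_lit 102261301], [nat_lit 102261297], [nat_lit 102261293], [nat_lit 102261289], [nat_lit 53], [nat_lit 49], [nat_lit 45]] []))))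
(.node (nat_lit 321)
(.node (nat_lit 259)
(.node (nat_lit 258)
(.leaf [[nat_lit 140745679690, nat_lit 140730217414, nat_lit 34207157], [nat_lit 140728644422, nat_lit 55391541, nat_lit 34194741], [nat_lit 85288117, nat_lit 87889077, nat_lit 54858933], [nat_lit 85275701, nat_lit 70841397, nat_lit 54326325], [nat_lit 85263285, nat_lit 53793717], [nat_lit 85250869, nat_lit 53261109], [nat_lit 102793909, nat_lit 1107870389, nat_lit 1108132533], [nat_lit 102261301], [nat_lit 102261297], [nat_lit 102261293], [nat_lit 102261289], [nat_lit 53], [nat_lit 49], [nat_lit 45]] [])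
(.leaf [[nat_lit 209464894282, nat_lit 209432916934], [nat_lit 209447859014, nat_lit 105456949], [nat_lit 104924341, nat_lit 85288117], [nat_lit 104391733, nat_lit 68240437], [nat_lit 103859125, nat_lit 34157493], [nat_lit 103326517, nat_lit 34145077], [nat_lit 102793909, nat_lit 51180337], [nat_lit 102261301], [nat_lit 102261297], [nat_lit 102261293], [nat_lit 102261289], [nat_lit 53], [nat_lit 49], [nat_lit 45]] []))
(.node (nat_lit 320)
(.leaf [[nat_lit 4397245258, nat_lit 4381782982, nat_lit 34207157], [nat_lit 4363682506, nat_lit 4363174726, nat_lit 55391541], [nat_lit 4363682502, nat_lit 34182325, nat_lit 54858933], [nat_lit 4363682498, nat_lit 34169909, nat_lit 54326325], [nat_lit 85263285, nat_lit 53793717], [nat_lit 85250869, nat_lit 53261109], [nat_lit 102793909, nat_lit 2181612213], [nat_lit 102261301], [nat_lit 102261297], [nat_lit 102261293], [nat_lit 102261289, nat_lit 24881], [nat_lit 53], [nat_lit 49], [nat_lit 45]] [[], [], [], [], [], [], [], [], [], [], [nat_lit 837724480027, nat_lit 837724480282]])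
(.leaf [[nat_lit 73116980042, nat_lit 34207157, nat_lit 73084482502], [nat_lit 73082909510, nat_lit 55391541, nat_lit 34194741], [nat_lit 85288117, nat_lit 87889077, nat_lit 54858933], [nat_lit 85275701, nat_lit 70841397, nat_lit 54326325], [nat_lit 85263285, nat_lit 53793717], [nat_lit 85250869, nat_lit 53261109], [nat_lit 102793909, nat_lit 1107870389, nat_lit 1108132533], [nat_lit 102261301], [nat_lit 102261297], [nat_lit 102261293], [nat_lit 102261289], [nat_lit 53], [nat_lit 49], [nat_lit 45]] [])))
(.node (nat_lit 323)
(.node (nat_lit 322)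
(.leaf [[nat_lit 141819679562, nat_lit 34207157, nat_lit 55924149], [nat_lit 85300533, nat_lit 88421685, nat_lit 85820725, nat_lit 55391541], [nat_lit 85288117, nat_lit 87889077, nat_lit 54858933], [nat_lit 85275701, nat_lit 70841397, nat_lit 54326325], [nat_lit 85263285, nat_lit 53793717], [nat_lit 85250869, nat_lit 53261109], [nat_lit 102793909, nat_lit 2181612213], [nat_lit 102261301], [nat_lit 102261297], [nat_lit 102261293], [nat_lit 102261289], [nat_lit 53], [nat_lit 49], [nat_lit 45]] [])
(.leaf [[nat_lit 85312949, nat_lit 88434101, nat_lit 55924149, nat_lit 85833141], [nat_lit 85300533, nat_lit 88421685, nat_lit 85820725, nat_lit 55391541], [nat_lit 85288117, nat_lit 87889077, nat_lit 54858933], [nat_lit 85275701, nat_lit 70841397, nat_lit 54326325], [nat_lit 85263285, nat_lit 53793717], [nat_lit 85250869, nat_lit 53261109], [nat_lit 102793909, nat_lit 1107870389, nat_lit 1108132533], [nat_lit 102261301], [nat_lit 102261297], [nat_lit 102261293], [nat_lit 102261289], [nat_lit 53], [nat_lit 49]] []))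
(.node (nat_lit 324)
(.leaf [[nat_lit 279275144010, nat_lit 279242113866], [nat_lit 105456949, nat_lit 85300533, nat_lit 86340917], [nat_lit 104924341, nat_lit 85288117, nat_lit 85808309], [nat_lit 104391733, nat_lit 68240437], [nat_lit 103859125, nat_lit 51192757], [nat_lit 103326517, nat_lit 51180341], [nat_lit 102793909, nat_lit 68215601], [nat_lit 102261301], [nat_lit 102261297], [nat_lit 102261293], [nat_lit 102261289], [nat_lit 53], [nat_lit 49]] [])
(.node (nat_lit 384)
(.leaf [[nat_lit 5471245130, nat_lit 55924149, nat_lit 34207157], [nat_lit 5454730054, nat_lit 34194741, nat_lit 55391541], [nat_lit 85288117, nat_lit 87889077, nat_lit 54858933], [nat_lit 87356469, nat_lit 51205173, nat_lit 54326325], [nat_lit 86823861, nat_lit 34157493, nat_lit 53793717], [nat_lit 85250869, nat_lit 53261109], [nat_lit 102793909, nat_lit 2181612213], [nat_lit 102261301], [nat_lit 102261297], [nat_lit 102261293], [nat_lit 102261289], [nat_lit 53], [nat_lit 49], [nat_lit 45]] [[], [], [], [], [], [], [], [], [], [], [nat_lit 837724480154, nat_lit 837724480281]])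
(.leaf [[nat_lit 74190459722, nat_lit 55924149], [nat_lit 85300533, nat_lit 88421685, nat_lit 85820725, nat_lit 55391541], [nat_lit 85288117, nat_lit 87889077, nat_lit 54858933], [nat_lit 85275701, nat_lit 70841397, nat_lit 54326325], [nat_lit 85263285, nat_lit 53793717], [nat_lit 85250869, nat_lit 53261109], [nat_lit 102793909, nat_lit 2181612213], [nat_lit 102261301], [nat_lit 102261297], [nat_lit 102261293], [nat_lit 102261289], [nat_lit 53], [nat_lit 49], [nat_lit 45]] []))))))
(.node (nat_lit 451)
(.node (nat_lit 389)
(.node (nat_lit 387)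
(.node (nat_lit 386)
(.leaf [[nat_lit 85312949, nat_lit 88434101, nat_lit 55924149, nat_lit 85833141], [nat_lit 85300533, nat_lit 88421685, nat_lit 85820725, nat_lit 55391541], [nat_lit 85288117, nat_lit 87889077, nat_lit 54858933], [nat_lit 85275701, nat_lit 70841397, nat_lit 54326325], [nat_lit 85263285, nat_lit 53793717], [nat_lit 85250869, nat_lit 53261109], [nat_lit 102793909, nat_lit 1107870389, nat_lit 1108132533], [nat_lit 102261301], [nat_lit 102261297], [nat_lit 102261293], [nat_lit 102261289], [nat_lit 53], [nat_lit 49]] [])
(.leaf [[nat_lit 105989557, nat_lit 85312949, nat_lit 86873525], [nat_lit 105456949, nat_lit 85300533, nat_lit 86340917], [nat_lit 104924341, nat_lit 85288117, nat_lit 85808309], [nat_lit 104391733, nat_lit 68240437], [nat_lit 103859125, nat_lit 51192757], [nat_lit 103326517, nat_lit 51180341], [nat_lit 102793909, nat_lit 2181612213], [nat_lit 102261301], [nat_lit 102261297], [nat_lit 102261293], [nat_lit 102261289], [nat_lit 53], [nat_lit 49]] []))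
(.node (nat_lit 388)
(.leaf [[nat_lit 105989557, nat_lit 85312949, nat_lit 86873525], [nat_lit 105456949, nat_lit 85300533, nat_lit 86340917], [nat_lit 104924341, nat_lit 85288117, nat_lit 85808309], [nat_lit 104391733, nat_lit 68240437], [nat_lit 103859125, nat_lit 51192757], [nat_lit 103326517, nat_lit 51180341], [nat_lit 102793909, nat_lit 1124905653, nat_lit 1125167797], [nat_lit 102261301], [nat_lit 102261297], [nat_lit 102261293], [nat_lit 102261289], [nat_lit 53], [nat_lit 49]] [])
(.leaf [[nat_lit 105989557, nat_lit 85312949, nat_lit 86873525], [nat_lit 105456949, nat_lit 85300533, nat_lit 86340917], [nat_lit 104924341, nat_lit 85288117, nat_lit 85808309], [nat_lit 104391733, nat_lit 85275701], [nat_lit 103859125, nat_lit 51192757], [nat_lit 103326517, nat_lit 51180341], [nat_lit 102793909, nat_lit 68215601], [nat_lit 102261301], [nat_lit 102261297], [nat_lit 102261293], [nat_lit 102261289], [nat_lit 53], [nat_lit 49]] [])))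
(.node (nat_lit 449)
(.node (nat_lit 448)
(.leaf [[nat_lit 6544712398, nat_lit 6544720714], [nat_lit 6544712394], [nat_lit 6544712390, nat_lit 34182325], [nat_lit 85275701, nat_lit 70841397, nat_lit 54326325], [nat_lit 85263285, nat_lit 53793717], [nat_lit 85250869, nat_lit 53261109], [nat_lit 102793909, nat_lit 2181612213], [nat_lit 102261301], [nat_lit 102261297], [nat_lit 102261293], [nat_lit 102261289], [nat_lit 53], [nat_lit 49], [nat_lit 45]] [[], [], [], [], [], [], [], [], [], [], [nat_lit 837724480026, nat_lit 837724480281]])
(.leaf [[nat_lit 85312949, nat_lit 88434101, nat_lit 55924149, nat_lit 85833141], [nat_lit 85300533, nat_lit 88421685, nat_lit 85820725, nat_lit 55391541], [nat_lit 85288117, nat_lit 87889077, nat_lit 54858933], [nat_lit 85275701, nat_lit 70841397, nat_lit 54326325], [nat_lit 85263285, nat_lit 53793717], [nat_lit 85250869, nat_lit 53261109], [nat_lit 102793909, nat_lit 2181612213], [nat_lit 102261301], [nat_lit 102261297], [nat_lit 102261293], [nat_lit 102261289], [nat_lit 53], [nat_lit 49]] []))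
(.node (nat_lit 450)
(.leaf [[nat_lit 85312949, nat_lit 88434101, nat_lit 55924149, nat_lit 86353333], [nat_lit 85300533, nat_lit 88421685, nat_lit 86340917, nat_lit 88679733], [nat_lit 85288117, nat_lit 87889077, nat_lit 88147125, nat_lit 85808309], [nat_lit 85275701, nat_lit 70841397, nat_lit 87614517], [nat_lit 85263285, nat_lit 53793717, nat_lit 85783477], [nat_lit 85250869, nat_lit 53261109], [nat_lit 102793909, nat_lit 2181612213], [nat_lit 102261301], [nat_lit 102261297], [nat_lit 102261293], [nat_lit 102261289], [nat_lit 53], [nat_lit 49]] [])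
(.leaf [[nat_lit 105989557, nat_lit 85312949, nat_lit 86873525], [nat_lit 105456949, nat_lit 85300533, nat_lit 86340917], [nat_lit 104924341, nat_lit 85288117, nat_lit 85808309], [nat_lit 104391733, nat_lit 68240437], [nat_lit 103859125, nat_lit 51192757], [nat_lit 103326517, nat_lit 51180341], [nat_lit 102793909, nat_lit 2181612213], [nat_lit 102261301], [nat_lit 102261297], [nat_lit 102261293], [nat_lit 102261289], [nat_lit 53], [nat_lit 49]] []))))
(.node (nat_lit 512)
(.node (nat_lit 453)
(.node (nat_lit 452)
(.leaf [[nat_lit 105989557, nat_lit 85312949, nat_lit 86873525], [nat_lit 105456949, nat_lit 85300533, nat_lit 86340917], [nat_lit 104924341, nat_lit 85288117, nat_lit 85808309], [nat_lit 104391733, nat_lit 85275701], [nat_lit 103859125, nat_lit 51192757], [nat_lit 103326517, nat_lit 51180341], [nat_lit 102793909, nat_lit 2181612213], [nat_lit 102261301], [nat_lit 102261297], [nat_lit 102261293], [nat_lit 102261289], [nat_lit 53], [nat_lit 49]] [])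
(.leaf [[nat_lit 105989557, nat_lit 85312949, nat_lit 86873525], [nat_lit 105456949, nat_lit 85300533, nat_lit 86340917], [nat_lit 104924341, nat_lit 85288117, nat_lit 85808309], [nat_lit 104391733, nat_lit 85275701], [nat_lit 103859125, nat_lit 51192757], [nat_lit 103326517, nat_lit 51180341], [nat_lit 102793909, nat_lit 1124905653, nat_lit 1125167797], [nat_lit 102261301], [nat_lit 102261297], [nat_lit 102261293], [nat_lit 102261289], [nat_lit 53], [nat_lit 49]] []))
(.node (nat_lit 454)
(.leaf [[nat_lit 69878527413, nat_lit 69881128373, nat_lit 69865653685, nat_lit 85833141], [nat_lit 69878514997, nat_lit 69881115957, nat_lit 69865121077, nat_lit 85820725], [nat_lit 69878502581, nat_lit 69881103541, nat_lit 85808309, nat_lit 69864588469], [nat_lit 69878490165, nat_lit 69880570933, nat_lit 69864055861], [nat_lit 69878477749, nat_lit 69863523253], [nat_lit 103326517, nat_lit 51180341], [nat_lit 102793909, nat_lit 69861430065], [nat_lit 102261301], [nat_lit 102261297], [nat_lit 102261293], [nat_lit 102261289], [nat_lit 53], [nat_lit 49]] [])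
(.leaf [[nat_lit 7635510214, nat_lit 1162954165, nat_lit 85312949, nat_lit 1160873397], [nat_lit 1159300405, nat_lit 88421685, nat_lit 1162421557, nat_lit 34194741, nat_lit 85820725], [nat_lit 1159287989, nat_lit 1161888949, nat_lit 34182325], [nat_lit 1159275573, nat_lit 1161356341, nat_lit 34169909], [nat_lit 1159263157, nat_lit 1160823733, nat_lit 34157493], [nat_lit 1159250741, nat_lit 1160291125, nat_lit 34145077], [nat_lit 1159238325, nat_lit 2216723125, nat_lit 1107870389], [nat_lit 102261301], [nat_lit 102261297], [nat_lit 102261293], [nat_lit 102261289], [nat_lit 53], [nat_lit 49]] [[], [], [], [], [], [], [], [], [], [], [nat_lit 837724479898, nat_lit 837724480153]])))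
(.node (nat_lit 514)
(.node (nat_lit 513)
(.leaf [[nat_lit 1159312821, nat_lit 1162433973, nat_lit 1162954165, nat_lit 1159833013, nat_lit 51242421], [nat_lit 1159300405, nat_lit 1162421557, nat_lit 1159820597, nat_lit 51230005], [nat_lit 1159287989, nat_lit 1161888949, nat_lit 51217589], [nat_lit 1159275573, nat_lit 1161356341, nat_lit 51205173], [nat_lit 1159263157, nat_lit 1160823733, nat_lit 51192757], [nat_lit 1159250741, nat_lit 1160291125, nat_lit 51180341], [nat_lit 102793909, nat_lit 2181612213], [nat_lit 102261301], [nat_lit 102261297], [nat_lit 102261293], [nat_lit 102261289], [nat_lit 53], [nat_lit 49]] [])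
(.leaf [[nat_lit 1162954165, nat_lit 85312949, nat_lit 86873525], [nat_lit 1162421557, nat_lit 85300533, nat_lit 86340917], [nat_lit 1161888949, nat_lit 85288117, nat_lit 85808309], [nat_lit 1161356341, nat_lit 85275701], [nat_lit 1160823733, nat_lit 68228021], [nat_lit 1160291125, nat_lit 51180341], [nat_lit 102793909, nat_lit 2181612213], [nat_lit 102261301], [nat_lit 102261297], [nat_lit 102261293], [nat_lit 102261289], [nat_lit 53], [nat_lit 49]] []))
(.node (nat_lit 515)
(.leaf [[nat_lit 1162954165, nat_lit 85312949, nat_lit 86873525], [nat_lit 1162421557, nat_lit 85300533, nat_lit 86340917], [nat_lit 1161888949, nat_lit 85288117, nat_lit 85808309], [nat_lit 1161356341, nat_lit 85275701], [nat_lit 1160823733, nat_lit 68228021], [nat_lit 1160291125, nat_lit 51180341], [nat_lit 102793909, nat_lit 2181612213], [nat_lit 102261301], [nat_lit 102261297], [nat_lit 102261293], [nat_lit 102261289], [nat_lit 53], [nat_lit 49]] [])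
(.node (nat_lit 516)
(.leaf [[nat_lit 1162954165, nat_lit 85312949, nat_lit 70358453], [nat_lit 1162421557, nat_lit 85300533, nat_lit 69825845], [nat_lit 1161888949, nat_lit 85288117, nat_lit 69293237], [nat_lit 1161356341, nat_lit 85275701, nat_lit 68760629], [nat_lit 1160823733, nat_lit 68228021], [nat_lit 1160291125, nat_lit 51180341], [nat_lit 102793909, nat_lit 2181612213], [nat_lit 102261301], [nat_lit 102261297], [nat_lit 102261293], [nat_lit 102261289], [nat_lit 53], [nat_lit 49]] [])
(.leaf [[nat_lit 69878527413, nat_lit 69881128373, nat_lit 69865653685, nat_lit 85833141], [nat_lit 69878514997, nat_lit 69881115957, nat_lit 69865121077, nat_lit 85820725], [nat_lit 69878502581, nat_lit 69881103541, nat_lit 85808309, nat_lit 69864588469], [nat_lit 69878490165, nat_lit 69880570933, nat_lit 69864055861], [nat_lit 69878477749, nat_lit 69863523253], [nat_lit 69878465333, nat_lit 53261109], [nat_lit 102793909, nat_lit 2181612213], [nat_lit 102261301], [nat_lit 102261297], [nat_lit 102261293], [nat_lit 102261289], [nat_lit 53], [nat_lit 49]] [])))))))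
(.node (nat_lit 645)
(.node (nat_lit 581)
(.node (nat_lit 577)
(.node (nat_lit 519)
(.node (nat_lit 518)
(.leaf [[nat_lit 69878527413, nat_lit 69881128373, nat_lit 69865653685, nat_lit 69879047605], [nat_lit 69878514997, nat_lit 69881115957, nat_lit 69865121077, nat_lit 69879035189], [nat_lit 69878502581, nat_lit 69881103541, nat_lit 69879022773, nat_lit 69864588469], [nat_lit 69878490165, nat_lit 69880570933, nat_lit 69864055861], [nat_lit 69878477749, nat_lit 69863523253], [nat_lit 139672720181, nat_lit 69844394805], [nat_lit 102793909, nat_lit 1124905653, nat_lit 1125167797], [nat_lit 102261301], [nat_lit 102261297], [nat_lit 102261293], [nat_lit 102261289], [nat_lit 53]] [])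
(.leaf [[nat_lit 139671741877, nat_lit 139674342837, nat_lit 139675383221, nat_lit 69879047605], [nat_lit 139671729461, nat_lit 139674330421, nat_lit 139674850613, nat_lit 69879035189], [nat_lit 139671717045, nat_lit 139674318005, nat_lit 69879022773], [nat_lit 139671704629, nat_lit 139673785397], [nat_lit 139671692213, nat_lit 139673252789], [nat_lit 139671679797, nat_lit 139672720181], [nat_lit 102793909, nat_lit 139654644529], [nat_lit 102261301], [nat_lit 102261297], [nat_lit 102261293], [nat_lit 102261289], [nat_lit 53]] []))
(.node (nat_lit 576)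
(.leaf [[nat_lit 2232792501, nat_lit 2236433845, nat_lit 1160353205, nat_lit 1162954165], [nat_lit 2232780085, nat_lit 1161901365, nat_lit 1162421557, nat_lit 1159300405], [nat_lit 2232767669, nat_lit 1161888949, nat_lit 1159287989], [nat_lit 2232755253, nat_lit 1161356341], [nat_lit 2232742837, nat_lit 1160823733], [nat_lit 2232730421, nat_lit 1160291125], [nat_lit 2232718005, nat_lit 2216723125], [nat_lit 102261301], [nat_lit 102261297], [nat_lit 102261293], [nat_lit 102261289, nat_lit 24881], [nat_lit 53], [nat_lit 49]] [[], [], [], [], [], [], [], [], [], [], [nat_lit 837724479770, nat_lit 837724480025, nat_lit 837724480152]])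
(.leaf [[nat_lit 2232792501, nat_lit 2235913653, nat_lit 1162954165, nat_lit 2233312693], [nat_lit 2232780085, nat_lit 2235901237, nat_lit 2233300277, nat_lit 1162421557], [nat_lit 2232767669, nat_lit 2235368629, nat_lit 1161888949], [nat_lit 2232755253, nat_lit 1161356341], [nat_lit 2232742837, nat_lit 1160823733], [nat_lit 2232730421, nat_lit 1160291125], [nat_lit 2232718005, nat_lit 2216723125], [nat_lit 102261301], [nat_lit 102261297], [nat_lit 102261293], [nat_lit 102261289], [nat_lit 53], [nat_lit 49]] [[], [], [], [], [], [], [], [], [], [], [nat_lit 837724480152]])))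
(.node (nat_lit 579)
(.node (nat_lit 578)
(.leaf [[nat_lit 1159312821, nat_lit 1161913781, nat_lit 1162954165, nat_lit 51242421, nat_lit 1159833013], [nat_lit 1159300405, nat_lit 1161901365, nat_lit 1162421557, nat_lit 51230005, nat_lit 1159820597], [nat_lit 1159287989, nat_lit 1161888949, nat_lit 51217589, nat_lit 1159808181], [nat_lit 1159275573, nat_lit 1161356341, nat_lit 51205173], [nat_lit 1159263157, nat_lit 1160823733, nat_lit 51192757], [nat_lit 1159250741, nat_lit 1160291125, nat_lit 51180341], [nat_lit 1159238325, nat_lit 2216723125, nat_lit 2181612213], [nat_lit 102261301], [nat_lit 102261297], [nat_lit 102261293], [nat_lit 102261289], [nat_lit 53], [nat_lit 49]] [])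
(.leaf [[nat_lit 1159312821, nat_lit 1161913781, nat_lit 1162954165, nat_lit 51242421, nat_lit 1159833013], [nat_lit 1159300405, nat_lit 1161901365, nat_lit 1162421557, nat_lit 51230005, nat_lit 1159820597], [nat_lit 1159287989, nat_lit 1161888949, nat_lit 51217589, nat_lit 1159808181], [nat_lit 1159275573, nat_lit 1161356341, nat_lit 51205173], [nat_lit 1159263157, nat_lit 1160823733, nat_lit 51192757], [nat_lit 1159250741, nat_lit 1160291125, nat_lit 51180341], [nat_lit 1159238325, nat_lit 2216723125, nat_lit 1124905653], [nat_lit 102261301], [nat_lit 102261297], [nat_lit 102261293], [nat_lit 102261289], [nat_lit 53], [nat_lit 49]] []))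
(.node (nat_lit 580)
(.leaf [[nat_lit 1159312821, nat_lit 1161913781, nat_lit 1162954165, nat_lit 51242421, nat_lit 1159833013], [nat_lit 1159300405, nat_lit 1161901365, nat_lit 1162421557, nat_lit 51230005, nat_lit 1159820597], [nat_lit 1159287989, nat_lit 1161888949, nat_lit 51217589, nat_lit 1159808181], [nat_lit 1159275573, nat_lit 1161356341, nat_lit 51205173], [nat_lit 1159263157, nat_lit 1160823733, nat_lit 51192757], [nat_lit 1159250741, nat_lit 1160291125, nat_lit 51180341], [nat_lit 1159238325, nat_lit 2216723125, nat_lit 2181612213], [nat_lit 102261301], [nat_lit 102261297], [nat_lit 102261293], [nat_lit 102261289], [nat_lit 53], [nat_lit 49]] [])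
(.leaf [[nat_lit 69878527413, nat_lit 69881128373, nat_lit 69865653685, nat_lit 69879047605], [nat_lit 69878514997, nat_lit 69881115957, nat_lit 69865121077, nat_lit 69879035189], [nat_lit 69878502581, nat_lit 69881103541, nat_lit 69879022773, nat_lit 69864588469], [nat_lit 69878490165, nat_lit 69880570933, nat_lit 69864055861], [nat_lit 69878477749, nat_lit 69863523253], [nat_lit 69878465333, nat_lit 1160291125], [nat_lit 1159238325, nat_lit 2216723125, nat_lit 1124905653], [nat_lit 102261301], [nat_lit 102261297], [nat_lit 102261293], [nat_lit 102261289], [nat_lit 53]] []))))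
(.node (nat_lit 640)
(.node (nat_lit 583)
(.node (nat_lit 582)
(.leaf [[nat_lit 139671741877, nat_lit 139674342837, nat_lit 139675383221, nat_lit 69879047605], [nat_lit 139671729461, nat_lit 139674330421, nat_lit 139674850613, nat_lit 69879035189], [nat_lit 139671717045, nat_lit 139674318005, nat_lit 69879022773], [nat_lit 139671704629, nat_lit 139673785397], [nat_lit 139671692213, nat_lit 139673252789], [nat_lit 139671679797, nat_lit 139672720181], [nat_lit 102793909, nat_lit 2181612213], [nat_lit 102261301], [nat_lit 102261297], [nat_lit 102261293], [nat_lit 102261289], [nat_lit 53]] [])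
(.leaf [[nat_lit 139671741877, nat_lit 139674342837, nat_lit 139675383221, nat_lit 139672262069], [nat_lit 139671729461, nat_lit 139674330421, nat_lit 139674850613, nat_lit 139672249653], [nat_lit 139671717045, nat_lit 139674318005, nat_lit 139672237237], [nat_lit 139671704629, nat_lit 139673785397], [nat_lit 139671692213, nat_lit 139673252789], [nat_lit 139671679797, nat_lit 139672720181], [nat_lit 102793909, nat_lit 1124905653, nat_lit 1125167797], [nat_lit 102261301], [nat_lit 102261297], [nat_lit 102261293], [nat_lit 102261289], [nat_lit 53]] []))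
(.node (nat_lit 584)
(.leaf [[nat_lit 209464956341, nat_lit 209467557301, nat_lit 139675383221, nat_lit 139672262069], [nat_lit 209464943925, nat_lit 209467544885, nat_lit 139674850613, nat_lit 139672249653], [nat_lit 209464931509, nat_lit 139674318005, nat_lit 139672237237], [nat_lit 209464919093, nat_lit 139673785397], [nat_lit 209464906677, nat_lit 139673252789], [nat_lit 209464894261, nat_lit 139672720181], [nat_lit 102793909, nat_lit 209447858993], [nat_lit 102261301], [nat_lit 102261297], [nat_lit 102261293], [nat_lit 102261289], [nat_lit 53]] [])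
(.leaf [[nat_lit 3306792373, nat_lit 2235913653, nat_lit 2219918773, nat_lit 2181686709, nat_lit 2233312693], [nat_lit 3306779957, nat_lit 2235901237, nat_lit 2181674293, nat_lit 2219386165, nat_lit 2233300277], [nat_lit 3306767541, nat_lit 2218853557, nat_lit 2181661877, nat_lit 2233287861], [nat_lit 3306755125, nat_lit 2218320949, nat_lit 2181649461], [nat_lit 3306742709, nat_lit 2217788341, nat_lit 2181637045], [nat_lit 3306730293, nat_lit 2217255733, nat_lit 2181624629], [nat_lit 2232718005, nat_lit 2216723125], [nat_lit 102261301], [nat_lit 102261297], [nat_lit 102261293, nat_lit 1597873], [nat_lit 102261289, nat_lit 24881], [nat_lit 53], [nat_lit 49]] [[], [], [], [], [], [], [], [], [], [], [nat_lit 837724479769, nat_lit 837724479897, nat_lit 837724480024, nat_lit 837724480152]])))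
(.node (nat_lit 642)
(.node (nat_lit 641)
(.leaf [[nat_lit 3306792373, nat_lit 3309913525, nat_lit 3307312565, nat_lit 2219918773, nat_lit 2198721973], [nat_lit 3306779957, nat_lit 3309380917, nat_lit 2219386165, nat_lit 2198709557], [nat_lit 3306767541, nat_lit 2235368629, nat_lit 2198697141, nat_lit 2218853557], [nat_lit 3306755125, nat_lit 2218320949, nat_lit 2198684725], [nat_lit 3306742709, nat_lit 2217788341, nat_lit 2198672309], [nat_lit 3306730293, nat_lit 2217255733, nat_lit 2198659893], [nat_lit 2232718005, nat_lit 2216723125], [nat_lit 102261301], [nat_lit 102261297], [nat_lit 102261293], [nat_lit 102261289], [nat_lit 53], [nat_lit 49]] [[], [], [], [], [], [], [], [], [], [], [nat_lit 837724480024]])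
(.leaf [[nat_lit 2232792501, nat_lit 2235393461, nat_lit 2219918773, nat_lit 2233312693], [nat_lit 2232780085, nat_lit 2235381045, nat_lit 2219386165, nat_lit 2233300277], [nat_lit 2232767669, nat_lit 2235368629, nat_lit 2218853557, nat_lit 2233287861], [nat_lit 2232755253, nat_lit 2218320949, nat_lit 2233275445], [nat_lit 2232742837, nat_lit 2217788341], [nat_lit 2232730421, nat_lit 2217255733], [nat_lit 2232718005, nat_lit 2216723125], [nat_lit 102261301], [nat_lit 102261297], [nat_lit 102261293], [nat_lit 102261289], [nat_lit 53], [nat_lit 49]] []))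
(.node (nat_lit 643)
(.leaf [[nat_lit 2232792501, nat_lit 2235393461, nat_lit 2219918773, nat_lit 2233312693], [nat_lit 2232780085, nat_lit 2235381045, nat_lit 2219386165, nat_lit 2233300277], [nat_lit 2232767669, nat_lit 2235368629, nat_lit 2233287861, nat_lit 2218853557], [nat_lit 2232755253, nat_lit 2234836021, nat_lit 2218320949], [nat_lit 2232742837, nat_lit 2217788341], [nat_lit 2232730421, nat_lit 2217255733], [nat_lit 2249753269, nat_lit 2216723125], [nat_lit 102261301], [nat_lit 102261297], [nat_lit 102261293], [nat_lit 102261289], [nat_lit 53], [nat_lit 49]] [])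
(.node (nat_lit 644)
(.leaf [[nat_lit 2232792501, nat_lit 2235393461, nat_lit 2219918773, nat_lit 2233312693], [nat_lit 2232780085, nat_lit 2235381045, nat_lit 2219386165, nat_lit 2233300277], [nat_lit 2232767669, nat_lit 2235368629, nat_lit 2233287861, nat_lit 2218853557], [nat_lit 2232755253, nat_lit 2234836021, nat_lit 2218320949], [nat_lit 2232742837, nat_lit 2217788341], [nat_lit 2232730421, nat_lit 2217255733], [nat_lit 2232718005, nat_lit 2216723125], [nat_lit 102261301], [nat_lit 102261297], [nat_lit 102261293], [nat_lit 102261289], [nat_lit 53]] [])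
(.leaf [[nat_lit 70952527285, nat_lit 70955128245, nat_lit 69865653685, nat_lit 69844456885, nat_lit 70953047477], [nat_lit 70952514869, nat_lit 70955115829, nat_lit 70955373877, nat_lit 69844444469, nat_lit 70953035061], [nat_lit 70952502453, nat_lit 70954583221, nat_lit 70954841269, nat_lit 69844432053], [nat_lit 70952490037, nat_lit 69864055861, nat_lit 69844419637, nat_lit 70935974965], [nat_lit 70952477621, nat_lit 69863523253, nat_lit 69844407221], [nat_lit 70952465205, nat_lit 2217255733, nat_lit 69844394805], [nat_lit 2232718005, nat_lit 2216723125], [nat_lit 102261301], [nat_lit 102261297], [nat_lit 102261293], [nat_lit 102261289], [nat_lit 53]] []))))))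
(.node (nat_lit 707)
(.node (nat_lit 649)
(.node (nat_lit 647)
(.node (nat_lit 646)
(.leaf [[nat_lit 139671741877, nat_lit 139674342837, nat_lit 139675383221, nat_lit 139672262069], [nat_lit 139671729461, nat_lit 139674330421, nat_lit 139674850613, nat_lit 139672249653], [nat_lit 139671717045, nat_lit 139674318005, nat_lit 139672237237], [nat_lit 139671704629, nat_lit 139673785397], [nat_lit 139671692213, nat_lit 139673252789], [nat_lit 139671679797, nat_lit 139672720181], [nat_lit 2232718005, nat_lit 2216723125], [nat_lit 102261301], [nat_lit 102261297], [nat_lit 102261293], [nat_lit 102261289], [nat_lit 53]] [])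
(.leaf [[nat_lit 209464956341, nat_lit 209467557301, nat_lit 139675383221, nat_lit 139672262069], [nat_lit 209464943925, nat_lit 209467544885, nat_lit 139674850613, nat_lit 139672249653], [nat_lit 209464931509, nat_lit 139674318005, nat_lit 139672237237], [nat_lit 209464919093, nat_lit 139673785397], [nat_lit 209464906677, nat_lit 139673252789], [nat_lit 209464894261, nat_lit 139672720181], [nat_lit 1159238325, nat_lit 2216723125, nat_lit 2215682741], [nat_lit 102261301], [nat_lit 102261297], [nat_lit 102261293], [nat_lit 102261289], [nat_lit 53]] []))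
(.node (nat_lit 648)
(.leaf [[nat_lit 209464956341, nat_lit 209467557301, nat_lit 139675383221, nat_lit 209465476533], [nat_lit 209464943925, nat_lit 209467544885, nat_lit 209467802933, nat_lit 209465464117], [nat_lit 209464931509, nat_lit 139674318005, nat_lit 209465451701], [nat_lit 209464919093, nat_lit 139673785397], [nat_lit 209464906677, nat_lit 139673252789], [nat_lit 209481929525, nat_lit 139672720181], [nat_lit 102793909, nat_lit 1124905653, nat_lit 1125167797], [nat_lit 102261301], [nat_lit 102261297], [nat_lit 102261293], [nat_lit 102261289], [nat_lit 53]] [])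
(.leaf [[nat_lit 279258170805, nat_lit 279260771765, nat_lit 279244776885, nat_lit 209465476533], [nat_lit 279258158389, nat_lit 279260759349, nat_lit 209465464117, nat_lit 279244244277], [nat_lit 279258145973, nat_lit 279260226741, nat_lit 279243711669], [nat_lit 279258133557, nat_lit 279243179061], [nat_lit 279258121141, nat_lit 279242646453], [nat_lit 279275143989, nat_lit 279242113845], [nat_lit 102793909, nat_lit 279241073457], [nat_lit 102261301], [nat_lit 102261297], [nat_lit 102261293], [nat_lit 418861572897], [nat_lit 53]] [])))
(.node (nat_lit 705)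
(.node (nat_lit 704)
(.leaf [[nat_lit 4380272053, nat_lit 3309393333, nat_lit 4383913397, nat_lit 3306792373], [nat_lit 4380259637, nat_lit 3309380917, nat_lit 4383380789, nat_lit 3306779957], [nat_lit 4380247221, nat_lit 4382848181], [nat_lit 4380234805, nat_lit 4382315573], [nat_lit 4380222389, nat_lit 4381782965], [nat_lit 4380209973, nat_lit 2217255733], [nat_lit 4363682485, nat_lit 2181612213, nat_lit 2216723125], [nat_lit 68190773, nat_lit 2130485, nat_lit 68706869], [nat_lit 6544712365], [nat_lit 6544712361, nat_lit 1597873], [nat_lit 6544712357, nat_lit 24881], [nat_lit 53], [nat_lit 49]] [[], [], [], [], [], [], [], [], [], [], [nat_lit 53614283628825, nat_lit 53614283628952, nat_lit 53614283629079, nat_lit 53614283629080]])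
(.leaf [[nat_lit 4380272053, nat_lit 4383393205, nat_lit 4383913397, nat_lit 4380792245], [nat_lit 4380259637, nat_lit 4383380789, nat_lit 4380779829], [nat_lit 4380247221, nat_lit 4382848181], [nat_lit 4380234805, nat_lit 4382315573], [nat_lit 4380222389, nat_lit 4381782965], [nat_lit 4380209973, nat_lit 2217255733], [nat_lit 4363682485, nat_lit 2181612213, nat_lit 2216723125], [nat_lit 68190773, nat_lit 2130485, nat_lit 68706869], [nat_lit 68190769, nat_lit 1597877, nat_lit 811445], [nat_lit 6544712361], [nat_lit 6544712357], [nat_lit 53], [nat_lit 49]] [[], [], [], [], [], [], [], [], [], [], [nat_lit 53614283628952]]))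
(.node (nat_lit 706)
(.leaf [[nat_lit 4383913397, nat_lit 3306792373, nat_lit 3307832757, nat_lit 2198721973], [nat_lit 4383380789, nat_lit 3306779957, nat_lit 3307300149, nat_lit 2198709557], [nat_lit 4382848181, nat_lit 3306767541, nat_lit 2198697141], [nat_lit 4382315573, nat_lit 4363199541], [nat_lit 4381782965, nat_lit 2198672309], [nat_lit 3306730293, nat_lit 2217255733, nat_lit 2198659893], [nat_lit 2232718005, nat_lit 2216723125], [nat_lit 68190773, nat_lit 2130485, nat_lit 68706869], [nat_lit 68190769, nat_lit 1597877, nat_lit 1073589], [nat_lit 6544712361], [nat_lit 6544712357], [nat_lit 53], [nat_lit 49]] [[], [], [], [], [], [], [], [], [], [], [nat_lit 53614283629079]])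
(.leaf [[nat_lit 4383913397, nat_lit 3306792373, nat_lit 3307832757, nat_lit 2198721973], [nat_lit 4383380789, nat_lit 3306779957, nat_lit 3307300149, nat_lit 2198709557], [nat_lit 4382848181, nat_lit 3306767541, nat_lit 2198697141], [nat_lit 4382315573, nat_lit 4363199541], [nat_lit 4381782965, nat_lit 2198672309], [nat_lit 3306730293, nat_lit 2217255733, nat_lit 2198659893], [nat_lit 2232718005, nat_lit 2216723125], [nat_lit 68190773, nat_lit 68706869, nat_lit 2130485], [nat_lit 68190769, nat_lit 1597877, nat_lit 1073589], [nat_lit 6544712361], [nat_lit 6544712357], [nat_lit 53]] []))))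
(.node (nat_lit 711)
(.node (nat_lit 709)
(.node (nat_lit 708)
(.leaf [[nat_lit 3306792373, nat_lit 3309393333, nat_lit 2219918773, nat_lit 2198721973, nat_lit 3307312565], [nat_lit 3306779957, nat_lit 3309380917, nat_lit 3309638965, nat_lit 2198709557, nat_lit 3307300149], [nat_lit 3306767541, nat_lit 3308848309, nat_lit 3309106357, nat_lit 2198697141], [nat_lit 3306755125, nat_lit 2218320949, nat_lit 2198684725, nat_lit 3290240053], [nat_lit 3306742709, nat_lit 2217788341, nat_lit 2198672309], [nat_lit 3306730293, nat_lit 2217255733, nat_lit 2198659893], [nat_lit 2232718005, nat_lit 2216723125], [nat_lit 68190773, nat_lit 68706869, nat_lit 35160629, nat_lit 2130485], [nat_lit 68190769, nat_lit 68706865, nat_lit 35160625, nat_lit 1597877], [nat_lit 6544712361], [nat_lit 6544712357], [nat_lit 53]] [])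
(.leaf [[nat_lit 72026006965, nat_lit 72028607925, nat_lit 72029648309, nat_lit 72026527157], [nat_lit 72025994549, nat_lit 72028595509, nat_lit 72029115701, nat_lit 72026514741], [nat_lit 72025982133, nat_lit 72028583093, nat_lit 72026502325], [nat_lit 72025969717, nat_lit 72028050485], [nat_lit 72025957301, nat_lit 72027517877], [nat_lit 72025944885, nat_lit 72026985269], [nat_lit 2232718005, nat_lit 2216723125], [nat_lit 68190773, nat_lit 68706869, nat_lit 2130485, nat_lit 35160629], [nat_lit 68190769, nat_lit 68706865, nat_lit 1597877, nat_lit 35160625], [nat_lit 2249753257, nat_lit 68706861, nat_lit 2216723113], [nat_lit 4397228709], [nat_lit 53]] [[], [], [], [], [], [], [], [], [], [nat_lit 18159395742360], [nat_lit 18429978648599, nat_lit 18429978648727, nat_lit 36301338583318, nat_lit 1161926367519126]]))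
(.node (nat_lit 710)
(.leaf [[nat_lit 140745741749, nat_lit 140748342709, nat_lit 140732347829, nat_lit 139637671349, nat_lit 140746261941], [nat_lit 140745729333, nat_lit 140748330293, nat_lit 139637658933, nat_lit 140746249525, nat_lit 140731815221], [nat_lit 140745716917, nat_lit 140747797685, nat_lit 139637646517, nat_lit 140731282613], [nat_lit 140745704501, nat_lit 140730750005, nat_lit 139637634101], [nat_lit 140745692085, nat_lit 140730217397, nat_lit 139637621685], [nat_lit 140745679669, nat_lit 72026985269, nat_lit 139637609269], [nat_lit 2232718005, nat_lit 2216723125], [nat_lit 68190773, nat_lit 68706869, nat_lit 35160629, nat_lit 2130485], [nat_lit 68190769, nat_lit 68706865, nat_lit 35160625, nat_lit 1597877], [nat_lit 418861572901], [nat_lit 418861572897], [nat_lit 53]] [[], [], [], [], [], [], [], [], [], [], [nat_lit 3431314005172247, nat_lit 3431314005172374, nat_lit 3431314005172502]])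
(.leaf [[nat_lit 209464956341, nat_lit 209467557301, nat_lit 140732347829, nat_lit 209465476533], [nat_lit 209464943925, nat_lit 209467544885, nat_lit 209467802933, nat_lit 209465464117], [nat_lit 209464931509, nat_lit 209467012277, nat_lit 209467270325], [nat_lit 209464919093, nat_lit 140730750005, nat_lit 209448404021], [nat_lit 209464906677, nat_lit 140730217397], [nat_lit 209464894261, nat_lit 139672720181], [nat_lit 2232718005, nat_lit 2216723125], [nat_lit 68190773, nat_lit 68706869, nat_lit 35160629, nat_lit 2130485], [nat_lit 68190769, nat_lit 68706865, nat_lit 35160625, nat_lit 1597877], [nat_lit 418861572901], [nat_lit 418861572897], [nat_lit 53]] [[], [], [], [], [], [], [], [], [], [], [nat_lit 3431314005172374]])))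
(.node (nat_lit 713)
(.node (nat_lit 712)
(.leaf [[nat_lit 279258170805, nat_lit 279260771765, nat_lit 279244776885, nat_lit 209465476533], [nat_lit 279258158389, nat_lit 279260759349, nat_lit 209465464117, nat_lit 279244244277], [nat_lit 279258145973, nat_lit 279260226741, nat_lit 279243711669], [nat_lit 279258133557, nat_lit 279243179061], [nat_lit 279258121141, nat_lit 279242646453], [nat_lit 279275143989, nat_lit 279242113845], [nat_lit 2232718005, nat_lit 2216723125], [nat_lit 68190773, nat_lit 2216723121], [nat_lit 418861572905], [nat_lit 418861572901], [nat_lit 418861572897], [nat_lit 53]] [[], [], [], [], [], [], [], [], [], [], [nat_lit 3431314005172501]])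
(.leaf [[nat_lit 279258170805, nat_lit 279260771765, nat_lit 279244776885, nat_lit 279258690997], [nat_lit 279258158389, nat_lit 279260759349, nat_lit 279258678581, nat_lit 279244244277], [nat_lit 279258145973, nat_lit 279260226741, nat_lit 279243711669], [nat_lit 279258133557, nat_lit 279243179061], [nat_lit 279258121141, nat_lit 279242646453], [nat_lit 279275143989, nat_lit 279242113845], [nat_lit 279275143985, nat_lit 279242113841], [nat_lit 418861572909], [nat_lit 418861572905], [nat_lit 418861572901], [nat_lit 418861572897]] []))
(.node (nat_lit 714)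
(.leaf [[nat_lit 349051385269, nat_lit 349053986229, nat_lit 349054506421, nat_lit 279258690997], [nat_lit 349051372853, nat_lit 349053973813, nat_lit 279258678581], [nat_lit 349051360437, nat_lit 349053441205], [nat_lit 349051348021, nat_lit 349052908597], [nat_lit 349051855797, nat_lit 279241085877, nat_lit 349052375989], [nat_lit 279275143989, nat_lit 279242113845], [nat_lit 418861572913], [nat_lit 418861572909], [nat_lit 418861572905], [nat_lit 418861572901], [nat_lit 418861572897]] [])
(.node (nat_lit 768)
(.leaf [[nat_lit 5454271925, nat_lit 4383393205, nat_lit 4383913397, nat_lit 3272459701, nat_lit 4380792245], [nat_lit 5454259509, nat_lit 4383380789, nat_lit 3272447285, nat_lit 4380779829], [nat_lit 5454247093, nat_lit 4382848181, nat_lit 3272434869], [nat_lit 5454234677, nat_lit 4382315573, nat_lit 3272422453], [nat_lit 5454222261, nat_lit 4381782965, nat_lit 3272410037], [nat_lit 5454730037, nat_lit 2181624629, nat_lit 2217255733], [nat_lit 6544712373], [nat_lit 6544712369], [nat_lit 6544712365], [nat_lit 6544712361], [nat_lit 6544712357], [nat_lit 53], [nat_lit 49]] [[],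 [], [], [], [], [], [], [], [], [], [nat_lit 53614283628697, nat_lit 53614283628952, nat_lit 53614283629079]])
(.leaf [[nat_lit 5454271925, nat_lit 5457393077, nat_lit 5454792117, nat_lit 4363236789, nat_lit 4383913397], [nat_lit 5454259509, nat_lit 5456860469, nat_lit 4363224373, nat_lit 4383380789], [nat_lit 5454247093, nat_lit 4382848181, nat_lit 4363211957], [nat_lit 5454234677, nat_lit 4382315573, nat_lit 4363199541], [nat_lit 5454222261, nat_lit 4381782965, nat_lit 4363187125], [nat_lit 5454730037, nat_lit 4363174709, nat_lit 2217255733], [nat_lit 4363682485, nat_lit 2181612213, nat_lit 2216723125], [nat_lit 6544712369], [nat_lit 6544712365], [nat_lit 6544712361], [nat_lit 6544712357], [nat_lit 53], [nat_lit 49]] [[], [], [], [], [], [], [], [], [], [], [nat_lit 53614283629079]]))))))))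
(.node (nat_lit 906)
(.node (nat_lit 838)
(.node (nat_lit 777)
(.node (nat_lit 773)
(.node (nat_lit 771)
(.node (nat_lit 770)
(.leaf [[nat_lit 4380272053, nat_lit 4382873013, nat_lit 4383913397, nat_lit 4380792245], [nat_lit 4380259637, nat_lit 4382860597, nat_lit 4383380789, nat_lit 4380779829], [nat_lit 4380247221, nat_lit 4382848181, nat_lit 4380767413], [nat_lit 4380234805, nat_lit 4382315573], [nat_lit 4380222389, nat_lit 4381782965], [nat_lit 5454730037, nat_lit 4363174709, nat_lit 3307508533], [nat_lit 4363682485, nat_lit 2181612213, nat_lit 2216723125], [nat_lit 6544712369], [nat_lit 6544712365], [nat_lit 6544712361], [nat_lit 6544712357], [nat_lit 53]] [])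
(.leaf [[nat_lit 4380272053, nat_lit 4382873013, nat_lit 4383913397, nat_lit 4380792245], [nat_lit 4380259637, nat_lit 4382860597, nat_lit 4383380789, nat_lit 4380779829], [nat_lit 4380247221, nat_lit 4382848181, nat_lit 4380767413], [nat_lit 4380234805, nat_lit 4382315573], [nat_lit 4380222389, nat_lit 4381782965], [nat_lit 5454730037, nat_lit 4363174709, nat_lit 2217255733], [nat_lit 4363682485, nat_lit 2181612213, nat_lit 2216723125], [nat_lit 6544712369], [nat_lit 6544712365], [nat_lit 6544712361], [nat_lit 6544712357], [nat_lit 53]] []))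
(.node (nat_lit 772)
(.leaf [[nat_lit 4380272053, nat_lit 4382873013, nat_lit 4383913397, nat_lit 4380792245], [nat_lit 4380259637, nat_lit 4382860597, nat_lit 4383380789, nat_lit 4380779829], [nat_lit 4380247221, nat_lit 4382848181, nat_lit 4380767413], [nat_lit 4380234805, nat_lit 4382315573], [nat_lit 4380222389, nat_lit 4381782965], [nat_lit 4380209973, nat_lit 2217255733], [nat_lit 4363682485, nat_lit 2181612213, nat_lit 2216723125], [nat_lit 6544712369], [nat_lit 6544712365], [nat_lit 6544712361], [nat_lit 6544712357], [nat_lit 53]] [])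
(.leaf [[nat_lit 73100006837, nat_lit 73102607797, nat_lit 73086612917, nat_lit 71991936437, nat_lit 73100527029], [nat_lit 73099994421, nat_lit 73102595381, nat_lit 71991924021, nat_lit 73100514613, nat_lit 73086080309], [nat_lit 73099982005, nat_lit 73102062773, nat_lit 71991911605, nat_lit 73085547701], [nat_lit 73099969589, nat_lit 73085015093, nat_lit 71991899189], [nat_lit 73099957173, nat_lit 73084482485, nat_lit 71991886773], [nat_lit 73099944757, nat_lit 72026985269, nat_lit 4363174709], [nat_lit 4363682485, nat_lit 2215682741, nat_lit 2216723125], [nat_lit 68190773, nat_lit 2216723121], [nat_lit 6544712365], [nat_lit 6544712361], [nat_lit 6544712357], [nat_lit 53]] [])))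
(.node (nat_lit 775)
(.node (nat_lit 774)
(.leaf [[nat_lit 141819221429, nat_lit 141821822389, nat_lit 140732347829, nat_lit 141819741621], [nat_lit 141819209013, nat_lit 141821809973, nat_lit 141822068021, nat_lit 141819729205], [nat_lit 141819196597, nat_lit 141821277365, nat_lit 141821535413], [nat_lit 141819184181, nat_lit 140730750005, nat_lit 141802669109], [nat_lit 141819171765, nat_lit 140730217397], [nat_lit 141819679541, nat_lit 72008909621, nat_lit 141819937589], [nat_lit 2232718005, nat_lit 2216723125], [nat_lit 68190773, nat_lit 2216723121], [nat_lit 68190769, nat_lit 68706865, nat_lit 35160625, nat_lit 1597877], [nat_lit 418861572901], [nat_lit 418861572897], [nat_lit 53]] [[], [], [], [], [], [], [], [], [], [], [nat_lit 3431314005172374, nat_lit 3431314005172501]])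
(.leaf [[nat_lit 210538956213, nat_lit 210541557173, nat_lit 210542077365, nat_lit 209430885813, nat_lit 210539476405], [nat_lit 210538943797, nat_lit 210541544757, nat_lit 209430873397, nat_lit 210539463989], [nat_lit 210538931381, nat_lit 210541012149, nat_lit 209430860981], [nat_lit 210538918965, nat_lit 210540479541, nat_lit 209430848565], [nat_lit 210538906549, nat_lit 210539946933, nat_lit 141802136501], [nat_lit 209464894261, nat_lit 279242113845], [nat_lit 2232718005, nat_lit 2216723125], [nat_lit 68190773, nat_lit 2216723121], [nat_lit 418861572905], [nat_lit 418861572901], [nat_lit 418861572897], [nat_lit 53]] [[], [], [], [], [], [], [], [], [], [], [nat_lit 3431314005172501]]))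
(.node (nat_lit 776)
(.leaf [[nat_lit 279258170805, nat_lit 279260771765, nat_lit 279244776885, nat_lit 279258690997], [nat_lit 279258158389, nat_lit 279260759349, nat_lit 279258678581, nat_lit 279244244277], [nat_lit 279258145973, nat_lit 279260226741, nat_lit 279243711669], [nat_lit 279258133557, nat_lit 279243179061], [nat_lit 279258121141, nat_lit 279242646453], [nat_lit 279275143989, nat_lit 279242113845], [nat_lit 2232718005, nat_lit 2216723125], [nat_lit 68190773, nat_lit 2216723121], [nat_lit 418861572905], [nat_lit 418861572901], [nat_lit 418861572897]] [])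
(.leaf [[nat_lit 349051385269, nat_lit 349053986229, nat_lit 349054506421, nat_lit 279258690997], [nat_lit 349051372853, nat_lit 349053973813, nat_lit 279258678581], [nat_lit 349051360437, nat_lit 349053441205], [nat_lit 349051348021, nat_lit 349052908597], [nat_lit 349051855797, nat_lit 279241085877, nat_lit 349052375989], [nat_lit 279275143989, nat_lit 279242113845], [nat_lit 418861572913], [nat_lit 418861572909], [nat_lit 418861572905], [nat_lit 418861572901], [nat_lit 418861572897]] []))))
(.node (nat_lit 833)
(.node (nat_lit 779)
(.node (nat_lit 778)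
(.leaf [[nat_lit 349051385269, nat_lit 349053986229, nat_lit 349054506421, nat_lit 349051905461], [nat_lit 349051372853, nat_lit 349053973813, nat_lit 349051893045], [nat_lit 349051360437, nat_lit 349053441205], [nat_lit 349051348021, nat_lit 349052908597], [nat_lit 349051855797, nat_lit 279241085877, nat_lit 349052375989], [nat_lit 418861572917], [nat_lit 418861572913], [nat_lit 418861572909], [nat_lit 418861572905], [nat_lit 418861572901], [nat_lit 418861572897]] [])
(.leaf [[nat_lit 349051385269, nat_lit 349053986229, nat_lit 349054506421, nat_lit 349051905461], [nat_lit 349051372853, nat_lit 349053973813, nat_lit 349051893045], [nat_lit 349051360437, nat_lit 349053441205], [nat_lit 349051348021, nat_lit 349052908597], [nat_lit 349051855797, nat_lit 279241085877, nat_lit 349052375989], [nat_lit 418861572917], [nat_lit 418861572913], [nat_lit 418861572909], [nat_lit 418861572905], [nat_lit 418861572901], [nat_lit 418861572897]] []))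
(.node (nat_lit 832)
(.leaf [[nat_lit 5454271925, nat_lit 5457393077, nat_lit 5454792117, nat_lit 4363236789, nat_lit 4383913397], [nat_lit 5454259509, nat_lit 5456860469, nat_lit 4363224373, nat_lit 4383380789], [nat_lit 5454247093, nat_lit 4382848181, nat_lit 4363211957], [nat_lit 5454234677, nat_lit 4382315573, nat_lit 4363199541], [nat_lit 5454222261, nat_lit 4381782965, nat_lit 4363187125], [nat_lit 6545244981, nat_lit 4363174709], [nat_lit 6544712373], [nat_lit 6544712369], [nat_lit 6544712365], [nat_lit 6544712361], [nat_lit 6544712357, nat_lit 24881], [nat_lit 53], [nat_lit 49]] [[], [], [], [], [], [], [], [], [], [nat_lit 53614283662105], [nat_lit 53614283628824, nat_lit 53614283628951, nat_lit 53614283629079]])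
(.leaf [[nat_lit 5454271925, nat_lit 5457393077, nat_lit 5455312309, nat_lit 4363236789, nat_lit 4383913397], [nat_lit 5454259509, nat_lit 5456860469, nat_lit 4363224373, nat_lit 4383380789, nat_lit 5454779701], [nat_lit 5454247093, nat_lit 4382848181, nat_lit 4363211957], [nat_lit 5454234677, nat_lit 4382315573, nat_lit 4363199541], [nat_lit 5454222261, nat_lit 4381782965, nat_lit 4363187125], [nat_lit 6545244981, nat_lit 4363174709], [nat_lit 6544712373], [nat_lit 6544712369], [nat_lit 6544712365], [nat_lit 6544712361], [nat_lit 6544712357], [nat_lit 53]] [[], [], [], [], [], [], [], [], [], [], [nat_lit 53614283628951]])))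
(.node (nat_lit 835)
(.node (nat_lit 834)
(.leaf [[nat_lit 5454271925, nat_lit 5456872885, nat_lit 4383913397, nat_lit 4363236789, nat_lit 5454792117], [nat_lit 5454259509, nat_lit 5456860469, nat_lit 4363224373, nat_lit 4383380789, nat_lit 5454779701], [nat_lit 5454247093, nat_lit 4382848181, nat_lit 4363211957], [nat_lit 5454234677, nat_lit 4382315573, nat_lit 4363199541], [nat_lit 5454222261, nat_lit 4381782965, nat_lit 4363187125], [nat_lit 6545244981, nat_lit 4363174709], [nat_lit 6544712373], [nat_lit 6544712369], [nat_lit 6544712365], [nat_lit 6544712361], [nat_lit 6544712357], [nat_lit 53]] [])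
(.leaf [[nat_lit 5454271925, nat_lit 5456872885, nat_lit 4383913397, nat_lit 4363236789, nat_lit 5454792117], [nat_lit 5454259509, nat_lit 5456860469, nat_lit 4363224373, nat_lit 5454779701, nat_lit 4383380789], [nat_lit 5454247093, nat_lit 4382848181, nat_lit 4363211957], [nat_lit 5454234677, nat_lit 4382315573, nat_lit 4363199541], [nat_lit 5454222261, nat_lit 4381782965, nat_lit 4363187125], [nat_lit 6545244981, nat_lit 4363174709], [nat_lit 6544712373], [nat_lit 6544712369], [nat_lit 6544712365], [nat_lit 6544712361], [nat_lit 6544712357], [nat_lit 53]] []))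
(.node (nat_lit 836)
(.leaf [[nat_lit 5454271925, nat_lit 5456872885, nat_lit 4383913397, nat_lit 4363236789, nat_lit 5454792117], [nat_lit 5454259509, nat_lit 5456860469, nat_lit 4363224373, nat_lit 5454779701, nat_lit 4383380789], [nat_lit 5454247093, nat_lit 4382848181, nat_lit 4363211957, nat_lit 5454767285], [nat_lit 5454234677, nat_lit 4382315573, nat_lit 4363199541], [nat_lit 5454222261, nat_lit 4381782965, nat_lit 4363187125], [nat_lit 6545244981, nat_lit 4363174709], [nat_lit 6544712373], [nat_lit 6544712369], [nat_lit 6544712365], [nat_lit 6544712361], [nat_lit 6544712357], [nat_lit 53]] [])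
(.node (nat_lit 837)
(.leaf [[nat_lit 74173486517, nat_lit 74176087477, nat_lit 73086612917, nat_lit 74174006709], [nat_lit 74173474101, nat_lit 74176075061, nat_lit 74176333109, nat_lit 74173994293], [nat_lit 74173461685, nat_lit 74175542453, nat_lit 74175800501], [nat_lit 74173449269, nat_lit 73085015093, nat_lit 74173969461], [nat_lit 74173436853, nat_lit 73084482485], [nat_lit 74173944629, nat_lit 4363174709, nat_lit 72026985269], [nat_lit 6544712373], [nat_lit 6544712369], [nat_lit 6544712365], [nat_lit 6544712361], [nat_lit 6544712357], [nat_lit 53]] [])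
(.leaf [[nat_lit 142893221301, nat_lit 142895822261, nat_lit 142896342453, nat_lit 141802186165, nat_lit 142893741493], [nat_lit 142893208885, nat_lit 142895809845, nat_lit 141802173749, nat_lit 142893729077], [nat_lit 142893196469, nat_lit 142895277237, nat_lit 141802161333], [nat_lit 142893184053, nat_lit 142894744629, nat_lit 141802148917], [nat_lit 142893171637, nat_lit 142894212021, nat_lit 141802136501], [nat_lit 142893159221, nat_lit 72026985269, nat_lit 4363174709], [nat_lit 4363682485, nat_lit 2181612213, nat_lit 2216723125], [nat_lit 6544712369], [nat_lit 6544712365], [nat_lit 6544712361], [nat_lit 6544712357], [nat_lit 53]] []))))))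
(.node (nat_lit 897)
(.node (nat_lit 842)
(.node (nat_lit 840)
(.node (nat_lit 839)
(.leaf [[nat_lit 211612435893, nat_lit 211615036853, nat_lit 142896342453, nat_lit 211612956085], [nat_lit 211612423477, nat_lit 211615024437, nat_lit 211612943669, nat_lit 142895809845], [nat_lit 211612411061, nat_lit 142895277237, nat_lit 211612931253], [nat_lit 211612398645, nat_lit 142894744629], [nat_lit 211612386229, nat_lit 142894212021], [nat_lit 142893159221, nat_lit 279242113845, nat_lit 279241073461], [nat_lit 4363682485, nat_lit 2215682741, nat_lit 2216723125], [nat_lit 4363682481, nat_lit 51155509, nat_lit 2216723121], [nat_lit 418861572905], [nat_lit 418861572901], [nat_lit 418861572897]] [[], [], [], [], [], [], [], [], [], [], [nat_lit 3431314005172373]])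
(.leaf [[nat_lit 280332170677, nat_lit 280334771637, nat_lit 280335029685, nat_lit 279241135541, nat_lit 280332690869], [nat_lit 280332158261, nat_lit 280334239029, nat_lit 280334497077, nat_lit 279241123125], [nat_lit 280332145845, nat_lit 279243711669, nat_lit 279241110709, nat_lit 280332666037], [nat_lit 280332133429, nat_lit 279243179061, nat_lit 279241098293], [nat_lit 280332121013, nat_lit 279242646453, nat_lit 279241085877], [nat_lit 279275143989, nat_lit 279242113845], [nat_lit 4363682485, nat_lit 2215682741, nat_lit 2216723125], [nat_lit 418861572909], [nat_lit 418861572905], [nat_lit 418861572901], [nat_lit 418861572897]] []))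
(.node (nat_lit 841)
(.leaf [[nat_lit 349051385269, nat_lit 349053986229, nat_lit 349054506421, nat_lit 349051905461], [nat_lit 349051372853, nat_lit 349053973813, nat_lit 349051893045], [nat_lit 349051360437, nat_lit 349053441205], [nat_lit 349051348021, nat_lit 349052908597], [nat_lit 349051855797, nat_lit 279241085877, nat_lit 349052375989], [nat_lit 418861572917], [nat_lit 418861572913], [nat_lit 418861572909], [nat_lit 418861572905], [nat_lit 418861572901], [nat_lit 418861572897]] [])
(.leaf [[nat_lit 349051385269, nat_lit 349053986229, nat_lit 349054506421, nat_lit 349051905461], [nat_lit 349051372853, nat_lit 349053973813, nat_lit 349051893045], [nat_lit 349051360437, nat_lit 349053441205], [nat_lit 349051348021, nat_lit 349052908597], [nat_lit 349051855797, nat_lit 279241085877, nat_lit 349052375989], [nat_lit 418861572917], [nat_lit 418861572913], [nat_lit 418861572909], [nat_lit 418861572905], [nat_lit 418861572901], [nat_lit 418861572897]] [])))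
(.node (nat_lit 844)
(.node (nat_lit 843)
(.leaf [[nat_lit 418861634997, nat_lit 418864235957], [nat_lit 418861622581, nat_lit 418863703349], [nat_lit 418861610165, nat_lit 418863170741], [nat_lit 418861597749, nat_lit 418862638133], [nat_lit 418862105525, nat_lit 279241085877], [nat_lit 418861572917], [nat_lit 418861572913], [nat_lit 418861572909], [nat_lit 418861572905], [nat_lit 418861572901], [nat_lit 418861572897]] [])
(.leaf [[nat_lit 418861634997, nat_lit 418864235957, nat_lit 418862155189], [nat_lit 418861622581, nat_lit 418863703349], [nat_lit 418861610165, nat_lit 418863170741], [nat_lit 418861597749, nat_lit 418862638133], [nat_lit 418862105525, nat_lit 279241085877], [nat_lit 418861572917], [nat_lit 418861572913], [nat_lit 418861572909], [nat_lit 418861572905], [nat_lit 418861572901], [nat_lit 418861572897]] []))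
(.node (nat_lit 896)
(.leaf [[nat_lit 6544786869, nat_lit 6547908021, nat_lit 5454792117], [nat_lit 6544774453, nat_lit 6547375413], [nat_lit 6544762037, nat_lit 6546842805], [nat_lit 6544749621, nat_lit 6546310197], [nat_lit 6544737205, nat_lit 6545777589], [nat_lit 6545244981, nat_lit 4363174709], [nat_lit 6544712373], [nat_lit 6544712369], [nat_lit 6544712365], [nat_lit 6544712361], [nat_lit 6544712357], [nat_lit 53]] [[], [], [], [], [], [], [], [], [], [], [nat_lit 53614283628696, nat_lit 53614283628951]])
(.leaf [[nat_lit 6544786869, nat_lit 6547908021, nat_lit 6545307061], [nat_lit 6544774453, nat_lit 6547375413], [nat_lit 6544762037, nat_lit 6546842805], [nat_lit 6544749621, nat_lit 6546310197], [nat_lit 6544737205, nat_lit 6545777589], [nat_lit 6545244981, nat_lit 4363174709], [nat_lit 6544712373], [nat_lit 6544712369], [nat_lit 6544712365], [nat_lit 6544712361], [nat_lit 6544712357], [nat_lit 53]] []))))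
(.node (nat_lit 901)
(.node (nat_lit 899)
(.node (nat_lit 898)
(.leaf [[nat_lit 6544786869, nat_lit 6547908021, nat_lit 5454792117], [nat_lit 6544774453, nat_lit 6547375413], [nat_lit 6544762037, nat_lit 6546842805], [nat_lit 6544749621, nat_lit 6546310197], [nat_lit 6544737205, nat_lit 6545777589], [nat_lit 6545244981, nat_lit 4363174709], [nat_lit 6544712373], [nat_lit 6544712369], [nat_lit 6544712365], [nat_lit 6544712361], [nat_lit 6544712357], [nat_lit 53]] [])
(.leaf [[nat_lit 6544786869, nat_lit 6547908021, nat_lit 6545307061], [nat_lit 6544774453, nat_lit 6547375413], [nat_lit 6544762037, nat_lit 6546842805], [nat_lit 6544749621, nat_lit 6546310197], [nat_lit 6544737205, nat_lit 6545777589], [nat_lit 6545244981, nat_lit 4363174709], [nat_lit 6544712373], [nat_lit 6544712369], [nat_lit 6544712365], [nat_lit 6544712361], [nat_lit 6544712357], [nat_lit 53]] []))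
(.node (nat_lit 900)
(.leaf [[nat_lit 6544786869, nat_lit 6547908021, nat_lit 5455312309], [nat_lit 6544774453, nat_lit 6547375413], [nat_lit 6544762037, nat_lit 6546842805], [nat_lit 6544749621, nat_lit 6546310197], [nat_lit 6544737205, nat_lit 6545777589], [nat_lit 6545244981, nat_lit 4363174709], [nat_lit 6544712373], [nat_lit 6544712369], [nat_lit 6544712365], [nat_lit 6544712361], [nat_lit 6544712357], [nat_lit 53]] [])
(.leaf [[nat_lit 6547908021, nat_lit 74173486517, nat_lit 74174526901], [nat_lit 6547375413, nat_lit 74173474101, nat_lit 74173994293], [nat_lit 6546842805, nat_lit 74173461685], [nat_lit 6546310197, nat_lit 4363199541], [nat_lit 6545777589, nat_lit 4363187125], [nat_lit 6545244981, nat_lit 4363174709], [nat_lit 6544712373], [nat_lit 6544712369], [nat_lit 6544712365], [nat_lit 6544712361], [nat_lit 6544712357], [nat_lit 53]] [])))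
(.node (nat_lit 903)
(.node (nat_lit 902)
(.leaf [[nat_lit 142893221301, nat_lit 142895822261, nat_lit 142896342453, nat_lit 142893741493, nat_lit 141802186165], [nat_lit 142893208885, nat_lit 142895809845, nat_lit 142893729077, nat_lit 141802173749], [nat_lit 142893196469, nat_lit 142895277237, nat_lit 141802161333], [nat_lit 142893184053, nat_lit 142894744629, nat_lit 141802148917], [nat_lit 142893171637, nat_lit 142894212021, nat_lit 141802136501], [nat_lit 6545244981, nat_lit 4363174709], [nat_lit 6544712373], [nat_lit 6544712369], [nat_lit 6544712365], [nat_lit 6544712361], [nat_lit 6544712357]] [])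
(.leaf [[nat_lit 211612435893, nat_lit 211615036853, nat_lit 142896342453, nat_lit 211612956085], [nat_lit 211612423477, nat_lit 211615024437, nat_lit 211612943669, nat_lit 142895809845], [nat_lit 211612411061, nat_lit 142895277237, nat_lit 211612931253], [nat_lit 211612398645, nat_lit 142894744629], [nat_lit 211612386229, nat_lit 142894212021], [nat_lit 143983674165, nat_lit 141819937589], [nat_lit 6544712373], [nat_lit 6544712369], [nat_lit 6544712365], [nat_lit 6544712361], [nat_lit 6544712357]] []))
(.node (nat_lit 904)
(.leaf [[nat_lit 212706071989, nat_lit 280332170677, nat_lit 280332690869, nat_lit 279241135541], [nat_lit 212705539381, nat_lit 211612423477, nat_lit 280332158261], [nat_lit 212705006773, nat_lit 211612411061], [nat_lit 212704474165, nat_lit 279241098293], [nat_lit 212703941557, nat_lit 279241085877], [nat_lit 142893159221, nat_lit 281422619445, nat_lit 279242113845, nat_lit 279241073461], [nat_lit 4363682485, nat_lit 2181612213, nat_lit 2216723125], [nat_lit 418861572909], [nat_lit 418861572905], [nat_lit 418861572901], [nat_lit 418861572897]] [[], [], [], [],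 [], [], [], [], [], [], [nat_lit 3431314005172372]])
(.node (nat_lit 905)
(.leaf [[nat_lit 349051385269, nat_lit 349053986229, nat_lit 349054506421, nat_lit 349051905461], [nat_lit 349051372853, nat_lit 349053973813, nat_lit 349051893045], [nat_lit 349051360437, nat_lit 349053441205], [nat_lit 349051348021, nat_lit 349052908597], [nat_lit 349051855797, nat_lit 279241085877, nat_lit 349052375989], [nat_lit 418861572917], [nat_lit 418861572913], [nat_lit 418861572909], [nat_lit 418861572905], [nat_lit 418861572901], [nat_lit 418861572897]] [])
(.leaf [[nat_lit 418861634997, nat_lit 418864235957], [nat_lit 418861622581, nat_lit 418863703349], [nat_lit 418861610165, nat_lit 418863170741], [nat_lit 418861597749, nat_lit 418862638133], [nat_lit 418862105525, nat_lit 279241085877], [nat_lit 418861572917], [nat_lit 418861572913], [nat_lit 418861572909], [nat_lit 418861572905], [nat_lit 418861572901], [nat_lit 418861572897]] [])))))))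
(.node (nat_lit 973)
(.node (nat_lit 964)
(.node (nat_lit 960)
(.node (nat_lit 908)
(.node (nat_lit 907)
(.leaf [[nat_lit 418861634997, nat_lit 418864235957, nat_lit 418862155189], [nat_lit 418861622581, nat_lit 418863703349], [nat_lit 418861610165, nat_lit 418863170741], [nat_lit 418861597749, nat_lit 418862638133], [nat_lit 418862105525, nat_lit 279241085877], [nat_lit 418861572917], [nat_lit 418861572913], [nat_lit 418861572909], [nat_lit 418861572905], [nat_lit 418861572901], [nat_lit 418861572897]] [])
(.leaf [[nat_lit 418861634997, nat_lit 418864235957, nat_lit 418862155189], [nat_lit 418861622581, nat_lit 418863703349], [nat_lit 418861610165, nat_lit 418863170741], [nat_lit 418861597749, nat_lit 418862638133], [nat_lit 418862105525, nat_lit 279241085877], [nat_lit 418861572917], [nat_lit 418861572913], [nat_lit 418861572909], [nat_lit 418861572905], [nat_lit 418861572901]] []))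
(.node (nat_lit 909)
(.leaf [[nat_lit 488671884725, nat_lit 488673965493], [nat_lit 488671872309, nat_lit 488673432885], [nat_lit 488671859893, nat_lit 488672900277], [nat_lit 488671847477, nat_lit 418862638133], [nat_lit 418862105525, nat_lit 279241085877], [nat_lit 418861572917], [nat_lit 418861572913], [nat_lit 418861572909], [nat_lit 418861572905], [nat_lit 418861572901]] [])
(.leaf [[nat_lit 6544786869, nat_lit 6547908021, nat_lit 6545307061], [nat_lit 6544774453, nat_lit 6547375413], [nat_lit 6544762037, nat_lit 6546842805], [nat_lit 6544749621, nat_lit 6546310197], [nat_lit 6544737205, nat_lit 6545777589], [nat_lit 6545244981, nat_lit 4363174709], [nat_lit 6544712373], [nat_lit 6544712369], [nat_lit 6544712365], [nat_lit 6544712361], [nat_lit 6544712357], [nat_lit 53]] [[], [], [], [], [], [], [], [], [], [], [nat_lit 53614283628823, nat_lit 53614283628950]])))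
(.node (nat_lit 962)
(.node (nat_lit 961)
(.leaf [[nat_lit 6544786869, nat_lit 6547908021, nat_lit 6545307061], [nat_lit 6544774453, nat_lit 6547375413], [nat_lit 6544762037, nat_lit 6546842805], [nat_lit 6544749621, nat_lit 6546310197], [nat_lit 6544737205, nat_lit 6545777589], [nat_lit 6545244981, nat_lit 4363174709], [nat_lit 6544712373], [nat_lit 6544712369], [nat_lit 6544712365], [nat_lit 6544712361], [nat_lit 6544712357], [nat_lit 53]] [[], [], [], [], [], [], [], [], [], [], [nat_lit 53614283628950]])
(.leaf [[nat_lit 6544786869, nat_lit 6547908021, nat_lit 6545307061], [nat_lit 6544774453, nat_lit 6547375413], [nat_lit 6544762037, nat_lit 6546842805], [nat_lit 6544749621, nat_lit 6546310197], [nat_lit 6544737205, nat_lit 6545777589], [nat_lit 6545244981, nat_lit 4363174709], [nat_lit 6544712373], [nat_lit 6544712369], [nat_lit 6544712365], [nat_lit 6544712361], [nat_lit 6544712357], [nat_lit 53]] []))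
(.node (nat_lit 963)
(.leaf [[nat_lit 6544786869, nat_lit 6547908021, nat_lit 6545307061], [nat_lit 6544774453, nat_lit 6547375413], [nat_lit 6544762037, nat_lit 6546842805], [nat_lit 6544749621, nat_lit 6546310197], [nat_lit 6544737205, nat_lit 6545777589], [nat_lit 6545244981, nat_lit 4363174709], [nat_lit 6544712373], [nat_lit 6544712369], [nat_lit 6544712365], [nat_lit 6544712361], [nat_lit 6544712357], [nat_lit 53]] [])
(.leaf [[nat_lit 6544786869, nat_lit 6547908021, nat_lit 6545827253], [nat_lit 6544774453, nat_lit 6547375413, nat_lit 6545294645], [nat_lit 6544762037, nat_lit 6546842805], [nat_lit 6544749621, nat_lit 6546310197], [nat_lit 6544737205, nat_lit 6545777589], [nat_lit 6545244981, nat_lit 4363174709], [nat_lit 6544712373], [nat_lit 6544712369], [nat_lit 6544712365], [nat_lit 6544712361], [nat_lit 6544712357], [nat_lit 53]] []))))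
(.node (nat_lit 968)
(.node (nat_lit 966)
(.node (nat_lit 965)
(.leaf [[nat_lit 75264521653, nat_lit 75267122613, nat_lit 4363236789, nat_lit 6547908021, nat_lit 6545307061], [nat_lit 75264509237, nat_lit 6547375413, nat_lit 4363224373], [nat_lit 75264496821, nat_lit 6546842805, nat_lit 4363211957], [nat_lit 75264484405, nat_lit 6546310197, nat_lit 4363199541], [nat_lit 75264471989, nat_lit 6545777589, nat_lit 4363187125], [nat_lit 143983674165, nat_lit 6545244981], [nat_lit 6544712373], [nat_lit 6544712369], [nat_lit 6544712365], [nat_lit 6544712361], [nat_lit 6544712357]] [])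
(.leaf [[nat_lit 143983736245, nat_lit 143986337205, nat_lit 143986595253, nat_lit 75264521653], [nat_lit 143983723829, nat_lit 75266590005, nat_lit 143986062645], [nat_lit 143983711413, nat_lit 142895277237], [nat_lit 143983698997, nat_lit 142894744629], [nat_lit 143983686581, nat_lit 142894212021], [nat_lit 143983674165, nat_lit 6545244981], [nat_lit 6544712373], [nat_lit 6544712369], [nat_lit 6544712365], [nat_lit 6544712361], [nat_lit 6544712357]] []))
(.node (nat_lit 967)
(.leaf [[nat_lit 212703471029, nat_lit 212706071989, nat_lit 141802186165, nat_lit 143984256437], [nat_lit 212703458613, nat_lit 212705539381, nat_lit 141802173749], [nat_lit 212703446197, nat_lit 212705006773, nat_lit 141802161333], [nat_lit 212703433781, nat_lit 212704474165, nat_lit 141802148917], [nat_lit 212703421365, nat_lit 212703941557, nat_lit 141802136501], [nat_lit 143983674165, nat_lit 279242113845], [nat_lit 6544712373], [nat_lit 6544712369], [nat_lit 6544712365], [nat_lit 6544712361], [nat_lit 6544712357]] [[], [], [], [], [], [], [], [], [], [], [nat_lit 53614283628692]])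
(.leaf [[nat_lit 281422685621, nat_lit 281425286581, nat_lit 212706071989, nat_lit 212703471029], [nat_lit 281422673205, nat_lit 212705539381], [nat_lit 281422660789, nat_lit 212705006773], [nat_lit 281422648373, nat_lit 212704474165], [nat_lit 281422635957, nat_lit 212703941557], [nat_lit 143983674165, nat_lit 279242113845], [nat_lit 6544712373], [nat_lit 6544712369], [nat_lit 6544712365], [nat_lit 418861572901], [nat_lit 418861572897]] [])))
(.node (nat_lit 970)
(.node (nat_lit 969)
(.leaf [[nat_lit 350142420405, nat_lit 281425286581, nat_lit 279241135541, nat_lit 350144759221], [nat_lit 350142407989, nat_lit 349053973813, nat_lit 279241123125], [nat_lit 350142395573, nat_lit 349053441205, nat_lit 279241110709], [nat_lit 350142383157, nat_lit 349052908597, nat_lit 279241098293], [nat_lit 350142370741, nat_lit 350142628789, nat_lit 279241085877], [nat_lit 418861572917], [nat_lit 418861572913], [nat_lit 418861572909], [nat_lit 418861572905], [nat_lit 418861572901], [nat_lit 418861572897]] [])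
(.leaf [[nat_lit 418861634997, nat_lit 418864235957, nat_lit 350142420405], [nat_lit 418861622581, nat_lit 418863703349], [nat_lit 418861610165, nat_lit 418863170741], [nat_lit 418861597749, nat_lit 418862638133], [nat_lit 418862105525, nat_lit 279241085877], [nat_lit 418861572917], [nat_lit 418861572913], [nat_lit 418861572909], [nat_lit 418861572905], [nat_lit 418861572901], [nat_lit 418861572897]] []))
(.node (nat_lit 971)
(.leaf [[nat_lit 418861634997, nat_lit 418864235957, nat_lit 418862155189], [nat_lit 418861622581, nat_lit 418863703349], [nat_lit 418861610165, nat_lit 418863170741], [nat_lit 418861597749, nat_lit 418862638133], [nat_lit 418862105525, nat_lit 279241085877], [nat_lit 418861572917], [nat_lit 418861572913], [nat_lit 418861572909], [nat_lit 418861572905], [nat_lit 418861572901]] [])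
(.node (nat_lit 972)
(.leaf [[nat_lit 488671884725, nat_lit 488673965493], [nat_lit 488671872309, nat_lit 488673432885], [nat_lit 488671859893, nat_lit 488672900277], [nat_lit 488671847477, nat_lit 418862638133], [nat_lit 418862105525, nat_lit 279241085877], [nat_lit 418861572917], [nat_lit 418861572913], [nat_lit 418861572909], [nat_lit 418861572905], [nat_lit 418861572901]] [])
(.leaf [[nat_lit 488671884725, nat_lit 488673965493], [nat_lit 488671872309, nat_lit 488673432885], [nat_lit 488671859893, nat_lit 488672900277], [nat_lit 488671847477, nat_lit 418862638133], [nat_lit 418862105525, nat_lit 279241085877], [nat_lit 418861572917], [nat_lit 418861572913], [nat_lit 418861572909], [nat_lit 418861572905], [nat_lit 418861572901]] []))))))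
(.node (nat_lit 1030)
(.node (nat_lit 1026)
(.node (nat_lit 1024)
(.node (nat_lit 974)
(.leaf [[nat_lit 488671884725, nat_lit 488673965493], [nat_lit 488671872309, nat_lit 488673432885], [nat_lit 488671859893, nat_lit 488672900277], [nat_lit 558482097205], [nat_lit 418862105525, nat_lit 279241085877], [nat_lit 418861572917], [nat_lit 418861572913], [nat_lit 418861572909], [nat_lit 418861572905], [nat_lit 418861572901]] [])
(.leaf [[nat_lit 7635822005, nat_lit 6547908021, nat_lit 4363236789], [nat_lit 7635809589, nat_lit 6547375413, nat_lit 4363224373], [nat_lit 7635797173, nat_lit 6546842805, nat_lit 4363211957], [nat_lit 7635784757, nat_lit 6546310197, nat_lit 4363199541], [nat_lit 6544737205, nat_lit 6545777589], [nat_lit 6545244981, nat_lit 4363174709], [nat_lit 6544712373], [nat_lit 6544712369], [nat_lit 6544712365], [nat_lit 6544712361], [nat_lit 6544712357], [nat_lit 53]] [[], [], [], [], [], [], [], [], [], [], [nat_lit 53614283628695, nat_lit 53614283628950]]))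
(.node (nat_lit 1025)
(.leaf [[nat_lit 7635822005, nat_lit 6547908021, nat_lit 4363236789], [nat_lit 7635809589, nat_lit 6547375413, nat_lit 4363224373], [nat_lit 7635797173, nat_lit 6546842805, nat_lit 4363211957], [nat_lit 7635784757, nat_lit 6546310197, nat_lit 4363199541], [nat_lit 6544737205, nat_lit 6545777589], [nat_lit 6545244981, nat_lit 4363174709], [nat_lit 6544712373], [nat_lit 6544712369], [nat_lit 6544712365], [nat_lit 6544712361], [nat_lit 6544712357], [nat_lit 53]] [])
(.leaf [[nat_lit 7635822005, nat_lit 6547908021, nat_lit 4363236789], [nat_lit 7635809589, nat_lit 6547375413, nat_lit 4363224373], [nat_lit 7635797173, nat_lit 6546842805, nat_lit 4363211957], [nat_lit 7635784757, nat_lit 6546310197, nat_lit 4363199541], [nat_lit 6544737205, nat_lit 6545777589], [nat_lit 6545244981, nat_lit 4363174709], [nat_lit 6544712373], [nat_lit 6544712369], [nat_lit 6544712365], [nat_lit 6544712361], [nat_lit 6544712357], [nat_lit 53]] [])))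
(.node (nat_lit 1028)
(.node (nat_lit 1027)
(.leaf [[nat_lit 7635822005, nat_lit 6547908021, nat_lit 4363236789], [nat_lit 7635809589, nat_lit 6547375413, nat_lit 4363224373], [nat_lit 7635797173, nat_lit 6546842805, nat_lit 4363211957], [nat_lit 7635784757, nat_lit 6546310197, nat_lit 4363199541], [nat_lit 6544737205, nat_lit 6545777589], [nat_lit 6545244981, nat_lit 4363174709], [nat_lit 6544712373], [nat_lit 6544712369], [nat_lit 6544712365], [nat_lit 6544712361], [nat_lit 6544712357], [nat_lit 53]] [])
(.leaf [[nat_lit 7635822005, nat_lit 6547908021, nat_lit 5454009781], [nat_lit 7635809589, nat_lit 6547375413, nat_lit 5453997365], [nat_lit 7635797173, nat_lit 6546842805, nat_lit 5453984949], [nat_lit 7635784757, nat_lit 6546310197, nat_lit 5453972533], [nat_lit 6544737205, nat_lit 6545777589], [nat_lit 6545244981, nat_lit 4363174709], [nat_lit 6544712373], [nat_lit 6544712369], [nat_lit 6544712365], [nat_lit 6544712361], [nat_lit 6544712357]] []))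
(.node (nat_lit 1029)
(.leaf [[nat_lit 75264521653, nat_lit 75267122613, nat_lit 74173486517, nat_lit 6547908021, nat_lit 6545307061], [nat_lit 75264509237, nat_lit 6547375413, nat_lit 74173474101], [nat_lit 75264496821, nat_lit 6546842805, nat_lit 74173461685], [nat_lit 75264484405, nat_lit 6546310197, nat_lit 74173449269], [nat_lit 75264471989, nat_lit 6545777589, nat_lit 74173436853], [nat_lit 143983674165, nat_lit 6545244981], [nat_lit 6544712373], [nat_lit 6544712369], [nat_lit 6544712365], [nat_lit 6544712361], [nat_lit 6544712357]] [])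
(.leaf [[nat_lit 76357637557, nat_lit 143983736245, nat_lit 75264521653], [nat_lit 76357104949, nat_lit 143983723829], [nat_lit 76356572341, nat_lit 74173461685], [nat_lit 76356039733, nat_lit 74173449269], [nat_lit 76355507125, nat_lit 74173436853], [nat_lit 143983674165, nat_lit 6545244981], [nat_lit 6544712373], [nat_lit 6544712369], [nat_lit 6544712365], [nat_lit 6544712361], [nat_lit 6544712357]] []))))
(.node (nat_lit 1034)
(.node (nat_lit 1032)
(.node (nat_lit 1031)
(.leaf [[nat_lit 212703471029, nat_lit 212706071989, nat_lit 211612435893, nat_lit 143984256437], [nat_lit 212703458613, nat_lit 212705539381, nat_lit 211612423477], [nat_lit 212703446197, nat_lit 212705006773, nat_lit 211612411061], [nat_lit 212703433781, nat_lit 212704474165, nat_lit 211612398645], [nat_lit 212703421365, nat_lit 212703941557, nat_lit 211612386229], [nat_lit 143983674165, nat_lit 6545244981], [nat_lit 6544712373], [nat_lit 6544712369], [nat_lit 6544712365], [nat_lit 6544712361], [nat_lit 6544712357]] [])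
(.leaf [[nat_lit 281422685621, nat_lit 281425286581, nat_lit 212706071989, nat_lit 212703471029], [nat_lit 281422673205, nat_lit 212705539381], [nat_lit 281422660789, nat_lit 212705006773], [nat_lit 281422648373, nat_lit 212704474165], [nat_lit 281422635957, nat_lit 212703941557], [nat_lit 143983674165, nat_lit 279242113845], [nat_lit 6544712373], [nat_lit 6544712369], [nat_lit 6544712365], [nat_lit 6544712361], [nat_lit 418861572897]] []))
(.node (nat_lit 1033)
(.leaf [[nat_lit 282515801525, nat_lit 281422685621], [nat_lit 282515268917, nat_lit 349051372853], [nat_lit 282514736309, nat_lit 349051360437], [nat_lit 282514203701, nat_lit 349051348021], [nat_lit 350142370741, nat_lit 212703941557, nat_lit 279241085877], [nat_lit 418861572917], [nat_lit 418861572913], [nat_lit 418861572909], [nat_lit 418861572905], [nat_lit 418861572901], [nat_lit 6544712357]] [])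
(.leaf [[nat_lit 418861634997, nat_lit 418864235957, nat_lit 350142420405], [nat_lit 418861622581, nat_lit 418863703349], [nat_lit 418861610165, nat_lit 418863170741], [nat_lit 418861597749, nat_lit 418862638133], [nat_lit 418862105525, nat_lit 279241085877], [nat_lit 418861572917], [nat_lit 418861572913], [nat_lit 418861572909], [nat_lit 418861572905], [nat_lit 418861572901]] [])))
(.node (nat_lit 1036)
(.node (nat_lit 1035)
(.leaf [[nat_lit 488671884725, nat_lit 488673965493], [nat_lit 488671872309, nat_lit 488673432885], [nat_lit 488671859893, nat_lit 488672900277], [nat_lit 488671847477, nat_lit 418862638133], [nat_lit 418862105525, nat_lit 279241085877], [nat_lit 418861572917], [nat_lit 418861572913], [nat_lit 418861572909], [nat_lit 418861572905], [nat_lit 418861572901]] [])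
(.leaf [[nat_lit 488671884725, nat_lit 488673965493], [nat_lit 488671872309, nat_lit 488673432885], [nat_lit 488671859893, nat_lit 488672900277], [nat_lit 488671847477, nat_lit 418862638133], [nat_lit 418862105525, nat_lit 279241085877], [nat_lit 418861572917], [nat_lit 418861572913], [nat_lit 418861572909], [nat_lit 418861572905], [nat_lit 418861572901]] []))
(.node (nat_lit 1037)
(.leaf [[nat_lit 488671884725, nat_lit 488673965493], [nat_lit 488671872309, nat_lit 488673432885], [nat_lit 488671859893, nat_lit 488672900277], [nat_lit 558482097205], [nat_lit 418862105525, nat_lit 279241085877], [nat_lit 418861572917], [nat_lit 418861572913], [nat_lit 418861572909], [nat_lit 418861572905], [nat_lit 418861572901]] [])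
(.node (nat_lit 1038)
(.leaf [[nat_lit 558482134453, nat_lit 558483695029], [nat_lit 558482122037, nat_lit 558483162421], [nat_lit 558482109621, nat_lit 558482629813], [nat_lit 558482097205], [nat_lit 418862105525, nat_lit 279241085877], [nat_lit 418861572917], [nat_lit 418861572913], [nat_lit 418861572909], [], [nat_lit 418861572901]] [])
(.leaf [[nat_lit 558482134453, nat_lit 558483695029], [nat_lit 558482122037, nat_lit 558483162421], [nat_lit 558482109621, nat_lit 558482629813], [nat_lit 558482097205], [nat_lit 418862105525, nat_lit 279241085877], [nat_lit 418861572917], [nat_lit 418861572913], [nat_lit 418861572909], [], [nat_lit 418861572901]] [])))))))))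

end Vale.Agent.P181.K
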