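import Vale.Agent.P181.S.Eng2

namespace Vale.Agent.P181.K

noncomputable def ct18 : Tc :=
(.node (nat_lit 777)
(.node (nat_lit 577)
(.node (nat_lit 387)
(.node (nat_lit 258)
(.node (nat_lit 192)
(.node (nat_lit 128)
(.node (nat_lit 64)
(.leaf [[nat_lit 68723406, nat_lit 53793734, nat_lit 17109834], [nat_lit 102261326, nat_lit 34120270], [nat_lit 102261322], [nat_lit 86], [nat_lit 82], [nat_lit 78], [nat_lit 74], [nat_lit 70], [nat_lit 66], [nat_lit 62], [nat_lit 58], [nat_lit 53], [nat_lit 49], [nat_lit 45]] [[], [], [], [], [], [], [], [], [], [], [], [], [], [nat_lit 368661]])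
(.leaf [[nat_lit 1159238350, nat_lit 1160823750, nat_lit 1107870414], [nat_lit 1159238346, nat_lit 1160291142, nat_lit 1107870410], [nat_lit 1159238342, nat_lit 1110225730, nat_lit 1107870406], [nat_lit 1125167810, nat_lit 1126208194, nat_lit 1107870402, nat_lit 1142981314], [nat_lit 1142203070, nat_lit 1126208190, nat_lit 1107870398, nat_lit 1142981310], [nat_lit 102286133, nat_lit 103326517], [nat_lit 102793909, nat_lit 68215601], [nat_lit 102261301], [nat_lit 102261297], [nat_lit 102261293, nat_lit 24885], [nat_lit 102261289, nat_lit 24881], [nat_lit 53], [nat_lit 49], [nat_lit 45]] [[], [], [], [], [], [], [nat_lit 558822203561], [], [], [nat_lit 837724512926, nat_lit 837724513181, nat_lit 837724513308], [nat_lit 203825309, nat_lit 837724479772, nat_lit 837724479899, nat_lit 837724479900, nat_lit 837724480027, nat_lit 837724480154, nat_lit 837724480155, nat_lit 837724480282]]))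
(.node (nat_lit 129)
(.leaf [[nat_lit 69878985546, nat_lit 69863523270, nat_lit 69810324298], [nat_lit 69878985542, nat_lit 69812925254, nat_lit 69810324294], [nat_lit 69844394818, nat_lit 69812925250], [nat_lit 69861430078, nat_lit 69812925246], [nat_lit 102298549, nat_lit 103859125], [nat_lit 103326517, nat_lit 51180341], [nat_lit 102793909, nat_lit 68215601], [nat_lit 102261301], [nat_lit 102261297], [nat_lit 102261293], [nat_lit 102261289], [nat_lit 53], [nat_lit 49], [nat_lit 45]] [[], [], [], [], [], [], [], [], [], [nat_lit 837724513308], [nat_lit 837724480027, nat_lit 837724480282]])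
(.leaf [[nat_lit 2249753294, nat_lit 2216723150], [nat_lit 2249753290, nat_lit 2216723146], [nat_lit 2216723142, nat_lit 2181612230], [nat_lit 2216723138, nat_lit 2181612226], [nat_lit 2215682750, nat_lit 2216723134], [nat_lit 102286133, nat_lit 103326517], [nat_lit 102793909, nat_lit 68215601], [nat_lit 102261301], [nat_lit 102261297], [nat_lit 102261293], [nat_lit 102261289, nat_lit 24881], [nat_lit 53], [nat_lit 49], [nat_lit 45]] [[], [], [], [], [nat_lit 18159395916070], [], [], [], [], [nat_lit 837724513308], [nat_lit 837724479772, nat_lit 837724479899, nat_lit 837724480027, nat_lit 837724480154, nat_lit 837724480282]])))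
(.node (nat_lit 194)
(.node (nat_lit 193)
(.leaf [[nat_lit 70952465226, nat_lit 70920487878, nat_lit 70901097290], [nat_lit 70952985414, nat_lit 70901097286, nat_lit 70920487874, nat_lit 70901359430], [nat_lit 70936470338, nat_lit 51217589, nat_lit 70903178050], [nat_lit 102310965, nat_lit 104391733], [nat_lit 102298549, nat_lit 103859125], [nat_lit 102286133, nat_lit 103326517], [nat_lit 102793909, nat_lit 68215601], [nat_lit 102261301], [nat_lit 102261297], [nat_lit 102261293], [nat_lit 102261289], [nat_lit 53], [nat_lit 49]] [[], [], [], [], [], [], [], [], [], [], [nat_lit 837724480154]])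
(.leaf [[nat_lit 139671679818, nat_lit 139673252806], [nat_lit 139672200006, nat_lit 139620574022, nat_lit 139622654790], [nat_lit 139637609282, nat_lit 139622654786], [nat_lit 102310965, nat_lit 104391733], [nat_lit 102298549, nat_lit 103859125], [nat_lit 102286133, nat_lit 103326517], [nat_lit 102793909, nat_lit 68215601], [nat_lit 102261301], [nat_lit 102261297], [nat_lit 102261293], [nat_lit 102261289], [nat_lit 53], [nat_lit 49]] []))
(.node (nat_lit 256)
(.leaf [[nat_lit 3324285770, nat_lit 3272397642, nat_lit 3272659786], [nat_lit 3324285766, nat_lit 3272397638, nat_lit 3272659782], [nat_lit 3324285762, nat_lit 51217589], [nat_lit 3273167554, nat_lit 51205173, nat_lit 104391733], [nat_lit 103338933, nat_lit 51192757, nat_lit 103859125], [nat_lit 102286133, nat_lit 103326517], [nat_lit 102793909, nat_lit 1124905653, nat_lit 1125167797], [nat_lit 102261301], [nat_lit 102261297], [nat_lit 102261293], [nat_lit 102261289, nat_lit 24881], [nat_lit 53], [nat_lit 49]] [[], [], [], [], [], [], [], [], [], [], [nat_lit 837724479899, nat_lit 837724480154]])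
(.node (nat_lit 257)
(.leaf [[nat_lit 72026465098, nat_lit 72008909642, nat_lit 72027517894], [nat_lit 72026465094, nat_lit 51230005, nat_lit 72026985286], [nat_lit 102323381, nat_lit 104924341], [nat_lit 102310965, nat_lit 104391733], [nat_lit 102298549, nat_lit 103859125], [nat_lit 102286133, nat_lit 103326517], [nat_lit 102793909, nat_lit 68215601], [nat_lit 102261301], [nat_lit 102261297], [nat_lit 102261293], [nat_lit 102261289], [nat_lit 53], [nat_lit 49]] [])
(.leaf [[nat_lit 140762714954, nat_lit 140730217414, nat_lit 51242421], [nat_lit 140745679686, nat_lit 105456949, nat_lit 51230005], [nat_lit 102323381, nat_lit 104924341], [nat_lit 102310965, nat_lit 104391733], [nat_lit 102298549, nat_lit 103859125], [nat_lit 102286133, nat_lit 103326517], [nat_lit 102793909, nat_lit 1124905653, nat_lit 1125167797], [nat_lit 102261301], [nat_lit 102261297], [nat_lit 102261293], [nat_lit 102261289], [nat_lit 53], [nat_lit 49]] [])))))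
(.node (nat_lit 323)
(.node (nat_lit 320)
(.node (nat_lit 259)
(.leaf [[nat_lit 209481929546, nat_lit 209432916934], [nat_lit 209447859014, nat_lit 105456949], [nat_lit 102323381, nat_lit 104924341], [nat_lit 102310965, nat_lit 104391733], [nat_lit 102298549, nat_lit 103859125], [nat_lit 102286133, nat_lit 103326517], [nat_lit 102793909, nat_lit 68215601], [nat_lit 102261301], [nat_lit 102261297], [nat_lit 102261293], [nat_lit 102261289], [nat_lit 53], [nat_lit 49]] [])
(.leaf [[nat_lit 4397245258, nat_lit 4381782982], [nat_lit 4363682506, nat_lit 4397228746, nat_lit 51230005, nat_lit 105456949], [nat_lit 4363682502, nat_lit 4397228742, nat_lit 51217589, nat_lit 104924341], [nat_lit 4363682498, nat_lit 51205173, nat_lit 104391733], [nat_lit 102298549, nat_lit 103859125], [nat_lit 102286133, nat_lit 103326517], [nat_lit 102793909, nat_lit 2181612213], [nat_lit 102261301], [nat_lit 102261297], [nat_lit 102261293], [nat_lit 102261289], [nat_lit 53], [nat_lit 49]] [[], [], [], [], [], [], [], [], [], [], [nat_lit 837724479771, nat_lit 837724480026, nat_lit 837724480153]]))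
(.node (nat_lit 321)
(.leaf [[nat_lit 73116980042, nat_lit 73084482502, nat_lit 51242421], [nat_lit 73099944774, nat_lit 105456949, nat_lit 51230005], [nat_lit 102323381, nat_lit 104924341], [nat_lit 102310965, nat_lit 104391733], [nat_lit 102298549, nat_lit 103859125], [nat_lit 102286133, nat_lit 103326517], [nat_lit 102793909, nat_lit 1124905653, nat_lit 1125167797], [nat_lit 102261301], [nat_lit 102261297], [nat_lit 102261293], [nat_lit 102261289], [nat_lit 53], [nat_lit 49]] [])
(.node (nat_lit 322)
(.leaf [[nat_lit 141836714826, nat_lit 51242421], [nat_lit 102335797, nat_lit 105456949, nat_lit 102855989], [nat_lit 102323381, nat_lit 104924341], [nat_lit 102310965, nat_lit 104391733], [nat_lit 102298549, nat_lit 103859125], [nat_lit 102286133, nat_lit 103326517], [nat_lit 102793909, nat_lit 2215682741], [nat_lit 102261301], [nat_lit 102261297], [nat_lit 102261293], [nat_lit 102261289], [nat_lit 53], [nat_lit 49]] [])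
(.leaf [[nat_lit 102348213, nat_lit 105469365, nat_lit 105989557, nat_lit 102868405], [nat_lit 102335797, nat_lit 105456949, nat_lit 102855989], [nat_lit 102323381, nat_lit 104924341], [nat_lit 102310965, nat_lit 104391733], [nat_lit 102298549, nat_lit 103859125], [nat_lit 102286133, nat_lit 103326517], [nat_lit 102793909, nat_lit 1124905653, nat_lit 1125167797], [nat_lit 102261301], [nat_lit 102261297], [nat_lit 102261293], [nat_lit 102261289], [nat_lit 53], [nat_lit 49]] []))))
(.node (nat_lit 384)
(.node (nat_lit 324)
(.leaf [[nat_lit 279275144010, nat_lit 279242113866], [nat_lit 102335797, nat_lit 105456949, nat_lit 103376181], [nat_lit 102323381, nat_lit 104924341, nat_lit 102843573], [nat_lit 102310965, nat_lit 104391733], [nat_lit 102298549, nat_lit 103859125], [nat_lit 102286133, nat_lit 103326517], [nat_lit 102793909, nat_lit 85250865], [nat_lit 102261301], [nat_lit 102261297], [nat_lit 102261293], [nat_lit 102261289], [nat_lit 53], [nat_lit 49]] [])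
(.leaf [[nat_lit 5471245130, nat_lit 51242421, nat_lit 5471503178], [nat_lit 5471245126, nat_lit 51230005, nat_lit 105456949], [nat_lit 5454730050, nat_lit 51217589, nat_lit 104924341], [nat_lit 104391733, nat_lit 68240437], [nat_lit 103338933, nat_lit 51192757, nat_lit 103859125], [nat_lit 102286133, nat_lit 103326517], [nat_lit 102793909, nat_lit 2181612213], [nat_lit 102261301], [nat_lit 102261297], [nat_lit 102261293], [nat_lit 102261289], [nat_lit 53], [nat_lit 49]] [[nat_lit 868266454189], [], [], [], [], [], [], [], [], [], [nat_lit 837724479898, nat_lit 837724480153]]))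
(.node (nat_lit 385)
(.leaf [[nat_lit 74190459722, nat_lit 105989557, nat_lit 102348213], [nat_lit 74173944646, nat_lit 51230005, nat_lit 105456949], [nat_lit 102323381, nat_lit 104924341], [nat_lit 102310965, nat_lit 104391733], [nat_lit 102298549, nat_lit 103859125], [nat_lit 102286133, nat_lit 103326517], [nat_lit 102793909, nat_lit 2215682741], [nat_lit 102261301], [nat_lit 102261297], [nat_lit 102261293], [nat_lit 102261289], [nat_lit 53], [nat_lit 49]] [])
(.node (nat_lit 386)
(.leaf [[nat_lit 102348213, nat_lit 105469365, nat_lit 105989557, nat_lit 102868405], [nat_lit 102335797, nat_lit 105456949, nat_lit 102855989], [nat_lit 102323381, nat_lit 104924341], [nat_lit 102310965, nat_lit 104391733], [nat_lit 102298549, nat_lit 103859125], [nat_lit 102286133, nat_lit 103326517], [nat_lit 102793909, nat_lit 1124905653, nat_lit 1125167797], [nat_lit 102261301], [nat_lit 102261297], [nat_lit 102261293], [nat_lit 102261289], [nat_lit 53], [nat_lit 49]] [])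
(.leaf [[nat_lit 102348213, nat_lit 105469365, nat_lit 103388597, nat_lit 105989557], [nat_lit 102335797, nat_lit 105456949, nat_lit 103376181], [nat_lit 102323381, nat_lit 104924341, nat_lit 102843573], [nat_lit 102310965, nat_lit 104391733], [nat_lit 102298549, nat_lit 103859125], [nat_lit 102286133, nat_lit 103326517], [nat_lit 102793909, nat_lit 2215682741], [nat_lit 102261301], [nat_lit 102261297], [nat_lit 102261293], [nat_lit 102261289], [nat_lit 53], [nat_lit 49]] []))))))
(.node (nat_lit 454)
(.node (nat_lit 449)
(.node (nat_lit 389)
(.node (nat_lit 388)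
(.leaf [[nat_lit 102348213, nat_lit 104949173, nat_lit 105989557, nat_lit 102868405], [nat_lit 102335797, nat_lit 104936757, nat_lit 105456949, nat_lit 102855989], [nat_lit 102323381, nat_lit 104924341, nat_lit 102843573], [nat_lit 102310965, nat_lit 104391733], [nat_lit 102298549, nat_lit 103859125], [nat_lit 102286133, nat_lit 103326517], [nat_lit 102793909, nat_lit 1141940917, nat_lit 1142203061], [nat_lit 102261301], [nat_lit 102261297], [nat_lit 102261293], [nat_lit 102261289], [nat_lit 53]] [])
(.leaf [[nat_lit 102348213, nat_lit 104949173, nat_lit 105989557, nat_lit 102868405], [nat_lit 102335797, nat_lit 104936757, nat_lit 105456949, nat_lit 102855989], [nat_lit 102323381, nat_lit 104924341, nat_lit 102843573], [nat_lit 102310965, nat_lit 104391733], [nat_lit 102298549, nat_lit 103859125], [nat_lit 102286133, nat_lit 103326517], [nat_lit 102793909, nat_lit 85250865], [nat_lit 102261301], [nat_lit 102261297], [nat_lit 102261293], [nat_lit 102261289], [nat_lit 53]] []))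
(.node (nat_lit 448)
(.leaf [[nat_lit 6544712398, nat_lit 6545245002], [nat_lit 6544712394, nat_lit 85820725], [nat_lit 6544712390], [nat_lit 102310965, nat_lit 104391733], [nat_lit 102298549, nat_lit 103859125], [nat_lit 102286133, nat_lit 103326517], [nat_lit 102793909, nat_lit 2215682741], [nat_lit 102261301], [nat_lit 102261297], [nat_lit 102261293], [nat_lit 102261289], [nat_lit 53], [nat_lit 49]] [[], [], [], [], [], [], [], [], [], [], [nat_lit 837724480025]])
(.leaf [[nat_lit 102348213, nat_lit 105469365, nat_lit 105989557, nat_lit 102868405], [nat_lit 102335797, nat_lit 105456949, nat_lit 102855989], [nat_lit 102323381, nat_lit 104924341], [nat_lit 102310965, nat_lit 104391733], [nat_lit 102298549, nat_lit 103859125], [nat_lit 102286133, nat_lit 103326517], [nat_lit 102793909, nat_lit 2215682741], [nat_lit 102261301], [nat_lit 102261297], [nat_lit 102261293], [nat_lit 102261289], [nat_lit 53], [nat_lit 49]] [])))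
(.node (nat_lit 451)
(.node (nat_lit 450)
(.leaf [[nat_lit 102348213, nat_lit 105469365, nat_lit 103388597, nat_lit 105989557], [nat_lit 102335797, nat_lit 105456949, nat_lit 103376181], [nat_lit 102323381, nat_lit 104924341, nat_lit 102843573], [nat_lit 102310965, nat_lit 104391733], [nat_lit 102298549, nat_lit 103859125], [nat_lit 102286133, nat_lit 103326517], [nat_lit 102793909, nat_lit 2215682741], [nat_lit 102261301], [nat_lit 102261297], [nat_lit 102261293], [nat_lit 102261289], [nat_lit 53], [nat_lit 49]] [])
(.leaf [[nat_lit 102348213, nat_lit 104949173, nat_lit 105989557, nat_lit 102868405], [nat_lit 102335797, nat_lit 104936757, nat_lit 105456949, nat_lit 102855989], [nat_lit 102323381, nat_lit 104924341, nat_lit 102843573], [nat_lit 102310965, nat_lit 104391733], [nat_lit 102298549, nat_lit 103859125], [nat_lit 102286133, nat_lit 103326517], [nat_lit 102793909, nat_lit 2215682741], [nat_lit 102261301], [nat_lit 102261297], [nat_lit 102261293], [nat_lit 102261289], [nat_lit 53]] []))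
(.node (nat_lit 452)
(.leaf [[nat_lit 102348213, nat_lit 104949173, nat_lit 105989557, nat_lit 102868405], [nat_lit 102335797, nat_lit 104936757, nat_lit 105456949, nat_lit 102855989], [nat_lit 102323381, nat_lit 104924341, nat_lit 102843573], [nat_lit 102310965, nat_lit 104391733], [nat_lit 102298549, nat_lit 103859125], [nat_lit 102286133, nat_lit 103326517], [nat_lit 102793909, nat_lit 2215682741], [nat_lit 102261301], [nat_lit 102261297], [nat_lit 102261293], [nat_lit 102261289], [nat_lit 53]] [])
(.node (nat_lit 453)
(.leaf [[nat_lit 102348213, nat_lit 104949173, nat_lit 105989557, nat_lit 102868405], [nat_lit 102335797, nat_lit 104936757, nat_lit 105456949, nat_lit 102855989], [nat_lit 102323381, nat_lit 104924341, nat_lit 102843573], [nat_lit 102310965, nat_lit 104391733], [nat_lit 102298549, nat_lit 103859125], [nat_lit 102286133, nat_lit 103326517], [nat_lit 102793909, nat_lit 1141940917, nat_lit 1142203061], [nat_lit 102261301], [nat_lit 102261297], [nat_lit 102261293], [nat_lit 102261289], [nat_lit 53]] [])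
(.leaf [[nat_lit 418861572938], [nat_lit 69895550261, nat_lit 69898151221, nat_lit 105456949, nat_lit 102855989], [nat_lit 69895537845, nat_lit 104924341, nat_lit 102843573], [nat_lit 69895525429, nat_lit 104391733], [nat_lit 69895513013, nat_lit 103859125], [nat_lit 69895500597, nat_lit 103326517], [nat_lit 102793909, nat_lit 69878465329], [nat_lit 102261301], [nat_lit 102261297], [nat_lit 102261293], [nat_lit 102261289], [nat_lit 53]] [])))))
(.node (nat_lit 516)
(.node (nat_lit 513)
(.node (nat_lit 512)
(.leaf [[nat_lit 7635510214, nat_lit 105989557, nat_lit 102348213, nat_lit 87393717], [nat_lit 1176335669, nat_lit 105456949, nat_lit 51230005, nat_lit 102855989], [nat_lit 1176323253, nat_lit 104924341, nat_lit 51217589], [nat_lit 1176310837, nat_lit 104391733, nat_lit 51205173], [nat_lit 1176298421, nat_lit 103859125, nat_lit 51192757], [nat_lit 1176286005, nat_lit 103326517, nat_lit 51180341], [nat_lit 102793909, nat_lit 2215682741], [nat_lit 102261301], [nat_lit 102261297], [nat_lit 102261293], [nat_lit 102261289], [nat_lit 53], [nat_lit 49]] [[], [], [], [], [], [], [], [], [], [], [nat_lit 837724479897]])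
(.leaf [[nat_lit 1176348085, nat_lit 1179469237, nat_lit 1176868277, nat_lit 68277685, nat_lit 105989557], [nat_lit 1176335669, nat_lit 1178936629, nat_lit 68265269, nat_lit 105456949], [nat_lit 1176323253, nat_lit 104924341, nat_lit 68252853], [nat_lit 1176310837, nat_lit 104391733, nat_lit 68240437], [nat_lit 1176298421, nat_lit 103859125, nat_lit 68228021], [nat_lit 1176286005, nat_lit 103326517, nat_lit 68215605], [nat_lit 102793909, nat_lit 2215682741], [nat_lit 102261301], [nat_lit 102261297], [nat_lit 102261293], [nat_lit 102261289], [nat_lit 53], [nat_lit 49]] []))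
(.node (nat_lit 514)
(.leaf [[nat_lit 102348213, nat_lit 104949173, nat_lit 105989557, nat_lit 102868405], [nat_lit 102335797, nat_lit 104936757, nat_lit 105456949, nat_lit 102855989], [nat_lit 102323381, nat_lit 104924341, nat_lit 102843573], [nat_lit 102310965, nat_lit 104391733], [nat_lit 102298549, nat_lit 103859125], [nat_lit 102286133, nat_lit 103326517], [nat_lit 102793909, nat_lit 2215682741], [nat_lit 102261301], [nat_lit 102261297], [nat_lit 102261293], [nat_lit 102261289], [nat_lit 53]] [])
(.node (nat_lit 515)
(.leaf [[nat_lit 102348213, nat_lit 104949173, nat_lit 105989557, nat_lit 102868405], [nat_lit 102335797, nat_lit 104936757, nat_lit 105456949, nat_lit 102855989], [nat_lit 102323381, nat_lit 104924341, nat_lit 102843573], [nat_lit 102310965, nat_lit 104391733], [nat_lit 102298549, nat_lit 103859125], [nat_lit 102286133, nat_lit 103326517], [nat_lit 102793909, nat_lit 2215682741], [nat_lit 102261301], [nat_lit 102261297], [nat_lit 102261293], [nat_lit 102261289], [nat_lit 53]] [])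
(.leaf [[nat_lit 102348213, nat_lit 104949173, nat_lit 105989557, nat_lit 102868405], [nat_lit 102335797, nat_lit 104936757, nat_lit 105456949, nat_lit 102855989], [nat_lit 102323381, nat_lit 104924341, nat_lit 102843573], [nat_lit 102310965, nat_lit 104391733], [nat_lit 102298549, nat_lit 103859125], [nat_lit 102286133, nat_lit 103326517], [nat_lit 102793909, nat_lit 2215682741], [nat_lit 102261301], [nat_lit 102261297], [nat_lit 102261293], [nat_lit 102261289], [nat_lit 53]] []))))
(.node (nat_lit 518)
(.node (nat_lit 517)
(.leaf [[nat_lit 69895562677, nat_lit 69898163637, nat_lit 105989557, nat_lit 102868405], [nat_lit 69895550261, nat_lit 69898151221, nat_lit 105456949, nat_lit 102855989], [nat_lit 69895537845, nat_lit 104924341, nat_lit 102843573], [nat_lit 69895525429, nat_lit 104391733], [nat_lit 69895513013, nat_lit 103859125], [nat_lit 69895500597, nat_lit 103326517], [nat_lit 102793909, nat_lit 2215682741], [nat_lit 102261301], [nat_lit 102261297], [nat_lit 102261293], [nat_lit 102261289], [nat_lit 53]] [])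
(.leaf [[nat_lit 69895562677, nat_lit 69898163637, nat_lit 105989557, nat_lit 69896082869], [nat_lit 69895550261, nat_lit 69898151221, nat_lit 69898409269, nat_lit 69896070453], [nat_lit 69895537845, nat_lit 104924341, nat_lit 69896058037], [nat_lit 69895525429, nat_lit 104391733], [nat_lit 69895513013, nat_lit 103859125], [nat_lit 69895500597, nat_lit 103326517], [nat_lit 102793909, nat_lit 1141940917, nat_lit 1142203061], [nat_lit 102261301], [nat_lit 102261297], [nat_lit 102261293], [nat_lit 102261289], [nat_lit 53]] []))
(.node (nat_lit 519)
(.leaf [[nat_lit 139688777141, nat_lit 139691378101, nat_lit 139675383221, nat_lit 69896082869], [nat_lit 139688764725, nat_lit 139691365685, nat_lit 69896070453, nat_lit 139674850613], [nat_lit 139688752309, nat_lit 139690833077, nat_lit 139674318005], [nat_lit 139688739893, nat_lit 139673785397], [nat_lit 139688727477, nat_lit 139673252789], [nat_lit 139688715061, nat_lit 139672720181], [nat_lit 102793909, nat_lit 139671679793], [nat_lit 102261301], [nat_lit 102261297], [nat_lit 102261293], [nat_lit 102261289], [nat_lit 53]] [])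
(.node (nat_lit 576)
(.leaf [[nat_lit 2249827765, nat_lit 2252948917, nat_lit 1176868277, nat_lit 1162954165], [nat_lit 2249815349, nat_lit 1178936629, nat_lit 1176335669, nat_lit 1162421557], [nat_lit 2249802933, nat_lit 1161888949, nat_lit 1176323253], [nat_lit 2249790517, nat_lit 1161356341], [nat_lit 2249778101, nat_lit 1160823733], [nat_lit 2249765685, nat_lit 1160291125], [nat_lit 2249753269, nat_lit 2216723125], [nat_lit 102261301], [nat_lit 102261297], [nat_lit 102261293], [nat_lit 102261289, nat_lit 24881], [nat_lit 53], [nat_lit 49]] [[], [], [], [], [], [], [], [], [], [], [nat_lit 837724479769, nat_lit 837724480024]])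
(.leaf [[nat_lit 2249827765, nat_lit 2252948917, nat_lit 2250347957, nat_lit 1162954165], [nat_lit 2249815349, nat_lit 2252416309, nat_lit 1162421557], [nat_lit 2249802933, nat_lit 1178404021, nat_lit 1161888949], [nat_lit 2249790517, nat_lit 1161356341], [nat_lit 2249778101, nat_lit 1160823733], [nat_lit 2249765685, nat_lit 1160291125], [nat_lit 2249753269, nat_lit 102793909], [nat_lit 102261301], [nat_lit 102261297], [nat_lit 102261293], [nat_lit 102261289], [nat_lit 53]] [])))))))
(.node (nat_lit 705)
(.node (nat_lit 641)
(.node (nat_lit 581)
(.node (nat_lit 579)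
(.node (nat_lit 578)
(.leaf [[nat_lit 1176348085, nat_lit 1178949045, nat_lit 1162954165, nat_lit 68277685, nat_lit 1176868277], [nat_lit 1176335669, nat_lit 1178936629, nat_lit 68265269, nat_lit 1162421557, nat_lit 1176855861], [nat_lit 1176323253, nat_lit 1161888949, nat_lit 68252853, nat_lit 1176843445], [nat_lit 1176310837, nat_lit 1161356341, nat_lit 68240437], [nat_lit 1176298421, nat_lit 1160823733, nat_lit 68228021], [nat_lit 1176286005, nat_lit 1160291125, nat_lit 68215605], [nat_lit 2249753269, nat_lit 102793909], [nat_lit 102261301], [nat_lit 102261297], [nat_lit 102261293], [nat_lit 102261289], [nat_lit 53]] [])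
(.leaf [[nat_lit 1176348085, nat_lit 1178949045, nat_lit 1162954165, nat_lit 68277685, nat_lit 1176868277], [nat_lit 1176335669, nat_lit 1178936629, nat_lit 68265269, nat_lit 1176855861, nat_lit 1162421557], [nat_lit 1176323253, nat_lit 1178404021, nat_lit 68252853, nat_lit 1161888949], [nat_lit 1176310837, nat_lit 1161356341, nat_lit 68240437], [nat_lit 1176298421, nat_lit 1160823733, nat_lit 68228021], [nat_lit 1176286005, nat_lit 1160291125, nat_lit 68215605], [nat_lit 2249753269, nat_lit 102793909], [nat_lit 102261301], [nat_lit 102261297], [nat_lit 102261293], [nat_lit 102261289], [nat_lit 53]] []))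
(.node (nat_lit 580)
(.leaf [[nat_lit 1176348085, nat_lit 1178949045, nat_lit 1162954165, nat_lit 68277685, nat_lit 1176868277], [nat_lit 1176335669, nat_lit 1178936629, nat_lit 68265269, nat_lit 1176855861, nat_lit 1162421557], [nat_lit 1176323253, nat_lit 1178404021, nat_lit 68252853, nat_lit 1161888949], [nat_lit 1176310837, nat_lit 1161356341, nat_lit 68240437], [nat_lit 1176298421, nat_lit 1160823733, nat_lit 68228021], [nat_lit 1176286005, nat_lit 1160291125, nat_lit 68215605], [nat_lit 102793909, nat_lit 2215682741], [nat_lit 102261301], [nat_lit 102261297], [nat_lit 102261293], [nat_lit 102261289], [nat_lit 53]] [])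
(.leaf [[nat_lit 69895562677, nat_lit 69898163637, nat_lit 1162954165, nat_lit 69896082869], [nat_lit 69895550261, nat_lit 69898151221, nat_lit 69898409269, nat_lit 69896070453], [nat_lit 69895537845, nat_lit 69897618613, nat_lit 69897876661], [nat_lit 69895525429, nat_lit 1161356341, nat_lit 69879010357], [nat_lit 69895513013, nat_lit 1160823733], [nat_lit 69895500597, nat_lit 1160291125], [nat_lit 102793909, nat_lit 2215682741], [nat_lit 102261301], [nat_lit 102261297], [nat_lit 102261293], [nat_lit 102261289], [nat_lit 53]] [])))
(.node (nat_lit 583)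
(.node (nat_lit 582)
(.leaf [[nat_lit 139688777141, nat_lit 139691378101, nat_lit 139675383221, nat_lit 69896082869], [nat_lit 139688764725, nat_lit 139691365685, nat_lit 69896070453, nat_lit 139674850613], [nat_lit 139688752309, nat_lit 139690833077, nat_lit 139674318005], [nat_lit 139688739893, nat_lit 139673785397], [nat_lit 139688727477, nat_lit 139673252789], [nat_lit 139688715061, nat_lit 139672720181], [nat_lit 102793909, nat_lit 2215682741], [nat_lit 102261301], [nat_lit 102261297], [nat_lit 102261293], [nat_lit 102261289], [nat_lit 53]] [])
(.leaf [[nat_lit 139688777141, nat_lit 139691378101, nat_lit 139675383221, nat_lit 139689297333], [nat_lit 139688764725, nat_lit 139691365685, nat_lit 139689284917, nat_lit 139674850613], [nat_lit 139688752309, nat_lit 139690833077, nat_lit 139674318005], [nat_lit 139688739893, nat_lit 139673785397], [nat_lit 139688727477, nat_lit 139673252789], [nat_lit 139688715061, nat_lit 139672720181], [nat_lit 102793909, nat_lit 1141940917, nat_lit 1142203061], [nat_lit 102261301], [nat_lit 102261297], [nat_lit 102261293], [nat_lit 102261289]] []))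
(.node (nat_lit 584)
(.leaf [[nat_lit 209481991605, nat_lit 209484592565, nat_lit 209485112757, nat_lit 139689297333], [nat_lit 209481979189, nat_lit 209484580149, nat_lit 139689284917], [nat_lit 209481966773, nat_lit 209484047541], [nat_lit 209481954357, nat_lit 209483514933], [nat_lit 209481941941, nat_lit 209482982325], [nat_lit 209481929525, nat_lit 139672720181], [nat_lit 102793909, nat_lit 209464894257], [nat_lit 102261301], [nat_lit 102261297], [nat_lit 102261293], [nat_lit 102261289]] [])
(.node (nat_lit 640)
(.leaf [[nat_lit 3323827637, nat_lit 2252948917, nat_lit 3326948789, nat_lit 2198721973, nat_lit 2250347957], [nat_lit 3325375797, nat_lit 2215744821, nat_lit 3326416181], [nat_lit 3323802805, nat_lit 3325883573, nat_lit 2198697141], [nat_lit 3323790389, nat_lit 3325350965, nat_lit 2198684725], [nat_lit 3323777973, nat_lit 3324818357, nat_lit 2198672309], [nat_lit 3323765557, nat_lit 3324285749, nat_lit 2198659893], [nat_lit 2249753269, nat_lit 2216723125], [nat_lit 102261301], [nat_lit 102261297], [nat_lit 102261293], [nat_lit 102261289], [nat_lit 53]] [[], [], [], [], [], [], [], [],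 [], [], [nat_lit 837724479641, nat_lit 837724479768, nat_lit 837724479896]])
(.leaf [[nat_lit 3323827637, nat_lit 3326948789, nat_lit 3324347829, nat_lit 2215757237], [nat_lit 3323815221, nat_lit 3326416181, nat_lit 2215744821], [nat_lit 3323802805, nat_lit 3325883573, nat_lit 2215732405], [nat_lit 3323790389, nat_lit 3325350965, nat_lit 2215719989], [nat_lit 3323777973, nat_lit 3324818357, nat_lit 2215707573], [nat_lit 3323765557, nat_lit 3324285749, nat_lit 2215695157], [nat_lit 2249753269, nat_lit 2216723125], [nat_lit 102261301], [nat_lit 102261297], [nat_lit 102261293], [nat_lit 102261289], [nat_lit 53]] [])))))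
(.node (nat_lit 646)
(.node (nat_lit 643)
(.node (nat_lit 642)
(.leaf [[nat_lit 3326948789, nat_lit 2249827765, nat_lit 2250868149], [nat_lit 3326416181, nat_lit 2249815349, nat_lit 2250335541], [nat_lit 3325883573, nat_lit 2249802933], [nat_lit 3325350965, nat_lit 2232755253], [nat_lit 3324818357, nat_lit 2215707573], [nat_lit 3324285749, nat_lit 2215695157], [nat_lit 2249753269, nat_lit 2216723125], [nat_lit 102261301], [nat_lit 102261297], [nat_lit 102261293], [nat_lit 102261289], [nat_lit 53]] [])
(.leaf [[nat_lit 3326948789, nat_lit 2249827765, nat_lit 2250868149], [nat_lit 3326416181, nat_lit 2249815349, nat_lit 2250335541], [nat_lit 3325883573, nat_lit 2249802933], [nat_lit 3325350965, nat_lit 2232755253], [nat_lit 3324818357, nat_lit 2215707573], [nat_lit 3324285749, nat_lit 2215695157], [nat_lit 2249753269, nat_lit 2216723125], [nat_lit 102261301], [nat_lit 102261297], [nat_lit 102261293], [nat_lit 102261289], [nat_lit 53]] []))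
(.node (nat_lit 644)
(.leaf [[nat_lit 2249827765, nat_lit 2252428725, nat_lit 1162954165, nat_lit 2250347957], [nat_lit 2249815349, nat_lit 2252416309, nat_lit 2252674357, nat_lit 2250335541], [nat_lit 2249802933, nat_lit 2251883701, nat_lit 2252141749], [nat_lit 2249790517, nat_lit 1161356341, nat_lit 2233275445], [nat_lit 2249778101, nat_lit 1160823733], [nat_lit 2249765685, nat_lit 1160291125], [nat_lit 2249753269, nat_lit 2216723125], [nat_lit 102261301], [nat_lit 102261297], [nat_lit 102261293], [nat_lit 102261289], [nat_lit 53]] [])
(.node (nat_lit 645)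
(.leaf [[nat_lit 70969562549, nat_lit 70972163509, nat_lit 70972683701, nat_lit 69861492149, nat_lit 70970082741], [nat_lit 70969550133, nat_lit 70972151093, nat_lit 69861479733, nat_lit 70970070325], [nat_lit 70969537717, nat_lit 70971618485, nat_lit 69861467317], [nat_lit 70969525301, nat_lit 70971085877, nat_lit 69861454901], [nat_lit 70969512885, nat_lit 70970553269, nat_lit 69861442485], [nat_lit 70969500469, nat_lit 72026985269, nat_lit 69861430069], [nat_lit 2249753269, nat_lit 2216723125], [nat_lit 102261301], [nat_lit 102261297], [nat_lit 102261293], [nat_lit 102261289], [nat_lit 53]] [])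
(.leaf [[nat_lit 139688777141, nat_lit 139691378101, nat_lit 139675383221, nat_lit 139689297333], [nat_lit 139688764725, nat_lit 139691365685, nat_lit 139689284917, nat_lit 139674850613], [nat_lit 139688752309, nat_lit 139690833077, nat_lit 139674318005], [nat_lit 139688739893, nat_lit 139673785397], [nat_lit 139688727477, nat_lit 139673252789], [nat_lit 139688715061, nat_lit 139672720181], [nat_lit 2249753269, nat_lit 102793909], [nat_lit 102261301], [nat_lit 102261297], [nat_lit 102261293], [nat_lit 102261289]] []))))
(.node (nat_lit 648)
(.node (nat_lit 647)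
(.leaf [[nat_lit 209481991605, nat_lit 209484592565, nat_lit 209485112757, nat_lit 139689297333], [nat_lit 209481979189, nat_lit 209484580149, nat_lit 139689284917], [nat_lit 209481966773, nat_lit 209484047541], [nat_lit 209481954357, nat_lit 209483514933], [nat_lit 209481941941, nat_lit 209482982325], [nat_lit 209481929525, nat_lit 139672720181], [nat_lit 102793909, nat_lit 2215682741], [nat_lit 102261301], [nat_lit 102261297], [nat_lit 102261293], [nat_lit 102261289]] [])
(.leaf [[nat_lit 209481991605, nat_lit 209484592565, nat_lit 209485112757, nat_lit 209482511797], [nat_lit 209481979189, nat_lit 209484580149, nat_lit 209482499381], [nat_lit 209481966773, nat_lit 209484047541], [nat_lit 209481954357, nat_lit 209483514933], [nat_lit 209481941941, nat_lit 209482982325], [nat_lit 209481929525, nat_lit 139672720181], [nat_lit 102793909, nat_lit 1141940917, nat_lit 1142203061], [nat_lit 102261301], [nat_lit 102261297], [nat_lit 102261293], [nat_lit 102261289]] []))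
(.node (nat_lit 649)
(.leaf [[nat_lit 279275206069, nat_lit 279277807029, nat_lit 209485112757, nat_lit 209482511797], [nat_lit 279275193653, nat_lit 209484580149, nat_lit 209482499381], [nat_lit 279275181237, nat_lit 209484047541], [nat_lit 279275168821, nat_lit 209483514933], [nat_lit 279275156405, nat_lit 209482982325], [nat_lit 279275143989, nat_lit 279242113845], [nat_lit 279275143985, nat_lit 102793909], [nat_lit 102261301], [nat_lit 102261297], [nat_lit 102261293], [nat_lit 102261289]] [])
(.node (nat_lit 704)
(.leaf [[nat_lit 4397307317, nat_lit 3326428597, nat_lit 3326948789, nat_lit 3323827637], [nat_lit 4397294901, nat_lit 3326416181, nat_lit 3323815221], [nat_lit 4397282485, nat_lit 3325883573], [nat_lit 4397270069, nat_lit 3325350965], [nat_lit 4397257653, nat_lit 3324818357], [nat_lit 4397245237, nat_lit 3324285749], [nat_lit 2232718005, nat_lit 2216723125], [nat_lit 102261301], [nat_lit 102261297], [nat_lit 102261293], [nat_lit 6544712357], [nat_lit 53]] [[], [], [], [], [], [], [], [], [], [], [nat_lit 53614283628569, nat_lit 53614283628696, nat_lit 53614283628823, nat_lit 53614283628824,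 nat_lit 53614283628951]])
(.leaf [[nat_lit 4397307317, nat_lit 4400428469, nat_lit 4397827509, nat_lit 3326948789], [nat_lit 4397294901, nat_lit 4399895861, nat_lit 3326416181], [nat_lit 4397282485, nat_lit 3325883573], [nat_lit 4397270069, nat_lit 3325350965], [nat_lit 4397257653, nat_lit 3324818357], [nat_lit 4397245237, nat_lit 3324285749], [nat_lit 2249753269, nat_lit 2216723125], [nat_lit 102261301], [nat_lit 102261297], [nat_lit 102261293], [nat_lit 6544712357], [nat_lit 53]] [[], [], [], [], [], [], [], [], [], [], [nat_lit 53614283628696, nat_lit 53614283628951]]))))))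
(.node (nat_lit 714)
(.node (nat_lit 709)
(.node (nat_lit 707)
(.node (nat_lit 706)
(.leaf [[nat_lit 3323827637, nat_lit 3326428597, nat_lit 3326948789, nat_lit 2215757237, nat_lit 3324347829], [nat_lit 3323815221, nat_lit 3326416181, nat_lit 2215744821, nat_lit 3324335413], [nat_lit 3323802805, nat_lit 3325883573, nat_lit 2215732405], [nat_lit 3323790389, nat_lit 3325350965, nat_lit 2215719989], [nat_lit 3323777973, nat_lit 3324818357, nat_lit 2215707573], [nat_lit 3323765557, nat_lit 3324285749, nat_lit 2215695157], [nat_lit 2249753269, nat_lit 2216723125], [nat_lit 102261301], [nat_lit 102261297], [nat_lit 102261293], [nat_lit 6544712357], [nat_lit 53]] [[], [], [], [], [], [], [], [], [], [], [nat_lit 837724479767]])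
(.leaf [[nat_lit 3323827637, nat_lit 3326428597, nat_lit 3326948789, nat_lit 2215757237, nat_lit 3324347829], [nat_lit 3323815221, nat_lit 3326416181, nat_lit 2215744821, nat_lit 3324335413], [nat_lit 3323802805, nat_lit 3325883573, nat_lit 2215732405], [nat_lit 3323790389, nat_lit 3325350965, nat_lit 2215719989], [nat_lit 3323777973, nat_lit 3324818357, nat_lit 2215707573], [nat_lit 3323765557, nat_lit 3324285749, nat_lit 2215695157], [nat_lit 2249753269, nat_lit 2216723125], [nat_lit 102261301], [nat_lit 102261297], [nat_lit 102261293], [nat_lit 6544712357], [nat_lit 53]] []))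
(.node (nat_lit 708)
(.leaf [[nat_lit 3323827637, nat_lit 3326428597, nat_lit 3326948789, nat_lit 2215757237, nat_lit 3324347829], [nat_lit 3323815221, nat_lit 3326416181, nat_lit 2215744821, nat_lit 3324335413], [nat_lit 3323802805, nat_lit 3325883573, nat_lit 2215732405], [nat_lit 3323790389, nat_lit 3325350965, nat_lit 2215719989], [nat_lit 3323777973, nat_lit 3324818357, nat_lit 2215707573], [nat_lit 3323765557, nat_lit 3324285749, nat_lit 2215695157], [nat_lit 2249753269, nat_lit 2216723125], [nat_lit 102261301], [nat_lit 102261297], [nat_lit 102261293], [nat_lit 102261289], [nat_lit 53]] [])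
(.leaf [[nat_lit 72043042229, nat_lit 72045643189, nat_lit 72029648309, nat_lit 72043562421], [nat_lit 72043029813, nat_lit 72045630773, nat_lit 72043550005, nat_lit 72029115701], [nat_lit 72043017397, nat_lit 72045098165, nat_lit 72028583093], [nat_lit 72043004981, nat_lit 72028050485], [nat_lit 72042992565, nat_lit 72027517877], [nat_lit 72042980149, nat_lit 72026985269], [nat_lit 2249753269, nat_lit 2216723125], [nat_lit 102261301], [nat_lit 102261297], [nat_lit 102261293], [nat_lit 102261289]] [])))
(.node (nat_lit 711)
(.node (nat_lit 710)
(.leaf [[nat_lit 140762777013, nat_lit 140765377973, nat_lit 140765636021, nat_lit 139654706613, nat_lit 140763297205], [nat_lit 140762764597, nat_lit 140764845365, nat_lit 140765103413, nat_lit 139654694197], [nat_lit 140762752181, nat_lit 139674318005, nat_lit 139654681781, nat_lit 140746237109], [nat_lit 140762739765, nat_lit 139673785397, nat_lit 139654669365], [nat_lit 140762727349, nat_lit 139673252789, nat_lit 139654656949], [nat_lit 140762714933, nat_lit 140762972981, nat_lit 139654644533], [nat_lit 2249753269, nat_lit 2216723125], [nat_lit 102261301],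 [nat_lit 102261297], [nat_lit 102261293], [nat_lit 102261289]] [])
(.leaf [[nat_lit 209481991605, nat_lit 209484592565, nat_lit 209485112757, nat_lit 209482511797], [nat_lit 209481979189, nat_lit 209484580149, nat_lit 209482499381], [nat_lit 209481966773, nat_lit 209484047541], [nat_lit 209481954357, nat_lit 209483514933], [nat_lit 209481941941, nat_lit 209482982325], [nat_lit 209481929525, nat_lit 139672720181], [nat_lit 2249753269, nat_lit 2216723125], [nat_lit 102261301], [nat_lit 102261297], [nat_lit 102261293], [nat_lit 102261289]] []))
(.node (nat_lit 712)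
(.leaf [[nat_lit 279275206069, nat_lit 279277807029, nat_lit 209485112757, nat_lit 209482511797], [nat_lit 279275193653, nat_lit 209484580149, nat_lit 209482499381], [nat_lit 279275181237, nat_lit 209484047541], [nat_lit 279275168821, nat_lit 209483514933], [nat_lit 279275156405, nat_lit 209482982325], [nat_lit 279275143989, nat_lit 279242113845], [nat_lit 2249753269, nat_lit 2216723125], [nat_lit 102261301], [nat_lit 102261297], [nat_lit 102261293], [nat_lit 418861572897]] [[], [], [], [], [], [], [], [], [], [], [nat_lit 3431314005172245]])
(.node (nat_lit 713)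
(.leaf [[nat_lit 279275206069, nat_lit 279277807029, nat_lit 279278065077, nat_lit 279275726261], [nat_lit 279275193653, nat_lit 209484580149, nat_lit 279275713845], [nat_lit 279275181237, nat_lit 209484047541], [nat_lit 279275168821, nat_lit 209483514933], [nat_lit 279275156405, nat_lit 209482982325], [nat_lit 279275143989, nat_lit 279242113845], [nat_lit 279275143985, nat_lit 86016693], [nat_lit 102261301], [nat_lit 102261297], [nat_lit 418861572901], [nat_lit 418861572897]] [])
(.leaf [[nat_lit 349068420533, nat_lit 349071021493, nat_lit 279275726261, nat_lit 349054506421], [nat_lit 349068408117, nat_lit 349070488885, nat_lit 349053973813], [nat_lit 349068395701, nat_lit 349053441205], [nat_lit 349068383285, nat_lit 349052908597], [nat_lit 349068891061, nat_lit 279241085877, nat_lit 349052375989], [nat_lit 279275143989, nat_lit 279242113845], [nat_lit 418861572913], [nat_lit 102261301], [nat_lit 102261297], [nat_lit 418861572901], [nat_lit 418861572897]] [])))))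
(.node (nat_lit 772)
(.node (nat_lit 769)
(.node (nat_lit 768)
(.leaf [[nat_lit 4397307317, nat_lit 5473908149, nat_lit 4383913397, nat_lit 4397827509], [nat_lit 5471294773, nat_lit 4383380789, nat_lit 4363224373, nat_lit 4397815093], [nat_lit 5471282357, nat_lit 4382848181, nat_lit 4363211957], [nat_lit 5471269941, nat_lit 4382315573, nat_lit 4363199541], [nat_lit 5471257525, nat_lit 4381782965, nat_lit 4363187125], [nat_lit 5471245109, nat_lit 3324285749, nat_lit 4363174709], [nat_lit 6544712373], [nat_lit 6544712369], [nat_lit 6544712365], [nat_lit 6544712361], [nat_lit 6544712357], [nat_lit 53]] [[], [], [], [], [], [], [], [], [], [nat_lit 53614283661977], [nat_lit 53614283628696, nat_lit 53614283628823, nat_lit 53614283628951]])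
(.leaf [[nat_lit 5471307189, nat_lit 5473908149, nat_lit 4383913397, nat_lit 4363236789], [nat_lit 5471294773, nat_lit 4399895861, nat_lit 4363224373, nat_lit 4383380789], [nat_lit 5471282357, nat_lit 4382848181, nat_lit 4363211957], [nat_lit 5471269941, nat_lit 4382315573, nat_lit 4363199541], [nat_lit 5471257525, nat_lit 4381782965, nat_lit 4363187125], [nat_lit 5471245109, nat_lit 3324285749, nat_lit 4363174709], [nat_lit 6544712373], [nat_lit 6544712369], [nat_lit 6544712365], [nat_lit 6544712361], [nat_lit 6544712357], [nat_lit 53]] [[], [], [], [], [], [], [], [], [], [], [nat_lit 53614283628823]]))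
(.node (nat_lit 770)
(.leaf [[nat_lit 4397307317, nat_lit 4399908277, nat_lit 4383913397, nat_lit 4397827509], [nat_lit 4397294901, nat_lit 4399895861, nat_lit 4383380789, nat_lit 4397815093], [nat_lit 4397282485, nat_lit 4382848181, nat_lit 4397802677], [nat_lit 4397270069, nat_lit 4382315573], [nat_lit 4397257653, nat_lit 4381782965], [nat_lit 4397245237, nat_lit 3324285749], [nat_lit 6544712373], [nat_lit 6544712369], [nat_lit 6544712365], [nat_lit 6544712361], [nat_lit 6544712357], [nat_lit 53]] [])
(.node (nat_lit 771)
(.leaf [[nat_lit 4397307317, nat_lit 4399908277, nat_lit 4383913397, nat_lit 4397827509], [nat_lit 4397294901, nat_lit 4399895861, nat_lit 4397815093, nat_lit 4383380789], [nat_lit 4397282485, nat_lit 4399363253, nat_lit 4382848181], [nat_lit 4397270069, nat_lit 4382315573], [nat_lit 4397257653, nat_lit 4381782965], [nat_lit 4397245237, nat_lit 3324285749], [nat_lit 6544712373], [nat_lit 6544712369], [nat_lit 6544712365], [nat_lit 6544712361], [nat_lit 6544712357], [nat_lit 53]] [[], [], [], [], [], [], [], [], [], [], [nat_lit 53614283628822]])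
(.leaf [[nat_lit 4397307317, nat_lit 4399908277, nat_lit 4383913397, nat_lit 4397827509], [nat_lit 4397294901, nat_lit 4399895861, nat_lit 4397815093, nat_lit 4383380789], [nat_lit 4397282485, nat_lit 4399363253, nat_lit 4382848181], [nat_lit 4397270069, nat_lit 4382315573], [nat_lit 4397257653, nat_lit 4381782965], [nat_lit 4397245237, nat_lit 3324285749], [nat_lit 6544712373], [nat_lit 6544712369], [nat_lit 6544712365], [nat_lit 6544712361], [nat_lit 6544712357]] []))))
(.node (nat_lit 774)
(.node (nat_lit 773)
(.leaf [[nat_lit 73117042101, nat_lit 73119643061, nat_lit 73119901109, nat_lit 72008971701, nat_lit 73117562293], [nat_lit 73117029685, nat_lit 73119110453, nat_lit 73119368501, nat_lit 72008959285], [nat_lit 73117017269, nat_lit 72028583093, nat_lit 72008946869, nat_lit 73100502197], [nat_lit 73117004853, nat_lit 72028050485, nat_lit 72008934453], [nat_lit 73116992437, nat_lit 72027517877, nat_lit 72008922037], [nat_lit 73116980021, nat_lit 73117238069, nat_lit 72008909621], [nat_lit 2232718005, nat_lit 2216723125], [nat_lit 6544712369], [nat_lit 6544712365], [nat_lit 6544712361], [nat_lit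 6544712357]] [])
(.leaf [[nat_lit 141836256693, nat_lit 141838857653, nat_lit 141839377845, nat_lit 141836776885], [nat_lit 141836244277, nat_lit 141838845237, nat_lit 141836764469], [nat_lit 141836231861, nat_lit 141838312629], [nat_lit 141836219445, nat_lit 141837780021], [nat_lit 141836207029, nat_lit 141837247413], [nat_lit 141836714805, nat_lit 72008909621], [nat_lit 2249753269, nat_lit 2216723125], [nat_lit 68190773, nat_lit 2216723121], [nat_lit 2249753261, nat_lit 4397228717, nat_lit 2216723117], [nat_lit 418861572901], [nat_lit 418861572897]] [[], [], [], [], [], [], [], [], [], [nat_lit 3431314005205399], [nat_lit 3431314005172245, nat_lit 3431314005172373]]))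
(.node (nat_lit 775)
(.leaf [[nat_lit 210555991477, nat_lit 210558592437, nat_lit 209447921077, nat_lit 210556511669, nat_lit 210542077365], [nat_lit 210555979061, nat_lit 210558059829, nat_lit 209447908661, nat_lit 210541544757], [nat_lit 210555966645, nat_lit 210541012149, nat_lit 209447896245], [nat_lit 210555954229, nat_lit 210540479541, nat_lit 209447883829], [nat_lit 210555941813, nat_lit 210539946933, nat_lit 209447871413], [nat_lit 209481929525, nat_lit 141836714805], [nat_lit 2249753269, nat_lit 2216723125], [nat_lit 68190773, nat_lit 2216723121, nat_lit 68706869], [nat_lit 418861572905], [nat_lit 418861572901], [nat_lit 418861572897]] [[], [], [], [], [], [], [], [], [], [], [nat_lit 3431314005172245]])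
(.node (nat_lit 776)
(.leaf [[nat_lit 279275206069, nat_lit 279277807029, nat_lit 279278065077, nat_lit 279275726261], [nat_lit 279275193653, nat_lit 279277274421, nat_lit 279277532469], [nat_lit 279275181237, nat_lit 210541012149, nat_lit 279258666165], [nat_lit 279275168821, nat_lit 210540479541], [nat_lit 279275156405, nat_lit 210539946933], [nat_lit 279275143989, nat_lit 279242113845], [nat_lit 2249753269, nat_lit 2216723125], [nat_lit 68190773, nat_lit 2216723121, nat_lit 68706869], [nat_lit 418861572905], [nat_lit 418861572901], [nat_lit 418861572897]] [])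
(.leaf [[nat_lit 349068420533, nat_lit 349071021493, nat_lit 279275726261, nat_lit 349054506421], [nat_lit 349068408117, nat_lit 349070488885, nat_lit 349053973813], [nat_lit 349068395701, nat_lit 349053441205], [nat_lit 349068383285, nat_lit 349052908597], [nat_lit 349068891061, nat_lit 279241085877, nat_lit 349052375989], [nat_lit 279275143989, nat_lit 279242113845], [nat_lit 418861572913], [nat_lit 418861572909], [nat_lit 418861572905], [nat_lit 418861572901]] [[], [], [], [], [], [], [], [], [], [], [nat_lit 3431314005172244]]))))))))
(.node (nat_lit 968)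
(.node (nat_lit 899)
(.node (nat_lit 838)
(.node (nat_lit 833)
(.node (nat_lit 779)
(.node (nat_lit 778)
(.leaf [[nat_lit 349068420533, nat_lit 349071021493, nat_lit 349068940725, nat_lit 349054506421], [nat_lit 349068408117, nat_lit 349070488885, nat_lit 349053973813], [nat_lit 349068395701, nat_lit 349053441205], [nat_lit 349068383285, nat_lit 349052908597], [nat_lit 349068891061, nat_lit 279241085877, nat_lit 349052375989], [nat_lit 418861572917], [nat_lit 418861572913], [nat_lit 418861572909], [nat_lit 418861572905], [nat_lit 418861572901]] [])
(.leaf [[nat_lit 418861634997, nat_lit 418864235957, nat_lit 349068940725], [nat_lit 418861622581, nat_lit 418863703349], [nat_lit 418861610165, nat_lit 418863170741], [nat_lit 418861597749, nat_lit 418862638133], [nat_lit 418862105525, nat_lit 279241085877], [nat_lit 418861572917], [nat_lit 418861572913], [nat_lit 418861572909], [nat_lit 418861572905], [nat_lit 418861572901]] []))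
(.node (nat_lit 832)
(.leaf [[nat_lit 6544786869, nat_lit 5473908149, nat_lit 6547908021, nat_lit 5471307189], [nat_lit 6544774453, nat_lit 6547375413], [nat_lit 6544762037, nat_lit 6546842805], [nat_lit 6544749621, nat_lit 6546310197], [nat_lit 6544737205, nat_lit 6545777589], [nat_lit 6545244981, nat_lit 4363174709], [nat_lit 6544712373], [nat_lit 6544712369], [nat_lit 6544712365], [nat_lit 6544712361], [nat_lit 6544712357], [nat_lit 53]] [[], [], [], [], [], [], [], [], [], [], [nat_lit 53614283628568, nat_lit 53614283628823]])
(.leaf [[nat_lit 6544786869, nat_lit 6547908021, nat_lit 6545307061], [nat_lit 6544774453, nat_lit 6547375413], [nat_lit 6544762037, nat_lit 6546842805], [nat_lit 6544749621, nat_lit 6546310197], [nat_lit 6544737205, nat_lit 6545777589], [nat_lit 6545244981, nat_lit 4363174709], [nat_lit 6544712373], [nat_lit 6544712369], [nat_lit 6544712365], [nat_lit 6544712361], [nat_lit 6544712357], [nat_lit 53]] [])))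
(.node (nat_lit 835)
(.node (nat_lit 834)
(.leaf [[nat_lit 6547908021, nat_lit 5471307189, nat_lit 5471827381, nat_lit 4363236789], [nat_lit 6547375413, nat_lit 5471294773, nat_lit 4363224373], [nat_lit 6546842805, nat_lit 4380247221, nat_lit 5453984949], [nat_lit 6546310197, nat_lit 4363199541], [nat_lit 6545777589, nat_lit 4363187125], [nat_lit 6545244981, nat_lit 4363174709], [nat_lit 6544712373], [nat_lit 6544712369], [nat_lit 6544712365], [nat_lit 6544712361], [nat_lit 6544712357], [nat_lit 53]] [[], [], [], [], [], [], [], [], [], [], [nat_lit 53614283628822]])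
(.leaf [[nat_lit 6547908021, nat_lit 5471307189, nat_lit 5471827381, nat_lit 4363236789], [nat_lit 6547375413, nat_lit 5471294773, nat_lit 4363224373], [nat_lit 6546842805, nat_lit 4380247221, nat_lit 5453984949], [nat_lit 6546310197, nat_lit 4363199541], [nat_lit 6545777589, nat_lit 4363187125], [nat_lit 6545244981, nat_lit 4363174709], [nat_lit 6544712373], [nat_lit 6544712369], [nat_lit 6544712365], [nat_lit 6544712361], [nat_lit 6544712357]] []))
(.node (nat_lit 836)
(.leaf [[nat_lit 5471307189, nat_lit 5473908149, nat_lit 5474166197, nat_lit 4363236789, nat_lit 5471827381], [nat_lit 5471294773, nat_lit 5473375541, nat_lit 5473633589, nat_lit 4363224373], [nat_lit 5471282357, nat_lit 4382848181, nat_lit 4363211957, nat_lit 5454767285], [nat_lit 5471269941, nat_lit 4382315573, nat_lit 4363199541], [nat_lit 5471257525, nat_lit 4381782965, nat_lit 4363187125], [nat_lit 6545244981, nat_lit 4363174709], [nat_lit 6544712373], [nat_lit 6544712369], [nat_lit 6544712365], [nat_lit 6544712361], [nat_lit 6544712357]] [])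
(.node (nat_lit 837)
(.leaf [[nat_lit 74190521781, nat_lit 74193122741, nat_lit 74193642933, nat_lit 74191041973], [nat_lit 74190509365, nat_lit 74193110325, nat_lit 74191029557], [nat_lit 74190496949, nat_lit 74192577717], [nat_lit 74190484533, nat_lit 74192045109], [nat_lit 74190472117, nat_lit 74191512501], [nat_lit 74190459701, nat_lit 72026985269], [nat_lit 6544712373], [nat_lit 6544712369], [nat_lit 6544712365], [nat_lit 6544712361], [nat_lit 6544712357]] [])
(.leaf [[nat_lit 142910256565, nat_lit 142912857525, nat_lit 141802186165, nat_lit 142910776757, nat_lit 142896342453], [nat_lit 142910244149, nat_lit 142912324917, nat_lit 141802173749, nat_lit 142895809845], [nat_lit 142910231733, nat_lit 142895277237, nat_lit 141802161333], [nat_lit 142910219317, nat_lit 142894744629, nat_lit 141802148917], [nat_lit 142910206901, nat_lit 142894212021, nat_lit 141802136501], [nat_lit 74190459701, nat_lit 141836714805], [nat_lit 6544712373], [nat_lit 6544712369], [nat_lit 6544712365], [nat_lit 6544712361], [nat_lit 6544712357]] [[], [], [], [], [], [], [], [], [], [], [nat_lit 53614283628565]])))))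
(.node (nat_lit 843)
(.node (nat_lit 840)
(.node (nat_lit 839)
(.leaf [[nat_lit 211629471157, nat_lit 211632072117, nat_lit 211632330165, nat_lit 211629991349], [nat_lit 211629458741, nat_lit 211631539509, nat_lit 211631797557], [nat_lit 211629446325, nat_lit 210541012149, nat_lit 211612931253], [nat_lit 211629433909, nat_lit 210540479541], [nat_lit 211629421493, nat_lit 210539946933], [nat_lit 141836714805, nat_lit 279241073461], [nat_lit 2232718005, nat_lit 2216723125], [nat_lit 4397228721, nat_lit 68190773, nat_lit 2216723121], [nat_lit 418861572905], [nat_lit 418861572901]] [[], [], [], [], [], [], [], [], [], [], [nat_lit 3431314005172244]])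
(.leaf [[nat_lit 280349205941, nat_lit 280351806901, nat_lit 279241135541, nat_lit 280349726133], [nat_lit 280349193525, nat_lit 280351274293, nat_lit 279241123125], [nat_lit 280349181109, nat_lit 280350741685, nat_lit 279241110709], [nat_lit 280349168693, nat_lit 280350209077, nat_lit 279241098293], [nat_lit 280349156277, nat_lit 280349676469, nat_lit 279241085877], [nat_lit 279275143989, nat_lit 279242113845], [nat_lit 2232718005, nat_lit 2216723125], [nat_lit 418861572909], [nat_lit 418861572905], [nat_lit 418861572901]] [[], [], [], [], [], [], [], [], [], [], [nat_lit 3431314005172244]]))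
(.node (nat_lit 841)
(.leaf [[nat_lit 349068420533, nat_lit 349071021493, nat_lit 349068940725, nat_lit 349054506421], [nat_lit 349068408117, nat_lit 349070488885, nat_lit 349053973813], [nat_lit 349068395701, nat_lit 349053441205], [nat_lit 349068383285, nat_lit 349052908597], [nat_lit 349068891061, nat_lit 279241085877, nat_lit 349052375989], [nat_lit 418861572917], [nat_lit 418861572913], [nat_lit 418861572909], [nat_lit 418861572905], [nat_lit 418861572901]] [])
(.node (nat_lit 842)
(.leaf [[nat_lit 418861634997, nat_lit 418864235957, nat_lit 349068940725], [nat_lit 418861622581, nat_lit 418863703349], [nat_lit 418861610165, nat_lit 418863170741], [nat_lit 418861597749, nat_lit 418862638133], [nat_lit 418862105525, nat_lit 279241085877], [nat_lit 418861572917], [nat_lit 418861572913], [nat_lit 418861572909], [nat_lit 418861572905], [nat_lit 418861572901]] [])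
(.leaf [[nat_lit 418861634997, nat_lit 418864235957, nat_lit 418862155189], [nat_lit 418861622581, nat_lit 418863703349], [nat_lit 418861610165, nat_lit 418863170741], [nat_lit 418861597749, nat_lit 418862638133], [nat_lit 418862105525, nat_lit 279241085877], [nat_lit 418861572917], [nat_lit 418861572913], [nat_lit 418861572909], [nat_lit 418861572905], [nat_lit 418861572901]] []))))
(.node (nat_lit 896)
(.node (nat_lit 844)
(.leaf [[nat_lit 418861634997, nat_lit 418864235957, nat_lit 418862155189], [nat_lit 418861622581, nat_lit 418863703349], [nat_lit 418861610165, nat_lit 418863170741], [nat_lit 418861597749, nat_lit 418862638133], [nat_lit 418862105525, nat_lit 279241085877], [nat_lit 418861572917], [nat_lit 418861572913], [nat_lit 418861572909], [nat_lit 418861572905], [nat_lit 418861572901]] [])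
(.leaf [[nat_lit 6544786869, nat_lit 6547908021, nat_lit 6545307061], [nat_lit 6544774453, nat_lit 6547375413], [nat_lit 6544762037, nat_lit 6546842805], [nat_lit 6544749621, nat_lit 6546310197], [nat_lit 6544737205, nat_lit 6545777589], [nat_lit 6545244981, nat_lit 4363174709], [nat_lit 6544712373], [nat_lit 6544712369], [nat_lit 6544712365], [nat_lit 6544712361], [nat_lit 6544712357], [nat_lit 53]] [[], [], [], [], [], [], [], [], [], [], [nat_lit 53614283628695, nat_lit 53614283628822]]))
(.node (nat_lit 897)
(.leaf [[nat_lit 6544786869, nat_lit 6547908021, nat_lit 6545827253], [nat_lit 6544774453, nat_lit 6547375413, nat_lit 6545294645], [nat_lit 6544762037, nat_lit 6546842805], [nat_lit 6544749621, nat_lit 6546310197], [nat_lit 6544737205, nat_lit 6545777589], [nat_lit 6545244981, nat_lit 4363174709], [nat_lit 6544712373], [nat_lit 6544712369], [nat_lit 6544712365], [nat_lit 6544712361], [nat_lit 6544712357], [nat_lit 53]] [[], [], [], [], [], [], [], [], [], [], [nat_lit 53614283628822]])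
(.node (nat_lit 898)
(.leaf [[nat_lit 6544786869, nat_lit 6547387829, nat_lit 6547908021, nat_lit 6545307061], [nat_lit 6544774453, nat_lit 6547375413, nat_lit 6545294645], [nat_lit 6544762037, nat_lit 6546842805], [nat_lit 6544749621, nat_lit 6546310197], [nat_lit 6544737205, nat_lit 6545777589], [nat_lit 6545244981, nat_lit 4363174709], [nat_lit 6544712373], [nat_lit 6544712369], [nat_lit 6544712365], [nat_lit 6544712361], [nat_lit 6544712357]] [])
(.leaf [[nat_lit 6544786869, nat_lit 6547387829, nat_lit 6547908021, nat_lit 6545307061], [nat_lit 6544774453, nat_lit 6547375413, nat_lit 6545294645], [nat_lit 6544762037, nat_lit 6546842805], [nat_lit 6544749621, nat_lit 6546310197], [nat_lit 6544737205, nat_lit 6545777589], [nat_lit 6545244981, nat_lit 4363174709], [nat_lit 6544712373], [nat_lit 6544712369], [nat_lit 6544712365], [nat_lit 6544712361], [nat_lit 6544712357]] []))))))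
(.node (nat_lit 908)
(.node (nat_lit 903)
(.node (nat_lit 901)
(.node (nat_lit 900)
(.leaf [[nat_lit 6544786869, nat_lit 6547387829, nat_lit 6547908021, nat_lit 6545307061], [nat_lit 6544774453, nat_lit 6547375413, nat_lit 6545294645], [nat_lit 6544762037, nat_lit 6546842805], [nat_lit 6544749621, nat_lit 6546310197], [nat_lit 6544737205, nat_lit 6545777589], [nat_lit 6545244981, nat_lit 4363174709], [nat_lit 6544712373], [nat_lit 6544712369], [nat_lit 6544712365], [nat_lit 6544712361], [nat_lit 6544712357]] [])
(.leaf [[nat_lit 75264521653, nat_lit 75267122613, nat_lit 74173486517, nat_lit 75265041845, nat_lit 6547908021], [nat_lit 75264509237, nat_lit 6547375413, nat_lit 74173474101, nat_lit 75265029429], [nat_lit 75264496821, nat_lit 6546842805, nat_lit 74173461685], [nat_lit 75264484405, nat_lit 6546310197, nat_lit 74173449269], [nat_lit 75264471989, nat_lit 6545777589, nat_lit 74173436853], [nat_lit 74190459701, nat_lit 6545244981], [nat_lit 6544712373], [nat_lit 6544712369], [nat_lit 6544712365], [nat_lit 6544712361], [nat_lit 6544712357]] []))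
(.node (nat_lit 902)
(.leaf [[nat_lit 143983736245, nat_lit 143986337205, nat_lit 143986595253, nat_lit 143984256437], [nat_lit 143983723829, nat_lit 143985804597, nat_lit 143986062645], [nat_lit 143983711413, nat_lit 142895277237, nat_lit 143984231605], [nat_lit 143983698997, nat_lit 142894744629], [nat_lit 143983686581, nat_lit 142894212021], [nat_lit 143983674165, nat_lit 6545244981], [nat_lit 6544712373], [nat_lit 6544712369], [nat_lit 6544712365], [nat_lit 6544712361], [nat_lit 6544712357]] [])
(.leaf [[nat_lit 212703471029, nat_lit 212706071989, nat_lit 211612435893, nat_lit 212703991221], [nat_lit 212703458613, nat_lit 212705539381, nat_lit 211612423477], [nat_lit 212703446197, nat_lit 212705006773, nat_lit 211612411061], [nat_lit 212703433781, nat_lit 212704474165, nat_lit 211612398645], [nat_lit 212703421365, nat_lit 212703941557, nat_lit 211612386229], [nat_lit 143983674165, nat_lit 141836714805], [nat_lit 6544712373], [nat_lit 6544712369], [nat_lit 6544712365], [nat_lit 6544712361]] [[], [], [], [], [], [], [], [], [], [], [nat_lit 3431314005172244]])))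
(.node (nat_lit 905)
(.node (nat_lit 904)
(.leaf [[nat_lit 281422685621, nat_lit 281425286581, nat_lit 281423205813, nat_lit 212706071989], [nat_lit 281422673205, nat_lit 212705539381, nat_lit 281423193397], [nat_lit 281422660789, nat_lit 212705006773], [nat_lit 281422648373, nat_lit 212704474165], [nat_lit 281422635957, nat_lit 212703941557], [nat_lit 143983674165, nat_lit 279242113845], [nat_lit 4397228725, nat_lit 4363682485, nat_lit 2215682741, nat_lit 2216723125], [nat_lit 418861572909], [nat_lit 418861572905], [nat_lit 418861572901]] [])
(.leaf [[nat_lit 350142420405, nat_lit 350144501173, nat_lit 350144759221, nat_lit 349051385269], [nat_lit 350142407989, nat_lit 349053973813, nat_lit 349051372853, nat_lit 350142928181], [nat_lit 350142395573, nat_lit 349053441205, nat_lit 349051360437], [nat_lit 350142383157, nat_lit 349052908597, nat_lit 349051348021], [nat_lit 350142370741, nat_lit 350142628789, nat_lit 279241085877], [nat_lit 418861572917], [nat_lit 418861572913], [nat_lit 418861572909], [nat_lit 418861572905], [nat_lit 418861572901]] []))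
(.node (nat_lit 906)
(.leaf [[nat_lit 418861634997, nat_lit 418864235957, nat_lit 418862155189], [nat_lit 418861622581, nat_lit 418863703349], [nat_lit 418861610165, nat_lit 418863170741], [nat_lit 418861597749, nat_lit 418862638133], [nat_lit 418862105525, nat_lit 279241085877], [nat_lit 418861572917], [nat_lit 418861572913], [nat_lit 418861572909], [nat_lit 418861572905], [nat_lit 418861572901]] [])
(.node (nat_lit 907)
(.leaf [[nat_lit 418861634997, nat_lit 418864235957, nat_lit 418862155189], [nat_lit 418861622581, nat_lit 418863703349], [nat_lit 418861610165, nat_lit 418863170741], [nat_lit 418861597749, nat_lit 418862638133], [nat_lit 418862105525, nat_lit 279241085877], [nat_lit 418861572917], [nat_lit 418861572913], [nat_lit 418861572909], [nat_lit 418861572905], [nat_lit 418861572901]] [])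
(.leaf [[nat_lit 488671884725, nat_lit 488673965493], [nat_lit 488671872309, nat_lit 488673432885], [nat_lit 488671859893, nat_lit 488672900277], [nat_lit 488671847477, nat_lit 418862638133], [nat_lit 418862105525, nat_lit 279241085877], [nat_lit 418861572917], [nat_lit 418861572913], [nat_lit 418861572909], [nat_lit 418861572905], [nat_lit 418861572901]] [])))))
(.node (nat_lit 963)
(.node (nat_lit 960)
(.node (nat_lit 909)
(.leaf [[nat_lit 488671884725, nat_lit 488673965493], [nat_lit 488671872309, nat_lit 488673432885], [nat_lit 488671859893, nat_lit 488672900277], [nat_lit 558482097205], [nat_lit 418862105525, nat_lit 279241085877], [nat_lit 418861572917], [nat_lit 418861572913], [nat_lit 418861572909], [nat_lit 418861572905], [nat_lit 418861572901]] [])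
(.leaf [[nat_lit 7635822005, nat_lit 6547908021, nat_lit 4363236789], [nat_lit 7635809589, nat_lit 6547375413, nat_lit 4363224373], [nat_lit 7635797173, nat_lit 6546842805, nat_lit 4363211957], [nat_lit 7635784757, nat_lit 6546310197, nat_lit 4363199541], [nat_lit 6544737205, nat_lit 6545777589], [nat_lit 6545244981, nat_lit 4363174709], [nat_lit 6544712373], [nat_lit 6544712369], [nat_lit 6544712365], [nat_lit 6544712361], [nat_lit 6544712357], [nat_lit 53]] [[], [], [], [], [], [], [], [], [], [], [nat_lit 53614283628567, nat_lit 53614283628822]]))
(.node (nat_lit 961)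
(.leaf [[nat_lit 7635822005, nat_lit 6547908021, nat_lit 5454009781], [nat_lit 7635809589, nat_lit 6547375413, nat_lit 5453997365], [nat_lit 7635797173, nat_lit 6546842805, nat_lit 5453984949], [nat_lit 7635784757, nat_lit 6546310197, nat_lit 5453972533], [nat_lit 6544737205, nat_lit 6545777589], [nat_lit 6545244981, nat_lit 4363174709], [nat_lit 6544712373], [nat_lit 6544712369], [nat_lit 6544712365], [nat_lit 6544712361], [nat_lit 6544712357]] [])
(.node (nat_lit 962)
(.leaf [[nat_lit 7635822005, nat_lit 6547908021, nat_lit 4363236789, nat_lit 6545827253], [nat_lit 7635809589, nat_lit 6547375413, nat_lit 4363224373], [nat_lit 7635797173, nat_lit 6546842805, nat_lit 4363211957], [nat_lit 7635784757, nat_lit 6546310197, nat_lit 4363199541], [nat_lit 6544737205, nat_lit 6545777589], [nat_lit 6545244981, nat_lit 4363174709], [nat_lit 6544712373], [nat_lit 6544712369], [nat_lit 6544712365], [nat_lit 6544712361], [nat_lit 6544712357]] [])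
(.leaf [[nat_lit 7635822005, nat_lit 6547908021, nat_lit 5454009781, nat_lit 7636342197], [nat_lit 7635809589, nat_lit 6547375413, nat_lit 5453997365], [nat_lit 7635797173, nat_lit 6546842805, nat_lit 5453984949], [nat_lit 7635784757, nat_lit 6546310197, nat_lit 5453972533], [nat_lit 6544737205, nat_lit 6545777589], [nat_lit 6545244981, nat_lit 4363174709], [nat_lit 6544712373], [nat_lit 6544712369], [nat_lit 6544712365], [nat_lit 6544712361], [nat_lit 6544712357]] []))))
(.node (nat_lit 965)
(.node (nat_lit 964)
(.leaf [[nat_lit 7635822005, nat_lit 6547908021, nat_lit 4363236789, nat_lit 6545827253], [nat_lit 7635809589, nat_lit 6547375413, nat_lit 4363224373], [nat_lit 7635797173, nat_lit 6546842805, nat_lit 4363211957], [nat_lit 7635784757, nat_lit 6546310197, nat_lit 4363199541], [nat_lit 6544737205, nat_lit 6545777589], [nat_lit 74190459701, nat_lit 6545244981], [nat_lit 6544712373], [nat_lit 6544712369], [nat_lit 6544712365], [nat_lit 6544712361], [nat_lit 6544712357]] [])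
(.leaf [[nat_lit 75264521653, nat_lit 75267122613, nat_lit 75265041845, nat_lit 74173486517, nat_lit 6547908021], [nat_lit 75264509237, nat_lit 6547375413, nat_lit 74173474101, nat_lit 75265029429], [nat_lit 75264496821, nat_lit 6546842805, nat_lit 74173461685], [nat_lit 75264484405, nat_lit 6546310197, nat_lit 74173449269], [nat_lit 75264471989, nat_lit 6545777589, nat_lit 74173436853], [nat_lit 143983674165, nat_lit 6545244981], [nat_lit 6544712373], [nat_lit 6544712369], [nat_lit 6544712365], [nat_lit 6544712361], [nat_lit 6544712357]] []))
(.node (nat_lit 966)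
(.leaf [[nat_lit 76357637557, nat_lit 143983736245, nat_lit 143984256437], [nat_lit 76357104949, nat_lit 143983723829], [nat_lit 76356572341, nat_lit 74173461685], [nat_lit 76356039733, nat_lit 74173449269], [nat_lit 76355507125, nat_lit 74173436853], [nat_lit 143983674165, nat_lit 6545244981], [nat_lit 6544712373], [nat_lit 6544712369], [nat_lit 6544712365], [nat_lit 6544712361]] [[], [], [], [], [], [], [], [], [], [], [nat_lit 53614283628564]])
(.node (nat_lit 967)
(.leaf [[nat_lit 212703471029, nat_lit 212706071989, nat_lit 212703991221, nat_lit 211612435893], [nat_lit 212703458613, nat_lit 212705539381, nat_lit 211612423477], [nat_lit 212703446197, nat_lit 212705006773, nat_lit 211612411061], [nat_lit 212703433781, nat_lit 212704474165, nat_lit 211612398645], [nat_lit 212703421365, nat_lit 212703941557, nat_lit 211612386229], [nat_lit 143983674165, nat_lit 6545244981], [nat_lit 6544712373], [nat_lit 6544712369], [nat_lit 6544712365], [nat_lit 6544712361]] [])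
(.leaf [[nat_lit 281422685621, nat_lit 281425286581, nat_lit 281423205813, nat_lit 212706071989], [nat_lit 281422673205, nat_lit 212705539381, nat_lit 281423193397], [nat_lit 281422660789, nat_lit 212705006773], [nat_lit 281422648373, nat_lit 212704474165], [nat_lit 281422635957, nat_lit 212703941557], [nat_lit 418861572917], [nat_lit 6544712373], [nat_lit 6544712369], [nat_lit 6544712365], [nat_lit 418861572901]] [])))))))
(.node (nat_lit 1036)
(.node (nat_lit 1026)
(.node (nat_lit 972)
(.node (nat_lit 970)
(.node (nat_lit 969)
(.leaf [[nat_lit 282515801525, nat_lit 281422685621, nat_lit 350142420405], [nat_lit 282515268917, nat_lit 281422673205], [nat_lit 282514736309, nat_lit 349051360437], [nat_lit 282514203701, nat_lit 349051348021], [nat_lit 350142370741, nat_lit 349052375989, nat_lit 280331858869], [nat_lit 418861572917], [nat_lit 418861572913], [nat_lit 418861572909], [nat_lit 418861572905], [nat_lit 418861572901]] [])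
(.leaf [[nat_lit 418861634997, nat_lit 418864235957, nat_lit 418862155189], [nat_lit 418861622581, nat_lit 418863703349], [nat_lit 418861610165, nat_lit 418863170741], [nat_lit 418861597749, nat_lit 418862638133], [nat_lit 418862105525, nat_lit 279241085877], [nat_lit 418861572917], [nat_lit 418861572913], [nat_lit 418861572909], [nat_lit 418861572905], [nat_lit 418861572901]] []))
(.node (nat_lit 971)
(.leaf [[nat_lit 488671884725, nat_lit 488673965493], [nat_lit 488671872309, nat_lit 488673432885], [nat_lit 488671859893, nat_lit 488672900277], [nat_lit 488671847477, nat_lit 418862638133], [nat_lit 418862105525, nat_lit 279241085877], [nat_lit 418861572917], [nat_lit 418861572913], [nat_lit 418861572909], [nat_lit 418861572905], [nat_lit 418861572901]] [])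
(.leaf [[nat_lit 488671884725, nat_lit 488673965493], [nat_lit 488671872309, nat_lit 488673432885], [nat_lit 488671859893, nat_lit 488672900277], [nat_lit 488671847477, nat_lit 418862638133], [nat_lit 418862105525, nat_lit 279241085877], [nat_lit 418861572917], [nat_lit 418861572913], [nat_lit 418861572909], [nat_lit 418861572905], [nat_lit 418861572901]] [])))
(.node (nat_lit 974)
(.node (nat_lit 973)
(.leaf [[nat_lit 488671884725, nat_lit 488673965493], [nat_lit 488671872309, nat_lit 488673432885], [nat_lit 488671859893, nat_lit 488672900277], [nat_lit 558482097205], [nat_lit 418862105525, nat_lit 279241085877], [nat_lit 418861572917], [nat_lit 418861572913], [nat_lit 418861572909], [nat_lit 418861572905]] [])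
(.leaf [[nat_lit 558482134453, nat_lit 558483695029], [nat_lit 558482122037, nat_lit 558483162421], [nat_lit 558482109621, nat_lit 558482629813], [nat_lit 558482097205], [nat_lit 418862105525, nat_lit 279241085877], [nat_lit 418861572917], [nat_lit 418861572913], [nat_lit 418861572909], [nat_lit 418861572905]] []))
(.node (nat_lit 1024)
(.leaf [[nat_lit 7635822005, nat_lit 6547908021, nat_lit 5454009781], [nat_lit 7635809589, nat_lit 6547375413, nat_lit 5453997365], [nat_lit 7635797173, nat_lit 6546842805, nat_lit 5453984949], [nat_lit 7635784757, nat_lit 6546310197, nat_lit 5453972533], [nat_lit 6544737205, nat_lit 6545777589], [nat_lit 6545244981, nat_lit 4363174709], [nat_lit 6544712373], [nat_lit 6544712369], [nat_lit 6544712365], [nat_lit 6544712361], [nat_lit 6544712357]] [[], [], [], [], [], [], [], [], [], [], [nat_lit 53614283628694]])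
(.node (nat_lit 1025)
(.leaf [[nat_lit 7635822005, nat_lit 6547908021, nat_lit 6544786869, nat_lit 7636342197], [nat_lit 7635809589, nat_lit 6547375413, nat_lit 6544774453], [nat_lit 7635797173, nat_lit 6546842805, nat_lit 6544762037], [nat_lit 7635784757, nat_lit 6546310197, nat_lit 6544749621], [nat_lit 6544737205, nat_lit 6545777589], [nat_lit 6545244981, nat_lit 4363174709], [nat_lit 6544712373], [nat_lit 6544712369], [nat_lit 6544712365], [nat_lit 6544712361], [nat_lit 6544712357]] [])
(.leaf [[nat_lit 7635822005, nat_lit 6547908021, nat_lit 5454009781, nat_lit 7636342197], [nat_lit 7635809589, nat_lit 6547375413, nat_lit 5453997365], [nat_lit 7635797173, nat_lit 6546842805, nat_lit 5453984949], [nat_lit 7635784757, nat_lit 6546310197, nat_lit 5453972533], [nat_lit 6544737205, nat_lit 6545777589], [nat_lit 6545244981, nat_lit 4363174709], [nat_lit 6544712373], [nat_lit 6544712369], [nat_lit 6544712365], [nat_lit 6544712361], [nat_lit 6544712357]] [])))))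
(.node (nat_lit 1031)
(.node (nat_lit 1028)
(.node (nat_lit 1027)
(.leaf [[nat_lit 7635822005, nat_lit 6547908021, nat_lit 6544786869, nat_lit 7636342197], [nat_lit 7635809589, nat_lit 6547375413, nat_lit 6544774453], [nat_lit 7635797173, nat_lit 6546842805, nat_lit 6544762037], [nat_lit 7635784757, nat_lit 6546310197, nat_lit 6544749621], [nat_lit 6544737205, nat_lit 6545777589], [nat_lit 6545244981, nat_lit 4363174709], [nat_lit 6544712373], [nat_lit 6544712369], [nat_lit 6544712365], [nat_lit 6544712361], [nat_lit 6544712357]] [])
(.leaf [[nat_lit 7635822005, nat_lit 6547908021, nat_lit 6544786869, nat_lit 7636342197], [nat_lit 7635809589, nat_lit 6547375413, nat_lit 6544774453], [nat_lit 7635797173, nat_lit 6546842805, nat_lit 6544762037], [nat_lit 7635784757, nat_lit 6546310197, nat_lit 6544749621], [nat_lit 76354986933, nat_lit 76355507125], [nat_lit 143983674165, nat_lit 6545244981], [nat_lit 6544712373], [nat_lit 6544712369], [nat_lit 6544712365], [nat_lit 6544712361], [nat_lit 6544712357]] []))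
(.node (nat_lit 1029)
(.leaf [[nat_lit 76355036597, nat_lit 76357637557, nat_lit 7635822005], [nat_lit 76355024181, nat_lit 76357104949], [nat_lit 76355011765, nat_lit 76356572341], [nat_lit 76354999349, nat_lit 76356039733], [nat_lit 76354986933, nat_lit 76355507125], [nat_lit 143983674165, nat_lit 6545244981], [nat_lit 6544712373], [nat_lit 6544712369], [nat_lit 6544712365], [nat_lit 6544712361]] [[], [], [], [], [], [], [], [], [], [], [nat_lit 53614283628564]])
(.node (nat_lit 1030)
(.leaf [[nat_lit 145074771381, nat_lit 76357637557, nat_lit 74173486517], [nat_lit 145074758965, nat_lit 76357104949, nat_lit 74173474101], [nat_lit 145074746549, nat_lit 76356572341, nat_lit 74173461685], [nat_lit 145074734133, nat_lit 76356039733, nat_lit 74173449269], [nat_lit 145074721717, nat_lit 74173436853, nat_lit 76355507125], [nat_lit 143983674165, nat_lit 6545244981], [nat_lit 6544712373], [nat_lit 6544712369], [nat_lit 6544712365], [nat_lit 6544712361]] [])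
(.leaf [[nat_lit 213793985973, nat_lit 145076852149, nat_lit 213796324789], [nat_lit 213793973557, nat_lit 212705539381], [nat_lit 213793961141, nat_lit 212705006773], [nat_lit 213793948725, nat_lit 212704474165], [nat_lit 145074721717, nat_lit 211612386229, nat_lit 212703941557], [nat_lit 143983674165, nat_lit 6545244981], [nat_lit 6544712373], [nat_lit 6544712369], [nat_lit 6544712365], [nat_lit 6544712361]] []))))
(.node (nat_lit 1033)
(.node (nat_lit 1032)
(.leaf [[nat_lit 282513720757, nat_lit 282515801525, nat_lit 211612435893], [nat_lit 282513708341, nat_lit 282515268917, nat_lit 211612423477], [nat_lit 282513695925, nat_lit 282514736309, nat_lit 211612411061], [nat_lit 282513683509, nat_lit 282514203701, nat_lit 211612398645], [nat_lit 281422635957, nat_lit 212703941557], [nat_lit 418861572917], [nat_lit 6544712373], [nat_lit 6544712369], [nat_lit 6544712365], [nat_lit 6544712361]] [])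
(.leaf [[nat_lit 351232935349, nat_lit 282515801525], [nat_lit 351232922933, nat_lit 282515268917], [nat_lit 351232910517, nat_lit 282514736309], [nat_lit 351232898101, nat_lit 282514203701], [nat_lit 350142370741, nat_lit 212703941557, nat_lit 281422635957], [nat_lit 418861572917], [nat_lit 6544712373], [nat_lit 418861572909], [nat_lit 418861572905], [nat_lit 418861572901]] []))
(.node (nat_lit 1034)
(.leaf [[nat_lit 419952670133, nat_lit 418864235957, nat_lit 349051385269], [nat_lit 419952657717, nat_lit 418863703349, nat_lit 349051372853], [nat_lit 419952645301, nat_lit 418863170741, nat_lit 349051360437], [nat_lit 419952632885, nat_lit 419952890933, nat_lit 349051348021], [nat_lit 418862105525, nat_lit 281422635957], [nat_lit 418861572917], [nat_lit 418861572913], [nat_lit 418861572909], [nat_lit 418861572905], [nat_lit 418861572901]] [])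
(.node (nat_lit 1035)
(.leaf [[nat_lit 488671884725, nat_lit 488673965493], [nat_lit 488671872309, nat_lit 488673432885], [nat_lit 488671859893, nat_lit 488672900277], [nat_lit 488671847477, nat_lit 418862638133], [nat_lit 418862105525, nat_lit 281422635957], [nat_lit 418861572917], [nat_lit 418861572913], [nat_lit 418861572909], [nat_lit 418861572905], [nat_lit 418861572901]] [])
(.leaf [[nat_lit 488671884725, nat_lit 488673965493], [nat_lit 488671872309, nat_lit 488673432885], [nat_lit 488671859893, nat_lit 488672900277], [nat_lit 558482097205], [nat_lit 418862105525, nat_lit 281422635957], [nat_lit 418861572917], [nat_lit 418861572913], [nat_lit 418861572909], [nat_lit 418861572905]] []))))))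
(.node (nat_lit 1094)
(.node (nat_lit 1089)
(.node (nat_lit 1038)
(.node (nat_lit 1037)
(.leaf [[nat_lit 558482134453, nat_lit 558483695029], [nat_lit 558482122037, nat_lit 558483162421], [nat_lit 558482109621, nat_lit 558482629813], [nat_lit 558482097205], [nat_lit 418862105525, nat_lit 279241085877], [nat_lit 418861572917], [nat_lit 418861572913], [nat_lit 418861572909], [nat_lit 418861572905]] [])
(.leaf [[nat_lit 558482134453, nat_lit 558483695029], [nat_lit 558482122037, nat_lit 558483162421], [nat_lit 558482109621, nat_lit 558482629813], [nat_lit 558482097205], [nat_lit 418862105525, nat_lit 350142108597, nat_lit 350142370741], [nat_lit 418861572917], [nat_lit 418861572913], [nat_lit 418861572909], [nat_lit 418861572905]] []))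
(.node (nat_lit 1039)
(.leaf [[nat_lit 558482134453, nat_lit 558483695029], [nat_lit 558482122037, nat_lit 558483162421], [nat_lit 558482109621, nat_lit 558482629813], [nat_lit 558482097205], [nat_lit 558482097201], [nat_lit 418861572917], [nat_lit 418861572913], [nat_lit 418861572909], [nat_lit 418861572905]] [])
(.node (nat_lit 1088)
(.leaf [[nat_lit 8726336949, nat_lit 6547908021], [nat_lit 8726324533, nat_lit 6547375413], [nat_lit 8726312117, nat_lit 6546842805], [nat_lit 8726299701, nat_lit 6546310197], [nat_lit 6544737205, nat_lit 6545777589], [nat_lit 6545244981, nat_lit 4363174709], [nat_lit 6544712373], [nat_lit 6544712369], [nat_lit 6544712365], [nat_lit 6544712361], [nat_lit 6544712357]] [[], [], [], [], [], [], [], [], [], [], [nat_lit 53614283628566, nat_lit 53614283628693]])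
(.leaf [[nat_lit 8726336949, nat_lit 6547908021], [nat_lit 8726324533, nat_lit 6547375413], [nat_lit 8726312117, nat_lit 6546842805], [nat_lit 8726299701, nat_lit 6546310197], [nat_lit 6544737205, nat_lit 6545777589], [nat_lit 6545244981, nat_lit 4363174709], [nat_lit 6544712373], [nat_lit 6544712369], [nat_lit 6544712365], [nat_lit 6544712361], [nat_lit 6544712357]] [[], [], [], [], [], [], [], [], [], [], [nat_lit 53614283628693]]))))
(.node (nat_lit 1091)
(.node (nat_lit 1090)
(.leaf [[nat_lit 8726336949, nat_lit 6547908021, nat_lit 7636342197], [nat_lit 8726324533, nat_lit 6547375413], [nat_lit 8726312117, nat_lit 6546842805], [nat_lit 8726299701, nat_lit 6546310197], [nat_lit 6544737205, nat_lit 6545777589], [nat_lit 6545244981, nat_lit 4363174709], [nat_lit 6544712373], [nat_lit 6544712369], [nat_lit 6544712365], [nat_lit 6544712361], [nat_lit 6544712357]] [[], [], [], [], [], [], [], [], [], [], [nat_lit 53614283628565]])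
(.leaf [[nat_lit 8726336949, nat_lit 6547908021, nat_lit 8726857141], [nat_lit 8726324533, nat_lit 6547375413], [nat_lit 8726312117, nat_lit 6546842805], [nat_lit 8726299701, nat_lit 6546310197], [nat_lit 7635510197, nat_lit 6545777589, nat_lit 6544737205], [nat_lit 6545244981, nat_lit 4363174709], [nat_lit 6544712373], [nat_lit 6544712369], [nat_lit 6544712365], [nat_lit 6544712361], [nat_lit 6544712357]] []))
(.node (nat_lit 1092)
(.leaf [[nat_lit 8726336949, nat_lit 8728417717, nat_lit 6547908021], [nat_lit 8726324533, nat_lit 6547375413], [nat_lit 8726312117, nat_lit 6546842805], [nat_lit 8726299701, nat_lit 6546310197], [nat_lit 76354986933, nat_lit 76355507125], [nat_lit 143983674165, nat_lit 6545244981], [nat_lit 6544712373], [nat_lit 6544712369], [nat_lit 6544712365], [nat_lit 6544712361]] [[], [], [], [], [], [], [], [], [], [], [nat_lit 53614283628564]])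
(.node (nat_lit 1093)
(.leaf [[nat_lit 76355036597, nat_lit 76357637557, nat_lit 7635822005], [nat_lit 76355024181, nat_lit 76357104949], [nat_lit 76355011765, nat_lit 76356572341], [nat_lit 76354999349, nat_lit 76356039733], [nat_lit 76354986933, nat_lit 76355507125], [nat_lit 143983674165, nat_lit 6545244981], [nat_lit 6544712373], [nat_lit 6544712369], [nat_lit 6544712365], [nat_lit 6544712361]] [])
(.leaf [[nat_lit 145074771381, nat_lit 76357637557, nat_lit 143983736245], [nat_lit 145074758965, nat_lit 76357104949, nat_lit 143983723829], [nat_lit 145074746549, nat_lit 76356572341, nat_lit 143983711413], [nat_lit 145074734133, nat_lit 76356039733, nat_lit 143983698997], [nat_lit 145074721717, nat_lit 143983686581, nat_lit 76355507125], [nat_lit 143983674165, nat_lit 6545244981], [nat_lit 6544712373], [nat_lit 6544712369], [nat_lit 6544712365], [nat_lit 6544712361]] [])))))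
(.node (nat_lit 1099)
(.node (nat_lit 1096)
(.node (nat_lit 1095)
(.leaf [[nat_lit 146167367093, nat_lit 213793985973], [nat_lit 146166834485, nat_lit 143983723829], [nat_lit 146166301877, nat_lit 143983711413], [nat_lit 146165769269, nat_lit 143983698997], [nat_lit 146165236661], [nat_lit 143983674165, nat_lit 6545244981], [nat_lit 6544712373], [nat_lit 6544712369], [nat_lit 6544712365], [nat_lit 6544712361]] [])
(.leaf [[nat_lit 282513720757, nat_lit 282515801525, nat_lit 281422685621], [nat_lit 282513708341, nat_lit 282515268917, nat_lit 281422673205], [nat_lit 282513695925, nat_lit 282514736309, nat_lit 281422660789], [nat_lit 282513683509, nat_lit 282514203701, nat_lit 281422648373], [nat_lit 145074721717, nat_lit 281422635957, nat_lit 212703941557], [nat_lit 418861572917], [nat_lit 6544712373], [nat_lit 6544712369], [nat_lit 6544712365], [nat_lit 6544712361]] []))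
(.node (nat_lit 1097)
(.leaf [[nat_lit 351232935349, nat_lit 282515801525], [nat_lit 351232922933, nat_lit 282515268917], [nat_lit 351232910517, nat_lit 282514736309], [nat_lit 351232898101, nat_lit 282514203701], [nat_lit 350142370741, nat_lit 350142628789, nat_lit 281422635957], [nat_lit 418861572917], [nat_lit 6544712373], [nat_lit 6544712369], [nat_lit 6544712365], [nat_lit 418861572901]] [])
(.node (nat_lit 1098)
(.leaf [[nat_lit 352325531061, nat_lit 418861634997], [nat_lit 352324998453, nat_lit 418861622581], [nat_lit 352324465845, nat_lit 418861610165], [nat_lit 352323933237, nat_lit 418861597749], [nat_lit 418862105525, nat_lit 281422635957], [nat_lit 418861572917], [nat_lit 418861572913], [nat_lit 418861572909], [nat_lit 418861572905], [nat_lit 418861572901]] [])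
(.leaf [[nat_lit 488671884725, nat_lit 488673965493], [nat_lit 488671872309, nat_lit 488673432885], [nat_lit 488671859893, nat_lit 488672900277], [nat_lit 488671847477, nat_lit 418862638133], [nat_lit 418862105525, nat_lit 281422635957], [nat_lit 418861572917], [nat_lit 418861572913], [nat_lit 418861572909], [nat_lit 418861572905]] []))))
(.node (nat_lit 1101)
(.node (nat_lit 1100)
(.leaf [[nat_lit 558482134453, nat_lit 558483695029], [nat_lit 558482122037, nat_lit 558483162421], [nat_lit 558482109621, nat_lit 558482629813], [nat_lit 558482097205], [nat_lit 418862105525, nat_lit 281422635957], [nat_lit 418861572917], [nat_lit 418861572913], [nat_lit 418861572909], [nat_lit 418861572905]] [])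
(.leaf [[nat_lit 558482134453, nat_lit 558483695029], [nat_lit 558482122037, nat_lit 558483162421], [nat_lit 558482109621, nat_lit 558482629813], [nat_lit 558482097205], [nat_lit 418862105525, nat_lit 281422635957], [nat_lit 418861572917], [nat_lit 418861572913], [nat_lit 418861572909], [nat_lit 418861572905]] []))
(.node (nat_lit 1102)
(.leaf [[nat_lit 558482134453, nat_lit 558483695029], [nat_lit 558482122037, nat_lit 558483162421], [nat_lit 558482109621, nat_lit 558482629813], [nat_lit 558482097205], [nat_lit 418862105525, nat_lit 281422635957], [nat_lit 418861572917], [nat_lit 418861572913], [nat_lit 418861572909], [nat_lit 418861572905]] [])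
(.node (nat_lit 1103)
(.leaf [[nat_lit 628292384181, nat_lit 628293424565], [nat_lit 628292371765, nat_lit 628292891957], [nat_lit 558482109621, nat_lit 558482629813], [nat_lit 558482097205], [nat_lit 558482097201], [nat_lit 418861572917], [nat_lit 418861572913], [nat_lit 418861572909], [nat_lit 418861572905]] [])
(.leaf [[nat_lit 628292384181, nat_lit 628293424565], [nat_lit 628292371765, nat_lit 628292891957], [nat_lit 558482109621, nat_lit 558482629813], [nat_lit 558482097205], [nat_lit 558482097201], [nat_lit 418861572917], [nat_lit 418861572913], [nat_lit 418861572909], [nat_lit 418861572905]] [])))))))))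

noncomputable def ct19 : Tc :=
(.node (nat_lit 838)
(.node (nat_lit 581)
(.node (nat_lit 389)
(.node (nat_lit 259)
(.node (nat_lit 193)
(.node (nat_lit 128)
(.node (nat_lit 64)
(.leaf [[nat_lit 85758670, nat_lit 74570, nat_lit 3195722], [nat_lit 102806342, nat_lit 17085006, nat_lit 2663114], [nat_lit 102261322], [nat_lit 102261318], [nat_lit 82, nat_lit 24906], [nat_lit 78], [nat_lit 74], [nat_lit 70], [nat_lit 66], [nat_lit 62], [nat_lit 58], [nat_lit 53], [nat_lit 49]] [])
(.leaf [[nat_lit 1159238350, nat_lit 1160291146, nat_lit 1124905678], [nat_lit 1176806214, nat_lit 1107870410, nat_lit 1091097290, nat_lit 1160291142], [nat_lit 1159238342, nat_lit 1110225730, nat_lit 1107870406], [nat_lit 1142203074, nat_lit 1142981314, nat_lit 1107870402, nat_lit 1126208194], [nat_lit 1159238334, nat_lit 1142981310, nat_lit 1107870398, nat_lit 1126208190], [nat_lit 119321397, nat_lit 103326517], [nat_lit 102793909, nat_lit 85250865], [nat_lit 102261301], [nat_lit 102261297], [nat_lit 102261293], [nat_lit 102261289], [nat_lit 53], [nat_lit 49]] [[], [], [], [nat_lit 9094969149864], [nat_lit 850813954214], [nat_lit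 846450829220], [], [], [nat_lit 13089809566], [nat_lit 837724512670, nat_lit 837724512925, nat_lit 837724513052, nat_lit 837724513180], [nat_lit 837724479516, nat_lit 837724479644, nat_lit 837724479771, nat_lit 837724479898, nat_lit 837724479899, nat_lit 837724480025, nat_lit 837724480026, nat_lit 837724480154]]))
(.node (nat_lit 129)
(.leaf [[nat_lit 69879505738, nat_lit 69827359562, nat_lit 69812925258], [nat_lit 69896020806, nat_lit 69810324294, nat_lit 69812925254], [nat_lit 69861430082, nat_lit 69812925250], [nat_lit 69879505726, nat_lit 69810324286, nat_lit 69846213438], [nat_lit 120374197, nat_lit 68228021, nat_lit 103859125], [nat_lit 119841589, nat_lit 68215605, nat_lit 103326517], [nat_lit 102793909, nat_lit 85250865], [nat_lit 102261301], [nat_lit 102261297], [nat_lit 102261293], [nat_lit 102261289], [nat_lit 53], [nat_lit 49]] [[], [], [], [], [], [], [], [], [], [], [nat_lit 837724479771, nat_lit 837724480026]])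
(.node (nat_lit 192)
(.leaf [[nat_lit 2249753294, nat_lit 2217788358], [nat_lit 2249753290, nat_lit 2217255750], [nat_lit 2249753286, nat_lit 2216723142], [nat_lit 2215682754, nat_lit 2216723138], [nat_lit 2232718014, nat_lit 2216723134], [nat_lit 119321397, nat_lit 103326517], [nat_lit 102793909, nat_lit 85250865], [nat_lit 102261301], [nat_lit 102261297], [nat_lit 102261293], [nat_lit 102261289], [nat_lit 53], [nat_lit 49]] [[], [], [], [], [], [], [], [], [], [nat_lit 837724513052], [nat_lit 837724479516, nat_lit 837724479771, nat_lit 837724479898, nat_lit 837724480025, nat_lit 837724480026]])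
(.leaf [[nat_lit 70969500490, nat_lit 70970553286, nat_lit 70901097290], [nat_lit 70969500486, nat_lit 70903178054, nat_lit 70901097286, nat_lit 70952985414], [nat_lit 70935429954, nat_lit 104924341, nat_lit 70901097282], [nat_lit 119346229, nat_lit 104391733], [nat_lit 119333813, nat_lit 103859125], [nat_lit 119321397, nat_lit 103326517], [nat_lit 102793909, nat_lit 85250865], [nat_lit 102261301], [nat_lit 102261297], [nat_lit 102261293], [nat_lit 102261289], [nat_lit 53], [nat_lit 49]] []))))
(.node (nat_lit 256)
(.node (nat_lit 194)
(.leaf [[nat_lit 139688715082, nat_lit 139673252806], [nat_lit 139671679814, nat_lit 139672720198], [nat_lit 139654644546, nat_lit 139622654786], [nat_lit 119346229, nat_lit 104391733], [nat_lit 119333813, nat_lit 103859125], [nat_lit 119321397, nat_lit 103326517], [nat_lit 102793909, nat_lit 85250865], [nat_lit 102261301], [nat_lit 102261297], [nat_lit 102261293], [nat_lit 102261289], [nat_lit 53], [nat_lit 49]] [])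
(.leaf [[nat_lit 3323765578, nat_lit 3324818374, nat_lit 3272397642], [nat_lit 3323765574, nat_lit 3324285766, nat_lit 3272397638], [nat_lit 3324285762, nat_lit 68252853], [nat_lit 3273167554, nat_lit 68240437, nat_lit 104391733], [nat_lit 119854005, nat_lit 103859125, nat_lit 68228021], [nat_lit 119321397, nat_lit 103326517], [nat_lit 102793909, nat_lit 1141940917, nat_lit 1142203061], [nat_lit 102261301], [nat_lit 102261297], [nat_lit 102261293], [nat_lit 102261289], [nat_lit 53], [nat_lit 49]] [[], [], [], [], [], [], [], [], [], [], [nat_lit 837724479643, nat_lit 837724479898, nat_lit 837724480025]]))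
(.node (nat_lit 257)
(.leaf [[nat_lit 72042980170, nat_lit 72027517894], [nat_lit 72043500358, nat_lit 68265269, nat_lit 72026985286], [nat_lit 119358645, nat_lit 104924341], [nat_lit 119346229, nat_lit 104391733], [nat_lit 119333813, nat_lit 103859125], [nat_lit 119321397, nat_lit 103326517], [nat_lit 102793909, nat_lit 85250865], [nat_lit 102261301], [nat_lit 102261297], [nat_lit 102261293], [nat_lit 102261289], [nat_lit 53], [nat_lit 49]] [[], [], [], [], [], [], [], [], [], [], [nat_lit 837724480025]])
(.node (nat_lit 258)
(.leaf [[nat_lit 140762714954, nat_lit 140730217414, nat_lit 68277685], [nat_lit 140762714950, nat_lit 105456949, nat_lit 68265269], [nat_lit 119358645, nat_lit 104924341], [nat_lit 119346229, nat_lit 104391733], [nat_lit 119333813, nat_lit 103859125], [nat_lit 119321397, nat_lit 103326517], [nat_lit 102793909, nat_lit 1141940917, nat_lit 1142203061], [nat_lit 102261301], [nat_lit 102261297], [nat_lit 102261293], [nat_lit 102261289], [nat_lit 53]] [])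
(.leaf [[nat_lit 209481929546, nat_lit 209482982342], [nat_lit 209481929542, nat_lit 105456949], [nat_lit 119358645, nat_lit 104924341], [nat_lit 119346229, nat_lit 104391733], [nat_lit 119333813, nat_lit 103859125], [nat_lit 119321397, nat_lit 103326517], [nat_lit 102793909, nat_lit 85250865], [nat_lit 102261301], [nat_lit 102261297], [nat_lit 102261293], [nat_lit 102261289], [nat_lit 53]] [])))))
(.node (nat_lit 324)
(.node (nat_lit 321)
(.node (nat_lit 320)
(.leaf [[nat_lit 4431315786, nat_lit 4363174730], [nat_lit 4431315782, nat_lit 4363174726], [nat_lit 4363682502, nat_lit 4363174722, nat_lit 104924341], [nat_lit 4363682498, nat_lit 68240437, nat_lit 104391733], [nat_lit 119333813, nat_lit 103859125], [nat_lit 119321397, nat_lit 103326517], [nat_lit 102793909, nat_lit 2215682741], [nat_lit 102261301], [nat_lit 102261297], [nat_lit 102261293], [nat_lit 102261289], [nat_lit 53], [nat_lit 49]] [[], [], [], [], [], [], [], [], [], [], [nat_lit 837724479770, nat_lit 837724480025]])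
(.leaf [[nat_lit 73116980042, nat_lit 73084482502, nat_lit 68277685], [nat_lit 73116980038, nat_lit 105456949, nat_lit 68265269], [nat_lit 119358645, nat_lit 104924341], [nat_lit 119346229, nat_lit 104391733], [nat_lit 119333813, nat_lit 103859125], [nat_lit 119321397, nat_lit 103326517], [nat_lit 102793909, nat_lit 1141940917, nat_lit 1142203061], [nat_lit 102261301], [nat_lit 102261297], [nat_lit 102261293], [nat_lit 102261289], [nat_lit 53]] []))
(.node (nat_lit 322)
(.leaf [[nat_lit 141836714826, nat_lit 68277685, nat_lit 141802644298], [nat_lit 119371061, nat_lit 121972021, nat_lit 105456949], [nat_lit 119358645, nat_lit 104924341], [nat_lit 119346229, nat_lit 104391733], [nat_lit 119333813, nat_lit 103859125], [nat_lit 119321397, nat_lit 103326517], [nat_lit 102793909, nat_lit 2215682741], [nat_lit 102261301], [nat_lit 102261297], [nat_lit 102261293], [nat_lit 102261289], [nat_lit 53]] [])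
(.node (nat_lit 323)
(.leaf [[nat_lit 119383477, nat_lit 122504629, nat_lit 119903669, nat_lit 105989557], [nat_lit 119371061, nat_lit 121972021, nat_lit 105456949], [nat_lit 119358645, nat_lit 104924341], [nat_lit 119346229, nat_lit 104391733], [nat_lit 119333813, nat_lit 103859125], [nat_lit 119321397, nat_lit 103326517], [nat_lit 102793909, nat_lit 1141940917, nat_lit 1142203061], [nat_lit 102261301], [nat_lit 102261297], [nat_lit 102261293], [nat_lit 102261289], [nat_lit 53]] [])
(.leaf [[nat_lit 279275144010, nat_lit 279242113866], [nat_lit 119371061, nat_lit 121972021, nat_lit 105456949, nat_lit 119891253], [nat_lit 119358645, nat_lit 104924341, nat_lit 119878837], [nat_lit 119346229, nat_lit 104391733], [nat_lit 119333813, nat_lit 103859125], [nat_lit 119321397, nat_lit 103326517], [nat_lit 102793909, nat_lit 102286129], [nat_lit 102261301], [nat_lit 102261297], [nat_lit 102261293], [nat_lit 102261289], [nat_lit 53]] []))))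
(.node (nat_lit 386)
(.node (nat_lit 384)
(.leaf [[nat_lit 5471245130, nat_lit 5470982986, nat_lit 5454730058, nat_lit 5471503178], [nat_lit 5471245126, nat_lit 105456949, nat_lit 68265269], [nat_lit 5454730050, nat_lit 68252853, nat_lit 104924341], [nat_lit 120906805, nat_lit 68240437, nat_lit 104391733], [nat_lit 119854005, nat_lit 103859125, nat_lit 68228021], [nat_lit 119321397, nat_lit 103326517], [nat_lit 102793909, nat_lit 2215682741], [nat_lit 102261301], [nat_lit 102261297], [nat_lit 102261293], [nat_lit 102261289], [nat_lit 53]] [[], [], [], [], [], [], [], [], [], [], [nat_lit 837724479897]])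
(.node (nat_lit 385)
(.leaf [[nat_lit 74190459722, nat_lit 74191512518], [nat_lit 74190459718, nat_lit 105456949], [nat_lit 119358645, nat_lit 104924341], [nat_lit 119346229, nat_lit 104391733], [nat_lit 119333813, nat_lit 103859125], [nat_lit 119321397, nat_lit 103326517], [nat_lit 102793909, nat_lit 2215682741], [nat_lit 102261301], [nat_lit 102261297], [nat_lit 102261293], [nat_lit 102261289], [nat_lit 53]] [])
(.leaf [[nat_lit 119383477, nat_lit 122504629, nat_lit 119903669, nat_lit 105989557], [nat_lit 119371061, nat_lit 121972021, nat_lit 105456949], [nat_lit 119358645, nat_lit 104924341], [nat_lit 119346229, nat_lit 104391733], [nat_lit 119333813, nat_lit 103859125], [nat_lit 119321397, nat_lit 103326517], [nat_lit 102793909, nat_lit 1141940917, nat_lit 1142203061], [nat_lit 102261301], [nat_lit 102261297], [nat_lit 102261293], [nat_lit 102261289], [nat_lit 53]] [])))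
(.node (nat_lit 387)
(.leaf [[nat_lit 119383477, nat_lit 122504629, nat_lit 120423861, nat_lit 105989557], [nat_lit 119371061, nat_lit 121972021, nat_lit 105456949, nat_lit 119891253], [nat_lit 119358645, nat_lit 104924341, nat_lit 119878837], [nat_lit 119346229, nat_lit 104391733], [nat_lit 119333813, nat_lit 103859125], [nat_lit 119321397, nat_lit 103326517], [nat_lit 102793909, nat_lit 2215682741], [nat_lit 102261301], [nat_lit 102261297], [nat_lit 102261293], [nat_lit 102261289], [nat_lit 53]] [])
(.node (nat_lit 388)
(.leaf [[nat_lit 119383477, nat_lit 121984437, nat_lit 105989557, nat_lit 119903669], [nat_lit 119371061, nat_lit 121972021, nat_lit 105456949, nat_lit 119891253], [nat_lit 119358645, nat_lit 104924341, nat_lit 119878837], [nat_lit 119346229, nat_lit 104391733], [nat_lit 119333813, nat_lit 103859125], [nat_lit 119321397, nat_lit 103326517], [nat_lit 102793909, nat_lit 1141940917, nat_lit 1159238325], [nat_lit 102261301], [nat_lit 102261297], [nat_lit 102261293], [nat_lit 102261289], [nat_lit 53]] [])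
(.leaf [[nat_lit 119383477, nat_lit 121984437, nat_lit 105989557, nat_lit 119903669], [nat_lit 119371061, nat_lit 121972021, nat_lit 119891253, nat_lit 105456949], [nat_lit 119358645, nat_lit 121439413, nat_lit 104924341], [nat_lit 119346229, nat_lit 104391733], [nat_lit 119333813, nat_lit 103859125], [nat_lit 119321397, nat_lit 103326517], [nat_lit 102793909, nat_lit 102286129], [nat_lit 102261301], [nat_lit 102261297], [nat_lit 102261293], [nat_lit 102261289], [nat_lit 53]] []))))))
(.node (nat_lit 514)
(.node (nat_lit 452)
(.node (nat_lit 449)
(.node (nat_lit 448)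
(.leaf [[nat_lit 6544712398, nat_lit 6544720714], [nat_lit 6544712394, nat_lit 6545244998], [nat_lit 6544712390], [nat_lit 119346229, nat_lit 104391733], [nat_lit 119333813, nat_lit 103859125], [nat_lit 119321397, nat_lit 103326517], [nat_lit 102793909, nat_lit 2215682741], [nat_lit 102261301], [nat_lit 102261297], [nat_lit 102261293], [nat_lit 102261289], [nat_lit 53]] [[], [], [], [], [], [], [], [], [], [], [nat_lit 837724479769]])
(.leaf [[nat_lit 119383477, nat_lit 122504629, nat_lit 119903669, nat_lit 105989557], [nat_lit 119371061, nat_lit 121972021, nat_lit 105456949], [nat_lit 119358645, nat_lit 104924341], [nat_lit 119346229, nat_lit 104391733], [nat_lit 119333813, nat_lit 103859125], [nat_lit 119321397, nat_lit 103326517], [nat_lit 102793909, nat_lit 2215682741], [nat_lit 102261301], [nat_lit 102261297], [nat_lit 102261293], [nat_lit 102261289], [nat_lit 53]] []))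
(.node (nat_lit 450)
(.leaf [[nat_lit 119383477, nat_lit 122504629, nat_lit 120423861, nat_lit 105989557], [nat_lit 119371061, nat_lit 121972021, nat_lit 105456949, nat_lit 119891253], [nat_lit 119358645, nat_lit 104924341, nat_lit 119878837], [nat_lit 119346229, nat_lit 104391733], [nat_lit 119333813, nat_lit 103859125], [nat_lit 119321397, nat_lit 103326517], [nat_lit 102793909, nat_lit 2215682741], [nat_lit 102261301], [nat_lit 102261297], [nat_lit 102261293], [nat_lit 102261289], [nat_lit 53]] [])
(.node (nat_lit 451)
(.leaf [[nat_lit 119383477, nat_lit 121984437, nat_lit 105989557, nat_lit 119903669], [nat_lit 119371061, nat_lit 121972021, nat_lit 105456949, nat_lit 119891253], [nat_lit 119358645, nat_lit 104924341, nat_lit 119878837], [nat_lit 119346229, nat_lit 104391733], [nat_lit 119333813, nat_lit 103859125], [nat_lit 119321397, nat_lit 103326517], [nat_lit 102793909, nat_lit 2215682741], [nat_lit 102261301], [nat_lit 102261297], [nat_lit 102261293], [nat_lit 102261289], [nat_lit 53]] [])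
(.leaf [[nat_lit 119383477, nat_lit 121984437, nat_lit 105989557, nat_lit 119903669], [nat_lit 119371061, nat_lit 121972021, nat_lit 119891253, nat_lit 105456949], [nat_lit 119358645, nat_lit 121439413, nat_lit 104924341], [nat_lit 119346229, nat_lit 104391733], [nat_lit 119333813, nat_lit 103859125], [nat_lit 119321397, nat_lit 103326517], [nat_lit 102793909, nat_lit 2232718005], [nat_lit 102261301], [nat_lit 102261297], [nat_lit 102261293], [nat_lit 102261289], [nat_lit 53]] []))))
(.node (nat_lit 454)
(.node (nat_lit 453)
(.leaf [[nat_lit 119383477, nat_lit 121984437, nat_lit 105989557, nat_lit 119903669], [nat_lit 119371061, nat_lit 121972021, nat_lit 119891253, nat_lit 105456949], [nat_lit 119358645, nat_lit 121439413, nat_lit 104924341], [nat_lit 119346229, nat_lit 104391733], [nat_lit 119333813, nat_lit 103859125], [nat_lit 119321397, nat_lit 103326517], [nat_lit 102793909, nat_lit 1141940917, nat_lit 1159238325], [nat_lit 102261301], [nat_lit 102261297], [nat_lit 102261293], [nat_lit 102261289]] [])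
(.leaf [[nat_lit 418861572938], [nat_lit 69912585525, nat_lit 69915186485, nat_lit 119891253], [nat_lit 69912573109, nat_lit 69914653877], [nat_lit 69912560693, nat_lit 69914121269], [nat_lit 69912548277, nat_lit 69913588661], [nat_lit 69912535861, nat_lit 103326517], [nat_lit 102793909, nat_lit 69895500593], [nat_lit 102261301], [nat_lit 102261297], [nat_lit 102261293], [nat_lit 102261289]] []))
(.node (nat_lit 512)
(.leaf [[nat_lit 7635510214, nat_lit 105989557, nat_lit 119383477, nat_lit 103908789], [nat_lit 1193370933, nat_lit 121972021, nat_lit 68265269, nat_lit 105456949], [nat_lit 1193358517, nat_lit 104924341, nat_lit 68252853], [nat_lit 1193346101, nat_lit 104391733, nat_lit 68240437], [nat_lit 1193333685, nat_lit 103859125, nat_lit 68228021], [nat_lit 1193321269, nat_lit 103326517, nat_lit 68215605], [nat_lit 102793909, nat_lit 2215682741], [nat_lit 102261301], [nat_lit 102261297], [nat_lit 102261293], [nat_lit 102261289], [nat_lit 53]] [[], [], [], [], [], [], [], [], [], [], [nat_lit 837724479641, nat_lit 837724479896]])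
(.node (nat_lit 513)
(.leaf [[nat_lit 1193383349, nat_lit 1195984309, nat_lit 105989557, nat_lit 85312949], [nat_lit 1193370933, nat_lit 121972021, nat_lit 85300533, nat_lit 105456949], [nat_lit 1193358517, nat_lit 104924341, nat_lit 85288117], [nat_lit 1193346101, nat_lit 104391733, nat_lit 85275701], [nat_lit 1193333685, nat_lit 103859125, nat_lit 85263285], [nat_lit 1193321269, nat_lit 103326517, nat_lit 85250869], [nat_lit 102793909, nat_lit 2215682741], [nat_lit 102261301], [nat_lit 102261297], [nat_lit 102261293], [nat_lit 102261289], [nat_lit 53]] [])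
(.leaf [[nat_lit 119383477, nat_lit 121984437, nat_lit 105989557, nat_lit 119903669], [nat_lit 119371061, nat_lit 121972021, nat_lit 105456949, nat_lit 119891253], [nat_lit 119358645, nat_lit 104924341, nat_lit 119878837], [nat_lit 119346229, nat_lit 104391733], [nat_lit 119333813, nat_lit 103859125], [nat_lit 119321397, nat_lit 103326517], [nat_lit 102793909, nat_lit 2215682741], [nat_lit 102261301], [nat_lit 102261297], [nat_lit 102261293], [nat_lit 102261289], [nat_lit 53]] [])))))
(.node (nat_lit 519)
(.node (nat_lit 516)
(.node (nat_lit 515)
(.leaf [[nat_lit 119383477, nat_lit 121984437, nat_lit 105989557, nat_lit 119903669], [nat_lit 119371061, nat_lit 121972021, nat_lit 119891253, nat_lit 105456949], [nat_lit 119358645, nat_lit 121439413, nat_lit 104924341], [nat_lit 119346229, nat_lit 104391733], [nat_lit 119333813, nat_lit 103859125], [nat_lit 119321397, nat_lit 103326517], [nat_lit 102793909, nat_lit 2232718005], [nat_lit 102261301], [nat_lit 102261297], [nat_lit 102261293], [nat_lit 102261289], [nat_lit 53]] [])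
(.leaf [[nat_lit 119383477, nat_lit 121984437, nat_lit 105989557, nat_lit 119903669], [nat_lit 119371061, nat_lit 121972021, nat_lit 119891253, nat_lit 105456949], [nat_lit 119358645, nat_lit 121439413, nat_lit 104924341], [nat_lit 119346229, nat_lit 104391733], [nat_lit 119333813, nat_lit 103859125], [nat_lit 119321397, nat_lit 103326517], [nat_lit 102793909, nat_lit 2232718005], [nat_lit 102261301], [nat_lit 102261297], [nat_lit 102261293], [nat_lit 102261289]] []))
(.node (nat_lit 517)
(.leaf [[nat_lit 69912597941, nat_lit 69915198901, nat_lit 69915719093, nat_lit 119903669], [nat_lit 69912585525, nat_lit 69915186485, nat_lit 119891253], [nat_lit 69912573109, nat_lit 69914653877], [nat_lit 69912560693, nat_lit 69914121269], [nat_lit 69912548277, nat_lit 69913588661], [nat_lit 69912535861, nat_lit 103326517], [nat_lit 102793909, nat_lit 2232718005], [nat_lit 102261301], [nat_lit 102261297], [nat_lit 102261293], [nat_lit 102261289]] [])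
(.node (nat_lit 518)
(.leaf [[nat_lit 69912597941, nat_lit 69915198901, nat_lit 69915719093, nat_lit 69913118133], [nat_lit 69912585525, nat_lit 69915186485, nat_lit 69913105717], [nat_lit 69912573109, nat_lit 69914653877], [nat_lit 69912560693, nat_lit 69914121269], [nat_lit 69912548277, nat_lit 69913588661], [nat_lit 69912535861, nat_lit 103326517], [nat_lit 102793909, nat_lit 1141940917, nat_lit 1159238325], [nat_lit 102261301], [nat_lit 102261297], [nat_lit 102261293], [nat_lit 102261289]] [])
(.leaf [[nat_lit 139705812405, nat_lit 139708413365, nat_lit 69915719093, nat_lit 69913118133], [nat_lit 139705799989, nat_lit 69915186485, nat_lit 69913105717], [nat_lit 139705787573, nat_lit 69914653877], [nat_lit 139705775157, nat_lit 69914121269], [nat_lit 139705762741, nat_lit 69913588661], [nat_lit 139722785589], [nat_lit 102793909, nat_lit 139688715057], [nat_lit 102261301], [nat_lit 102261297], [nat_lit 102261293], [nat_lit 102261289]] []))))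
(.node (nat_lit 578)
(.node (nat_lit 576)
(.leaf [[nat_lit 8726283206, nat_lit 2266863029, nat_lit 1195984309, nat_lit 2267383221, nat_lit 2269984181], [nat_lit 2266850613, nat_lit 2269451573, nat_lit 1193370933], [nat_lit 2266838197, nat_lit 2268918965], [nat_lit 2266825781, nat_lit 2268386357], [nat_lit 2266813365, nat_lit 2267853749], [nat_lit 2267321141, nat_lit 2215695157], [nat_lit 2249753269, nat_lit 102793909], [nat_lit 102261301], [nat_lit 102261297], [nat_lit 102261293], [nat_lit 102261289], [nat_lit 53]] [[], [], [], [], [], [], [], [], [], [], [nat_lit 837724479513, nat_lit 837724479768]])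
(.node (nat_lit 577)
(.leaf [[nat_lit 2266863029, nat_lit 2269984181, nat_lit 2267383221], [nat_lit 2266850613, nat_lit 2269451573], [nat_lit 2266838197, nat_lit 2268918965], [nat_lit 2266825781, nat_lit 2268386357], [nat_lit 2266813365, nat_lit 2267853749], [nat_lit 2267321141, nat_lit 2232730421], [nat_lit 2249753269, nat_lit 102793909], [nat_lit 102261301], [nat_lit 102261297], [nat_lit 102261293], [nat_lit 102261289], [nat_lit 53]] [])
(.leaf [[nat_lit 2269984181, nat_lit 1193383349, nat_lit 1193903541, nat_lit 85312949], [nat_lit 2269451573, nat_lit 1193370933, nat_lit 85300533], [nat_lit 2268918965, nat_lit 2249802933], [nat_lit 2268386357, nat_lit 85275701], [nat_lit 2267853749, nat_lit 85263285], [nat_lit 2267321141, nat_lit 85250869], [nat_lit 2249753269, nat_lit 102793909], [nat_lit 102261301], [nat_lit 102261297], [nat_lit 102261293], [nat_lit 102261289], [nat_lit 53]] [])))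
(.node (nat_lit 579)
(.leaf [[nat_lit 2269984181, nat_lit 1193383349, nat_lit 1193903541, nat_lit 85312949], [nat_lit 2269451573, nat_lit 1193370933, nat_lit 85300533], [nat_lit 2268918965, nat_lit 2249802933], [nat_lit 2268386357, nat_lit 85275701], [nat_lit 2267853749, nat_lit 85263285], [nat_lit 2267321141, nat_lit 85250869], [nat_lit 2249753269, nat_lit 102793909], [nat_lit 102261301], [nat_lit 102261297], [nat_lit 102261293], [nat_lit 102261289]] [])
(.node (nat_lit 580)
(.leaf [[nat_lit 1193383349, nat_lit 1195984309, nat_lit 1196242357, nat_lit 85312949, nat_lit 1193903541], [nat_lit 1193370933, nat_lit 1195451701, nat_lit 1195709749, nat_lit 85300533], [nat_lit 1193358517, nat_lit 104924341, nat_lit 85288117, nat_lit 1176843445], [nat_lit 1193346101, nat_lit 104391733, nat_lit 85275701], [nat_lit 1193333685, nat_lit 103859125, nat_lit 85263285], [nat_lit 1193321269, nat_lit 1193579317, nat_lit 85250869], [nat_lit 2249753269, nat_lit 102793909], [nat_lit 102261301], [nat_lit 102261297], [nat_lit 102261293], [nat_lit 102261289]] [])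
(.leaf [[nat_lit 69912597941, nat_lit 69915198901, nat_lit 69915719093, nat_lit 69913118133], [nat_lit 69912585525, nat_lit 69915186485, nat_lit 69913105717], [nat_lit 69912573109, nat_lit 69914653877], [nat_lit 69912560693, nat_lit 69914121269], [nat_lit 69912548277, nat_lit 69913588661], [nat_lit 69912535861, nat_lit 103326517], [nat_lit 2249753269, nat_lit 102793909], [nat_lit 102261301], [nat_lit 102261297], [nat_lit 102261293], [nat_lit 102261289]] [])))))))
(.node (nat_lit 711)
(.node (nat_lit 646)
(.node (nat_lit 641)
(.node (nat_lit 583)
(.node (nat_lit 582)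
(.leaf [[nat_lit 139705812405, nat_lit 139708413365, nat_lit 69915719093, nat_lit 69913118133], [nat_lit 139705799989, nat_lit 69915186485, nat_lit 69913105717], [nat_lit 139705787573, nat_lit 69914653877], [nat_lit 139705775157, nat_lit 69914121269], [nat_lit 139705762741, nat_lit 69913588661], [nat_lit 139722785589], [nat_lit 102793909, nat_lit 2232718005], [nat_lit 102261301], [nat_lit 102261297], [nat_lit 102261293], [nat_lit 102261289]] [])
(.leaf [[nat_lit 139705812405, nat_lit 139708413365, nat_lit 139708671413, nat_lit 139706332597], [nat_lit 139705799989, nat_lit 69915186485, nat_lit 139706320181], [nat_lit 139705787573, nat_lit 69914653877], [nat_lit 139705775157, nat_lit 69914121269], [nat_lit 139705762741, nat_lit 69913588661], [nat_lit 139722785589], [nat_lit 102793909, nat_lit 1176011445, nat_lit 1159238325], [nat_lit 102261301], [nat_lit 102261297], [nat_lit 102261293], [nat_lit 102261289]] []))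
(.node (nat_lit 584)
(.leaf [[nat_lit 209499026869, nat_lit 209501627829, nat_lit 139706332597, nat_lit 209485112757], [nat_lit 209499014453, nat_lit 209501095221, nat_lit 209484580149], [nat_lit 209499002037, nat_lit 209484047541], [nat_lit 209498989621, nat_lit 209483514933], [nat_lit 209498977205, nat_lit 209482982325], [nat_lit 139722785589], [nat_lit 209481929521, nat_lit 102793909], [nat_lit 102261301], [nat_lit 102261297], [nat_lit 102261293], [nat_lit 102261289]] [])
(.node (nat_lit 640)
(.leaf [[nat_lit 3340862901, nat_lit 2269984181, nat_lit 2215757237, nat_lit 2267383221], [nat_lit 3341890869, nat_lit 2215744821, nat_lit 2269451573], [nat_lit 3340838069, nat_lit 2268918965, nat_lit 2215732405], [nat_lit 3340825653, nat_lit 2268386357, nat_lit 2215719989], [nat_lit 3340813237, nat_lit 2267853749, nat_lit 2215707573], [nat_lit 3340800821, nat_lit 2215695157, nat_lit 2267321141], [nat_lit 2249753269, nat_lit 2216723125], [nat_lit 102261301], [nat_lit 102261297], [nat_lit 102261293], [nat_lit 102261289], [nat_lit 53]] [[], [], [], [], [], [], [], [], [], [], [nat_lit 837724479640, nat_lit 837724479767]])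
(.leaf [[nat_lit 3340862901, nat_lit 3343463861, nat_lit 2232792501, nat_lit 2269984181], [nat_lit 3340850485, nat_lit 2269451573, nat_lit 2232780085], [nat_lit 3340838069, nat_lit 2268918965, nat_lit 2232767669], [nat_lit 3340825653, nat_lit 2268386357, nat_lit 2232755253], [nat_lit 3340813237, nat_lit 2267853749, nat_lit 2232742837], [nat_lit 3340800821, nat_lit 2232730421, nat_lit 2267321141], [nat_lit 2249753269, nat_lit 102793909], [nat_lit 102261301], [nat_lit 102261297], [nat_lit 102261293], [nat_lit 102261289], [nat_lit 53]] [[], [], [], [], [], [], [], [], [], [], [nat_lit 837724479767]]))))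
(.node (nat_lit 643)
(.node (nat_lit 642)
(.leaf [[nat_lit 2266863029, nat_lit 2269463989, nat_lit 2269984181, nat_lit 2267383221], [nat_lit 2266850613, nat_lit 2269451573, nat_lit 2267370805], [nat_lit 2266838197, nat_lit 2268918965], [nat_lit 2266825781, nat_lit 2268386357], [nat_lit 2266813365, nat_lit 2267853749], [nat_lit 2267321141, nat_lit 2232730421], [nat_lit 2249753269, nat_lit 102793909], [nat_lit 102261301], [nat_lit 102261297], [nat_lit 102261293], [nat_lit 102261289]] [])
(.leaf [[nat_lit 2266863029, nat_lit 2269463989, nat_lit 2269984181, nat_lit 2267383221], [nat_lit 2266850613, nat_lit 2269451573, nat_lit 2267370805], [nat_lit 2266838197, nat_lit 2268918965], [nat_lit 2266825781, nat_lit 2268386357], [nat_lit 2266813365, nat_lit 2267853749], [nat_lit 2267321141, nat_lit 2232730421], [nat_lit 2249753269, nat_lit 102793909], [nat_lit 102261301], [nat_lit 102261297], [nat_lit 102261293], [nat_lit 102261289]] []))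
(.node (nat_lit 644)
(.leaf [[nat_lit 2266863029, nat_lit 2269463989, nat_lit 2269984181, nat_lit 2267383221], [nat_lit 2266850613, nat_lit 2269451573, nat_lit 2267370805], [nat_lit 2266838197, nat_lit 2268918965], [nat_lit 2266825781, nat_lit 2268386357], [nat_lit 2266813365, nat_lit 2267853749], [nat_lit 2267321141, nat_lit 2232730421], [nat_lit 2249753269, nat_lit 102793909], [nat_lit 102261301], [nat_lit 102261297], [nat_lit 102261293], [nat_lit 102261289]] [])
(.node (nat_lit 645)
(.leaf [[nat_lit 70986597813, nat_lit 70989198773, nat_lit 69878527413, nat_lit 70987118005, nat_lit 70972683701], [nat_lit 70986585397, nat_lit 70988666165, nat_lit 69878514997, nat_lit 70972151093], [nat_lit 70986572981, nat_lit 70971618485, nat_lit 69878502581], [nat_lit 70986560565, nat_lit 70971085877, nat_lit 69878490165], [nat_lit 70986548149, nat_lit 70970553269, nat_lit 69878477749], [nat_lit 70986535733, nat_lit 69878465333, nat_lit 2267321141], [nat_lit 2249753269, nat_lit 102793909], [nat_lit 102261301], [nat_lit 102261297], [nat_lit 102261293], [nat_lit 102261289]] [])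
(.leaf [[nat_lit 139705812405, nat_lit 139708413365, nat_lit 139708671413, nat_lit 139706332597], [nat_lit 139705799989, nat_lit 139707880757, nat_lit 139708138805], [nat_lit 139705787573, nat_lit 70971618485, nat_lit 139689272501], [nat_lit 139705775157, nat_lit 70971085877], [nat_lit 139705762741, nat_lit 70970553269], [nat_lit 139722785589], [nat_lit 2249753269, nat_lit 102793909], [nat_lit 102261301], [nat_lit 102261297], [nat_lit 102261293], [nat_lit 102261289]] [])))))
(.node (nat_lit 705)
(.node (nat_lit 648)
(.node (nat_lit 647)
(.leaf [[nat_lit 209499026869, nat_lit 209501627829, nat_lit 139706332597, nat_lit 209485112757], [nat_lit 209499014453, nat_lit 209501095221, nat_lit 209484580149], [nat_lit 209499002037, nat_lit 209484047541], [nat_lit 209498989621, nat_lit 209483514933], [nat_lit 209498977205, nat_lit 209482982325], [nat_lit 139722785589], [nat_lit 2249753269, nat_lit 102793909], [nat_lit 102261301], [nat_lit 102261297], [nat_lit 102261293], [nat_lit 102261289]] [])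
(.leaf [[nat_lit 209499026869, nat_lit 209501627829, nat_lit 209499547061, nat_lit 209485112757], [nat_lit 209499014453, nat_lit 209501095221, nat_lit 209484580149], [nat_lit 209499002037, nat_lit 209484047541], [nat_lit 209498989621, nat_lit 209483514933], [nat_lit 209498977205, nat_lit 209482982325], [nat_lit 139722785589], [nat_lit 102793909, nat_lit 1176011445, nat_lit 1159238325], [nat_lit 102261301], [nat_lit 102261297], [nat_lit 102261293]] []))
(.node (nat_lit 649)
(.leaf [[nat_lit 279292241333, nat_lit 279294842293, nat_lit 209499547061], [nat_lit 279292228917, nat_lit 279294309685], [nat_lit 279292216501, nat_lit 279293777077], [nat_lit 279292204085, nat_lit 279293244469], [nat_lit 279292191669, nat_lit 279292711861], [nat_lit 139722785589], [nat_lit 279275143985, nat_lit 102793909], [nat_lit 102261301], [nat_lit 102261297], [nat_lit 102261293]] [])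
(.node (nat_lit 704)
(.leaf [[nat_lit 4414342581, nat_lit 3343463861, nat_lit 3340862901, nat_lit 3326948789], [nat_lit 4414330165, nat_lit 3326416181, nat_lit 3340850485], [nat_lit 4414317749, nat_lit 3325883573], [nat_lit 4414305333, nat_lit 3325350965], [nat_lit 4414292917, nat_lit 3324818357], [nat_lit 4414280501, nat_lit 3324285749], [nat_lit 2249753269, nat_lit 2216723125], [nat_lit 102261301], [nat_lit 102261297], [nat_lit 102261293], [nat_lit 6544712357], [nat_lit 53]] [[], [], [], [], [], [], [], [], [], [], [nat_lit 837724479512, nat_lit 837724479639, nat_lit 837724479767]])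
(.leaf [[nat_lit 4414342581, nat_lit 4416943541, nat_lit 3326948789], [nat_lit 4414330165, nat_lit 3342931253, nat_lit 3326416181], [nat_lit 4414317749, nat_lit 3325883573], [nat_lit 4414305333, nat_lit 3325350965], [nat_lit 4414292917, nat_lit 3324818357], [nat_lit 4414280501, nat_lit 3324285749], [nat_lit 2249753269, nat_lit 2216723125], [nat_lit 102261301], [nat_lit 102261297], [nat_lit 102261293], [nat_lit 102261289]] [[], [], [], [], [], [], [], [], [], [], [nat_lit 837724479639]]))))
(.node (nat_lit 708)
(.node (nat_lit 706)
(.leaf [[nat_lit 3340862901, nat_lit 3343463861, nat_lit 2232792501, nat_lit 3326948789, nat_lit 3341383093], [nat_lit 3340850485, nat_lit 3326416181, nat_lit 2232780085, nat_lit 3341370677], [nat_lit 3340838069, nat_lit 3325883573, nat_lit 2232767669], [nat_lit 3340825653, nat_lit 3325350965, nat_lit 2232755253], [nat_lit 3340813237, nat_lit 3324818357, nat_lit 2232742837], [nat_lit 3340800821, nat_lit 2232730421, nat_lit 3324285749], [nat_lit 2249753269, nat_lit 2216723125], [nat_lit 102261301], [nat_lit 102261297], [nat_lit 102261293], [nat_lit 102261289]] [])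
(.node (nat_lit 707)
(.leaf [[nat_lit 3340862901, nat_lit 3343463861, nat_lit 2232792501, nat_lit 3341383093, nat_lit 3326948789], [nat_lit 3340850485, nat_lit 3342931253, nat_lit 2232780085, nat_lit 3326416181], [nat_lit 3340838069, nat_lit 3325883573, nat_lit 2232767669], [nat_lit 3340825653, nat_lit 3325350965, nat_lit 2232755253], [nat_lit 3340813237, nat_lit 3324818357, nat_lit 2232742837], [nat_lit 3340800821, nat_lit 2232730421, nat_lit 3324285749], [nat_lit 2249753269, nat_lit 2216723125], [nat_lit 102261301], [nat_lit 102261297], [nat_lit 102261293], [nat_lit 102261289]] [])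
(.leaf [[nat_lit 3340862901, nat_lit 3343463861, nat_lit 2232792501, nat_lit 3341383093, nat_lit 3326948789], [nat_lit 3340850485, nat_lit 3342931253, nat_lit 2232780085, nat_lit 3326416181], [nat_lit 3340838069, nat_lit 3325883573, nat_lit 2232767669], [nat_lit 3340825653, nat_lit 3325350965, nat_lit 2232755253], [nat_lit 3340813237, nat_lit 3324818357, nat_lit 2232742837], [nat_lit 3340800821, nat_lit 2232730421, nat_lit 3324285749], [nat_lit 2249753269, nat_lit 2216723125], [nat_lit 102261301], [nat_lit 102261297], [nat_lit 102261293], [nat_lit 102261289]] [])))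
(.node (nat_lit 709)
(.leaf [[nat_lit 72060077493, nat_lit 72062678453, nat_lit 72062936501, nat_lit 72060597685], [nat_lit 72060065077, nat_lit 72062145845, nat_lit 72062403893], [nat_lit 72060052661, nat_lit 70971618485, nat_lit 72043537589], [nat_lit 72060040245, nat_lit 70971085877], [nat_lit 72060027829, nat_lit 70970553269], [nat_lit 72042980149, nat_lit 3324285749], [nat_lit 2249753269, nat_lit 2216723125], [nat_lit 102261301], [nat_lit 102261297], [nat_lit 102261293], [nat_lit 102261289]] [])
(.node (nat_lit 710)
(.leaf [[nat_lit 140779812277, nat_lit 140782413237, nat_lit 139671741877, nat_lit 140780332469], [nat_lit 140779799861, nat_lit 140781880629, nat_lit 139671729461], [nat_lit 140779787445, nat_lit 140781348021, nat_lit 139671717045], [nat_lit 140779775029, nat_lit 140780815413, nat_lit 139671704629], [nat_lit 140779762613, nat_lit 140780282805, nat_lit 139671692213], [nat_lit 141836714805, nat_lit 139671679797], [nat_lit 2249753269, nat_lit 2216723125], [nat_lit 102261301], [nat_lit 102261297], [nat_lit 102261293], [nat_lit 102261289]] [])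
(.leaf [[nat_lit 209499026869, nat_lit 209501627829, nat_lit 209499547061, nat_lit 209485112757], [nat_lit 209499014453, nat_lit 209501095221, nat_lit 209484580149], [nat_lit 209499002037, nat_lit 209484047541], [nat_lit 209498989621, nat_lit 209483514933], [nat_lit 209498977205, nat_lit 209482982325], [nat_lit 209481929525, nat_lit 141836714805], [nat_lit 2249753269, nat_lit 102793909], [nat_lit 102261301], [nat_lit 102261297], [nat_lit 102261293]] []))))))
(.node (nat_lit 775)
(.node (nat_lit 769)
(.node (nat_lit 713)
(.node (nat_lit 712)
(.leaf [[nat_lit 279292241333, nat_lit 279294842293, nat_lit 209499547061], [nat_lit 279292228917, nat_lit 279294309685], [nat_lit 279292216501, nat_lit 279293777077], [nat_lit 279292204085, nat_lit 279293244469], [nat_lit 279292191669, nat_lit 279292711861], [nat_lit 279275143989, nat_lit 140762972981], [nat_lit 2249753269, nat_lit 102793909], [nat_lit 102261301], [nat_lit 102261297], [nat_lit 102261293]] [])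
(.leaf [[nat_lit 279292241333, nat_lit 279294842293, nat_lit 279292761525], [nat_lit 279292228917, nat_lit 279294309685], [nat_lit 279292216501, nat_lit 279293777077], [nat_lit 279292204085, nat_lit 279293244469], [nat_lit 279292191669, nat_lit 279292711861], [nat_lit 279275143989, nat_lit 279242113845], [nat_lit 279275143985, nat_lit 102793909], [nat_lit 102261301], [nat_lit 102261297], [nat_lit 102261293]] []))
(.node (nat_lit 714)
(.leaf [[nat_lit 349085455797, nat_lit 279294842293, nat_lit 279292761525], [nat_lit 349085443381, nat_lit 279294309685], [nat_lit 349085430965, nat_lit 279293777077], [nat_lit 349085418549, nat_lit 279293244469], [nat_lit 279292191669, nat_lit 279292711861], [nat_lit 418861572917], [nat_lit 418861572913], [nat_lit 102261301], [nat_lit 102261297], [nat_lit 102261293]] [])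
(.node (nat_lit 768)
(.leaf [[nat_lit 5489903029, nat_lit 4380272053, nat_lit 5490943413], [nat_lit 5488330037, nat_lit 5490410805, nat_lit 4363224373], [nat_lit 5488317621, nat_lit 5489878197, nat_lit 4363211957], [nat_lit 5488305205, nat_lit 5489345589, nat_lit 4363199541], [nat_lit 5488292789, nat_lit 5488812981, nat_lit 4363187125], [nat_lit 4414280501, nat_lit 3324285749], [nat_lit 6544712373], [nat_lit 102261301], [nat_lit 6544712365], [nat_lit 6544712361], [nat_lit 6544712357]] [[], [], [], [], [], [], [], [], [], [], [nat_lit 53614283628567, nat_lit 53614283628694, nat_lit 53614283628695]])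
(.leaf [[nat_lit 5488342453, nat_lit 5490943413, nat_lit 4380272053], [nat_lit 5488330037, nat_lit 5490410805, nat_lit 4380259637], [nat_lit 5488317621, nat_lit 5489878197, nat_lit 4380247221], [nat_lit 5488305205, nat_lit 5489345589, nat_lit 4380234805], [nat_lit 5488292789, nat_lit 5488812981, nat_lit 4380222389], [nat_lit 4414280501, nat_lit 3324285749], [nat_lit 6544712373], [nat_lit 102261301], [nat_lit 6544712365], [nat_lit 6544712361], [nat_lit 6544712357]] [[], [], [], [], [], [], [], [], [], [], [nat_lit 53614283628567]]))))
(.node (nat_lit 772)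
(.node (nat_lit 770)
(.leaf [[nat_lit 5490943413, nat_lit 4414342581, nat_lit 4414862773], [nat_lit 5490410805, nat_lit 4414330165], [nat_lit 5489878197, nat_lit 4397282485], [nat_lit 5489345589, nat_lit 4380234805], [nat_lit 5488812981, nat_lit 4380222389], [nat_lit 4414280501, nat_lit 3324285749], [nat_lit 6544712373], [nat_lit 102261301], [nat_lit 6544712365], [nat_lit 6544712361], [nat_lit 6544712357]] [[], [], [], [], [], [], [], [], [], [], [nat_lit 53614283628694]])
(.node (nat_lit 771)
(.leaf [[nat_lit 5490943413, nat_lit 4414342581, nat_lit 4414862773], [nat_lit 5490410805, nat_lit 4414330165], [nat_lit 5489878197, nat_lit 4397282485], [nat_lit 5489345589, nat_lit 4380234805], [nat_lit 5488812981, nat_lit 4380222389], [nat_lit 4414280501, nat_lit 3324285749], [nat_lit 6544712373], [nat_lit 102261301], [nat_lit 102261297], [nat_lit 6544712361], [nat_lit 6544712357]] [])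
(.leaf [[nat_lit 4414342581, nat_lit 4416943541, nat_lit 4417201589, nat_lit 4414862773], [nat_lit 4414330165, nat_lit 4416410933, nat_lit 4416668981], [nat_lit 4414317749, nat_lit 3325883573, nat_lit 4397802677], [nat_lit 4414305333, nat_lit 3325350965], [nat_lit 4414292917, nat_lit 3324818357], [nat_lit 4414280501, nat_lit 4414538549], [nat_lit 6544712373], [nat_lit 102261301], [nat_lit 102261297], [nat_lit 6544712361], [nat_lit 6544712357]] [])))
(.node (nat_lit 773)
(.leaf [[nat_lit 73134077365, nat_lit 73136678325, nat_lit 72026006965, nat_lit 73134597557], [nat_lit 73134064949, nat_lit 73136145717, nat_lit 72025994549], [nat_lit 73134052533, nat_lit 73135613109, nat_lit 72025982133], [nat_lit 73134040117, nat_lit 73135080501, nat_lit 72025969717], [nat_lit 73134027701, nat_lit 73134547893, nat_lit 72025957301], [nat_lit 73116980021, nat_lit 3324285749, nat_lit 72025944885], [nat_lit 2249753269, nat_lit 2216723125], [nat_lit 102261301], [nat_lit 102261297], [nat_lit 102261293]] [[], [], [], [], [], [], [], [], [], [], [nat_lit 53614283628565]])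
(.node (nat_lit 774)
(.leaf [[nat_lit 141853291957, nat_lit 141855892917, nat_lit 141853812149, nat_lit 141839377845], [nat_lit 141853279541, nat_lit 141855360309, nat_lit 141838845237], [nat_lit 141853267125, nat_lit 141838312629], [nat_lit 141853254709, nat_lit 141837780021], [nat_lit 141853242293, nat_lit 141837247413], [nat_lit 141836714805, nat_lit 72025944885], [nat_lit 2249753269, nat_lit 2216723125], [nat_lit 102261301], [nat_lit 102261297], [nat_lit 102261293]] [])
(.leaf [[nat_lit 210573026741, nat_lit 210575107509, nat_lit 210575365557, nat_lit 209464956341], [nat_lit 210573014325, nat_lit 209484580149, nat_lit 209464943925, nat_lit 210556499253], [nat_lit 210573001909, nat_lit 209484047541, nat_lit 209464931509], [nat_lit 210572989493, nat_lit 209483514933, nat_lit 209464919093], [nat_lit 210572977077, nat_lit 210573235125, nat_lit 209464906677], [nat_lit 209481929525, nat_lit 141836714805], [nat_lit 2249753269, nat_lit 2216723125], [nat_lit 102261301], [nat_lit 102261297], [nat_lit 102261293]] [])))))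
(.node (nat_lit 832)
(.node (nat_lit 777)
(.node (nat_lit 776)
(.leaf [[nat_lit 279292241333, nat_lit 279294842293, nat_lit 279292761525], [nat_lit 279292228917, nat_lit 279294309685], [nat_lit 279292216501, nat_lit 279293777077], [nat_lit 279292204085, nat_lit 279293244469], [nat_lit 279292191669, nat_lit 279292711861], [nat_lit 279275143989, nat_lit 141836714805], [nat_lit 2249753269, nat_lit 2216723125], [nat_lit 102261301], [nat_lit 102261297], [nat_lit 102261293]] [])
(.leaf [[nat_lit 349085455797, nat_lit 279294842293, nat_lit 279292761525], [nat_lit 349085443381, nat_lit 279294309685], [nat_lit 349085430965, nat_lit 279293777077], [nat_lit 349085418549, nat_lit 279293244469], [nat_lit 279292191669, nat_lit 279292711861], [nat_lit 418861572917], [nat_lit 418861572913], [nat_lit 102261301], [nat_lit 102261297], [nat_lit 418861572901]] []))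
(.node (nat_lit 778)
(.leaf [[nat_lit 349085455797, nat_lit 279294842293, nat_lit 349085975989], [nat_lit 349085443381, nat_lit 279294309685], [nat_lit 349085430965, nat_lit 279293777077], [nat_lit 349085418549, nat_lit 279293244469], [nat_lit 279292191669, nat_lit 279292711861], [nat_lit 418861572917], [nat_lit 418861572913], [nat_lit 102261301], [nat_lit 418861572905], [nat_lit 418861572901]] [])
(.node (nat_lit 779)
(.leaf [[nat_lit 418878670261, nat_lit 418880751029, nat_lit 418864235957], [nat_lit 418878657845, nat_lit 418863703349], [nat_lit 418878645429, nat_lit 418863170741], [nat_lit 418878633013, nat_lit 418862638133], [nat_lit 279292191669, nat_lit 418862105525], [nat_lit 418861572917], [nat_lit 418861572913], [nat_lit 418861572909], [nat_lit 418861572905], [nat_lit 418861572901]] [])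
(.leaf [[nat_lit 6561822133, nat_lit 5490943413, nat_lit 5488342453], [nat_lit 6561809717, nat_lit 5490410805], [nat_lit 6561797301, nat_lit 5489878197], [nat_lit 6561784885, nat_lit 5489345589], [nat_lit 6561772469, nat_lit 5488812981], [nat_lit 6545244981, nat_lit 4363174709], [nat_lit 6544712373], [nat_lit 6544712369], [nat_lit 6544712365], [nat_lit 6544712361], [nat_lit 6544712357]] [[], [], [], [], [], [], [], [], [], [], [nat_lit 53614283628567, nat_lit 53614283628694]]))))
(.node (nat_lit 835)
(.node (nat_lit 833)
(.leaf [[nat_lit 6561822133, nat_lit 6564423093, nat_lit 5490943413], [nat_lit 6561809717, nat_lit 5490410805], [nat_lit 6561797301, nat_lit 5489878197], [nat_lit 6561784885, nat_lit 5489345589], [nat_lit 6561772469, nat_lit 5488812981], [nat_lit 6545244981, nat_lit 4380209973], [nat_lit 6544712373], [nat_lit 6544712369], [nat_lit 6544712365], [nat_lit 6544712361], [nat_lit 6544712357]] [[], [], [], [], [], [], [], [], [], [], [nat_lit 53614283628694]])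
(.node (nat_lit 834)
(.leaf [[nat_lit 5488342453, nat_lit 5490943413, nat_lit 4380272053, nat_lit 5488862645], [nat_lit 5488330037, nat_lit 5490410805, nat_lit 4380259637], [nat_lit 5488317621, nat_lit 5489878197, nat_lit 4380247221], [nat_lit 5488305205, nat_lit 5489345589, nat_lit 4380234805], [nat_lit 5488292789, nat_lit 5488812981, nat_lit 4380222389], [nat_lit 6545244981, nat_lit 4380209973], [nat_lit 6544712373], [nat_lit 6544712369], [nat_lit 6544712365], [nat_lit 6544712361], [nat_lit 6544712357]] [])
(.leaf [[nat_lit 5488342453, nat_lit 5490943413, nat_lit 4380272053, nat_lit 5488862645], [nat_lit 5488330037, nat_lit 5490410805, nat_lit 4380259637], [nat_lit 5488317621, nat_lit 5489878197, nat_lit 4380247221], [nat_lit 5488305205, nat_lit 5489345589, nat_lit 4380234805], [nat_lit 5488292789, nat_lit 5488812981, nat_lit 4380222389], [nat_lit 6545244981, nat_lit 4380209973], [nat_lit 6544712373], [nat_lit 6544712369], [nat_lit 6544712365], [nat_lit 6544712361], [nat_lit 6544712357]] [])))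
(.node (nat_lit 836)
(.leaf [[nat_lit 5488342453, nat_lit 5490943413, nat_lit 4380272053, nat_lit 5488862645], [nat_lit 5488330037, nat_lit 5490410805, nat_lit 4380259637], [nat_lit 5488317621, nat_lit 5489878197, nat_lit 4380247221], [nat_lit 5488305205, nat_lit 5489345589, nat_lit 4380234805], [nat_lit 5488292789, nat_lit 5488812981, nat_lit 4380222389], [nat_lit 6545244981, nat_lit 4380209973], [nat_lit 6544712373], [nat_lit 6544712369], [nat_lit 6544712365], [nat_lit 6544712361], [nat_lit 6544712357]] [])
(.node (nat_lit 837)
(.leaf [[nat_lit 74207557045, nat_lit 74210158005, nat_lit 74208077237, nat_lit 74193642933], [nat_lit 74207544629, nat_lit 74209625397, nat_lit 74193110325], [nat_lit 74207532213, nat_lit 74192577717], [nat_lit 74207519797, nat_lit 74192045109], [nat_lit 74207507381, nat_lit 74191512501], [nat_lit 74190459701, nat_lit 141836714805], [nat_lit 6544712373], [nat_lit 6544712369], [nat_lit 6544712365], [nat_lit 6544712361]] [])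
(.leaf [[nat_lit 142927291829, nat_lit 142929372597, nat_lit 142929630645, nat_lit 141819221429], [nat_lit 142927279413, nat_lit 141838845237, nat_lit 141819209013, nat_lit 142910764341], [nat_lit 142927266997, nat_lit 141838312629, nat_lit 141819196597], [nat_lit 142927254581, nat_lit 141837780021, nat_lit 141819184181], [nat_lit 142927242165, nat_lit 142927500213, nat_lit 141819171765], [nat_lit 143983674165, nat_lit 141836714805], [nat_lit 6544712373], [nat_lit 6544712369], [nat_lit 6544712365], [nat_lit 6544712361]] []))))))))
(.node (nat_lit 1031)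
(.node (nat_lit 960)
(.node (nat_lit 899)
(.node (nat_lit 843)
(.node (nat_lit 840)
(.node (nat_lit 839)
(.leaf [[nat_lit 211646506421, nat_lit 211649107381, nat_lit 211647026613], [nat_lit 211646494005, nat_lit 211648574773], [nat_lit 211646481589, nat_lit 211648042165], [nat_lit 211646469173, nat_lit 211647509557], [nat_lit 211646456757, nat_lit 211646976949], [nat_lit 279275143989, nat_lit 141836714805], [nat_lit 2249753269, nat_lit 2216723125], [nat_lit 418861572909], [nat_lit 418861572905], [nat_lit 418861572901]] [])
(.leaf [[nat_lit 280366241205, nat_lit 280368321973, nat_lit 279258170805, nat_lit 280351806901], [nat_lit 280366228789, nat_lit 280351274293, nat_lit 279258158389], [nat_lit 280366216373, nat_lit 280350741685, nat_lit 279258145973], [nat_lit 280366203957, nat_lit 280350209077, nat_lit 279258133557], [nat_lit 280366191541, nat_lit 279258121141, nat_lit 280349676469], [nat_lit 279275143989, nat_lit 141836714805], [nat_lit 2249753269, nat_lit 2216723125], [nat_lit 418861572909], [nat_lit 418861572905], [nat_lit 418861572901]] []))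
(.node (nat_lit 841)
(.leaf [[nat_lit 349085455797, nat_lit 349087536565, nat_lit 349087794613], [nat_lit 349085443381, nat_lit 280351274293, nat_lit 349068928309], [nat_lit 349085430965, nat_lit 280350741685], [nat_lit 349085418549, nat_lit 280350209077], [nat_lit 349068891061, nat_lit 279258121141, nat_lit 280349676469], [nat_lit 418861572917], [nat_lit 418861572913], [nat_lit 418861572909], [nat_lit 418861572905], [nat_lit 418861572901]] [])
(.node (nat_lit 842)
(.leaf [[nat_lit 418878670261, nat_lit 418880751029, nat_lit 418864235957], [nat_lit 418878657845, nat_lit 418863703349], [nat_lit 418878645429, nat_lit 418863170741], [nat_lit 418878633013, nat_lit 418862638133], [nat_lit 418862105525, nat_lit 279258121141], [nat_lit 418861572917], [nat_lit 418861572913], [nat_lit 418861572909], [nat_lit 418861572905], [nat_lit 418861572901]] [])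
(.leaf [[nat_lit 418878670261, nat_lit 418880751029, nat_lit 418864235957], [nat_lit 418878657845, nat_lit 418863703349], [nat_lit 418878645429, nat_lit 418863170741], [nat_lit 418878633013, nat_lit 418862638133], [nat_lit 418862105525, nat_lit 279258121141], [nat_lit 418861572917], [nat_lit 418861572913], [nat_lit 418861572909], [nat_lit 418861572905]] []))))
(.node (nat_lit 896)
(.node (nat_lit 844)
(.leaf [[nat_lit 488671884725, nat_lit 488673965493], [nat_lit 488671872309, nat_lit 488673432885], [nat_lit 488671859893, nat_lit 488672900277], [nat_lit 488671847477, nat_lit 418862638133], [nat_lit 418862105525, nat_lit 279258121141], [nat_lit 418861572917], [nat_lit 418861572913], [nat_lit 418861572909], [nat_lit 418861572905]] [])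
(.leaf [[nat_lit 7635822005, nat_lit 6547908021, nat_lit 5454009781, nat_lit 6562342325], [nat_lit 7635809589, nat_lit 6547375413, nat_lit 5453997365], [nat_lit 7635797173, nat_lit 6546842805, nat_lit 5453984949], [nat_lit 7635784757, nat_lit 6546310197, nat_lit 5453972533], [nat_lit 6561772469, nat_lit 6545777589], [nat_lit 6545244981, nat_lit 4363174709], [nat_lit 6544712373], [nat_lit 6544712369], [nat_lit 6544712365], [nat_lit 6544712361], [nat_lit 6544712357]] [[], [], [], [], [], [], [], [], [], [], [nat_lit 53614283628566, nat_lit 53614283628694]]))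
(.node (nat_lit 897)
(.leaf [[nat_lit 7635822005, nat_lit 6564423093, nat_lit 6544786869, nat_lit 6547908021], [nat_lit 7635809589, nat_lit 6547375413, nat_lit 6544774453], [nat_lit 7635797173, nat_lit 6546842805, nat_lit 6544762037], [nat_lit 7635784757, nat_lit 6546310197, nat_lit 6544749621], [nat_lit 6561772469, nat_lit 6545777589], [nat_lit 6545244981, nat_lit 4380209973], [nat_lit 6544712373], [nat_lit 6544712369], [nat_lit 6544712365], [nat_lit 6544712361], [nat_lit 6544712357]] [[], [], [], [], [], [], [], [], [], [], [nat_lit 53614283628566]])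
(.node (nat_lit 898)
(.leaf [[nat_lit 6561822133, nat_lit 6564423093, nat_lit 6547908021, nat_lit 6562342325], [nat_lit 6561809717, nat_lit 6547375413, nat_lit 6562329909], [nat_lit 6561797301, nat_lit 6546842805], [nat_lit 6561784885, nat_lit 6546310197], [nat_lit 6561772469, nat_lit 6545777589], [nat_lit 6545244981, nat_lit 4380209973], [nat_lit 6544712373], [nat_lit 6544712369], [nat_lit 6544712365], [nat_lit 6544712361], [nat_lit 6544712357]] [])
(.leaf [[nat_lit 6561822133, nat_lit 6564423093, nat_lit 6562342325, nat_lit 6547908021], [nat_lit 6561809717, nat_lit 6563890485, nat_lit 6547375413], [nat_lit 6561797301, nat_lit 6546842805], [nat_lit 6561784885, nat_lit 6546310197], [nat_lit 6561772469, nat_lit 6545777589], [nat_lit 6545244981, nat_lit 4380209973], [nat_lit 6544712373], [nat_lit 6544712369], [nat_lit 6544712365], [nat_lit 6544712361], [nat_lit 6544712357]] [])))))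
(.node (nat_lit 904)
(.node (nat_lit 901)
(.node (nat_lit 900)
(.leaf [[nat_lit 6561822133, nat_lit 6564423093, nat_lit 6562342325, nat_lit 6547908021], [nat_lit 6561809717, nat_lit 6563890485, nat_lit 6547375413], [nat_lit 6561797301, nat_lit 6546842805], [nat_lit 6561784885, nat_lit 6546310197], [nat_lit 6561772469, nat_lit 6545777589], [nat_lit 74190459701, nat_lit 6545244981], [nat_lit 6544712373], [nat_lit 6544712369], [nat_lit 6544712365], [nat_lit 6544712361]] [])
(.leaf [[nat_lit 75281556917, nat_lit 75283637685, nat_lit 75283895733, nat_lit 74173486517], [nat_lit 75281544501, nat_lit 74193110325, nat_lit 74173474101, nat_lit 75265029429], [nat_lit 75281532085, nat_lit 74192577717, nat_lit 74173461685], [nat_lit 75281519669, nat_lit 74192045109, nat_lit 74173449269], [nat_lit 75281507253, nat_lit 75281765301, nat_lit 74173436853], [nat_lit 74190459701, nat_lit 6545244981], [nat_lit 6544712373], [nat_lit 6544712369], [nat_lit 6544712365], [nat_lit 6544712361]] []))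
(.node (nat_lit 902)
(.leaf [[nat_lit 144000771509, nat_lit 144003372469, nat_lit 144001291701], [nat_lit 144000759093, nat_lit 144002839861], [nat_lit 144000746677, nat_lit 144002307253], [nat_lit 144000734261, nat_lit 144001774645], [nat_lit 144000721845, nat_lit 144001242037], [nat_lit 143983674165, nat_lit 141836714805], [nat_lit 6544712373], [nat_lit 6544712369], [nat_lit 6544712365], [nat_lit 6544712361]] [])
(.node (nat_lit 903)
(.leaf [[nat_lit 212720506293, nat_lit 212722587061, nat_lit 211612435893, nat_lit 212706071989], [nat_lit 212720493877, nat_lit 212705539381, nat_lit 211612423477], [nat_lit 212720481461, nat_lit 212705006773, nat_lit 211612411061], [nat_lit 212720469045, nat_lit 212704474165, nat_lit 211612398645], [nat_lit 212720456629, nat_lit 211612386229, nat_lit 212703941557], [nat_lit 143983674165, nat_lit 141836714805], [nat_lit 6544712373], [nat_lit 6544712369], [nat_lit 6544712365], [nat_lit 6544712361]] [])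
(.leaf [[nat_lit 281439720885, nat_lit 281441801653, nat_lit 281442059701], [nat_lit 281439708469, nat_lit 280351274293, nat_lit 281423193397], [nat_lit 281439696053, nat_lit 280350741685], [nat_lit 281439683637, nat_lit 280350209077], [nat_lit 281439671221, nat_lit 281439929269], [nat_lit 279275143989, nat_lit 141836714805], [nat_lit 4397228725, nat_lit 2232718005, nat_lit 2216723125], [nat_lit 418861572909], [nat_lit 418861572905], [nat_lit 418861572901]] []))))
(.node (nat_lit 907)
(.node (nat_lit 905)
(.leaf [[nat_lit 350159455669, nat_lit 350161536437, nat_lit 349051385269], [nat_lit 350159443253, nat_lit 350161003829, nat_lit 349051372853], [nat_lit 350159430837, nat_lit 350160471221, nat_lit 349051360437], [nat_lit 350159418421, nat_lit 350159938613, nat_lit 349051348021], [nat_lit 350142370741, nat_lit 280349676469, nat_lit 281422635957], [nat_lit 418861572917], [nat_lit 418861572913], [nat_lit 418861572909], [nat_lit 418861572905], [nat_lit 418861572901]] [])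
(.node (nat_lit 906)
(.leaf [[nat_lit 418878670261, nat_lit 418880751029, nat_lit 418864235957], [nat_lit 418878657845, nat_lit 418863703349], [nat_lit 418878645429, nat_lit 418863170741], [nat_lit 418878633013, nat_lit 418862638133], [nat_lit 418862105525, nat_lit 279258121141], [nat_lit 418861572917], [nat_lit 418861572913], [nat_lit 418861572909], [nat_lit 418861572905]] [])
(.leaf [[nat_lit 488671884725, nat_lit 488673965493], [nat_lit 488671872309, nat_lit 488673432885], [nat_lit 488671859893, nat_lit 488672900277], [nat_lit 488671847477, nat_lit 418862638133], [nat_lit 418862105525, nat_lit 279258121141], [nat_lit 418861572917], [nat_lit 418861572913], [nat_lit 418861572909], [nat_lit 418861572905]] [])))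
(.node (nat_lit 908)
(.leaf [[nat_lit 488671884725, nat_lit 488673965493], [nat_lit 488671872309, nat_lit 488673432885], [nat_lit 488671859893, nat_lit 488672900277], [nat_lit 488688882741, nat_lit 418862638133], [nat_lit 418862105525, nat_lit 279258121141], [nat_lit 418861572917], [nat_lit 418861572913], [nat_lit 418861572909], [nat_lit 418861572905]] [])
(.node (nat_lit 909)
(.leaf [[nat_lit 488671884725, nat_lit 488673965493], [nat_lit 488671872309, nat_lit 488673432885], [nat_lit 488671859893, nat_lit 488672900277], [nat_lit 558482097205], [nat_lit 418862105525, nat_lit 279258121141], [nat_lit 418861572917], [nat_lit 418861572913], [nat_lit 418861572909], [nat_lit 418861572905]] [])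
(.leaf [[nat_lit 7635822005, nat_lit 6547908021, nat_lit 6544786869, nat_lit 7636342197], [nat_lit 7635809589, nat_lit 6547375413, nat_lit 6544774453], [nat_lit 7635797173, nat_lit 6546842805, nat_lit 6544762037], [nat_lit 7635784757, nat_lit 6546310197, nat_lit 6544749621], [nat_lit 6544737205, nat_lit 6545777589], [nat_lit 6545244981, nat_lit 4363174709], [nat_lit 6544712373], [nat_lit 6544712369], [nat_lit 6544712365], [nat_lit 6544712361], [nat_lit 6544712357]] [[], [], [], [], [], [], [], [], [], [], [nat_lit 53614283628566]]))))))
(.node (nat_lit 971)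
(.node (nat_lit 965)
(.node (nat_lit 962)
(.node (nat_lit 961)
(.leaf [[nat_lit 7635822005, nat_lit 6547908021, nat_lit 6544786869, nat_lit 7636342197], [nat_lit 7635809589, nat_lit 6547375413, nat_lit 6544774453], [nat_lit 7635797173, nat_lit 6546842805, nat_lit 6544762037], [nat_lit 7635784757, nat_lit 6546310197, nat_lit 6544749621], [nat_lit 7635510197, nat_lit 6545777589, nat_lit 6544737205], [nat_lit 6545244981, nat_lit 4363174709], [nat_lit 6544712373], [nat_lit 6544712369], [nat_lit 6544712365], [nat_lit 6544712361], [nat_lit 6544712357]] [])
(.leaf [[nat_lit 7635822005, nat_lit 7637902773, nat_lit 6547908021, nat_lit 6544786869], [nat_lit 7635809589, nat_lit 6547375413, nat_lit 6544774453], [nat_lit 7635797173, nat_lit 6546842805, nat_lit 6544762037], [nat_lit 7635784757, nat_lit 6546310197, nat_lit 6544749621], [nat_lit 6544737205, nat_lit 6545777589], [nat_lit 6545244981, nat_lit 4363174709], [nat_lit 6544712373], [nat_lit 6544712369], [nat_lit 6544712365], [nat_lit 6544712361], [nat_lit 6544712357]] []))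
(.node (nat_lit 963)
(.leaf [[nat_lit 7635822005, nat_lit 7637902773, nat_lit 6547908021, nat_lit 6544786869], [nat_lit 7635809589, nat_lit 6547375413, nat_lit 6544774453], [nat_lit 7635797173, nat_lit 6546842805, nat_lit 6544762037], [nat_lit 7635784757, nat_lit 6546310197, nat_lit 6544749621], [nat_lit 6561772469, nat_lit 6545777589], [nat_lit 6545244981, nat_lit 4380209973], [nat_lit 6544712373], [nat_lit 6544712369], [nat_lit 6544712365], [nat_lit 6544712361]] [])
(.node (nat_lit 964)
(.leaf [[nat_lit 7635822005, nat_lit 7637902773, nat_lit 7638160821, nat_lit 6544786869], [nat_lit 7635809589, nat_lit 6547375413, nat_lit 6544774453, nat_lit 7636329781], [nat_lit 7635797173, nat_lit 6546842805, nat_lit 6544762037], [nat_lit 7635784757, nat_lit 6546310197, nat_lit 6544749621], [nat_lit 6561772469, nat_lit 6545777589], [nat_lit 74190459701, nat_lit 6545244981], [nat_lit 6544712373], [nat_lit 6544712369], [nat_lit 6544712365], [nat_lit 6544712361]] [])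
(.leaf [[nat_lit 76355036597, nat_lit 76357637557, nat_lit 76355556789], [nat_lit 76355024181, nat_lit 76357104949], [nat_lit 76355011765, nat_lit 76356572341], [nat_lit 76354999349, nat_lit 76356039733], [nat_lit 76354986933, nat_lit 76355507125], [nat_lit 143983674165, nat_lit 6545244981], [nat_lit 6544712373], [nat_lit 6544712369], [nat_lit 6544712365], [nat_lit 6544712361]] []))))
(.node (nat_lit 968)
(.node (nat_lit 966)
(.leaf [[nat_lit 145074771381, nat_lit 76357637557, nat_lit 143983736245, nat_lit 145075291573], [nat_lit 145074758965, nat_lit 76357104949, nat_lit 143983723829], [nat_lit 145074746549, nat_lit 76356572341, nat_lit 143983711413], [nat_lit 145074734133, nat_lit 76356039733, nat_lit 143983698997], [nat_lit 145074721717, nat_lit 143983686581, nat_lit 76355507125], [nat_lit 143983674165, nat_lit 6545244981], [nat_lit 6544712373], [nat_lit 6544712369], [nat_lit 6544712365], [nat_lit 6544712361]] [])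
(.node (nat_lit 967)
(.leaf [[nat_lit 213793985973, nat_lit 213796066741, nat_lit 213796324789], [nat_lit 213793973557, nat_lit 212705539381, nat_lit 213794493749], [nat_lit 213793961141, nat_lit 212705006773], [nat_lit 213793948725, nat_lit 212704474165], [nat_lit 145074721717, nat_lit 143983686581, nat_lit 212703941557], [nat_lit 143983674165, nat_lit 141836714805], [nat_lit 6544712373], [nat_lit 6544712369], [nat_lit 6544712365], [nat_lit 6544712361]] [])
(.leaf [[nat_lit 282513720757, nat_lit 282515801525, nat_lit 281422685621], [nat_lit 282513708341, nat_lit 282515268917, nat_lit 281422673205], [nat_lit 282513695925, nat_lit 282514736309, nat_lit 281422660789], [nat_lit 282513683509, nat_lit 282514203701, nat_lit 281422648373], [nat_lit 281439671221, nat_lit 212703941557], [nat_lit 418861572917], [nat_lit 6544712373], [nat_lit 6544712369], [nat_lit 6544712365], [nat_lit 6544712361]] [])))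
(.node (nat_lit 969)
(.leaf [[nat_lit 351232935349, nat_lit 282515801525, nat_lit 351233455541], [nat_lit 351232922933, nat_lit 282515268917], [nat_lit 351232910517, nat_lit 282514736309], [nat_lit 351232898101, nat_lit 282514203701], [nat_lit 418862105525, nat_lit 281422635957], [nat_lit 418861572917], [nat_lit 418861572913], [nat_lit 418861572909], [nat_lit 418861572905]] [])
(.node (nat_lit 970)
(.leaf [[nat_lit 419952670133, nat_lit 418864235957, nat_lit 418861634997, nat_lit 419953190325], [nat_lit 419952657717, nat_lit 418863703349, nat_lit 418861622581], [nat_lit 419952645301, nat_lit 418863170741, nat_lit 418861610165], [nat_lit 419952632885, nat_lit 419952890933, nat_lit 418861597749], [nat_lit 418862105525, nat_lit 281422635957], [nat_lit 418861572917], [nat_lit 418861572913], [nat_lit 418861572909], [nat_lit 418861572905]] [])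
(.leaf [[nat_lit 488671884725, nat_lit 488673965493], [nat_lit 488671872309, nat_lit 488673432885], [nat_lit 488671859893, nat_lit 488672900277], [nat_lit 488671847477, nat_lit 418862638133], [nat_lit 418862105525, nat_lit 281422635957], [nat_lit 418861572917], [nat_lit 418861572913], [nat_lit 418861572909], [nat_lit 418861572905]] [])))))
(.node (nat_lit 1025)
(.node (nat_lit 973)
(.node (nat_lit 972)
(.leaf [[nat_lit 488671884725, nat_lit 488673965493], [nat_lit 488671872309, nat_lit 488673432885], [nat_lit 488671859893, nat_lit 488672900277], [nat_lit 558482097205], [nat_lit 418862105525, nat_lit 281422635957], [nat_lit 418861572917], [nat_lit 418861572913], [nat_lit 418861572909], [nat_lit 418861572905]] [])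
(.leaf [[nat_lit 558482134453, nat_lit 558483695029], [nat_lit 558482122037, nat_lit 558483162421], [nat_lit 558482109621, nat_lit 558482629813], [nat_lit 558482097205], [nat_lit 418862105525, nat_lit 350142108597, nat_lit 350142370741], [nat_lit 418861572917], [nat_lit 418861572913], [nat_lit 418861572909], [nat_lit 418861572905]] []))
(.node (nat_lit 974)
(.leaf [[nat_lit 558482134453, nat_lit 558483695029], [nat_lit 558482122037, nat_lit 558483162421], [nat_lit 558482109621, nat_lit 558482629813], [nat_lit 558482097205], [nat_lit 418862105525, nat_lit 279258121141], [nat_lit 418861572917], [nat_lit 418861572913], [nat_lit 418861572909], [nat_lit 418861572905]] [])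
(.node (nat_lit 1024)
(.leaf [[nat_lit 8726336949, nat_lit 6547908021, nat_lit 7636342197], [nat_lit 8726324533, nat_lit 6547375413], [nat_lit 8726312117, nat_lit 6546842805], [nat_lit 8726299701, nat_lit 6546310197], [nat_lit 7635510197, nat_lit 6545777589, nat_lit 6544737205], [nat_lit 6545244981, nat_lit 4363174709], [nat_lit 6544712373], [nat_lit 6544712369], [nat_lit 6544712365], [nat_lit 6544712361], [nat_lit 6544712357]] [])
(.leaf [[nat_lit 8726336949, nat_lit 8728417717, nat_lit 6547908021], [nat_lit 8726324533, nat_lit 6547375413], [nat_lit 8726312117, nat_lit 6546842805], [nat_lit 8726299701, nat_lit 6546310197], [nat_lit 6544737205, nat_lit 6545777589], [nat_lit 6545244981, nat_lit 4363174709], [nat_lit 6544712373], [nat_lit 6544712369], [nat_lit 6544712365], [nat_lit 6544712361]] [[], [], [], [], [], [], [], [], [], [], [nat_lit 53614283628565]]))))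
(.node (nat_lit 1028)
(.node (nat_lit 1026)
(.leaf [[nat_lit 8726336949, nat_lit 8728417717, nat_lit 7638160821], [nat_lit 8726324533, nat_lit 6547375413], [nat_lit 8726312117, nat_lit 6546842805], [nat_lit 8726299701, nat_lit 6546310197], [nat_lit 7635510197, nat_lit 6545777589, nat_lit 6544737205], [nat_lit 6545244981, nat_lit 4363174709], [nat_lit 6544712373], [nat_lit 6544712369], [nat_lit 6544712365], [nat_lit 6544712361]] [])
(.node (nat_lit 1027)
(.leaf [[nat_lit 8726336949, nat_lit 8728417717, nat_lit 7638160821], [nat_lit 8726324533, nat_lit 6547375413], [nat_lit 8726312117, nat_lit 6546842805], [nat_lit 8726299701, nat_lit 6546310197], [nat_lit 7635510197, nat_lit 6545777589, nat_lit 6544737205], [nat_lit 6545244981, nat_lit 4363174709], [nat_lit 6544712373], [nat_lit 6544712369], [nat_lit 6544712365], [nat_lit 6544712361]] [])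
(.leaf [[nat_lit 8726336949, nat_lit 76357637557], [nat_lit 8726324533, nat_lit 76357104949], [nat_lit 8726312117, nat_lit 76356572341], [nat_lit 8726299701, nat_lit 76356039733], [nat_lit 76354986933, nat_lit 76355507125], [nat_lit 143983674165, nat_lit 6545244981], [nat_lit 6544712373], [nat_lit 6544712369], [nat_lit 6544712365], [nat_lit 6544712361]] [])))
(.node (nat_lit 1029)
(.leaf [[nat_lit 76355036597, nat_lit 76357637557, nat_lit 76355556789], [nat_lit 76355024181, nat_lit 76357104949], [nat_lit 76355011765, nat_lit 76356572341], [nat_lit 76354999349, nat_lit 76356039733], [nat_lit 76354986933, nat_lit 76355507125], [nat_lit 143983674165, nat_lit 6545244981], [nat_lit 6544712373], [nat_lit 6544712369], [nat_lit 6544712365], [nat_lit 6544712361]] [])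
(.node (nat_lit 1030)
(.leaf [[nat_lit 145074771381, nat_lit 76357637557, nat_lit 143983736245, nat_lit 145075291573], [nat_lit 145074758965, nat_lit 76357104949, nat_lit 143983723829], [nat_lit 145074746549, nat_lit 76356572341, nat_lit 143983711413], [nat_lit 145074734133, nat_lit 76356039733, nat_lit 143983698997], [nat_lit 145074721717, nat_lit 143983686581, nat_lit 76355507125], [nat_lit 143983674165, nat_lit 6545244981], [nat_lit 6544712373], [nat_lit 6544712369], [nat_lit 6544712365], [nat_lit 6544712361]] [])
(.leaf [[nat_lit 146167367093, nat_lit 213793985973], [nat_lit 146166834485, nat_lit 143983723829], [nat_lit 146166301877, nat_lit 143983711413], [nat_lit 146165769269, nat_lit 143983698997], [nat_lit 146165236661], [nat_lit 143983674165, nat_lit 6545244981], [nat_lit 6544712373], [nat_lit 6544712369], [nat_lit 6544712365], [nat_lit 6544712361]] [])))))))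
(.node (nat_lit 1100)
(.node (nat_lit 1089)
(.node (nat_lit 1036)
(.node (nat_lit 1033)
(.node (nat_lit 1032)
(.leaf [[nat_lit 282513720757, nat_lit 282515801525, nat_lit 281422685621], [nat_lit 282513708341, nat_lit 282515268917, nat_lit 281422673205], [nat_lit 282513695925, nat_lit 282514736309, nat_lit 281422660789], [nat_lit 282513683509, nat_lit 282514203701, nat_lit 281422648373], [nat_lit 145074721717, nat_lit 281422635957, nat_lit 212703941557], [nat_lit 418861572917], [nat_lit 6544712373], [nat_lit 6544712369], [nat_lit 6544712365]] [])
(.leaf [[nat_lit 351232935349, nat_lit 282515801525, nat_lit 351233455541], [nat_lit 351232922933, nat_lit 282515268917], [nat_lit 351232910517, nat_lit 282514736309], [nat_lit 351232898101, nat_lit 282514203701], [nat_lit 350142370741, nat_lit 350142628789, nat_lit 281422635957], [nat_lit 418861572917], [nat_lit 6544712373], [nat_lit 6544712369], [nat_lit 418861572905]] []))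
(.node (nat_lit 1034)
(.leaf [[nat_lit 352325531061, nat_lit 351232935349], [nat_lit 352324998453, nat_lit 418861622581], [nat_lit 352324465845, nat_lit 418861610165], [nat_lit 352323933237, nat_lit 418861597749], [nat_lit 418862105525, nat_lit 281422635957], [nat_lit 418861572917], [nat_lit 418861572913], [nat_lit 418861572909], [nat_lit 418861572905]] [])
(.node (nat_lit 1035)
(.leaf [[nat_lit 488671884725, nat_lit 488673965493], [nat_lit 488671872309, nat_lit 488673432885], [nat_lit 488671859893, nat_lit 488672900277], [nat_lit 488671847477, nat_lit 418862638133], [nat_lit 418862105525, nat_lit 281422635957], [nat_lit 418861572917], [nat_lit 418861572913], [nat_lit 418861572909], [nat_lit 418861572905]] [])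
(.leaf [[nat_lit 558482134453, nat_lit 558483695029], [nat_lit 558482122037, nat_lit 558483162421], [nat_lit 558482109621, nat_lit 558482629813], [nat_lit 558482097205], [nat_lit 418862105525, nat_lit 281422635957], [nat_lit 418861572917], [nat_lit 418861572913], [nat_lit 418861572909], [nat_lit 418861572905]] []))))
(.node (nat_lit 1038)
(.node (nat_lit 1037)
(.leaf [[nat_lit 558482134453, nat_lit 558483695029], [nat_lit 558482122037, nat_lit 558483162421], [nat_lit 558482109621, nat_lit 558482629813], [nat_lit 558482097205], [nat_lit 418862105525, nat_lit 281422635957], [nat_lit 418861572917], [nat_lit 418861572913], [nat_lit 418861572909], [nat_lit 418861572905]] [])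
(.leaf [[nat_lit 558482134453, nat_lit 558483695029], [nat_lit 558482122037, nat_lit 558483162421], [nat_lit 558482109621, nat_lit 558482629813], [nat_lit 558482097205], [nat_lit 418862105525, nat_lit 350142108597, nat_lit 350142370741], [nat_lit 418861572917], [nat_lit 418861572913], [nat_lit 418861572909]] []))
(.node (nat_lit 1039)
(.leaf [[nat_lit 628292384181, nat_lit 628293424565], [nat_lit 628292371765, nat_lit 628292891957], [nat_lit 558482109621, nat_lit 558482629813], [nat_lit 558482097205], [nat_lit 558482097201], [nat_lit 418861572917], [nat_lit 418861572913], [nat_lit 418861572909]] [])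
(.node (nat_lit 1088)
(.leaf [[nat_lit 9818932661, nat_lit 6544786869], [nat_lit 9818400053, nat_lit 6544774453], [nat_lit 9817867445, nat_lit 6544762037], [nat_lit 8726299701, nat_lit 6546310197], [nat_lit 6544737205, nat_lit 6545777589], [nat_lit 6545244981, nat_lit 4363174709], [nat_lit 6544712373], [nat_lit 6544712369], [nat_lit 6544712365], [nat_lit 6544712361]] [[], [], [], [], [], [], [], [], [], [], [nat_lit 53614283628565]])
(.leaf [[nat_lit 9818932661, nat_lit 6544786869], [nat_lit 9818400053, nat_lit 6544774453], [nat_lit 9817867445, nat_lit 6544762037], [nat_lit 8726299701, nat_lit 6546310197], [nat_lit 7635510197, nat_lit 6545777589, nat_lit 6544737205], [nat_lit 6545244981, nat_lit 4363174709], [nat_lit 6544712373], [nat_lit 6544712369], [nat_lit 6544712365], [nat_lit 6544712361]] [])))))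
(.node (nat_lit 1094)
(.node (nat_lit 1091)
(.node (nat_lit 1090)
(.leaf [[nat_lit 9818932661, nat_lit 6544786869], [nat_lit 9818400053, nat_lit 6544774453], [nat_lit 9817867445, nat_lit 6544762037], [nat_lit 8726299701, nat_lit 6546310197], [nat_lit 7635510197, nat_lit 6545777589, nat_lit 6544737205], [nat_lit 6545244981, nat_lit 4363174709], [nat_lit 6544712373], [nat_lit 6544712369], [nat_lit 6544712365], [nat_lit 6544712361]] [])
(.leaf [[nat_lit 9818932661, nat_lit 8726336949], [nat_lit 9818400053, nat_lit 6544774453], [nat_lit 9817867445, nat_lit 6544762037], [nat_lit 8726299701, nat_lit 6546310197], [nat_lit 76354986933, nat_lit 76355507125], [nat_lit 143983674165, nat_lit 6545244981], [nat_lit 6544712373], [nat_lit 6544712369], [nat_lit 6544712365], [nat_lit 6544712361]] []))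
(.node (nat_lit 1092)
(.leaf [[nat_lit 8726336949, nat_lit 76357637557, nat_lit 8726857141], [nat_lit 8726324533, nat_lit 76357104949], [nat_lit 8726312117, nat_lit 76356572341], [nat_lit 8726299701, nat_lit 76356039733], [nat_lit 76354986933, nat_lit 76355507125], [nat_lit 143983674165, nat_lit 6545244981], [nat_lit 6544712373], [nat_lit 6544712369], [nat_lit 6544712365], [nat_lit 6544712361]] [])
(.node (nat_lit 1093)
(.leaf [[nat_lit 77446071733, nat_lit 76357637557, nat_lit 6544786869], [nat_lit 77446059317, nat_lit 76357104949, nat_lit 6544774453], [nat_lit 77446046901, nat_lit 76356572341, nat_lit 6544762037], [nat_lit 77446034485, nat_lit 77446292533, nat_lit 6544749621], [nat_lit 146165236661], [nat_lit 143983674165, nat_lit 6545244981], [nat_lit 6544712373], [nat_lit 6544712369], [nat_lit 6544712365], [nat_lit 6544712361]] [])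
(.leaf [[nat_lit 146165286325, nat_lit 146167367093], [nat_lit 146165273909, nat_lit 146166834485], [nat_lit 146165261493, nat_lit 146166301877], [nat_lit 146165249077, nat_lit 146165769269], [nat_lit 146165236661], [nat_lit 143983674165, nat_lit 6545244981], [nat_lit 6544712373], [nat_lit 6544712369], [nat_lit 6544712365], [nat_lit 6544712361]] []))))
(.node (nat_lit 1097)
(.node (nat_lit 1095)
(.leaf [[nat_lit 214885021109, nat_lit 146167367093, nat_lit 143983736245], [nat_lit 214885008693, nat_lit 146166834485, nat_lit 143983723829], [nat_lit 214884996277, nat_lit 146166301877, nat_lit 143983711413], [nat_lit 214884983861, nat_lit 143983698997, nat_lit 146165769269], [nat_lit 146165236661], [nat_lit 143983674165, nat_lit 6545244981], [nat_lit 6544712373], [nat_lit 6544712369], [nat_lit 6544712365]] [])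
(.node (nat_lit 1096)
(.leaf [[nat_lit 283604235701, nat_lit 282515801525], [nat_lit 283604223285, nat_lit 282515268917], [nat_lit 283604210869, nat_lit 282514736309], [nat_lit 283604198453, nat_lit 283604456501], [nat_lit 146165236661], [nat_lit 418861572917], [nat_lit 6544712373], [nat_lit 6544712369], [nat_lit 6544712365]] [])
(.leaf [[nat_lit 352323970485, nat_lit 352325531061, nat_lit 281422685621], [nat_lit 352323958069, nat_lit 352324998453, nat_lit 281422673205], [nat_lit 352323945653, nat_lit 352324465845, nat_lit 281422660789], [nat_lit 352323933237, nat_lit 281422648373], [nat_lit 418862105525, nat_lit 281422635957], [nat_lit 418861572917], [nat_lit 6544712373], [nat_lit 6544712369], [nat_lit 6544712365]] [])))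
(.node (nat_lit 1098)
(.leaf [[nat_lit 421043185077, nat_lit 352325531061], [nat_lit 421043172661, nat_lit 352324998453], [nat_lit 421043160245, nat_lit 352324465845], [nat_lit 352323933237, nat_lit 418861597749], [nat_lit 418862105525, nat_lit 281422635957], [nat_lit 418861572917], [nat_lit 418861572913], [nat_lit 418861572909], [nat_lit 418861572905]] [])
(.node (nat_lit 1099)
(.leaf [[nat_lit 489762919861, nat_lit 488673965493, nat_lit 418861634997], [nat_lit 489762907445, nat_lit 488673432885, nat_lit 418861622581], [nat_lit 489762895029, nat_lit 489763153077, nat_lit 418861610165], [nat_lit 558482097205], [nat_lit 418862105525, nat_lit 281422635957], [nat_lit 418861572917], [nat_lit 418861572913], [nat_lit 418861572909], [nat_lit 418861572905]] [])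
(.leaf [[nat_lit 558482134453, nat_lit 558483695029], [nat_lit 558482122037, nat_lit 558483162421], [nat_lit 558482109621, nat_lit 558482629813], [nat_lit 558482097205], [nat_lit 418862105525, nat_lit 281422635957], [nat_lit 418861572917], [nat_lit 418861572913], [nat_lit 418861572909], [nat_lit 418861572905]] []))))))
(.node (nat_lit 1158)
(.node (nat_lit 1152)
(.node (nat_lit 1102)
(.node (nat_lit 1101)
(.leaf [[nat_lit 558482134453, nat_lit 558483695029], [nat_lit 558482122037, nat_lit 558483162421], [nat_lit 558482109621, nat_lit 558482629813], [nat_lit 558482097205], [nat_lit 418862105525, nat_lit 350142108597, nat_lit 350142370741], [nat_lit 418861572917], [nat_lit 418861572913], [nat_lit 418861572909]] [])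
(.leaf [[nat_lit 628292384181, nat_lit 628293424565], [nat_lit 628292371765, nat_lit 628292891957], [nat_lit 558482109621, nat_lit 558482629813], [nat_lit 558482097205], [nat_lit 418862105525, nat_lit 281422635957], [nat_lit 418861572917], [nat_lit 418861572913], [nat_lit 418861572909]] []))
(.node (nat_lit 1103)
(.leaf [[nat_lit 628292384181, nat_lit 628293424565], [nat_lit 628292371765, nat_lit 628292891957], [nat_lit 558482109621, nat_lit 558482629813], [nat_lit 558482097205], [nat_lit 558482097201], [nat_lit 418861572917], [nat_lit 418861572913], [nat_lit 418861572909]] [])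
(.node (nat_lit 1104)
(.leaf [[nat_lit 628292384181, nat_lit 628293424565], [nat_lit 628292371765, nat_lit 628292891957], [nat_lit 558482109621, nat_lit 558482629813], [nat_lit 558482097205], [nat_lit 558482097201], [nat_lit 418861572917], [nat_lit 418861572913], [nat_lit 418861572909]] [])
(.leaf [[nat_lit 9817372085, nat_lit 9818932661, nat_lit 6544786869], [nat_lit 9817359669, nat_lit 9818400053, nat_lit 6544774453], [nat_lit 9817347253, nat_lit 9817867445, nat_lit 6544762037], [nat_lit 8726299701, nat_lit 6546310197], [nat_lit 7635510197, nat_lit 6545777589, nat_lit 6544737205], [nat_lit 6545244981, nat_lit 4363174709], [nat_lit 6544712373], [nat_lit 6544712369], [nat_lit 6544712365], [nat_lit 6544712361]] []))))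
(.node (nat_lit 1155)
(.node (nat_lit 1153)
(.leaf [[nat_lit 9817372085, nat_lit 9818932661, nat_lit 6544786869], [nat_lit 9817359669, nat_lit 9818400053, nat_lit 6544774453], [nat_lit 9817347253, nat_lit 9817867445, nat_lit 6544762037], [nat_lit 8726299701, nat_lit 6546310197], [nat_lit 7635510197, nat_lit 6545777589, nat_lit 6544737205], [nat_lit 6545244981, nat_lit 4363174709], [nat_lit 6544712373], [nat_lit 6544712369], [nat_lit 6544712365], [nat_lit 6544712361]] [])
(.node (nat_lit 1154)
(.leaf [[nat_lit 9817372085, nat_lit 9818932661, nat_lit 6544786869], [nat_lit 9817359669, nat_lit 9818400053, nat_lit 6544774453], [nat_lit 9817347253, nat_lit 9817867445, nat_lit 6544762037], [nat_lit 8726299701, nat_lit 6546310197], [nat_lit 7635510197, nat_lit 6545777589, nat_lit 6544737205], [nat_lit 6545244981, nat_lit 4363174709], [nat_lit 6544712373], [nat_lit 6544712369], [nat_lit 6544712365], [nat_lit 6544712361]] [])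
(.leaf [[nat_lit 9817372085, nat_lit 9818932661, nat_lit 6544786869], [nat_lit 9817359669, nat_lit 9818400053, nat_lit 6544774453], [nat_lit 9817347253, nat_lit 9817867445, nat_lit 6544762037], [nat_lit 8726299701, nat_lit 6546310197], [nat_lit 76354986933, nat_lit 76355507125], [nat_lit 143983674165, nat_lit 6545244981], [nat_lit 6544712373], [nat_lit 6544712369], [nat_lit 6544712365], [nat_lit 6544712361]] [])))
(.node (nat_lit 1156)
(.leaf [[nat_lit 9817372085, nat_lit 9818932661, nat_lit 7635559861], [nat_lit 9817359669, nat_lit 9818400053, nat_lit 7635547445], [nat_lit 9817347253, nat_lit 9817867445, nat_lit 7635535029], [nat_lit 8726299701, nat_lit 76356039733], [nat_lit 76354986933, nat_lit 76355507125], [nat_lit 143983674165, nat_lit 6545244981], [nat_lit 6544712373], [nat_lit 6544712369], [nat_lit 6544712365], [nat_lit 6544712361]] [])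
(.node (nat_lit 1157)
(.leaf [[nat_lit 9818932661, nat_lit 76355036597], [nat_lit 9818400053, nat_lit 76355024181], [nat_lit 9817867445, nat_lit 76355011765], [nat_lit 77446034485, nat_lit 76356039733, nat_lit 76354999349], [nat_lit 146165236661], [nat_lit 143983674165, nat_lit 6545244981], [nat_lit 6544712373], [nat_lit 6544712369], [nat_lit 6544712365], [nat_lit 6544712361]] [])
(.leaf [[nat_lit 146165286325, nat_lit 146167367093], [nat_lit 146165273909, nat_lit 146166834485], [nat_lit 146165261493, nat_lit 146166301877], [nat_lit 146165249077, nat_lit 146165769269], [nat_lit 146165236661], [nat_lit 143983674165, nat_lit 6545244981], [nat_lit 6544712373], [nat_lit 6544712369], [nat_lit 6544712365]] [])))))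
(.node (nat_lit 1163)
(.node (nat_lit 1160)
(.node (nat_lit 1159)
(.leaf [[nat_lit 214885021109, nat_lit 146167367093, nat_lit 213793985973], [nat_lit 214885008693, nat_lit 146166834485, nat_lit 213793973557], [nat_lit 214884996277, nat_lit 146166301877, nat_lit 213793961141], [nat_lit 214884983861, nat_lit 213793948725, nat_lit 146165769269], [nat_lit 146165236661], [nat_lit 143983674165, nat_lit 6545244981], [nat_lit 6544712373], [nat_lit 6544712369], [nat_lit 6544712365]] [])
(.leaf [[nat_lit 215977096629, nat_lit 213793985973], [nat_lit 215976564021, nat_lit 213793973557], [nat_lit 215976031413, nat_lit 213793961141], [nat_lit 283604198453, nat_lit 146165769269], [nat_lit 146165236661], [nat_lit 418861572917], [nat_lit 6544712373], [nat_lit 6544712369], [nat_lit 6544712365]] []))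
(.node (nat_lit 1161)
(.leaf [[nat_lit 352323970485, nat_lit 352325531061, nat_lit 351232935349], [nat_lit 352323958069, nat_lit 352324998453, nat_lit 351232922933], [nat_lit 352323945653, nat_lit 352324465845, nat_lit 351232910517], [nat_lit 352323933237, nat_lit 351232898101], [nat_lit 146165236661], [nat_lit 418861572917], [nat_lit 6544712373], [nat_lit 6544712369], [nat_lit 6544712365]] [])
(.node (nat_lit 1162)
(.leaf [[nat_lit 421043185077, nat_lit 352325531061], [nat_lit 421043172661, nat_lit 352324998453], [nat_lit 421043160245, nat_lit 352324465845], [nat_lit 352323933237, nat_lit 351232898101], [nat_lit 418862105525, nat_lit 281422635957], [nat_lit 418861572917], [nat_lit 6544712373], [nat_lit 418861572909], [nat_lit 418861572905]] [])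
(.leaf [[nat_lit 422135260597, nat_lit 488671884725], [nat_lit 422134727989, nat_lit 488671872309], [nat_lit 422134195381, nat_lit 488671859893], [nat_lit 558482097205], [nat_lit 418862105525, nat_lit 281422635957], [nat_lit 418861572917], [nat_lit 418861572913], [nat_lit 418861572909], [nat_lit 418861572905]] []))))
(.node (nat_lit 1166)
(.node (nat_lit 1164)
(.leaf [[nat_lit 558482134453, nat_lit 558483695029], [nat_lit 558482122037, nat_lit 558483162421], [nat_lit 558482109621, nat_lit 558482629813], [nat_lit 558482097205], [nat_lit 418862105525, nat_lit 281422635957], [nat_lit 418861572917], [nat_lit 418861572913], [nat_lit 418861572909]] [])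
(.node (nat_lit 1165)
(.leaf [[nat_lit 628292384181, nat_lit 628293424565], [nat_lit 628292371765, nat_lit 628292891957], [nat_lit 558482109621, nat_lit 558482629813], [nat_lit 558482097205], [nat_lit 418862105525, nat_lit 281422635957], [nat_lit 418861572917], [nat_lit 418861572913], [nat_lit 418861572909]] [])
(.leaf [[nat_lit 628292384181, nat_lit 628293424565], [nat_lit 628292371765, nat_lit 628292891957], [nat_lit 558482109621, nat_lit 558482629813], [nat_lit 558482097205], [nat_lit 418862105525, nat_lit 350142108597, nat_lit 350142370741], [nat_lit 418861572917], [nat_lit 418861572913], [nat_lit 418861572909]] [])))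
(.node (nat_lit 1167)
(.leaf [[nat_lit 628292384181, nat_lit 628293424565], [nat_lit 628292371765, nat_lit 628292891957], [nat_lit 558482109621, nat_lit 558482629813], [nat_lit 558482097205], [nat_lit 558482097201], [nat_lit 418861572917], [nat_lit 418861572913], [nat_lit 418861572909]] [])
(.node (nat_lit 1168)
(.leaf [[nat_lit 698102633909, nat_lit 698103154101], [nat_lit 698102621493], [nat_lit 558482109621, nat_lit 558482629813], [nat_lit 558482097205], [nat_lit 558482097201], [nat_lit 418861572917], [], [nat_lit 418861572909]] [])
(.leaf [[nat_lit 698102633909, nat_lit 698103154101], [nat_lit 698102621493], [nat_lit 558482629813, nat_lit 558482109621], [nat_lit 558482097205], [nat_lit 558482097201], [nat_lit 418861572917], [], [nat_lit 418861572909]] [])))))))))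

noncomputable def ct20 : Tc :=
(.node (nat_lit 899)
(.node (nat_lit 641)
(.node (nat_lit 449)
(.node (nat_lit 320)
(.node (nat_lit 193)
(.node (nat_lit 128)
(.node (nat_lit 64)
(.leaf [[nat_lit 102793934, nat_lit 17109834], [nat_lit 102261326], [nat_lit 102261322], [nat_lit 102261318], [nat_lit 82], [nat_lit 78], [nat_lit 74], [nat_lit 70], [nat_lit 66], [nat_lit 62], [nat_lit 58], [nat_lit 53]] [[], [], [], [], [], [], [], [], [], [], [], [], [nat_lit 401430]])
(.leaf [[nat_lit 1193853894, nat_lit 1107870414, nat_lit 1160823750, nat_lit 1091109706], [nat_lit 1193321286, nat_lit 1160291142, nat_lit 1124905674], [nat_lit 1159238342, nat_lit 1142981318, nat_lit 1107870406, nat_lit 1126208198], [nat_lit 1159238338, nat_lit 1142981314, nat_lit 1107870402, nat_lit 1126208194], [nat_lit 1159238334, nat_lit 1142981310, nat_lit 1107870398], [nat_lit 136356661, nat_lit 103326517], [nat_lit 102793909, nat_lit 102286129], [nat_lit 102261301], [nat_lit 102261297], [nat_lit 102261293], [nat_lit 102261289], [nat_lit 53]] [[], [], [], [], [nat_lit 9225897494438], [], [], [], [], [nat_lit 837724512669, nat_lit 837724512924],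 [nat_lit 837724479515, nat_lit 837724479642, nat_lit 837724479643, nat_lit 837724479770, nat_lit 837724479897, nat_lit 837724479898]]))
(.node (nat_lit 129)
(.leaf [[nat_lit 69913068486, nat_lit 69844394826, nat_lit 69812925258], [nat_lit 69912535878, nat_lit 69812925254], [nat_lit 69878465346, nat_lit 69812925250], [nat_lit 69895500606, nat_lit 104391733], [nat_lit 136369077, nat_lit 103859125], [nat_lit 136356661, nat_lit 103326517], [nat_lit 102793909, nat_lit 102286129], [nat_lit 102261301], [nat_lit 102261297], [nat_lit 102261293], [nat_lit 102261289], [nat_lit 53]] [[], [], [], [], [], [], [], [], [], [], [nat_lit 837724479515, nat_lit 837724479770, nat_lit 837724479897]])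
(.node (nat_lit 192)
(.leaf [[nat_lit 2249753294, nat_lit 2267853766], [nat_lit 2267321158, nat_lit 2215682762], [nat_lit 2249753286, nat_lit 2216723142], [nat_lit 2232718018, nat_lit 2216723138], [nat_lit 2249753278, nat_lit 2216723134], [nat_lit 136356661, nat_lit 103326517], [nat_lit 102793909, nat_lit 102286129], [nat_lit 102261301], [nat_lit 102261297], [nat_lit 102261293], [nat_lit 102261289], [nat_lit 53]] [[], [], [], [], [], [], [], [], [], [], [nat_lit 837724479515, nat_lit 837724479642, nat_lit 837724479770, nat_lit 837724479897]])
(.leaf [[nat_lit 70987068358, nat_lit 70918132554, nat_lit 70901359434, nat_lit 70970553286], [nat_lit 70986535750, nat_lit 70901097286, nat_lit 70920487874], [nat_lit 70952465218, nat_lit 104924341, nat_lit 70901097282], [nat_lit 136381493, nat_lit 104391733], [nat_lit 136369077, nat_lit 103859125], [nat_lit 136356661, nat_lit 103326517], [nat_lit 102793909, nat_lit 102286129], [nat_lit 102261301], [nat_lit 102261297], [nat_lit 102261293], [nat_lit 102261289], [nat_lit 53]] [[], [], [], [], [], [], [], [], [], [], [nat_lit 837724479897]]))))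
(.node (nat_lit 257)
(.node (nat_lit 194)
(.leaf [[nat_lit 139722785610], [nat_lit 139705750342, nat_lit 139672720198], [nat_lit 139671679810, nat_lit 139672720194], [nat_lit 136381493, nat_lit 104391733], [nat_lit 136369077, nat_lit 103859125], [nat_lit 136356661, nat_lit 103326517], [nat_lit 102793909, nat_lit 102286129], [nat_lit 102261301], [nat_lit 102261297], [nat_lit 102261293], [nat_lit 102261289], [nat_lit 53]] [])
(.node (nat_lit 256)
(.leaf [[nat_lit 3340800842, nat_lit 3272397642, nat_lit 3324285770], [nat_lit 3340800838, nat_lit 3272397638, nat_lit 3324285766], [nat_lit 3324285762, nat_lit 85288117], [nat_lit 3273167554, nat_lit 85275701, nat_lit 104391733], [nat_lit 136369077, nat_lit 103859125], [nat_lit 136356661, nat_lit 103326517], [nat_lit 102793909, nat_lit 1141940917, nat_lit 1159238325], [nat_lit 102261301], [nat_lit 102261297], [nat_lit 102261293], [nat_lit 102261289], [nat_lit 53]] [[], [], [], [], [], [], [], [], [], [nat_lit 837724512923], [nat_lit 837724479642, nat_lit 837724479769, nat_lit 837724479897]])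
(.leaf [[nat_lit 72042980170, nat_lit 72027517894], [nat_lit 72042980166, nat_lit 72026985286], [nat_lit 136393909, nat_lit 104924341], [nat_lit 136381493, nat_lit 104391733], [nat_lit 136369077, nat_lit 103859125], [nat_lit 136356661, nat_lit 103326517], [nat_lit 102793909, nat_lit 102286129], [nat_lit 102261301], [nat_lit 102261297], [nat_lit 102261293], [nat_lit 102261289], [nat_lit 53]] [])))
(.node (nat_lit 258)
(.leaf [[nat_lit 140762714954, nat_lit 140780282822, nat_lit 140728382282], [nat_lit 140762714950, nat_lit 140762972998, nat_lit 85300533], [nat_lit 136393909, nat_lit 104924341], [nat_lit 136381493, nat_lit 104391733], [nat_lit 136369077, nat_lit 103859125], [nat_lit 136356661, nat_lit 103326517], [nat_lit 102793909, nat_lit 1176011445, nat_lit 1159238325], [nat_lit 102261301], [nat_lit 102261297], [nat_lit 102261293], [nat_lit 102261289], [nat_lit 53]] [])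
(.node (nat_lit 259)
(.leaf [[nat_lit 209481929546, nat_lit 209482982342], [nat_lit 209481929542, nat_lit 105456949], [nat_lit 154989749, nat_lit 85288117], [nat_lit 154457141, nat_lit 85275701], [nat_lit 153924533, nat_lit 85263285], [nat_lit 136356661, nat_lit 103326517], [nat_lit 102793909, nat_lit 102286129], [nat_lit 102261301], [nat_lit 102261297], [nat_lit 102261293], [nat_lit 102261289], [nat_lit 53]] [])
(.leaf [[nat_lit 4431315786, nat_lit 4363158222], [nat_lit 4431315782], [nat_lit 4363682502, nat_lit 4397228742, nat_lit 85288117, nat_lit 104924341], [nat_lit 4363682498, nat_lit 85275701, nat_lit 104391733], [nat_lit 136369077, nat_lit 103859125], [nat_lit 136356661, nat_lit 103326517], [nat_lit 102793909, nat_lit 2232718005], [nat_lit 102261301], [nat_lit 102261297], [nat_lit 102261293], [nat_lit 102261289], [nat_lit 53]] [[], [], [], [], [], [], [], [], [], [], [nat_lit 837724479514, nat_lit 837724479769]])))))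
(.node (nat_lit 385)
(.node (nat_lit 323)
(.node (nat_lit 321)
(.leaf [[nat_lit 73116980042, nat_lit 73134547910, nat_lit 73082647370], [nat_lit 73116980038, nat_lit 73117238086, nat_lit 85300533], [nat_lit 136393909, nat_lit 104924341], [nat_lit 136381493, nat_lit 104391733], [nat_lit 136369077, nat_lit 103859125], [nat_lit 136356661, nat_lit 103326517], [nat_lit 102793909, nat_lit 1176011445, nat_lit 1159238325], [nat_lit 102261301], [nat_lit 102261297], [nat_lit 102261293], [nat_lit 102261289], [nat_lit 53]] [])
(.node (nat_lit 322)
(.leaf [[nat_lit 141836714826, nat_lit 85312949], [nat_lit 141802644294, nat_lit 105456949, nat_lit 85300533], [nat_lit 136393909, nat_lit 104924341], [nat_lit 136381493, nat_lit 104391733], [nat_lit 136369077, nat_lit 103859125], [nat_lit 136356661, nat_lit 103326517], [nat_lit 102793909, nat_lit 2232718005], [nat_lit 102261301], [nat_lit 102261297], [nat_lit 102261293], [nat_lit 102261289], [nat_lit 53]] [])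
(.leaf [[nat_lit 136418741, nat_lit 139019701, nat_lit 105989557], [nat_lit 136406325, nat_lit 121972021, nat_lit 105456949], [nat_lit 136393909, nat_lit 104924341], [nat_lit 136381493, nat_lit 104391733], [nat_lit 136369077, nat_lit 103859125], [nat_lit 136356661, nat_lit 103326517], [nat_lit 102793909, nat_lit 1176011445, nat_lit 1159238325], [nat_lit 102261301], [nat_lit 102261297], [nat_lit 102261293], [nat_lit 102261289]] [])))
(.node (nat_lit 324)
(.leaf [[nat_lit 279275144010, nat_lit 279242113866], [nat_lit 279241073478, nat_lit 279242113862], [nat_lit 154989749, nat_lit 102323381], [nat_lit 154457141, nat_lit 102310965], [nat_lit 153924533, nat_lit 102298549], [nat_lit 136356661, nat_lit 103326517], [nat_lit 102793909, nat_lit 119321393], [nat_lit 102261301], [nat_lit 102261297], [nat_lit 102261293], [nat_lit 102261289]] [])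
(.node (nat_lit 384)
(.leaf [[nat_lit 5471245130, nat_lit 5488812998, nat_lit 85312949], [nat_lit 5471245126, nat_lit 5471503174, nat_lit 85300533], [nat_lit 5471245122, nat_lit 104924341, nat_lit 85288117], [nat_lit 137421877, nat_lit 85275701, nat_lit 104391733], [nat_lit 136369077, nat_lit 103859125], [nat_lit 136356661, nat_lit 103326517], [nat_lit 102793909, nat_lit 2232718005], [nat_lit 102261301], [nat_lit 102261297], [nat_lit 102261293], [nat_lit 102261289], [nat_lit 53]] [[], [], [], [], [], [], [], [], [], [], [nat_lit 837724479641, nat_lit 837724479768]])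
(.leaf [[nat_lit 74190459722, nat_lit 74191512518], [nat_lit 74190459718, nat_lit 105456949], [nat_lit 136393909, nat_lit 104924341], [nat_lit 136381493, nat_lit 104391733], [nat_lit 136369077, nat_lit 103859125], [nat_lit 136356661, nat_lit 103326517], [nat_lit 2249753269, nat_lit 102793909], [nat_lit 102261301], [nat_lit 102261297], [nat_lit 102261293], [nat_lit 102261289], [nat_lit 53]] []))))
(.node (nat_lit 388)
(.node (nat_lit 386)
(.leaf [[nat_lit 136418741, nat_lit 139019701, nat_lit 105989557], [nat_lit 136406325, nat_lit 121972021, nat_lit 105456949], [nat_lit 136393909, nat_lit 104924341], [nat_lit 136381493, nat_lit 104391733], [nat_lit 136369077, nat_lit 103859125], [nat_lit 136356661, nat_lit 103326517], [nat_lit 102793909, nat_lit 2232718005], [nat_lit 102261301], [nat_lit 102261297], [nat_lit 102261293], [nat_lit 102261289]] [])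
(.node (nat_lit 387)
(.leaf [[nat_lit 156054965, nat_lit 136418741, nat_lit 136938933], [nat_lit 155522357, nat_lit 119371061], [nat_lit 154989749, nat_lit 102323381], [nat_lit 154457141, nat_lit 102310965], [nat_lit 153924533, nat_lit 102298549], [nat_lit 136356661, nat_lit 103326517], [nat_lit 102793909, nat_lit 2232718005], [nat_lit 102261301], [nat_lit 102261297], [nat_lit 102261293], [nat_lit 102261289]] [])
(.leaf [[nat_lit 156054965, nat_lit 136418741, nat_lit 136938933], [nat_lit 155522357, nat_lit 119371061], [nat_lit 154989749, nat_lit 102323381], [nat_lit 154457141, nat_lit 102310965], [nat_lit 153924533, nat_lit 102298549], [nat_lit 136356661, nat_lit 103326517], [nat_lit 102793909, nat_lit 1176011445, nat_lit 1159238325], [nat_lit 102261301], [nat_lit 102261297], [nat_lit 102261293], [nat_lit 102261289]] [])))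
(.node (nat_lit 389)
(.leaf [[nat_lit 156054965, nat_lit 136418741, nat_lit 136938933], [nat_lit 155522357, nat_lit 136406325], [nat_lit 154989749, nat_lit 102323381], [nat_lit 154457141, nat_lit 102310965], [nat_lit 153924533, nat_lit 102298549], [nat_lit 136356661, nat_lit 103326517], [nat_lit 102793909, nat_lit 119321393], [nat_lit 102261301], [nat_lit 102261297], [nat_lit 102261293], [nat_lit 102261289]] [])
(.node (nat_lit 448)
(.leaf [[nat_lit 6544712398, nat_lit 6544720714], [nat_lit 6544712394], [nat_lit 6544712390], [nat_lit 6544712386], [nat_lit 136369077, nat_lit 103859125], [nat_lit 136356661, nat_lit 103326517], [nat_lit 2249753269, nat_lit 102793909], [nat_lit 102261301], [nat_lit 102261297], [nat_lit 102261293], [nat_lit 102261289], [nat_lit 53]] [[], [], [], [], [], [], [], [], [], [], [nat_lit 837724479513, nat_lit 837724479768]])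
(.leaf [[nat_lit 136418741, nat_lit 139019701, nat_lit 105989557], [nat_lit 136406325, nat_lit 121972021, nat_lit 105456949], [nat_lit 136393909, nat_lit 104924341], [nat_lit 136381493, nat_lit 104391733], [nat_lit 136369077, nat_lit 103859125], [nat_lit 136356661, nat_lit 103326517], [nat_lit 2249753269, nat_lit 102793909], [nat_lit 102261301], [nat_lit 102261297], [nat_lit 102261293], [nat_lit 102261289]] []))))))
(.node (nat_lit 518)
(.node (nat_lit 512)
(.node (nat_lit 452)
(.node (nat_lit 450)
(.leaf [[nat_lit 136418741, nat_lit 139019701, nat_lit 139277749, nat_lit 136938933], [nat_lit 136406325, nat_lit 121972021, nat_lit 138745141], [nat_lit 136393909, nat_lit 104924341, nat_lit 136914101], [nat_lit 136381493, nat_lit 104391733], [nat_lit 136369077, nat_lit 103859125], [nat_lit 136356661, nat_lit 103326517], [nat_lit 2249753269, nat_lit 102793909], [nat_lit 102261301], [nat_lit 102261297], [nat_lit 102261293], [nat_lit 102261289]] [])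
(.node (nat_lit 451)
(.leaf [[nat_lit 156054965, nat_lit 136418741, nat_lit 136938933], [nat_lit 155522357, nat_lit 119371061], [nat_lit 154989749, nat_lit 102323381], [nat_lit 154457141, nat_lit 102310965], [nat_lit 153924533, nat_lit 102298549], [nat_lit 136356661, nat_lit 103326517], [nat_lit 2249753269, nat_lit 102793909], [nat_lit 102261301], [nat_lit 102261297], [nat_lit 102261293], [nat_lit 102261289]] [])
(.leaf [[nat_lit 156054965, nat_lit 136418741, nat_lit 136938933], [nat_lit 155522357, nat_lit 136406325], [nat_lit 154989749, nat_lit 102323381], [nat_lit 154457141, nat_lit 102310965], [nat_lit 153924533, nat_lit 102298549], [nat_lit 136356661, nat_lit 103326517], [nat_lit 2249753269, nat_lit 102793909], [nat_lit 102261301], [nat_lit 102261297], [nat_lit 102261293], [nat_lit 102261289]] [])))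
(.node (nat_lit 453)
(.leaf [[nat_lit 156054965, nat_lit 136418741, nat_lit 136938933], [nat_lit 155522357, nat_lit 136406325], [nat_lit 154989749, nat_lit 102323381], [nat_lit 154457141, nat_lit 102310965], [nat_lit 153924533, nat_lit 102298549], [nat_lit 136356661, nat_lit 103326517], [nat_lit 102793909, nat_lit 1176011445, nat_lit 1159238325], [nat_lit 102261301], [nat_lit 102261297], [nat_lit 102261293], [nat_lit 102261289]] [])
(.node (nat_lit 454)
(.leaf [[nat_lit 418861572938], [nat_lit 69929620789, nat_lit 69931701557, nat_lit 69915186485], [nat_lit 69929608373, nat_lit 69914653877], [nat_lit 69929595957, nat_lit 69914121269], [nat_lit 69929583541, nat_lit 69913588661], [nat_lit 69929571125, nat_lit 103326517], [nat_lit 69912535857, nat_lit 102793909], [nat_lit 102261301], [nat_lit 102261297], [nat_lit 102261293], [nat_lit 102261289]] [])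
(.leaf [[nat_lit 7635510214, nat_lit 1213019573, nat_lit 136418741, nat_lit 137459125], [nat_lit 1210406197, nat_lit 1212486965, nat_lit 85300533], [nat_lit 1210393781, nat_lit 1211954357, nat_lit 85288117], [nat_lit 1210381365, nat_lit 1211421749, nat_lit 85275701], [nat_lit 1210368949, nat_lit 1210889141, nat_lit 85263285], [nat_lit 136356661, nat_lit 103326517], [nat_lit 2249753269, nat_lit 102793909], [nat_lit 102261301], [nat_lit 102261297], [nat_lit 102261293], [nat_lit 102261289]] [[], [], [], [], [], [], [], [], [], [], [nat_lit 837724479640]]))))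
(.node (nat_lit 515)
(.node (nat_lit 513)
(.leaf [[nat_lit 1210418613, nat_lit 1213019573, nat_lit 102348213], [nat_lit 1210406197, nat_lit 1212486965, nat_lit 102335797], [nat_lit 1210393781, nat_lit 1211954357, nat_lit 102323381], [nat_lit 1210381365, nat_lit 1211421749, nat_lit 102310965], [nat_lit 1210368949, nat_lit 1210889141, nat_lit 102298549], [nat_lit 136356661, nat_lit 103326517], [nat_lit 2249753269, nat_lit 102793909], [nat_lit 102261301], [nat_lit 102261297], [nat_lit 102261293], [nat_lit 102261289]] [])
(.node (nat_lit 514)
(.leaf [[nat_lit 1213019573, nat_lit 136418741, nat_lit 136938933], [nat_lit 1212486965, nat_lit 136406325], [nat_lit 1211954357, nat_lit 119358645], [nat_lit 1211421749, nat_lit 102310965], [nat_lit 1210889141, nat_lit 102298549], [nat_lit 136356661, nat_lit 103326517], [nat_lit 2249753269, nat_lit 102793909], [nat_lit 102261301], [nat_lit 102261297], [nat_lit 102261293], [nat_lit 102261289]] [])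
(.leaf [[nat_lit 1213019573, nat_lit 136418741, nat_lit 136938933], [nat_lit 1212486965, nat_lit 136406325], [nat_lit 1211954357, nat_lit 119358645], [nat_lit 1211421749, nat_lit 102310965], [nat_lit 1210889141, nat_lit 102298549], [nat_lit 136356661, nat_lit 103326517], [nat_lit 2249753269, nat_lit 102793909], [nat_lit 102261301], [nat_lit 102261297], [nat_lit 102261293], [nat_lit 102261289]] [])))
(.node (nat_lit 516)
(.leaf [[nat_lit 1213019573, nat_lit 136418741, nat_lit 120423861], [nat_lit 1212486965, nat_lit 136406325, nat_lit 119891253], [nat_lit 1211954357, nat_lit 119358645], [nat_lit 1211421749, nat_lit 102310965], [nat_lit 1210889141, nat_lit 102298549], [nat_lit 136356661, nat_lit 103326517], [nat_lit 2249753269, nat_lit 102793909], [nat_lit 102261301], [nat_lit 102261297], [nat_lit 102261293], [nat_lit 102261289]] [])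
(.node (nat_lit 517)
(.leaf [[nat_lit 69929633205, nat_lit 69932234165, nat_lit 136938933, nat_lit 69915719093], [nat_lit 69929620789, nat_lit 69931701557, nat_lit 69915186485], [nat_lit 69929608373, nat_lit 69914653877], [nat_lit 69929595957, nat_lit 69914121269], [nat_lit 69929583541, nat_lit 69913588661], [nat_lit 69929571125, nat_lit 103326517], [nat_lit 2249753269, nat_lit 102793909], [nat_lit 102261301], [nat_lit 102261297], [nat_lit 102261293], [nat_lit 102261289]] [])
(.leaf [[nat_lit 69929633205, nat_lit 69932234165, nat_lit 69930153397, nat_lit 69915719093], [nat_lit 69929620789, nat_lit 69931701557, nat_lit 69915186485], [nat_lit 69929608373, nat_lit 69914653877], [nat_lit 69929595957, nat_lit 69914121269], [nat_lit 69929583541, nat_lit 69913588661], [nat_lit 139722785589], [nat_lit 102793909, nat_lit 1176011445, nat_lit 1159238325], [nat_lit 102261301], [nat_lit 102261297], [nat_lit 102261293]] [])))))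
(.node (nat_lit 580)
(.node (nat_lit 577)
(.node (nat_lit 519)
(.leaf [[nat_lit 139722847669, nat_lit 139725448629, nat_lit 69930153397], [nat_lit 139722835253, nat_lit 139724916021], [nat_lit 139722822837, nat_lit 139724383413], [nat_lit 139722810421, nat_lit 139723850805], [nat_lit 139722798005, nat_lit 139723318197], [nat_lit 139722785589], [nat_lit 139705750321, nat_lit 102793909], [nat_lit 102261301], [nat_lit 102261297], [nat_lit 102261293]] [])
(.node (nat_lit 576)
(.leaf [[nat_lit 8726283206, nat_lit 1212499381, nat_lit 2266863029, nat_lit 1213019573], [nat_lit 2283885877, nat_lit 1212486965], [nat_lit 2283873461, nat_lit 1211954357], [nat_lit 2283861045, nat_lit 1211421749], [nat_lit 2283848629, nat_lit 1210889141], [nat_lit 2267321141, nat_lit 2232730421], [nat_lit 2249753269, nat_lit 102793909], [nat_lit 102261301], [nat_lit 102261297], [nat_lit 102261293], [nat_lit 102261289]] [[], [], [], [], [], [], [], [], [], [], [nat_lit 837724479512, nat_lit 837724479639]])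
(.leaf [[nat_lit 2283898293, nat_lit 2286499253, nat_lit 1213019573], [nat_lit 2283885877, nat_lit 1212486965], [nat_lit 2283873461, nat_lit 1211954357], [nat_lit 2283861045, nat_lit 1211421749], [nat_lit 2283848629, nat_lit 1210889141], [nat_lit 2267321141, nat_lit 2249765685], [nat_lit 2249753269, nat_lit 102793909], [nat_lit 102261301], [nat_lit 102261297], [nat_lit 102261293], [nat_lit 102261289]] [[], [], [], [], [], [], [], [], [], [], [nat_lit 837724479639]])))
(.node (nat_lit 578)
(.leaf [[nat_lit 1210418613, nat_lit 1213019573, nat_lit 102348213, nat_lit 1210938805], [nat_lit 1210406197, nat_lit 1212486965, nat_lit 102335797], [nat_lit 1210393781, nat_lit 1211954357, nat_lit 102323381], [nat_lit 1210381365, nat_lit 1211421749, nat_lit 102310965], [nat_lit 1210368949, nat_lit 1210889141, nat_lit 102298549], [nat_lit 2267321141, nat_lit 102286133], [nat_lit 2249753269, nat_lit 102793909], [nat_lit 102261301], [nat_lit 102261297], [nat_lit 102261293], [nat_lit 102261289]] [])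
(.node (nat_lit 579)
(.leaf [[nat_lit 1210418613, nat_lit 1213019573, nat_lit 102348213, nat_lit 1210938805], [nat_lit 1210406197, nat_lit 1212486965, nat_lit 102335797], [nat_lit 1210393781, nat_lit 1211954357, nat_lit 102323381], [nat_lit 1210381365, nat_lit 1211421749, nat_lit 102310965], [nat_lit 1210368949, nat_lit 1210889141, nat_lit 102298549], [nat_lit 2267321141, nat_lit 102286133], [nat_lit 2249753269, nat_lit 102793909], [nat_lit 102261301], [nat_lit 102261297], [nat_lit 102261293], [nat_lit 102261289]] [])
(.leaf [[nat_lit 1210418613, nat_lit 1213019573, nat_lit 102348213, nat_lit 1210938805], [nat_lit 1210406197, nat_lit 1212486965, nat_lit 102335797], [nat_lit 1210393781, nat_lit 1211954357, nat_lit 102323381], [nat_lit 1210381365, nat_lit 1211421749, nat_lit 102310965], [nat_lit 1210368949, nat_lit 1210889141, nat_lit 102298549], [nat_lit 2267321141, nat_lit 102286133], [nat_lit 2249753269, nat_lit 102793909], [nat_lit 102261301], [nat_lit 102261297], [nat_lit 102261293], [nat_lit 102261289]] []))))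
(.node (nat_lit 583)
(.node (nat_lit 581)
(.leaf [[nat_lit 69929633205, nat_lit 69932234165, nat_lit 69930153397, nat_lit 69915719093], [nat_lit 69929620789, nat_lit 69931701557, nat_lit 69915186485], [nat_lit 69929608373, nat_lit 69914653877], [nat_lit 69929595957, nat_lit 69914121269], [nat_lit 69929583541, nat_lit 69913588661], [nat_lit 69929571125, nat_lit 1193579317], [nat_lit 2249753269, nat_lit 102793909], [nat_lit 102261301], [nat_lit 102261297], [nat_lit 102261293]] [])
(.node (nat_lit 582)
(.leaf [[nat_lit 139722847669, nat_lit 139725448629, nat_lit 69930153397], [nat_lit 139722835253, nat_lit 139724916021], [nat_lit 139722822837, nat_lit 139724383413], [nat_lit 139722810421, nat_lit 139723850805], [nat_lit 139722798005, nat_lit 139723318197], [nat_lit 139722785589], [nat_lit 2249753269, nat_lit 102793909], [nat_lit 102261301], [nat_lit 102261297], [nat_lit 102261293]] [])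
(.leaf [[nat_lit 139722847669, nat_lit 139725448629, nat_lit 139723367861], [nat_lit 139722835253, nat_lit 139724916021], [nat_lit 139722822837, nat_lit 139724383413], [nat_lit 139722810421, nat_lit 139723850805], [nat_lit 139722798005, nat_lit 139723318197], [nat_lit 139722785589], [nat_lit 102793909, nat_lit 1176011445, nat_lit 1159238325], [nat_lit 102261301], [nat_lit 102261297], [nat_lit 102261293]] [])))
(.node (nat_lit 584)
(.leaf [[nat_lit 209516062133, nat_lit 139725448629, nat_lit 139723367861], [nat_lit 209516049717, nat_lit 139724916021], [nat_lit 209516037301, nat_lit 139724383413], [nat_lit 209516024885, nat_lit 139723850805], [nat_lit 209516012469, nat_lit 139723318197], [nat_lit 139722785589], [nat_lit 209481929521, nat_lit 102793909], [nat_lit 102261301], [nat_lit 102261297], [nat_lit 102261293]] [])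
(.node (nat_lit 640)
(.leaf [[nat_lit 3357898165, nat_lit 2286499253, nat_lit 2232792501, nat_lit 2269984181], [nat_lit 3357885749, nat_lit 2269451573, nat_lit 2232780085], [nat_lit 3357873333, nat_lit 2268918965, nat_lit 2232767669], [nat_lit 3357860917, nat_lit 2268386357, nat_lit 2232755253], [nat_lit 3357848501, nat_lit 2267853749, nat_lit 2232742837], [nat_lit 3340800821, nat_lit 2232730421, nat_lit 2267321141], [nat_lit 2249753269, nat_lit 102793909], [nat_lit 102261301], [nat_lit 102261297], [nat_lit 102261293], [nat_lit 102261289]] [[], [], [], [], [], [], [], [], [], [], [nat_lit 837724479511, nat_lit 837724479639]])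
(.leaf [[nat_lit 3357898165, nat_lit 2286499253, nat_lit 2249827765, nat_lit 2269984181], [nat_lit 3357885749, nat_lit 2269451573, nat_lit 2249815349], [nat_lit 3357873333, nat_lit 2268918965, nat_lit 2249802933], [nat_lit 3357860917, nat_lit 2268386357, nat_lit 2249790517], [nat_lit 3357848501, nat_lit 2267853749, nat_lit 2249778101], [nat_lit 3340800821, nat_lit 2249765685, nat_lit 2267321141], [nat_lit 2249753269, nat_lit 102793909], [nat_lit 102261301], [nat_lit 102261297], [nat_lit 102261293], [nat_lit 102261289]] [[], [], [], [], [], [], [], [], [], [], [nat_lit 837724479511]])))))))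
(.node (nat_lit 772)
(.node (nat_lit 707)
(.node (nat_lit 647)
(.node (nat_lit 644)
(.node (nat_lit 642)
(.leaf [[nat_lit 2283898293, nat_lit 2286499253, nat_lit 2269984181, nat_lit 2284418485], [nat_lit 2283885877, nat_lit 2269451573, nat_lit 2284406069], [nat_lit 2283873461, nat_lit 2268918965], [nat_lit 2283861045, nat_lit 2268386357], [nat_lit 2283848629, nat_lit 2267853749], [nat_lit 3340800821, nat_lit 2249765685, nat_lit 2267321141], [nat_lit 2249753269, nat_lit 102793909], [nat_lit 102261301], [nat_lit 102261297], [nat_lit 102261293], [nat_lit 102261289]] [])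
(.node (nat_lit 643)
(.leaf [[nat_lit 2283898293, nat_lit 2286499253, nat_lit 2284418485, nat_lit 2269984181], [nat_lit 2283885877, nat_lit 2285966645, nat_lit 2269451573], [nat_lit 2283873461, nat_lit 2268918965], [nat_lit 2283861045, nat_lit 2268386357], [nat_lit 2283848629, nat_lit 2267853749], [nat_lit 3340800821, nat_lit 2249765685, nat_lit 2267321141], [nat_lit 2249753269, nat_lit 102793909], [nat_lit 102261301], [nat_lit 102261297], [nat_lit 102261293], [nat_lit 102261289]] [])
(.leaf [[nat_lit 2283898293, nat_lit 2286499253, nat_lit 2284418485, nat_lit 2269984181], [nat_lit 2283885877, nat_lit 2285966645, nat_lit 2269451573], [nat_lit 2283873461, nat_lit 2268918965], [nat_lit 2283861045, nat_lit 2268386357], [nat_lit 2283848629, nat_lit 2267853749], [nat_lit 2267321141, nat_lit 2249765685], [nat_lit 2249753269, nat_lit 102793909], [nat_lit 102261301], [nat_lit 102261297], [nat_lit 102261293]] [])))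
(.node (nat_lit 645)
(.leaf [[nat_lit 71003633077, nat_lit 71005713845, nat_lit 71005971893, nat_lit 69895562677], [nat_lit 71003620661, nat_lit 69915186485, nat_lit 69895550261, nat_lit 70987105589], [nat_lit 71003608245, nat_lit 69914653877, nat_lit 69895537845], [nat_lit 71003595829, nat_lit 69914121269, nat_lit 69895525429], [nat_lit 71003583413, nat_lit 71003841461, nat_lit 69895513013], [nat_lit 70986535733, nat_lit 69895500597, nat_lit 2267321141], [nat_lit 2249753269, nat_lit 102793909], [nat_lit 102261301], [nat_lit 102261297], [nat_lit 102261293]] [])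
(.node (nat_lit 646)
(.leaf [[nat_lit 139722847669, nat_lit 139725448629, nat_lit 139723367861], [nat_lit 139722835253, nat_lit 139724916021], [nat_lit 139722822837, nat_lit 139724383413], [nat_lit 139722810421, nat_lit 139723850805], [nat_lit 139722798005, nat_lit 139723318197], [nat_lit 139722785589], [nat_lit 2249753269, nat_lit 102793909], [nat_lit 102261301], [nat_lit 102261297], [nat_lit 102261293]] [])
(.leaf [[nat_lit 209516062133, nat_lit 139725448629, nat_lit 139723367861], [nat_lit 209516049717, nat_lit 139724916021], [nat_lit 209516037301, nat_lit 139724383413], [nat_lit 209516024885, nat_lit 139723850805], [nat_lit 209516012469, nat_lit 139723318197], [nat_lit 139722785589], [nat_lit 2249753269, nat_lit 102793909], [nat_lit 102261301], [nat_lit 102261297], [nat_lit 102261293]] []))))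
(.node (nat_lit 704)
(.node (nat_lit 648)
(.leaf [[nat_lit 209516062133, nat_lit 139725448629, nat_lit 209516582325], [nat_lit 209516049717, nat_lit 139724916021], [nat_lit 209516037301, nat_lit 139724383413], [nat_lit 209516024885, nat_lit 139723850805], [nat_lit 209516012469, nat_lit 209516270517], [nat_lit 139722785589], [nat_lit 102793909, nat_lit 1176011445, nat_lit 1159238325], [nat_lit 102261301], [nat_lit 102261297], [nat_lit 102261293]] [])
(.node (nat_lit 649)
(.leaf [[nat_lit 279309276597, nat_lit 279311357365, nat_lit 279294842293], [nat_lit 279309264181, nat_lit 279294309685], [nat_lit 279309251765, nat_lit 279293777077], [nat_lit 279309239349, nat_lit 279293244469], [nat_lit 209516012469, nat_lit 279292711861], [nat_lit 139722785589], [nat_lit 279275143985, nat_lit 102793909], [nat_lit 102261301], [nat_lit 102261297], [nat_lit 102261293]] [])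
(.leaf [[nat_lit 4431377845, nat_lit 4433978805, nat_lit 3357898165], [nat_lit 4431365429, nat_lit 4433446197], [nat_lit 4431353013, nat_lit 4432913589], [nat_lit 4431340597, nat_lit 4432380981], [nat_lit 4431328181, nat_lit 4431848373], [nat_lit 4431315765], [nat_lit 6544712373], [nat_lit 102261301], [nat_lit 102261297], [nat_lit 102261293]] [[], [], [], [], [], [], [], [], [], [], [nat_lit 837724479510, nat_lit 837724479511]])))
(.node (nat_lit 705)
(.leaf [[nat_lit 4431377845, nat_lit 4433978805], [nat_lit 4431365429, nat_lit 4433446197], [nat_lit 4431353013, nat_lit 4432913589], [nat_lit 4431340597, nat_lit 4432380981], [nat_lit 4431328181, nat_lit 4431848373], [nat_lit 4431315765], [nat_lit 6544712373], [nat_lit 102261301], [nat_lit 102261297], [nat_lit 102261293], [nat_lit 102261289]] [])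
(.node (nat_lit 706)
(.leaf [[nat_lit 4433978805, nat_lit 3357898165, nat_lit 2249827765], [nat_lit 4433446197, nat_lit 4414330165], [nat_lit 4432913589, nat_lit 2249802933], [nat_lit 4432380981, nat_lit 2249790517], [nat_lit 4431848373, nat_lit 2249778101], [nat_lit 4431315765], [nat_lit 2249753269, nat_lit 102793909], [nat_lit 102261301], [nat_lit 102261297], [nat_lit 102261293]] [[], [], [], [], [], [], [], [], [], [], [nat_lit 837724479510]])
(.leaf [[nat_lit 4433978805, nat_lit 3357898165, nat_lit 2249827765], [nat_lit 4433446197, nat_lit 4414330165], [nat_lit 4432913589, nat_lit 2249802933], [nat_lit 4432380981, nat_lit 2249790517], [nat_lit 4431848373, nat_lit 2249778101], [nat_lit 4431315765], [nat_lit 2249753269, nat_lit 102793909], [nat_lit 102261301], [nat_lit 102261297], [nat_lit 102261293]] [])))))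
(.node (nat_lit 713)
(.node (nat_lit 710)
(.node (nat_lit 708)
(.leaf [[nat_lit 3357898165, nat_lit 3359978933, nat_lit 3360236981, nat_lit 2249827765], [nat_lit 3357885749, nat_lit 2269451573, nat_lit 2249815349, nat_lit 3341370677], [nat_lit 3357873333, nat_lit 2268918965, nat_lit 2249802933], [nat_lit 3357860917, nat_lit 2268386357, nat_lit 2249790517], [nat_lit 3357848501, nat_lit 3358106549, nat_lit 2249778101], [nat_lit 4414280501, nat_lit 3357573941], [nat_lit 2249753269, nat_lit 102793909], [nat_lit 102261301], [nat_lit 102261297], [nat_lit 102261293]] [])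
(.node (nat_lit 709)
(.leaf [[nat_lit 72077112757, nat_lit 72079713717, nat_lit 72077632949], [nat_lit 72077100341, nat_lit 72079181109], [nat_lit 72077087925, nat_lit 72078648501], [nat_lit 72077075509, nat_lit 72078115893], [nat_lit 72077063093, nat_lit 72077583285], [nat_lit 3340800821, nat_lit 72042980149, nat_lit 2267321141], [nat_lit 2249753269, nat_lit 102793909], [nat_lit 102261301], [nat_lit 102261297], [nat_lit 102261293]] [])
(.leaf [[nat_lit 140796847541, nat_lit 140798928309, nat_lit 139688777141, nat_lit 140782413237], [nat_lit 140796835125, nat_lit 140781880629, nat_lit 139688764725], [nat_lit 140796822709, nat_lit 140781348021, nat_lit 139688752309], [nat_lit 140796810293, nat_lit 140780815413, nat_lit 139688739893], [nat_lit 140796797877, nat_lit 139688727477, nat_lit 140780282805], [nat_lit 139722785589], [nat_lit 2249753269, nat_lit 102793909], [nat_lit 102261301], [nat_lit 102261297], [nat_lit 102261293]] [])))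
(.node (nat_lit 711)
(.leaf [[nat_lit 209516062133, nat_lit 209518142901, nat_lit 209518400949], [nat_lit 209516049717, nat_lit 140781880629, nat_lit 209499534645], [nat_lit 209516037301, nat_lit 140781348021], [nat_lit 209516024885, nat_lit 140780815413], [nat_lit 209516012469, nat_lit 209516270517], [nat_lit 139722785589], [nat_lit 2249753269, nat_lit 102793909], [nat_lit 102261301], [nat_lit 102261297], [nat_lit 102261293]] [])
(.node (nat_lit 712)
(.leaf [[nat_lit 279309276597, nat_lit 279311357365, nat_lit 279294842293], [nat_lit 279309264181, nat_lit 279294309685], [nat_lit 279309251765, nat_lit 279293777077], [nat_lit 279309239349, nat_lit 279293244469], [nat_lit 209516012469, nat_lit 279292711861], [nat_lit 139722785589], [nat_lit 2249753269, nat_lit 102793909], [nat_lit 102261301], [nat_lit 102261297], [nat_lit 102261293]] [])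
(.leaf [[nat_lit 279309276597, nat_lit 279311357365, nat_lit 279294842293], [nat_lit 279309264181, nat_lit 279294309685], [nat_lit 279309251765, nat_lit 279293777077], [nat_lit 279309239349, nat_lit 279293244469], [nat_lit 279292191669, nat_lit 279292711861], [nat_lit 139722785589], [nat_lit 279275143985, nat_lit 102793909], [nat_lit 102261301], [nat_lit 102261297]] []))))
(.node (nat_lit 769)
(.node (nat_lit 714)
(.leaf [[nat_lit 349102491061, nat_lit 349104571829], [nat_lit 349102478645, nat_lit 349104039221], [nat_lit 349102466229, nat_lit 349103506613], [nat_lit 349102453813, nat_lit 349102974005], [nat_lit 279292191669, nat_lit 279292711861], [nat_lit 418861572917], [nat_lit 418861572913], [nat_lit 102261301], [nat_lit 102261297]] [])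
(.node (nat_lit 768)
(.leaf [[nat_lit 4431377845, nat_lit 4433978805], [nat_lit 5505365301, nat_lit 4433446197, nat_lit 4380259637], [nat_lit 5505352885, nat_lit 4432913589, nat_lit 4380247221], [nat_lit 5505340469, nat_lit 4432380981, nat_lit 4380234805], [nat_lit 5505328053, nat_lit 4380222389, nat_lit 4431848373], [nat_lit 4431315765], [nat_lit 6544712373], [nat_lit 102261301], [nat_lit 102261297], [nat_lit 6544712361]] [[], [], [], [], [], [], [], [], [], [], [nat_lit 53614283628566]])
(.leaf [[nat_lit 5505377717, nat_lit 4433978805, nat_lit 4397307317], [nat_lit 5505365301, nat_lit 4433446197, nat_lit 4397294901], [nat_lit 5505352885, nat_lit 4432913589, nat_lit 4397282485], [nat_lit 5505340469, nat_lit 4432380981, nat_lit 4397270069], [nat_lit 5505328053, nat_lit 4397257653, nat_lit 4431848373], [nat_lit 4431315765], [nat_lit 6544712373], [nat_lit 102261301], [nat_lit 102261297], [nat_lit 6544712361]] [[], [], [], [], [], [], [], [], [], [], [nat_lit 53614283628566]])))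
(.node (nat_lit 770)
(.leaf [[nat_lit 4431377845, nat_lit 4433978805, nat_lit 4431898037], [nat_lit 4431365429, nat_lit 4433446197], [nat_lit 4431353013, nat_lit 4432913589], [nat_lit 4431340597, nat_lit 4432380981], [nat_lit 4431328181, nat_lit 4431848373], [nat_lit 4431315765], [nat_lit 6544712373], [nat_lit 102261301], [nat_lit 102261297], [nat_lit 102261293]] [])
(.node (nat_lit 771)
(.leaf [[nat_lit 4431377845, nat_lit 4433978805, nat_lit 4431898037], [nat_lit 4431365429, nat_lit 4433446197], [nat_lit 4431353013, nat_lit 4432913589], [nat_lit 4431340597, nat_lit 4432380981], [nat_lit 4431328181, nat_lit 4431848373], [nat_lit 4431315765], [nat_lit 6544712373], [nat_lit 102261301], [nat_lit 102261297], [nat_lit 102261293]] [])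
(.leaf [[nat_lit 4431377845, nat_lit 4433978805, nat_lit 4431898037], [nat_lit 4431365429, nat_lit 4433446197], [nat_lit 4431353013, nat_lit 4432913589], [nat_lit 4431340597, nat_lit 4432380981], [nat_lit 4431328181, nat_lit 4431848373], [nat_lit 4431315765], [nat_lit 6544712373], [nat_lit 102261301], [nat_lit 102261297], [nat_lit 102261293]] []))))))
(.node (nat_lit 836)
(.node (nat_lit 778)
(.node (nat_lit 775)
(.node (nat_lit 773)
(.leaf [[nat_lit 73151112629, nat_lit 73153193397, nat_lit 72043042229, nat_lit 73136678325], [nat_lit 73151100213, nat_lit 73136145717, nat_lit 72043029813], [nat_lit 73151087797, nat_lit 73135613109, nat_lit 72043017397], [nat_lit 73151075381, nat_lit 73135080501, nat_lit 72043004981], [nat_lit 73151062965, nat_lit 72042992565, nat_lit 73134547893], [nat_lit 4431315765], [nat_lit 6544712373], [nat_lit 102261301], [nat_lit 102261297], [nat_lit 102261293]] [])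
(.node (nat_lit 774)
(.leaf [[nat_lit 141870327221, nat_lit 141872407989, nat_lit 141872666037], [nat_lit 141870314805, nat_lit 140781880629, nat_lit 141853799733], [nat_lit 141870302389, nat_lit 140781348021], [nat_lit 141870289973, nat_lit 140780815413], [nat_lit 141870277557, nat_lit 141870535605], [nat_lit 141836714805, nat_lit 72042980149], [nat_lit 2249753269, nat_lit 102793909], [nat_lit 102261301], [nat_lit 102261297], [nat_lit 102261293]] [])
(.leaf [[nat_lit 210590062005, nat_lit 210592142773, nat_lit 209481991605], [nat_lit 210590049589, nat_lit 210591610165, nat_lit 209481979189], [nat_lit 210590037173, nat_lit 210591077557, nat_lit 209481966773], [nat_lit 210590024757, nat_lit 210590544949, nat_lit 209481954357], [nat_lit 210590012341, nat_lit 209481941941], [nat_lit 279275143989, nat_lit 141836714805], [nat_lit 2249753269, nat_lit 102793909], [nat_lit 102261301], [nat_lit 102261297], [nat_lit 102261293]] [])))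
(.node (nat_lit 776)
(.leaf [[nat_lit 279309276597, nat_lit 279311357365, nat_lit 279294842293], [nat_lit 279309264181, nat_lit 279294309685], [nat_lit 279309251765, nat_lit 279293777077], [nat_lit 279309239349, nat_lit 279293244469], [nat_lit 279292191669, nat_lit 279292711861], [nat_lit 139722785589], [nat_lit 2249753269, nat_lit 102793909], [nat_lit 102261301], [nat_lit 102261297]] [])
(.node (nat_lit 777)
(.leaf [[nat_lit 349102491061, nat_lit 349104571829], [nat_lit 349102478645, nat_lit 349104039221], [nat_lit 349102466229, nat_lit 349103506613], [nat_lit 349102453813, nat_lit 349102974005], [nat_lit 279292191669, nat_lit 279292711861], [nat_lit 418861572917], [nat_lit 418861572913], [nat_lit 102261301], [nat_lit 102261297]] [])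
(.leaf [[nat_lit 349102491061, nat_lit 349104571829], [nat_lit 349102478645, nat_lit 349104039221], [nat_lit 349102466229, nat_lit 349103506613], [nat_lit 349102453813, nat_lit 349102974005], [nat_lit 279292191669, nat_lit 279292711861], [nat_lit 418861572917], [nat_lit 418861572913], [nat_lit 102261301], [nat_lit 102261297]] []))))
(.node (nat_lit 833)
(.node (nat_lit 779)
(.leaf [[nat_lit 418895705525, nat_lit 349104571829], [nat_lit 418895693109, nat_lit 349104039221], [nat_lit 418895680693, nat_lit 349103506613], [nat_lit 418895668277, nat_lit 349102974005], [nat_lit 279292191669, nat_lit 418862105525], [nat_lit 418861572917], [nat_lit 418861572913], [nat_lit 102261301], [nat_lit 418861572905]] [])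
(.node (nat_lit 832)
(.leaf [[nat_lit 6578857397, nat_lit 5490943413, nat_lit 5505377717], [nat_lit 6578844981, nat_lit 5490410805], [nat_lit 6578832565, nat_lit 5489878197], [nat_lit 6578820149, nat_lit 5489345589], [nat_lit 6578807733, nat_lit 5488812981], [nat_lit 4414280501, nat_lit 6545244981], [nat_lit 6544712373], [nat_lit 6544712369], [nat_lit 6544712365], [nat_lit 6544712361]] [[], [], [], [], [], [], [], [], [], [nat_lit 53614283661592], [nat_lit 53614283628566]])
(.leaf [[nat_lit 6578857397, nat_lit 5507458485, nat_lit 5490943413], [nat_lit 6578844981, nat_lit 5490410805], [nat_lit 6578832565, nat_lit 5489878197], [nat_lit 6578820149, nat_lit 5489345589], [nat_lit 6578807733, nat_lit 5488812981], [nat_lit 4431315765], [nat_lit 6544712373], [nat_lit 6544712369], [nat_lit 6544712365], [nat_lit 6544712361]] [])))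
(.node (nat_lit 834)
(.leaf [[nat_lit 5505377717, nat_lit 5490943413, nat_lit 4397307317, nat_lit 5505897909], [nat_lit 5505365301, nat_lit 5490410805, nat_lit 4397294901], [nat_lit 5505352885, nat_lit 5489878197, nat_lit 4397282485], [nat_lit 5505340469, nat_lit 5489345589, nat_lit 4397270069], [nat_lit 5505328053, nat_lit 4397257653, nat_lit 5488812981], [nat_lit 4431315765], [nat_lit 6544712373], [nat_lit 6544712369], [nat_lit 6544712365], [nat_lit 6544712361]] [])
(.node (nat_lit 835)
(.leaf [[nat_lit 5505377717, nat_lit 5507458485, nat_lit 4397307317, nat_lit 5490943413], [nat_lit 5505365301, nat_lit 5490410805, nat_lit 4397294901], [nat_lit 5505352885, nat_lit 5489878197, nat_lit 4397282485], [nat_lit 5505340469, nat_lit 5489345589, nat_lit 4397270069], [nat_lit 5505328053, nat_lit 4397257653, nat_lit 5488812981], [nat_lit 4431315765], [nat_lit 6544712373], [nat_lit 6544712369], [nat_lit 6544712365], [nat_lit 6544712361]] [])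
(.leaf [[nat_lit 5505377717, nat_lit 5507458485, nat_lit 4397307317, nat_lit 5490943413], [nat_lit 5505365301, nat_lit 5490410805, nat_lit 4397294901], [nat_lit 5505352885, nat_lit 5489878197, nat_lit 4397282485], [nat_lit 5505340469, nat_lit 5489345589, nat_lit 4397270069], [nat_lit 5505328053, nat_lit 4397257653, nat_lit 5488812981], [nat_lit 4431315765], [nat_lit 6544712373], [nat_lit 102261301], [nat_lit 6544712365], [nat_lit 6544712361]] [])))))
(.node (nat_lit 842)
(.node (nat_lit 839)
(.node (nat_lit 837)
(.leaf [[nat_lit 74224592309, nat_lit 74226673077, nat_lit 74226931125], [nat_lit 74224579893, nat_lit 73136145717, nat_lit 74208064821], [nat_lit 74224567477, nat_lit 73135613109], [nat_lit 74224555061, nat_lit 73135080501], [nat_lit 74224542645, nat_lit 74224800693], [nat_lit 4431315765], [nat_lit 6544712373], [nat_lit 102261301], [nat_lit 6544712365], [nat_lit 6544712361]] [])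
(.node (nat_lit 838)
(.leaf [[nat_lit 142944327093, nat_lit 142946407861, nat_lit 141836256693], [nat_lit 142944314677, nat_lit 142945875253, nat_lit 141836244277], [nat_lit 142944302261, nat_lit 142945342645, nat_lit 141836231861], [nat_lit 142944289845, nat_lit 142944810037, nat_lit 141836219445], [nat_lit 142944277429, nat_lit 141836207029], [nat_lit 143983674165, nat_lit 141836714805], [nat_lit 6544712373], [nat_lit 102261301], [nat_lit 102261297], [nat_lit 6544712361]] [])
(.leaf [[nat_lit 211663541685, nat_lit 211665622453, nat_lit 211649107381], [nat_lit 211663529269, nat_lit 211648574773], [nat_lit 211663516853, nat_lit 211648042165], [nat_lit 211663504437, nat_lit 211647509557], [nat_lit 211663492021, nat_lit 211646976949], [nat_lit 279275143989, nat_lit 141836714805], [nat_lit 2249753269, nat_lit 2216723125], [nat_lit 102261301], [nat_lit 102261297]] [])))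
(.node (nat_lit 840)
(.leaf [[nat_lit 280383276469, nat_lit 279294842293, nat_lit 279275206069, nat_lit 280366761397], [nat_lit 280383264053, nat_lit 279294309685, nat_lit 279275193653], [nat_lit 280383251637, nat_lit 279293777077, nat_lit 279275181237], [nat_lit 280383239221, nat_lit 280383497269, nat_lit 279275168821], [nat_lit 280366191541, nat_lit 280382964661, nat_lit 279275156405], [nat_lit 279275143989, nat_lit 141836714805], [nat_lit 2249753269, nat_lit 4397228725, nat_lit 2216723125], [nat_lit 102261301], [nat_lit 102261297]] [])
(.node (nat_lit 841)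
(.leaf [[nat_lit 349102491061, nat_lit 349104571829], [nat_lit 349102478645, nat_lit 349104039221], [nat_lit 349102466229, nat_lit 349103506613], [nat_lit 349102453813, nat_lit 349102974005], [nat_lit 280382964661, nat_lit 279292191669, nat_lit 279292711861], [nat_lit 418861572917], [nat_lit 418861572913], [nat_lit 102261301], [nat_lit 102261297]] [])
(.leaf [[nat_lit 418895705525, nat_lit 349104571829], [nat_lit 418895693109, nat_lit 349104039221], [nat_lit 418895680693, nat_lit 349103506613], [nat_lit 418895668277, nat_lit 349102974005], [nat_lit 279292191669, nat_lit 418862105525], [nat_lit 418861572917], [nat_lit 418861572913], [nat_lit 102261301], [nat_lit 418861572905]] []))))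
(.node (nat_lit 896)
(.node (nat_lit 843)
(.leaf [[nat_lit 418895705525, nat_lit 349104571829], [nat_lit 418895693109, nat_lit 349104039221], [nat_lit 418895680693, nat_lit 349103506613], [nat_lit 418895668277, nat_lit 418895926325], [nat_lit 279292191669, nat_lit 418862105525], [nat_lit 418861572917], [nat_lit 418861572913], [nat_lit 418861572909], [nat_lit 418861572905]] [])
(.node (nat_lit 844)
(.leaf [[nat_lit 488688919989, nat_lit 488673965493], [nat_lit 488688907573, nat_lit 488673432885], [nat_lit 488688895157, nat_lit 488672900277], [nat_lit 418912703541], [nat_lit 279292191669, nat_lit 418862105525], [nat_lit 418861572917], [nat_lit 418861572913], [nat_lit 418861572909], [nat_lit 418861572905]] [])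
(.leaf [[nat_lit 7652857269, nat_lit 7654938037, nat_lit 6544786869], [nat_lit 7652844853, nat_lit 7654405429, nat_lit 6544774453], [nat_lit 7652832437, nat_lit 7653872821, nat_lit 6544762037], [nat_lit 7652820021, nat_lit 7653340213, nat_lit 6544749621], [nat_lit 6578807733, nat_lit 6545777589], [nat_lit 6545244981, nat_lit 4380209973], [nat_lit 6544712373], [nat_lit 6544712369], [nat_lit 6544712365], [nat_lit 6544712361]] [])))
(.node (nat_lit 897)
(.leaf [[nat_lit 7652857269, nat_lit 7654938037, nat_lit 6544786869], [nat_lit 7652844853, nat_lit 7654405429, nat_lit 6544774453], [nat_lit 7652832437, nat_lit 7653872821, nat_lit 6544762037], [nat_lit 7652820021, nat_lit 7653340213, nat_lit 6544749621], [nat_lit 6578807733, nat_lit 5488812981], [nat_lit 6545244981, nat_lit 4380209973], [nat_lit 6544712373], [nat_lit 6544712369], [nat_lit 6544712365], [nat_lit 6544712361]] [])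
(.node (nat_lit 898)
(.leaf [[nat_lit 7654938037, nat_lit 6578857397], [nat_lit 7654405429, nat_lit 6561809717], [nat_lit 7653872821, nat_lit 6544762037], [nat_lit 7653340213, nat_lit 6544749621], [nat_lit 6578807733, nat_lit 5488812981], [nat_lit 6545244981, nat_lit 4397245237], [nat_lit 6544712373], [nat_lit 6544712369], [nat_lit 6544712365], [nat_lit 6544712361]] [])
(.leaf [[nat_lit 7654938037, nat_lit 6578857397], [nat_lit 7654405429, nat_lit 6561809717], [nat_lit 7653872821, nat_lit 6544762037], [nat_lit 7653340213, nat_lit 6544749621], [nat_lit 6578807733, nat_lit 5488812981], [nat_lit 4414280501, nat_lit 6545244981], [nat_lit 6544712373], [nat_lit 6544712369], [nat_lit 6544712365], [nat_lit 6544712361]] []))))))))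
(.node (nat_lit 1093)
(.node (nat_lit 972)
(.node (nat_lit 960)
(.node (nat_lit 904)
(.node (nat_lit 901)
(.node (nat_lit 900)
(.leaf [[nat_lit 6578857397, nat_lit 6580938165, nat_lit 6581196213], [nat_lit 6578844981, nat_lit 5490410805, nat_lit 6562329909], [nat_lit 6578832565, nat_lit 5489878197], [nat_lit 6578820149, nat_lit 5489345589], [nat_lit 6578807733, nat_lit 6579065781], [nat_lit 74190459701, nat_lit 6545244981], [nat_lit 6544712373], [nat_lit 6544712369], [nat_lit 6544712365], [nat_lit 6544712361]] [])
(.leaf [[nat_lit 75298592181, nat_lit 75300672949, nat_lit 74190521781], [nat_lit 75298579765, nat_lit 75300140341, nat_lit 74190509365], [nat_lit 75298567349, nat_lit 75299607733, nat_lit 74190496949], [nat_lit 75298554933, nat_lit 75299075125, nat_lit 74190484533], [nat_lit 75298542517, nat_lit 74190472117], [nat_lit 143983674165, nat_lit 6545244981], [nat_lit 6544712373], [nat_lit 6544712369], [nat_lit 6544712365], [nat_lit 6544712361]] []))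
(.node (nat_lit 902)
(.leaf [[nat_lit 144017806773, nat_lit 144019887541, nat_lit 144003372469], [nat_lit 144017794357, nat_lit 144002839861], [nat_lit 144017781941, nat_lit 144002307253], [nat_lit 144017769525, nat_lit 144001774645], [nat_lit 144017757109, nat_lit 144001242037], [nat_lit 143983674165, nat_lit 141836714805], [nat_lit 6544712373], [nat_lit 6544712369], [nat_lit 6544712365]] [])
(.node (nat_lit 903)
(.leaf [[nat_lit 212737541557, nat_lit 211649107381, nat_lit 211629471157, nat_lit 212721026485], [nat_lit 212737529141, nat_lit 211648574773, nat_lit 211629458741], [nat_lit 212737516725, nat_lit 211648042165, nat_lit 211629446325], [nat_lit 212737504309, nat_lit 212737762357, nat_lit 211629433909], [nat_lit 212720456629, nat_lit 212737229749, nat_lit 211629421493], [nat_lit 143983674165, nat_lit 141836714805], [nat_lit 6544712373], [nat_lit 6544712369], [nat_lit 6544712365]] [])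
(.leaf [[nat_lit 281456756149, nat_lit 281458836917], [nat_lit 281456743733, nat_lit 281458304309], [nat_lit 281456731317, nat_lit 281457771701], [nat_lit 281456718901, nat_lit 281457239093], [nat_lit 281456706485], [nat_lit 418861572917], [nat_lit 418861572913], [nat_lit 418861572909], [nat_lit 418861572905]] []))))
(.node (nat_lit 907)
(.node (nat_lit 905)
(.leaf [[nat_lit 350176490933, nat_lit 350161536437, nat_lit 349068420533], [nat_lit 350176478517, nat_lit 350161003829, nat_lit 349068408117], [nat_lit 350176466101, nat_lit 350160471221, nat_lit 349068395701], [nat_lit 350176453685, nat_lit 349068383285, nat_lit 350159938613], [nat_lit 281456706485], [nat_lit 418861572917], [nat_lit 418861572913], [nat_lit 418861572909], [nat_lit 418861572905]] [])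
(.node (nat_lit 906)
(.leaf [[nat_lit 418895705525, nat_lit 350161536437, nat_lit 418879190453], [nat_lit 418895693109, nat_lit 350161003829], [nat_lit 418895680693, nat_lit 350160471221], [nat_lit 418895668277, nat_lit 418895926325], [nat_lit 281439671221, nat_lit 418862105525], [nat_lit 418861572917], [nat_lit 418861572913], [nat_lit 418861572909], [nat_lit 418861572905]] [])
(.leaf [[nat_lit 488688919989, nat_lit 488673965493], [nat_lit 488688907573, nat_lit 488673432885], [nat_lit 488688895157, nat_lit 488672900277], [nat_lit 488688882741, nat_lit 418862638133], [nat_lit 279292191669, nat_lit 418862105525], [nat_lit 418861572917], [nat_lit 418861572913], [nat_lit 418861572909], [nat_lit 418861572905]] [])))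
(.node (nat_lit 908)
(.leaf [[nat_lit 488688919989, nat_lit 488673965493], [nat_lit 488688907573, nat_lit 488673432885], [nat_lit 488688895157, nat_lit 488672900277], [nat_lit 558482097205], [nat_lit 279292191669, nat_lit 418862105525], [nat_lit 418861572917], [nat_lit 418861572913], [nat_lit 418861572909]] [])
(.node (nat_lit 909)
(.leaf [[nat_lit 558482134453, nat_lit 558483695029], [nat_lit 558482122037, nat_lit 558483162421], [nat_lit 558482109621, nat_lit 558482629813], [nat_lit 558482097205], [nat_lit 279292191669, nat_lit 418862105525], [nat_lit 418861572917], [nat_lit 418861572913], [nat_lit 418861572909]] [])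
(.leaf [[nat_lit 8726336949, nat_lit 7654938037], [nat_lit 8726324533, nat_lit 7654405429], [nat_lit 8726312117, nat_lit 7653872821], [nat_lit 8726299701, nat_lit 7653340213], [nat_lit 6561772469, nat_lit 6545777589], [nat_lit 6545244981, nat_lit 4380209973], [nat_lit 6544712373], [nat_lit 6544712369], [nat_lit 6544712365], [nat_lit 6544712361]] [])))))
(.node (nat_lit 966)
(.node (nat_lit 963)
(.node (nat_lit 961)
(.leaf [[nat_lit 8726336949, nat_lit 7654938037], [nat_lit 8726324533, nat_lit 7654405429], [nat_lit 8726312117, nat_lit 7653872821], [nat_lit 8726299701, nat_lit 7653340213], [nat_lit 7652545461, nat_lit 6545777589, nat_lit 6544737205], [nat_lit 6545244981, nat_lit 4380209973], [nat_lit 6544712373], [nat_lit 6544712369], [nat_lit 6544712365], [nat_lit 6544712361]] [])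
(.node (nat_lit 962)
(.leaf [[nat_lit 7652857269, nat_lit 7654938037, nat_lit 6544786869], [nat_lit 7652844853, nat_lit 7654405429, nat_lit 6544774453], [nat_lit 7652832437, nat_lit 7653872821, nat_lit 6544762037], [nat_lit 7652820021, nat_lit 7653340213, nat_lit 6544749621], [nat_lit 6561772469, nat_lit 6545777589], [nat_lit 6545244981, nat_lit 4380209973], [nat_lit 6544712373], [nat_lit 6544712369], [nat_lit 6544712365], [nat_lit 6544712361]] [])
(.leaf [[nat_lit 7652857269, nat_lit 7654938037, nat_lit 6544786869], [nat_lit 7652844853, nat_lit 7654405429, nat_lit 6544774453], [nat_lit 7652832437, nat_lit 7653872821, nat_lit 6544762037], [nat_lit 7652820021, nat_lit 7653340213, nat_lit 6544749621], [nat_lit 6578807733, nat_lit 7636030389], [nat_lit 6545244981, nat_lit 4397245237], [nat_lit 6544712373], [nat_lit 6544712369], [nat_lit 6544712365], [nat_lit 6544712361]] [])))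
(.node (nat_lit 964)
(.leaf [[nat_lit 7652857269, nat_lit 7654938037, nat_lit 6544786869], [nat_lit 7652844853, nat_lit 7654405429, nat_lit 6544774453], [nat_lit 7652832437, nat_lit 7653872821, nat_lit 6544762037], [nat_lit 7652820021, nat_lit 7653340213, nat_lit 6544749621], [nat_lit 6578807733, nat_lit 76355507125], [nat_lit 74190459701, nat_lit 6545244981], [nat_lit 6544712373], [nat_lit 6544712369], [nat_lit 6544712365], [nat_lit 6544712361]] [])
(.node (nat_lit 965)
(.leaf [[nat_lit 76372071861, nat_lit 76374152629, nat_lit 76357637557], [nat_lit 76372059445, nat_lit 76357104949], [nat_lit 76372047029, nat_lit 76356572341], [nat_lit 76372034613, nat_lit 76356039733], [nat_lit 76372022197, nat_lit 76355507125], [nat_lit 143983674165, nat_lit 6545244981], [nat_lit 6544712373], [nat_lit 6544712369], [nat_lit 6544712365]] [])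
(.leaf [[nat_lit 145091806645, nat_lit 144003372469, nat_lit 143983736245, nat_lit 145075291573], [nat_lit 145091794229, nat_lit 144002839861, nat_lit 143983723829], [nat_lit 145091781813, nat_lit 144002307253, nat_lit 143983711413], [nat_lit 145091769397, nat_lit 145092027445, nat_lit 143983698997], [nat_lit 145074721717, nat_lit 145091494837, nat_lit 143983686581], [nat_lit 143983674165, nat_lit 6545244981], [nat_lit 6544712373], [nat_lit 6544712369], [nat_lit 6544712365]] []))))
(.node (nat_lit 969)
(.node (nat_lit 967)
(.leaf [[nat_lit 213811021237, nat_lit 213813102005], [nat_lit 213811008821, nat_lit 213812569397], [nat_lit 213810996405, nat_lit 213812036789], [nat_lit 213810983989, nat_lit 213811504181], [nat_lit 145091494837, nat_lit 144000721845, nat_lit 144001242037], [nat_lit 143983674165, nat_lit 141836714805], [nat_lit 6544712373], [nat_lit 6544712369], [nat_lit 6544712365]] [])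
(.node (nat_lit 968)
(.leaf [[nat_lit 282530756021, nat_lit 282515801525, nat_lit 281422685621], [nat_lit 282530743605, nat_lit 282515268917, nat_lit 281422673205], [nat_lit 282530731189, nat_lit 282514736309, nat_lit 281422660789], [nat_lit 282530718773, nat_lit 281422648373, nat_lit 282514203701], [nat_lit 281456706485], [nat_lit 418861572917], [nat_lit 6544712373], [nat_lit 6544712369], [nat_lit 6544712365]] [])
(.leaf [[nat_lit 351249970613, nat_lit 350161536437, nat_lit 351233455541], [nat_lit 351249958197, nat_lit 350161003829], [nat_lit 351249945781, nat_lit 350160471221], [nat_lit 351249933365, nat_lit 351250191413], [nat_lit 281456706485], [nat_lit 418861572917], [nat_lit 418861572913], [nat_lit 418861572909], [nat_lit 418861572905]] [])))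
(.node (nat_lit 970)
(.leaf [[nat_lit 419969705397, nat_lit 419971265973, nat_lit 418861634997], [nat_lit 419969692981, nat_lit 419970733365, nat_lit 418861622581], [nat_lit 419969680565, nat_lit 419970200757, nat_lit 418861610165], [nat_lit 419969668149, nat_lit 418861597749], [nat_lit 281456706485], [nat_lit 418861572917], [nat_lit 418861572913], [nat_lit 418861572909], [nat_lit 418861572905]] [])
(.node (nat_lit 971)
(.leaf [[nat_lit 488688919989, nat_lit 488673965493], [nat_lit 488688907573, nat_lit 488673432885], [nat_lit 488688895157, nat_lit 488672900277], [nat_lit 488688882741, nat_lit 419969668149], [nat_lit 281439671221, nat_lit 418862105525], [nat_lit 418861572917], [nat_lit 418861572913], [nat_lit 418861572909]] [])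
(.leaf [[nat_lit 558482134453, nat_lit 558483695029], [nat_lit 558482122037, nat_lit 558483162421], [nat_lit 558482109621, nat_lit 558482629813], [nat_lit 558482097205], [nat_lit 418862105525, nat_lit 281422635957], [nat_lit 418861572917], [nat_lit 418861572913], [nat_lit 418861572909]] []))))))
(.node (nat_lit 1033)
(.node (nat_lit 1027)
(.node (nat_lit 1024)
(.node (nat_lit 973)
(.leaf [[nat_lit 558482134453, nat_lit 558483695029], [nat_lit 558482122037, nat_lit 558483162421], [nat_lit 558482109621, nat_lit 558482629813], [nat_lit 558482097205], [nat_lit 418862105525, nat_lit 350142108597, nat_lit 350142370741], [nat_lit 418861572917], [nat_lit 418861572913], [nat_lit 418861572909]] [])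
(.node (nat_lit 974)
(.leaf [[nat_lit 558482134453, nat_lit 558483695029], [nat_lit 558482122037, nat_lit 558483162421], [nat_lit 558482109621, nat_lit 558482629813], [nat_lit 558482097205], [nat_lit 558482097201], [nat_lit 418861572917], [nat_lit 418861572913], [nat_lit 418861572909]] [])
(.leaf [[nat_lit 8726336949, nat_lit 7654938037], [nat_lit 8726324533, nat_lit 7654405429], [nat_lit 8726312117, nat_lit 7653872821], [nat_lit 8726299701, nat_lit 7653340213], [nat_lit 6561772469, nat_lit 6545777589], [nat_lit 6545244981, nat_lit 4380209973], [nat_lit 6544712373], [nat_lit 6544712369], [nat_lit 6544712365], [nat_lit 6544712361]] [])))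
(.node (nat_lit 1025)
(.leaf [[nat_lit 8726336949, nat_lit 7654938037], [nat_lit 8726324533, nat_lit 7654405429], [nat_lit 8726312117, nat_lit 7653872821], [nat_lit 8726299701, nat_lit 7653340213], [nat_lit 6561772469, nat_lit 6545777589], [nat_lit 6545244981, nat_lit 4380209973], [nat_lit 6544712373], [nat_lit 6544712369], [nat_lit 6544712365], [nat_lit 6544712361]] [])
(.node (nat_lit 1026)
(.leaf [[nat_lit 8726336949, nat_lit 7654938037], [nat_lit 8726324533, nat_lit 7654405429], [nat_lit 8726312117, nat_lit 7653872821], [nat_lit 8726299701, nat_lit 7653340213], [nat_lit 6561772469, nat_lit 6545777589], [nat_lit 6545244981, nat_lit 4380209973], [nat_lit 6544712373], [nat_lit 6544712369], [nat_lit 6544712365], [nat_lit 6544712361]] [])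
(.leaf [[nat_lit 8726336949, nat_lit 7654938037], [nat_lit 8726324533, nat_lit 7654405429], [nat_lit 8726312117, nat_lit 7653872821], [nat_lit 8726299701, nat_lit 7653340213], [nat_lit 7652545461, nat_lit 6545777589, nat_lit 6544737205], [nat_lit 74190459701, nat_lit 6545244981], [nat_lit 6544712373], [nat_lit 6544712369], [nat_lit 6544712365], [nat_lit 6544712361]] []))))
(.node (nat_lit 1030)
(.node (nat_lit 1028)
(.leaf [[nat_lit 8726336949, nat_lit 7654938037, nat_lit 8726857141], [nat_lit 8726324533, nat_lit 7654405429], [nat_lit 8726312117, nat_lit 7653872821], [nat_lit 8726299701, nat_lit 7653340213], [nat_lit 76372022197, nat_lit 7636030389], [nat_lit 143983674165, nat_lit 6545244981], [nat_lit 6544712373], [nat_lit 6544712369], [nat_lit 6544712365]] [])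
(.node (nat_lit 1029)
(.leaf [[nat_lit 77446071733, nat_lit 76357637557, nat_lit 76355036597, nat_lit 77446591925], [nat_lit 77446059317, nat_lit 76357104949, nat_lit 76355024181], [nat_lit 77446046901, nat_lit 76356572341, nat_lit 76355011765], [nat_lit 77446034485, nat_lit 77446292533, nat_lit 76354999349], [nat_lit 76372022197, nat_lit 76355507125], [nat_lit 143983674165, nat_lit 6545244981], [nat_lit 6544712373], [nat_lit 6544712369], [nat_lit 6544712365]] [])
(.leaf [[nat_lit 146165286325, nat_lit 146167367093], [nat_lit 146165273909, nat_lit 146166834485], [nat_lit 146165261493, nat_lit 146166301877], [nat_lit 146165249077, nat_lit 146165769269], [nat_lit 146165236661], [nat_lit 143983674165, nat_lit 6545244981], [nat_lit 6544712373], [nat_lit 6544712369], [nat_lit 6544712365]] [])))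
(.node (nat_lit 1031)
(.leaf [[nat_lit 214885021109, nat_lit 146167367093, nat_lit 213793985973], [nat_lit 214885008693, nat_lit 146166834485, nat_lit 213793973557], [nat_lit 214884996277, nat_lit 146166301877, nat_lit 213793961141], [nat_lit 214884983861, nat_lit 213793948725, nat_lit 146165769269], [nat_lit 146165236661], [nat_lit 143983674165, nat_lit 6545244981], [nat_lit 6544712373], [nat_lit 6544712369], [nat_lit 6544712365]] [])
(.node (nat_lit 1032)
(.leaf [[nat_lit 283604235701, nat_lit 282515801525, nat_lit 283604755893], [nat_lit 283604223285, nat_lit 282515268917], [nat_lit 283604210869, nat_lit 282514736309], [nat_lit 283604198453, nat_lit 283604456501], [nat_lit 146165236661], [nat_lit 418861572917], [nat_lit 6544712373], [nat_lit 6544712369], [nat_lit 6544712365]] [])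
(.leaf [[nat_lit 352323970485, nat_lit 352325531061, nat_lit 351232935349], [nat_lit 352323958069, nat_lit 352324998453, nat_lit 351232922933], [nat_lit 352323945653, nat_lit 352324465845, nat_lit 351232910517], [nat_lit 352323933237, nat_lit 351232898101], [nat_lit 281456706485], [nat_lit 418861572917], [nat_lit 6544712373], [nat_lit 6544712369], [nat_lit 418861572905]] [])))))
(.node (nat_lit 1039)
(.node (nat_lit 1036)
(.node (nat_lit 1034)
(.leaf [[nat_lit 421043185077, nat_lit 352325531061], [nat_lit 421043172661, nat_lit 352324998453], [nat_lit 421043160245, nat_lit 352324465845], [nat_lit 352323933237, nat_lit 351232898101], [nat_lit 281439671221, nat_lit 418862105525], [nat_lit 418861572917], [nat_lit 418861572913], [nat_lit 418861572909]] [])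
(.node (nat_lit 1035)
(.leaf [[nat_lit 489762919861, nat_lit 488673965493, nat_lit 488671884725], [nat_lit 489762907445, nat_lit 488673432885, nat_lit 488671872309], [nat_lit 489762895029, nat_lit 489763153077, nat_lit 488671859893], [nat_lit 488688882741, nat_lit 419969668149], [nat_lit 281439671221, nat_lit 418862105525], [nat_lit 418861572917], [nat_lit 418861572913], [nat_lit 418861572909]] [])
(.leaf [[nat_lit 558482134453, nat_lit 558483695029], [nat_lit 558482122037, nat_lit 558483162421], [nat_lit 558482109621, nat_lit 558482629813], [nat_lit 558482097205], [nat_lit 418862105525, nat_lit 350142108597, nat_lit 350142370741], [nat_lit 418861572917], [nat_lit 418861572913], [nat_lit 418861572909]] [])))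
(.node (nat_lit 1037)
(.leaf [[nat_lit 558482134453, nat_lit 558483695029], [nat_lit 558482122037, nat_lit 558483162421], [nat_lit 558482109621, nat_lit 558482629813], [nat_lit 558482097205], [nat_lit 418862105525, nat_lit 281422635957], [nat_lit 418861572917], [nat_lit 418861572913], [nat_lit 418861572909]] [])
(.node (nat_lit 1038)
(.leaf [[nat_lit 628292384181, nat_lit 628293424565], [nat_lit 628292371765, nat_lit 628292891957], [nat_lit 558482109621, nat_lit 558482629813], [nat_lit 558482097205], [nat_lit 418862105525, nat_lit 350142108597, nat_lit 350142370741], [nat_lit 418861572917], [nat_lit 418861572913], [nat_lit 418861572909]] [])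
(.leaf [[nat_lit 628292384181, nat_lit 628293424565], [nat_lit 628292371765, nat_lit 628292891957], [nat_lit 558482109621, nat_lit 558482629813], [nat_lit 558482097205], [nat_lit 558482097201], [nat_lit 418861572917], [nat_lit 418861572913], [nat_lit 418861572909]] []))))
(.node (nat_lit 1090)
(.node (nat_lit 1088)
(.leaf [[nat_lit 9817372085, nat_lit 9818932661, nat_lit 6544786869], [nat_lit 9817359669, nat_lit 9818400053, nat_lit 6544774453], [nat_lit 9817347253, nat_lit 9817867445, nat_lit 6544762037], [nat_lit 8726299701, nat_lit 7653340213], [nat_lit 6561772469, nat_lit 6545777589], [nat_lit 6545244981, nat_lit 4380209973], [nat_lit 6544712373], [nat_lit 6544712369], [nat_lit 6544712365], [nat_lit 6544712361]] [])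
(.node (nat_lit 1089)
(.leaf [[nat_lit 9817372085, nat_lit 9818932661, nat_lit 7635559861], [nat_lit 9817359669, nat_lit 9818400053, nat_lit 7635547445], [nat_lit 9817347253, nat_lit 9817867445, nat_lit 7635535029], [nat_lit 8726299701, nat_lit 7653340213], [nat_lit 6561772469, nat_lit 6545777589], [nat_lit 6545244981, nat_lit 5470982965, nat_lit 5471245109], [nat_lit 6544712373], [nat_lit 6544712369], [nat_lit 6544712365], [nat_lit 6544712361]] [])
(.leaf [[nat_lit 9817372085, nat_lit 9818932661, nat_lit 6544786869], [nat_lit 9817359669, nat_lit 9818400053, nat_lit 6544774453], [nat_lit 9817347253, nat_lit 9817867445, nat_lit 6544762037], [nat_lit 8726299701, nat_lit 7653340213], [nat_lit 6561772469, nat_lit 6545777589], [nat_lit 6545244981, nat_lit 4380209973], [nat_lit 6544712373], [nat_lit 6544712369], [nat_lit 6544712365], [nat_lit 6544712361]] [])))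
(.node (nat_lit 1091)
(.leaf [[nat_lit 9817372085, nat_lit 9818932661, nat_lit 7635559861], [nat_lit 9817359669, nat_lit 9818400053, nat_lit 7635547445], [nat_lit 9817347253, nat_lit 9817867445, nat_lit 7635535029], [nat_lit 8726299701, nat_lit 7653340213], [nat_lit 76354986933, nat_lit 76355507125], [nat_lit 74190459701, nat_lit 6545244981], [nat_lit 6544712373], [nat_lit 6544712369], [nat_lit 6544712365]] [])
(.node (nat_lit 1092)
(.leaf [[nat_lit 9817372085, nat_lit 9818932661, nat_lit 6544786869], [nat_lit 9817359669, nat_lit 9818400053, nat_lit 6544774453], [nat_lit 9817347253, nat_lit 9817867445, nat_lit 6544762037], [nat_lit 8726299701, nat_lit 7653340213], [nat_lit 76354986933, nat_lit 76355507125], [nat_lit 143983674165, nat_lit 6545244981], [nat_lit 6544712373], [nat_lit 6544712369], [nat_lit 6544712365]] [])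
(.leaf [[nat_lit 9818932661, nat_lit 8726336949], [nat_lit 9818400053, nat_lit 76355024181], [nat_lit 9817867445, nat_lit 76355011765], [nat_lit 77446034485, nat_lit 76356039733, nat_lit 76354999349], [nat_lit 146165236661], [nat_lit 143983674165, nat_lit 6545244981], [nat_lit 6544712373], [nat_lit 6544712369], [nat_lit 6544712365]] [])))))))
(.node (nat_lit 1164)
(.node (nat_lit 1152)
(.node (nat_lit 1099)
(.node (nat_lit 1096)
(.node (nat_lit 1094)
(.leaf [[nat_lit 146165286325, nat_lit 146167367093], [nat_lit 146165273909, nat_lit 146166834485], [nat_lit 146165261493, nat_lit 146166301877], [nat_lit 146165249077, nat_lit 146165769269], [nat_lit 146165236661], [nat_lit 143983674165, nat_lit 6545244981], [nat_lit 6544712373], [nat_lit 6544712369], [nat_lit 6544712365]] [])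
(.node (nat_lit 1095)
(.leaf [[nat_lit 214885021109, nat_lit 146167367093, nat_lit 213793985973], [nat_lit 214885008693, nat_lit 146166834485, nat_lit 213793973557], [nat_lit 214884996277, nat_lit 146166301877, nat_lit 213793961141], [nat_lit 214884983861, nat_lit 213793948725, nat_lit 146165769269], [nat_lit 146165236661], [nat_lit 143983674165, nat_lit 6545244981], [nat_lit 6544712373], [nat_lit 6544712369], [nat_lit 6544712365]] [])
(.leaf [[nat_lit 215977096629, nat_lit 213793985973], [nat_lit 215976564021, nat_lit 213793973557], [nat_lit 215976031413, nat_lit 213793961141], [nat_lit 283604198453, nat_lit 282514203701], [nat_lit 146165236661], [nat_lit 418861572917], [nat_lit 6544712373], [nat_lit 6544712369], [nat_lit 6544712365]] [])))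
(.node (nat_lit 1097)
(.leaf [[nat_lit 352323970485, nat_lit 352325531061, nat_lit 351232935349], [nat_lit 352323958069, nat_lit 352324998453, nat_lit 351232922933], [nat_lit 352323945653, nat_lit 352324465845, nat_lit 351232910517], [nat_lit 352323933237, nat_lit 351232898101], [nat_lit 146165236661], [nat_lit 418861572917], [nat_lit 6544712373], [nat_lit 6544712369]] [])
(.node (nat_lit 1098)
(.leaf [[nat_lit 421043185077, nat_lit 352325531061], [nat_lit 421043172661, nat_lit 352324998453], [nat_lit 421043160245, nat_lit 352324465845], [nat_lit 352323933237, nat_lit 351232898101], [nat_lit 281439671221, nat_lit 418862105525], [nat_lit 418861572917], [nat_lit 6544712373], [nat_lit 418861572909]] [])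
(.leaf [[nat_lit 422135260597, nat_lit 488671884725], [nat_lit 422134727989, nat_lit 488671872309], [nat_lit 422134195381, nat_lit 488671859893], [nat_lit 558482097205], [nat_lit 418862105525, nat_lit 281422635957], [nat_lit 418861572917], [nat_lit 418861572913], [nat_lit 418861572909]] []))))
(.node (nat_lit 1102)
(.node (nat_lit 1100)
(.leaf [[nat_lit 558482134453, nat_lit 558483695029], [nat_lit 558482122037, nat_lit 558483162421], [nat_lit 558482109621, nat_lit 558482629813], [nat_lit 558482097205], [nat_lit 418862105525, nat_lit 281422635957], [nat_lit 418861572917], [nat_lit 418861572913], [nat_lit 418861572909]] [])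
(.node (nat_lit 1101)
(.leaf [[nat_lit 628292384181, nat_lit 628293424565], [nat_lit 628292371765, nat_lit 628292891957], [nat_lit 558482109621, nat_lit 558482629813], [nat_lit 558482097205], [nat_lit 418862105525, nat_lit 350142108597, nat_lit 350142370741], [nat_lit 418861572917], [nat_lit 418861572913], [nat_lit 418861572909]] [])
(.leaf [[nat_lit 628292384181, nat_lit 628293424565], [nat_lit 628292371765, nat_lit 628292891957], [nat_lit 558482109621, nat_lit 558482629813], [nat_lit 558482097205], [nat_lit 558482097201], [nat_lit 418861572917], [nat_lit 418861572913], [nat_lit 418861572909]] [])))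
(.node (nat_lit 1103)
(.leaf [[nat_lit 628292384181, nat_lit 628293424565], [nat_lit 628292371765, nat_lit 628292891957], [nat_lit 558482109621, nat_lit 558482629813], [nat_lit 558482097205], [nat_lit 558482097201], [nat_lit 418861572917], [nat_lit 418861572913]] [])
(.node (nat_lit 1104)
(.leaf [[nat_lit 698102633909, nat_lit 698103154101], [nat_lit 698102621493], [nat_lit 558482109621, nat_lit 558482629813], [nat_lit 558482097205], [nat_lit 558482097201], [nat_lit 418861572917], [nat_lit 418861572913]] [])
(.leaf [[nat_lit 9817372085, nat_lit 9818932661, nat_lit 7635559861], [nat_lit 9817359669, nat_lit 9818400053, nat_lit 7635547445], [nat_lit 9817347253, nat_lit 9817867445, nat_lit 7635535029], [nat_lit 8726299701, nat_lit 6546310197], [nat_lit 7635510197, nat_lit 6545777589, nat_lit 6544737205], [nat_lit 6545244981, nat_lit 4363174709], [nat_lit 6544712373], [nat_lit 6544712369], [nat_lit 6544712365], [nat_lit 6544712361]] [])))))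
(.node (nat_lit 1158)
(.node (nat_lit 1155)
(.node (nat_lit 1153)
(.leaf [[nat_lit 9817372085, nat_lit 9818932661, nat_lit 8726336949], [nat_lit 9817359669, nat_lit 9818400053, nat_lit 8726324533], [nat_lit 9817347253, nat_lit 9817867445, nat_lit 8726312117], [nat_lit 8726299701, nat_lit 7653340213], [nat_lit 7635510197, nat_lit 6545777589, nat_lit 6544737205], [nat_lit 6545244981, nat_lit 4363174709], [nat_lit 6544712373], [nat_lit 6544712369], [nat_lit 6544712365], [nat_lit 6544712361]] [])
(.node (nat_lit 1154)
(.leaf [[nat_lit 9817372085, nat_lit 9818932661, nat_lit 7635559861], [nat_lit 9817359669, nat_lit 9818400053, nat_lit 7635547445], [nat_lit 9817347253, nat_lit 9817867445, nat_lit 7635535029], [nat_lit 8726299701, nat_lit 7653340213], [nat_lit 76354986933, nat_lit 76355507125], [nat_lit 74190459701, nat_lit 6545244981], [nat_lit 6544712373], [nat_lit 6544712369], [nat_lit 6544712365]] [])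
(.leaf [[nat_lit 9817372085, nat_lit 9818932661, nat_lit 8726336949], [nat_lit 9817359669, nat_lit 9818400053, nat_lit 8726324533], [nat_lit 9817347253, nat_lit 9817867445, nat_lit 8726312117], [nat_lit 8726299701, nat_lit 7653340213], [nat_lit 76354986933, nat_lit 76355507125], [nat_lit 143983674165, nat_lit 6545244981], [nat_lit 6544712373], [nat_lit 6544712369], [nat_lit 6544712365]] [])))
(.node (nat_lit 1156)
(.leaf [[nat_lit 9817372085, nat_lit 9818932661, nat_lit 8726336949], [nat_lit 9817359669, nat_lit 9818400053, nat_lit 8726324533], [nat_lit 9817347253, nat_lit 9817867445, nat_lit 8726312117], [nat_lit 9817072693, nat_lit 76356039733, nat_lit 8726299701], [nat_lit 146165236661], [nat_lit 143983674165, nat_lit 6545244981], [nat_lit 6544712373], [nat_lit 6544712369], [nat_lit 6544712365]] [])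
(.node (nat_lit 1157)
(.leaf [[nat_lit 78536586677, nat_lit 9818932661], [nat_lit 78536574261, nat_lit 9818400053], [nat_lit 78536561845, nat_lit 9817867445], [nat_lit 146165769269, nat_lit 76354999349], [nat_lit 146165236661], [nat_lit 143983674165, nat_lit 6545244981], [nat_lit 6544712373], [nat_lit 6544712369], [nat_lit 6544712365]] [])
(.leaf [[nat_lit 147256321461, nat_lit 146167367093, nat_lit 76355036597], [nat_lit 147256309045, nat_lit 146166834485, nat_lit 76355024181], [nat_lit 147256296629, nat_lit 147256554677, nat_lit 76355011765], [nat_lit 147256022069, nat_lit 77446034485], [nat_lit 146165236661], [nat_lit 143983674165, nat_lit 6545244981], [nat_lit 6544712373], [nat_lit 6544712369], [nat_lit 6544712365]] []))))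
(.node (nat_lit 1161)
(.node (nat_lit 1159)
(.leaf [[nat_lit 215975536053, nat_lit 215977096629], [nat_lit 215975523637, nat_lit 215976564021], [nat_lit 215975511221, nat_lit 215976031413], [nat_lit 214884983861, nat_lit 213793948725, nat_lit 146165769269], [nat_lit 146165236661], [nat_lit 143983674165, nat_lit 6545244981], [nat_lit 6544712373], [nat_lit 6544712369], [nat_lit 6544712365]] [])
(.node (nat_lit 1160)
(.leaf [[nat_lit 284695270837, nat_lit 215977096629, nat_lit 213793985973], [nat_lit 284695258421, nat_lit 215976564021, nat_lit 213793973557], [nat_lit 284695246005, nat_lit 213793961141, nat_lit 215976031413], [nat_lit 283604198453, nat_lit 146165769269], [nat_lit 146165236661], [nat_lit 418861572917], [nat_lit 6544712373], [nat_lit 6544712369]] [])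
(.leaf [[nat_lit 353414485429, nat_lit 352325531061], [nat_lit 353414473013, nat_lit 352324998453], [nat_lit 353414460597, nat_lit 353414718645], [nat_lit 352323933237, nat_lit 351232898101], [nat_lit 146165236661], [nat_lit 418861572917], [nat_lit 6544712373], [nat_lit 6544712369]] [])))
(.node (nat_lit 1162)
(.leaf [[nat_lit 422134220213, nat_lit 422135260597, nat_lit 351232935349], [nat_lit 422134207797, nat_lit 422134727989, nat_lit 351232922933], [nat_lit 422134195381, nat_lit 351232910517], [nat_lit 352323933237, nat_lit 351232898101], [nat_lit 146165236661], [nat_lit 418861572917], [nat_lit 6544712373], [nat_lit 6544712369]] [])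
(.node (nat_lit 1163)
(.leaf [[nat_lit 490853434805, nat_lit 422135260597], [nat_lit 490853422389, nat_lit 422134727989], [nat_lit 490853409973, nat_lit 422134195381], [nat_lit 558482097205], [nat_lit 418862105525, nat_lit 281422635957], [nat_lit 418861572917], [nat_lit 418861572913], [nat_lit 418861572909]] [])
(.leaf [[nat_lit 559573169589, nat_lit 558483695029, nat_lit 488671884725], [nat_lit 559573157173, nat_lit 559573415221, nat_lit 488671872309], [nat_lit 490853409973, nat_lit 559572882613], [nat_lit 558482097205], [nat_lit 418862105525, nat_lit 281422635957], [nat_lit 418861572917], [nat_lit 418861572913], [nat_lit 418861572909]] []))))))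
(.node (nat_lit 1222)
(.node (nat_lit 1216)
(.node (nat_lit 1167)
(.node (nat_lit 1165)
(.leaf [[nat_lit 628292384181, nat_lit 628293424565], [nat_lit 628292371765, nat_lit 628292891957], [nat_lit 558482109621, nat_lit 558482629813], [nat_lit 558482097205], [nat_lit 418862105525, nat_lit 281422635957], [nat_lit 418861572917], [nat_lit 418861572913], [nat_lit 418861572909]] [])
(.node (nat_lit 1166)
(.leaf [[nat_lit 628292384181, nat_lit 628293424565], [nat_lit 628292371765, nat_lit 628292891957], [nat_lit 559572882613, nat_lit 558482109621, nat_lit 558482629813], [nat_lit 558482097205], [nat_lit 558482097201], [nat_lit 418861572917], [nat_lit 418861572913]] [])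
(.leaf [[nat_lit 698102633909, nat_lit 698103154101], [nat_lit 698102621493], [nat_lit 558482109621, nat_lit 558482629813], [nat_lit 558482097205], [nat_lit 558482097201], [nat_lit 418861572917], [nat_lit 418861572913]] [])))
(.node (nat_lit 1168)
(.leaf [[nat_lit 698102633909, nat_lit 698103154101], [nat_lit 698102621493], [nat_lit 558482109621, nat_lit 558482629813], [nat_lit 558482097205], [nat_lit 558482097201], [nat_lit 418861572917], [nat_lit 418861572913]] [])
(.node (nat_lit 1169)
(.leaf [[nat_lit 698102633909, nat_lit 698103154101], [nat_lit 698102621493], [nat_lit 558482109621, nat_lit 558482629813], [nat_lit 558482097205], [nat_lit 558482097201], [nat_lit 418861572917], [nat_lit 418861572913]] [])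
(.leaf [[nat_lit 10907887029, nat_lit 9818932661], [nat_lit 10907874613, nat_lit 9818400053], [nat_lit 10907862197, nat_lit 9817867445], [nat_lit 8726299701, nat_lit 6546310197], [nat_lit 7635510197, nat_lit 6545777589, nat_lit 6544737205], [nat_lit 6545244981, nat_lit 4363174709], [nat_lit 6544712373], [nat_lit 6544712369], [nat_lit 6544712365]] [[], [], [], [], [], [], [], [], [], [nat_lit 53614283661334]]))))
(.node (nat_lit 1219)
(.node (nat_lit 1217)
(.leaf [[nat_lit 10907887029, nat_lit 9818932661], [nat_lit 10907874613, nat_lit 9818400053], [nat_lit 10907862197, nat_lit 9817867445], [nat_lit 8726299701, nat_lit 6546310197], [nat_lit 7635510197, nat_lit 6545777589, nat_lit 6544737205], [nat_lit 6545244981, nat_lit 4363174709], [nat_lit 6544712373], [nat_lit 6544712369], [nat_lit 6544712365]] [])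
(.node (nat_lit 1218)
(.leaf [[nat_lit 10907887029, nat_lit 9818932661], [nat_lit 10907874613, nat_lit 9818400053], [nat_lit 10907862197, nat_lit 9817867445], [nat_lit 8726299701, nat_lit 6546310197], [nat_lit 76354986933, nat_lit 76355507125], [nat_lit 143983674165, nat_lit 6545244981], [nat_lit 6544712373], [nat_lit 6544712369], [nat_lit 6544712365]] [])
(.leaf [[nat_lit 10907887029, nat_lit 9818932661], [nat_lit 10907874613, nat_lit 9818400053], [nat_lit 10907862197, nat_lit 9817867445], [nat_lit 9817072693, nat_lit 76356039733, nat_lit 8726299701], [nat_lit 76354986933, nat_lit 76355507125], [nat_lit 143983674165, nat_lit 6545244981], [nat_lit 6544712373], [nat_lit 6544712369], [nat_lit 6544712365]] [])))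
(.node (nat_lit 1220)
(.leaf [[nat_lit 10907887029, nat_lit 9818932661], [nat_lit 10907874613, nat_lit 9818400053], [nat_lit 10907862197, nat_lit 9817867445], [nat_lit 8726299701, nat_lit 76356039733], [nat_lit 146165236661], [nat_lit 143983674165, nat_lit 6545244981], [nat_lit 6544712373], [nat_lit 6544712369], [nat_lit 6544712365]] [])
(.node (nat_lit 1221)
(.leaf [[nat_lit 78536586677, nat_lit 9818932661], [nat_lit 78536574261, nat_lit 9818400053], [nat_lit 78536561845, nat_lit 9817867445], [nat_lit 146165769269, nat_lit 8726299701], [nat_lit 146165236661], [nat_lit 143983674165, nat_lit 6545244981], [nat_lit 6544712373], [nat_lit 6544712369], [nat_lit 6544712365]] [])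
(.leaf [[nat_lit 79628662197, nat_lit 146165286325], [nat_lit 79628129589, nat_lit 146165273909], [nat_lit 79627596981, nat_lit 146165261493], [nat_lit 146165249077, nat_lit 146165769269], [nat_lit 146165236661], [nat_lit 143983674165, nat_lit 6545244981], [nat_lit 6544712373], [nat_lit 6544712369], [nat_lit 6544712365]] [])))))
(.node (nat_lit 1228)
(.node (nat_lit 1225)
(.node (nat_lit 1223)
(.leaf [[nat_lit 215975536053, nat_lit 215977096629], [nat_lit 215975523637, nat_lit 215976564021], [nat_lit 215975511221, nat_lit 215976031413], [nat_lit 147256022069, nat_lit 214884983861], [nat_lit 146165236661], [nat_lit 143983674165, nat_lit 6545244981], [nat_lit 6544712373], [nat_lit 6544712369]] [])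
(.node (nat_lit 1224)
(.leaf [[nat_lit 284695270837, nat_lit 215977096629, nat_lit 283604235701], [nat_lit 284695258421, nat_lit 215976564021, nat_lit 283604223285], [nat_lit 284695246005, nat_lit 283604210869, nat_lit 215976031413], [nat_lit 283604198453, nat_lit 147256022069], [nat_lit 146165236661], [nat_lit 418861572917], [nat_lit 6544712373], [nat_lit 6544712369]] [])
(.leaf [[nat_lit 285786826165, nat_lit 283604235701], [nat_lit 285786293557, nat_lit 283604223285], [nat_lit 285785760949], [nat_lit 352323933237, nat_lit 283604198453], [nat_lit 146165236661], [nat_lit 418861572917], [nat_lit 6544712373], [nat_lit 6544712369]] [])))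
(.node (nat_lit 1226)
(.leaf [[nat_lit 422134220213, nat_lit 422135260597, nat_lit 421043185077], [nat_lit 422134207797, nat_lit 422134727989, nat_lit 421043172661], [nat_lit 422134195381, nat_lit 421043160245], [nat_lit 352323933237, nat_lit 351232898101], [nat_lit 146165236661], [nat_lit 418861572917], [nat_lit 6544712373], [nat_lit 6544712369]] [])
(.node (nat_lit 1227)
(.leaf [[nat_lit 490853434805, nat_lit 422135260597], [nat_lit 490853422389, nat_lit 422134727989], [nat_lit 490853409973, nat_lit 422134195381], [nat_lit 558482097205], [nat_lit 418862105525, nat_lit 281422635957], [nat_lit 418861572917], [nat_lit 418861572913], [nat_lit 418861572909]] [])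
(.leaf [[nat_lit 491944990133, nat_lit 558482134453], [nat_lit 491944457525, nat_lit 558482122037], [nat_lit 490853409973, nat_lit 422134195381], [nat_lit 558482097205], [nat_lit 418862105525, nat_lit 281422635957], [nat_lit 418861572917], [nat_lit 418861572913], [nat_lit 418861572909]] []))))
(.node (nat_lit 1231)
(.node (nat_lit 1229)
(.leaf [[nat_lit 628292384181, nat_lit 628293424565], [nat_lit 628292371765, nat_lit 628292891957], [nat_lit 490853409973, nat_lit 559572882613], [nat_lit 558482097205], [nat_lit 418862105525, nat_lit 350142108597, nat_lit 350142370741], [nat_lit 418861572917], [nat_lit 418861572913]] [])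
(.node (nat_lit 1230)
(.leaf [[nat_lit 698102633909, nat_lit 698103154101], [nat_lit 698102621493], [nat_lit 559572882613, nat_lit 558482109621, nat_lit 558482629813], [nat_lit 558482097205], [nat_lit 558482097201], [nat_lit 418861572917], [nat_lit 418861572913]] [])
(.leaf [[nat_lit 698102633909, nat_lit 698103154101], [nat_lit 698102621493], [nat_lit 559572882613, nat_lit 558482109621, nat_lit 558482629813], [nat_lit 558482097205], [nat_lit 558482097201], [nat_lit 418861572917], [nat_lit 418861572913]] [])))
(.node (nat_lit 1232)
(.leaf [[nat_lit 698102633909, nat_lit 698103154101], [nat_lit 698102621493], [nat_lit 559572882613, nat_lit 558482109621, nat_lit 558482629813], [nat_lit 558482097205], [nat_lit 558482097201], [nat_lit 418861572917], [nat_lit 418861572913]] [])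
(.node (nat_lit 1233)
(.leaf [[nat_lit 767912883637], [nat_lit 698102621493], [nat_lit 558482109621, nat_lit 558482629813], [nat_lit 558482097205], [nat_lit 558482097201], [nat_lit 418861572917], [nat_lit 418861572913]] [])
(.leaf [[nat_lit 767912883637], [nat_lit 698102621493], [nat_lit 558482109621, nat_lit 558482629813], [nat_lit 558482097205], [nat_lit 558482097201], [nat_lit 418861572917], [nat_lit 418861572913]] [])))))))))

end Vale.Agent.P181.K
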