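import Vale.Agent.P181.S.Eng2

namespace Vale.Agent.P181.K

noncomputable def ct21 : Tc :=
(.node (nat_lit 909)
(.node (nat_lit 646)
(.node (nat_lit 452)
(.node (nat_lit 322)
(.node (nat_lit 194)
(.node (nat_lit 129)
(.node (nat_lit 64)
(.leaf [[nat_lit 102793934, nat_lit 34145098], [nat_lit 102261326], [nat_lit 102261322], [nat_lit 102261318], [nat_lit 82], [nat_lit 78], [nat_lit 74], [nat_lit 70], [nat_lit 66], [nat_lit 62], [nat_lit 58], [nat_lit 53]] [])
(.node (nat_lit 128)
(.leaf [[nat_lit 1210368966, nat_lit 1210889158, nat_lit 1107882826], [nat_lit 1193321286, nat_lit 1160291142, nat_lit 1107870410], [nat_lit 1159238342, nat_lit 1142981318, nat_lit 1107870406, nat_lit 1126208198], [nat_lit 1159238338, nat_lit 1142981314, nat_lit 1107870402, nat_lit 1126208194], [nat_lit 1159238334, nat_lit 1142981310, nat_lit 1124905662, nat_lit 1126208190], [nat_lit 136356661, nat_lit 103326517], [nat_lit 102793909, nat_lit 119321393], [nat_lit 102261301], [nat_lit 102261297], [nat_lit 102261293], [nat_lit 102261289], [nat_lit 53]] [[], [], [], [], [], [], [], [], [], [nat_lit 837724512413, nat_lit 837724512668,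 nat_lit 837724512795], [nat_lit 837724479514, nat_lit 837724479641, nat_lit 837724479642, nat_lit 837724479769]])
(.leaf [[nat_lit 69930103750, nat_lit 69827359562, nat_lit 69913588678], [nat_lit 69929571142, nat_lit 69812925254], [nat_lit 69895500610, nat_lit 69812925250], [nat_lit 69912535870, nat_lit 154457141], [nat_lit 153924533, nat_lit 102298549], [nat_lit 136356661, nat_lit 103326517], [nat_lit 102793909, nat_lit 119321393], [nat_lit 102261301], [nat_lit 102261297], [nat_lit 102261293], [nat_lit 102261289], [nat_lit 53]] [[], [], [], [], [], [], [], [], [], [], [nat_lit 837724479514, nat_lit 837724479769]])))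
(.node (nat_lit 192)
(.leaf [[nat_lit 2267321162, nat_lit 2181624650], [nat_lit 2249753290, nat_lit 2267321158], [nat_lit 2249753286, nat_lit 2216723142], [nat_lit 2249753282, nat_lit 2216723138], [nat_lit 2249753278, nat_lit 2216723134], [nat_lit 136356661, nat_lit 103326517], [nat_lit 102793909, nat_lit 119321393], [nat_lit 102261301], [nat_lit 102261297], [nat_lit 102261293], [nat_lit 102261289], [nat_lit 53]] [[], [], [], [], [], [], [], [], [], [nat_lit 837724512795], [nat_lit 837724479514, nat_lit 837724479641, nat_lit 837724479769]])
(.node (nat_lit 193)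
(.leaf [[nat_lit 70986535754, nat_lit 70901097290, nat_lit 70970553286], [nat_lit 70986535750, nat_lit 70901097286, nat_lit 70903178054], [nat_lit 70969500482, nat_lit 154989749, nat_lit 70901097282], [nat_lit 153416757, nat_lit 154457141], [nat_lit 153404341, nat_lit 153924533], [nat_lit 136356661, nat_lit 103326517], [nat_lit 136356657, nat_lit 102793909], [nat_lit 102261301], [nat_lit 102261297], [nat_lit 102261293], [nat_lit 102261289]] [[], [], [], [], [], [], [], [], [], [], [nat_lit 837724479641]])
(.leaf [[nat_lit 139722785610], [nat_lit 139722785606], [nat_lit 139688715074, nat_lit 139672720194], [nat_lit 153416757, nat_lit 154457141], [nat_lit 153404341, nat_lit 153924533], [nat_lit 136356661, nat_lit 103326517], [nat_lit 102793909, nat_lit 119321393], [nat_lit 102261301], [nat_lit 102261297], [nat_lit 102261293], [nat_lit 102261289]] []))))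
(.node (nat_lit 258)
(.node (nat_lit 256)
(.leaf [[nat_lit 3340800842, nat_lit 3289432906, nat_lit 3324818374], [nat_lit 3340800838, nat_lit 3272397638, nat_lit 3324285766], [nat_lit 3324285762, nat_lit 3272397634, nat_lit 3272659778], [nat_lit 154457141, nat_lit 102310965], [nat_lit 153404341, nat_lit 153924533], [nat_lit 136356661, nat_lit 103326517], [nat_lit 102793909, nat_lit 1176011445, nat_lit 1159238325], [nat_lit 102261301], [nat_lit 102261297], [nat_lit 102261293], [nat_lit 102261289]] [[], [], [], [], [], [], [], [], [], [], [nat_lit 837724479641]])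
(.node (nat_lit 257)
(.leaf [[nat_lit 72077063110, nat_lit 72077583302], [nat_lit 72042980166, nat_lit 72026985286], [nat_lit 153429173, nat_lit 154989749], [nat_lit 153416757, nat_lit 154457141], [nat_lit 153404341, nat_lit 153924533], [nat_lit 136356661, nat_lit 103326517], [nat_lit 102793909, nat_lit 119321393], [nat_lit 102261301], [nat_lit 102261297], [nat_lit 102261293], [nat_lit 102261289]] [])
(.leaf [[nat_lit 140796797894, nat_lit 140728382282, nat_lit 140780282822], [nat_lit 140762714950, nat_lit 155522357, nat_lit 102335797], [nat_lit 153429173, nat_lit 154989749], [nat_lit 153416757, nat_lit 154457141], [nat_lit 153404341, nat_lit 153924533], [nat_lit 136356661, nat_lit 103326517], [nat_lit 102793909, nat_lit 1176011445, nat_lit 1159238325], [nat_lit 102261301], [nat_lit 102261297], [nat_lit 102261293], [nat_lit 102261289]] [])))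
(.node (nat_lit 320)
(.node (nat_lit 259)
(.leaf [[nat_lit 209516012486, nat_lit 209482982342], [nat_lit 209481929542, nat_lit 155522357], [nat_lit 153429173, nat_lit 154989749], [nat_lit 153416757, nat_lit 154457141], [nat_lit 153404341, nat_lit 153924533], [nat_lit 136356661, nat_lit 103326517], [nat_lit 102793909, nat_lit 119321393], [nat_lit 102261301], [nat_lit 102261297], [nat_lit 102261293], [nat_lit 102261289]] [])
(.leaf [[nat_lit 4431315786, nat_lit 4363174730], [nat_lit 4431315782], [nat_lit 4363682502, nat_lit 4397228742, nat_lit 4363174722, nat_lit 154989749], [nat_lit 4363682498, nat_lit 102310965, nat_lit 154457141], [nat_lit 153404341, nat_lit 153924533], [nat_lit 136356661, nat_lit 103326517], [nat_lit 2249753269, nat_lit 102793909], [nat_lit 102261301], [nat_lit 102261297], [nat_lit 102261293], [nat_lit 102261289]] [[], [], [], [], [], [], [], [], [], [], [nat_lit 837724479513, nat_lit 837724479640]]))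
(.node (nat_lit 321)
(.leaf [[nat_lit 73151062982, nat_lit 73082647370, nat_lit 73134547910], [nat_lit 73116980038, nat_lit 155522357, nat_lit 102335797], [nat_lit 153429173, nat_lit 154989749], [nat_lit 153416757, nat_lit 154457141], [nat_lit 153404341, nat_lit 153924533], [nat_lit 136356661, nat_lit 103326517], [nat_lit 102793909, nat_lit 1176011445, nat_lit 1159238325], [nat_lit 102261301], [nat_lit 102261297], [nat_lit 102261293], [nat_lit 102261289]] [[], [], [], [], [], [], [], [], [], [], [nat_lit 837724479640]])
(.leaf [[nat_lit 141836714826, nat_lit 102348213, nat_lit 141802644298], [nat_lit 141819679558, nat_lit 102335797, nat_lit 155522357], [nat_lit 153429173, nat_lit 154989749], [nat_lit 153416757, nat_lit 154457141], [nat_lit 153404341, nat_lit 153924533], [nat_lit 136356661, nat_lit 103326517], [nat_lit 2249753269, nat_lit 102793909], [nat_lit 102261301], [nat_lit 102261297], [nat_lit 102261293], [nat_lit 102261289]] [])))))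
(.node (nat_lit 387)
(.node (nat_lit 384)
(.node (nat_lit 323)
(.leaf [[nat_lit 153454005, nat_lit 156054965], [nat_lit 153441589, nat_lit 155522357], [nat_lit 153429173, nat_lit 154989749], [nat_lit 153416757, nat_lit 154457141], [nat_lit 153404341, nat_lit 153924533], [nat_lit 136356661, nat_lit 103326517], [nat_lit 102793909, nat_lit 1176011445, nat_lit 1159238325], [nat_lit 102261301], [nat_lit 102261297], [nat_lit 102261293], [nat_lit 102261289]] [])
(.node (nat_lit 324)
(.leaf [[nat_lit 279275144010, nat_lit 279242113866], [nat_lit 279241073478, nat_lit 279242113862], [nat_lit 153429173, nat_lit 154989749], [nat_lit 153416757, nat_lit 154457141], [nat_lit 153404341, nat_lit 153924533], [nat_lit 136356661, nat_lit 103326517], [nat_lit 136356657, nat_lit 102793909], [nat_lit 102261301], [nat_lit 102261297], [nat_lit 102261293], [nat_lit 102261289]] [])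
(.leaf [[nat_lit 5505328070, nat_lit 102348213, nat_lit 5488812998], [nat_lit 5471245126, nat_lit 155522357, nat_lit 102335797], [nat_lit 5471245122, nat_lit 154989749, nat_lit 102323381], [nat_lit 154457141, nat_lit 102310965], [nat_lit 153404341, nat_lit 153924533], [nat_lit 136356661, nat_lit 103326517], [nat_lit 2249753269, nat_lit 102793909], [nat_lit 102261301], [nat_lit 102261297], [nat_lit 102261293], [nat_lit 102261289]] [[], [], [], [], [], [], [], [], [], [], [nat_lit 837724479640]])))
(.node (nat_lit 385)
(.leaf [[nat_lit 74224542662, nat_lit 74191512518], [nat_lit 74190459718, nat_lit 155522357], [nat_lit 153429173, nat_lit 154989749], [nat_lit 153416757, nat_lit 154457141], [nat_lit 153404341, nat_lit 153924533], [nat_lit 136356661, nat_lit 103326517], [nat_lit 2249753269, nat_lit 102793909], [nat_lit 102261301], [nat_lit 102261297], [nat_lit 102261293], [nat_lit 102261289]] [])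
(.node (nat_lit 386)
(.leaf [[nat_lit 153454005, nat_lit 156054965], [nat_lit 153441589, nat_lit 155522357], [nat_lit 153429173, nat_lit 154989749], [nat_lit 153416757, nat_lit 154457141], [nat_lit 153404341, nat_lit 153924533], [nat_lit 136356661, nat_lit 103326517], [nat_lit 2249753269, nat_lit 102793909], [nat_lit 102261301], [nat_lit 102261297], [nat_lit 102261293], [nat_lit 102261289]] [])
(.leaf [[nat_lit 153454005, nat_lit 156054965, nat_lit 153974197], [nat_lit 153441589, nat_lit 155522357], [nat_lit 153429173, nat_lit 154989749], [nat_lit 153416757, nat_lit 154457141], [nat_lit 153404341, nat_lit 153924533], [nat_lit 136356661, nat_lit 103326517], [nat_lit 2249753269, nat_lit 102793909], [nat_lit 102261301], [nat_lit 102261297], [nat_lit 102261293], [nat_lit 102261289]] []))))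
(.node (nat_lit 448)
(.node (nat_lit 388)
(.leaf [[nat_lit 153454005, nat_lit 156054965, nat_lit 153974197], [nat_lit 153441589, nat_lit 155522357], [nat_lit 153429173, nat_lit 154989749], [nat_lit 153416757, nat_lit 154457141], [nat_lit 153404341, nat_lit 153924533], [nat_lit 136356661, nat_lit 103326517], [nat_lit 102793909, nat_lit 1176011445, nat_lit 1159238325], [nat_lit 102261301], [nat_lit 102261297], [nat_lit 102261293]] [])
(.node (nat_lit 389)
(.leaf [[nat_lit 153454005, nat_lit 156054965, nat_lit 153974197], [nat_lit 153441589, nat_lit 155522357], [nat_lit 153429173, nat_lit 154989749], [nat_lit 153416757, nat_lit 154457141], [nat_lit 153404341, nat_lit 153924533], [nat_lit 136356661, nat_lit 103326517], [nat_lit 136356657, nat_lit 102793909], [nat_lit 102261301], [nat_lit 102261297], [nat_lit 102261293]] [])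
(.leaf [[nat_lit 6544712398], [nat_lit 6544712394, nat_lit 6545244998], [nat_lit 6544712390, nat_lit 6545244994], [nat_lit 6544712386], [nat_lit 153404341, nat_lit 153924533], [nat_lit 136356661, nat_lit 103326517], [nat_lit 2249753269, nat_lit 102793909], [nat_lit 102261301], [nat_lit 102261297], [nat_lit 102261293], [nat_lit 102261289]] [[], [], [], [], [], [], [], [], [], [], [nat_lit 837724479512]])))
(.node (nat_lit 450)
(.node (nat_lit 449)
(.leaf [[nat_lit 75264472006, nat_lit 156054965, nat_lit 119383477], [nat_lit 153441589, nat_lit 155522357], [nat_lit 153429173, nat_lit 154989749], [nat_lit 153416757, nat_lit 154457141], [nat_lit 153404341, nat_lit 153924533], [nat_lit 136356661, nat_lit 103326517], [nat_lit 2249753269, nat_lit 102793909], [nat_lit 102261301], [nat_lit 102261297], [nat_lit 102261293], [nat_lit 102261289]] [])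
(.leaf [[nat_lit 153454005, nat_lit 156054965, nat_lit 153974197], [nat_lit 153441589, nat_lit 155522357], [nat_lit 153429173, nat_lit 154989749], [nat_lit 153416757, nat_lit 154457141], [nat_lit 153404341, nat_lit 153924533], [nat_lit 136356661, nat_lit 103326517], [nat_lit 2249753269, nat_lit 102793909], [nat_lit 102261301], [nat_lit 102261297], [nat_lit 102261293], [nat_lit 102261289]] []))
(.node (nat_lit 451)
(.leaf [[nat_lit 153454005, nat_lit 156054965, nat_lit 153974197], [nat_lit 153441589, nat_lit 155522357], [nat_lit 153429173, nat_lit 154989749], [nat_lit 153416757, nat_lit 154457141], [nat_lit 153404341, nat_lit 153924533], [nat_lit 136356661, nat_lit 103326517], [nat_lit 2249753269, nat_lit 102793909], [nat_lit 102261301], [nat_lit 102261297], [nat_lit 102261293]] [])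
(.leaf [[nat_lit 153454005, nat_lit 156054965, nat_lit 153974197], [nat_lit 153441589, nat_lit 155522357], [nat_lit 153429173, nat_lit 154989749], [nat_lit 153416757, nat_lit 154457141], [nat_lit 153404341, nat_lit 153924533], [nat_lit 136356661, nat_lit 103326517], [nat_lit 2249753269, nat_lit 102793909], [nat_lit 102261301], [nat_lit 102261297], [nat_lit 102261293]] []))))))
(.node (nat_lit 578)
(.node (nat_lit 515)
(.node (nat_lit 512)
(.node (nat_lit 453)
(.leaf [[nat_lit 153454005, nat_lit 156054965, nat_lit 153974197], [nat_lit 153441589, nat_lit 155522357], [nat_lit 153429173, nat_lit 154989749], [nat_lit 153416757, nat_lit 154457141], [nat_lit 153404341, nat_lit 153924533], [nat_lit 136356661, nat_lit 103326517], [nat_lit 102793909, nat_lit 1176011445, nat_lit 1159238325], [nat_lit 102261301], [nat_lit 102261297], [nat_lit 102261293]] [])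
(.node (nat_lit 454)
(.leaf [[nat_lit 418861572938], [nat_lit 69946656053, nat_lit 155522357], [nat_lit 69946643637, nat_lit 154989749], [nat_lit 69946631221, nat_lit 154457141], [nat_lit 69946618805, nat_lit 153924533], [nat_lit 139722785589], [nat_lit 69929571121, nat_lit 102793909], [nat_lit 102261301], [nat_lit 102261297], [nat_lit 102261293]] [])
(.leaf [[nat_lit 7636030406, nat_lit 153454005, nat_lit 156054965], [nat_lit 1227441461, nat_lit 155522357, nat_lit 102335797], [nat_lit 1227429045, nat_lit 154989749, nat_lit 102323381], [nat_lit 1227416629, nat_lit 154457141, nat_lit 102310965], [nat_lit 1227404213, nat_lit 102298549, nat_lit 153924533], [nat_lit 136356661, nat_lit 2267321141], [nat_lit 2249753269, nat_lit 102793909], [nat_lit 102261301], [nat_lit 102261297], [nat_lit 102261293]] [[], [], [], [], [], [], [], [], [], [], [nat_lit 837724479511]])))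
(.node (nat_lit 513)
(.leaf [[nat_lit 1227453877, nat_lit 156054965, nat_lit 119383477], [nat_lit 1227441461, nat_lit 155522357, nat_lit 119371061], [nat_lit 1227429045, nat_lit 154989749, nat_lit 119358645], [nat_lit 1227416629, nat_lit 154457141, nat_lit 119346229], [nat_lit 1227404213, nat_lit 119333813, nat_lit 153924533], [nat_lit 136356661, nat_lit 103326517], [nat_lit 2249753269, nat_lit 102793909], [nat_lit 102261301], [nat_lit 102261297], [nat_lit 102261293]] [[], [], [], [], [], [], [], [], [], [], [nat_lit 837724479511]])
(.node (nat_lit 514)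
(.leaf [[nat_lit 153454005, nat_lit 156054965, nat_lit 153974197], [nat_lit 153441589, nat_lit 155522357], [nat_lit 153429173, nat_lit 154989749], [nat_lit 153416757, nat_lit 154457141], [nat_lit 153404341, nat_lit 153924533], [nat_lit 136356661, nat_lit 103326517], [nat_lit 2249753269, nat_lit 102793909], [nat_lit 102261301], [nat_lit 102261297], [nat_lit 102261293]] [])
(.leaf [[nat_lit 153454005, nat_lit 156054965, nat_lit 153974197], [nat_lit 153441589, nat_lit 155522357], [nat_lit 153429173, nat_lit 154989749], [nat_lit 153416757, nat_lit 154457141], [nat_lit 153404341, nat_lit 153924533], [nat_lit 136356661, nat_lit 1193579317], [nat_lit 2249753269, nat_lit 102793909], [nat_lit 102261301], [nat_lit 102261297], [nat_lit 102261293]] []))))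
(.node (nat_lit 518)
(.node (nat_lit 516)
(.leaf [[nat_lit 153454005, nat_lit 156054965, nat_lit 153974197], [nat_lit 153441589, nat_lit 155522357], [nat_lit 153429173, nat_lit 154989749], [nat_lit 153416757, nat_lit 154457141], [nat_lit 153404341, nat_lit 153924533], [nat_lit 136356661, nat_lit 103326517], [nat_lit 2249753269, nat_lit 102793909], [nat_lit 102261301], [nat_lit 102261297], [nat_lit 102261293]] [])
(.node (nat_lit 517)
(.leaf [[nat_lit 69946668469, nat_lit 156054965, nat_lit 153974197], [nat_lit 69946656053, nat_lit 155522357], [nat_lit 69946643637, nat_lit 154989749], [nat_lit 69946631221, nat_lit 154457141], [nat_lit 69946618805, nat_lit 153924533], [nat_lit 69929571125, nat_lit 103326517], [nat_lit 2249753269, nat_lit 102793909], [nat_lit 102261301], [nat_lit 102261297], [nat_lit 102261293]] [])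
(.leaf [[nat_lit 69946668469, nat_lit 156054965, nat_lit 69947188661], [nat_lit 69946656053, nat_lit 155522357], [nat_lit 69946643637, nat_lit 154989749], [nat_lit 69946631221, nat_lit 154457141], [nat_lit 69946618805, nat_lit 69946876853], [nat_lit 139722785589], [nat_lit 102793909, nat_lit 1176011445, nat_lit 1159238325], [nat_lit 102261301], [nat_lit 102261297], [nat_lit 102261293]] [])))
(.node (nat_lit 576)
(.node (nat_lit 519)
(.leaf [[nat_lit 139739882933, nat_lit 139741963701, nat_lit 139725448629], [nat_lit 139739870517, nat_lit 139724916021], [nat_lit 139739858101, nat_lit 139724383413], [nat_lit 139739845685, nat_lit 139723850805], [nat_lit 69946618805, nat_lit 139723318197], [nat_lit 139722785589], [nat_lit 139722785585], [nat_lit 102261301], [nat_lit 102261297], [nat_lit 102261293]] [])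
(.leaf [[nat_lit 8726283206, nat_lit 1229014453, nat_lit 2266863029, nat_lit 1213019573], [nat_lit 2301961525, nat_lit 2249815349, nat_lit 1212486965], [nat_lit 2300908725, nat_lit 1211954357], [nat_lit 2300896309, nat_lit 1211421749], [nat_lit 2300883893, nat_lit 1210889141], [nat_lit 136356661, nat_lit 2267321141], [nat_lit 2249753269, nat_lit 102793909], [nat_lit 102261301], [nat_lit 102261297], [nat_lit 102261293]] [[], [], [], [], [], [], [], [], [], [], [nat_lit 837724479511]]))
(.node (nat_lit 577)
(.leaf [[nat_lit 2300933557, nat_lit 1229534645, nat_lit 1213019573], [nat_lit 2300921141, nat_lit 1212486965], [nat_lit 2300908725, nat_lit 1211954357], [nat_lit 2300896309, nat_lit 1211421749], [nat_lit 2300883893, nat_lit 1210889141], [nat_lit 136356661, nat_lit 2267321141], [nat_lit 2249753269, nat_lit 102793909], [nat_lit 102261301], [nat_lit 102261297], [nat_lit 102261293]] [])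
(.leaf [[nat_lit 1227453877, nat_lit 1213019573, nat_lit 119383477, nat_lit 1227974069], [nat_lit 1227441461, nat_lit 1212486965, nat_lit 119371061], [nat_lit 1227429045, nat_lit 1211954357, nat_lit 119358645], [nat_lit 1227416629, nat_lit 1211421749, nat_lit 119346229], [nat_lit 1227404213, nat_lit 119333813, nat_lit 1210889141], [nat_lit 136356661, nat_lit 2267321141], [nat_lit 2249753269, nat_lit 102793909], [nat_lit 102261301], [nat_lit 102261297], [nat_lit 102261293]] [])))))
(.node (nat_lit 584)
(.node (nat_lit 581)
(.node (nat_lit 579)
(.leaf [[nat_lit 1227453877, nat_lit 1229534645, nat_lit 119383477, nat_lit 1213019573], [nat_lit 1227441461, nat_lit 1212486965, nat_lit 119371061], [nat_lit 1227429045, nat_lit 1211954357, nat_lit 119358645], [nat_lit 1227416629, nat_lit 1211421749, nat_lit 119346229], [nat_lit 1227404213, nat_lit 119333813, nat_lit 1210889141], [nat_lit 136356661, nat_lit 2267321141], [nat_lit 2249753269, nat_lit 102793909], [nat_lit 102261301], [nat_lit 102261297], [nat_lit 102261293]] [])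
(.node (nat_lit 580)
(.leaf [[nat_lit 1227453877, nat_lit 1229534645, nat_lit 119383477, nat_lit 1213019573], [nat_lit 1227441461, nat_lit 1212486965, nat_lit 119371061], [nat_lit 1227429045, nat_lit 1211954357, nat_lit 119358645], [nat_lit 1227416629, nat_lit 1211421749, nat_lit 119346229], [nat_lit 1227404213, nat_lit 119333813, nat_lit 1210889141], [nat_lit 69929571125, nat_lit 1193579317], [nat_lit 2249753269, nat_lit 102793909], [nat_lit 102261301], [nat_lit 102261297], [nat_lit 102261293]] [])
(.leaf [[nat_lit 69946668469, nat_lit 69948749237, nat_lit 69949007285], [nat_lit 69946656053, nat_lit 1212486965, nat_lit 69930140981], [nat_lit 69946643637, nat_lit 1211954357], [nat_lit 69946631221, nat_lit 1211421749], [nat_lit 69946618805, nat_lit 69946876853], [nat_lit 139722785589], [nat_lit 2249753269, nat_lit 102793909], [nat_lit 102261301], [nat_lit 102261297], [nat_lit 102261293]] [])))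
(.node (nat_lit 582)
(.leaf [[nat_lit 139739882933, nat_lit 139741963701, nat_lit 139725448629], [nat_lit 139739870517, nat_lit 139724916021], [nat_lit 139739858101, nat_lit 139724383413], [nat_lit 139739845685, nat_lit 139723850805], [nat_lit 69946618805, nat_lit 139723318197], [nat_lit 139722785589], [nat_lit 2249753269, nat_lit 102793909], [nat_lit 102261301], [nat_lit 102261297], [nat_lit 102261293]] [])
(.node (nat_lit 583)
(.leaf [[nat_lit 139739882933, nat_lit 139741963701, nat_lit 139725448629], [nat_lit 139739870517, nat_lit 139724916021], [nat_lit 139739858101, nat_lit 139724383413], [nat_lit 139739845685, nat_lit 139723850805], [nat_lit 139722798005, nat_lit 139723318197], [nat_lit 139722785589], [nat_lit 1176011445, nat_lit 102793909, nat_lit 1159238325], [nat_lit 102261301], [nat_lit 102261297]] [])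
(.leaf [[nat_lit 209533097397, nat_lit 209535178165], [nat_lit 209533084981, nat_lit 209534645557], [nat_lit 209533072565, nat_lit 209534112949], [nat_lit 209533060149, nat_lit 209533580341], [nat_lit 209516012469, nat_lit 139723318197], [nat_lit 139722785589], [nat_lit 139722785585], [nat_lit 102261301], [nat_lit 102261297]] []))))
(.node (nat_lit 642)
(.node (nat_lit 640)
(.leaf [[nat_lit 3374933429, nat_lit 3377014197, nat_lit 2249827765], [nat_lit 3374921013, nat_lit 3376481589, nat_lit 2249815349], [nat_lit 3374908597, nat_lit 3375948981, nat_lit 2249802933], [nat_lit 3374896181, nat_lit 3375416373, nat_lit 2249790517], [nat_lit 3374883765, nat_lit 2249778101], [nat_lit 4414280501, nat_lit 2267321141], [nat_lit 2249753269, nat_lit 102793909], [nat_lit 102261301], [nat_lit 102261297], [nat_lit 102261293]] [])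
(.node (nat_lit 641)
(.leaf [[nat_lit 3374933429, nat_lit 3377014197, nat_lit 2266863029], [nat_lit 3374921013, nat_lit 3376481589, nat_lit 2266850613], [nat_lit 3374908597, nat_lit 3375948981, nat_lit 2266838197], [nat_lit 3374896181, nat_lit 3375416373, nat_lit 2266825781], [nat_lit 3374883765, nat_lit 2266813365], [nat_lit 3357573941, nat_lit 2249765685, nat_lit 3340800821], [nat_lit 2249753269, nat_lit 102793909], [nat_lit 102261301], [nat_lit 102261297], [nat_lit 102261293]] [])
(.leaf [[nat_lit 3377014197, nat_lit 2300933557], [nat_lit 3376481589, nat_lit 2283885877], [nat_lit 3375948981, nat_lit 2266838197], [nat_lit 3375416373, nat_lit 2266825781], [nat_lit 3374883765, nat_lit 2266813365], [nat_lit 3357573941, nat_lit 3340800821, nat_lit 2267321141], [nat_lit 2249753269, nat_lit 102793909], [nat_lit 102261301], [nat_lit 102261297], [nat_lit 102261293]] [])))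
(.node (nat_lit 644)
(.node (nat_lit 643)
(.leaf [[nat_lit 3377014197, nat_lit 2300933557], [nat_lit 3376481589, nat_lit 2283885877], [nat_lit 3375948981, nat_lit 2266838197], [nat_lit 3375416373, nat_lit 2266825781], [nat_lit 3374883765, nat_lit 2266813365], [nat_lit 136356661, nat_lit 2267321141], [nat_lit 2249753269, nat_lit 102793909], [nat_lit 102261301], [nat_lit 102261297], [nat_lit 102261293]] [])
(.leaf [[nat_lit 2300933557, nat_lit 2303014325, nat_lit 2303272373], [nat_lit 2300921141, nat_lit 1212486965, nat_lit 2284406069], [nat_lit 2300908725, nat_lit 1211954357], [nat_lit 2300896309, nat_lit 1211421749], [nat_lit 2300883893, nat_lit 2301141941], [nat_lit 69929571125, nat_lit 3357573941], [nat_lit 2249753269, nat_lit 102793909], [nat_lit 102261301], [nat_lit 102261297], [nat_lit 102261293]] []))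
(.node (nat_lit 645)
(.leaf [[nat_lit 71020668341, nat_lit 71022749109, nat_lit 69912597941], [nat_lit 71020655925, nat_lit 71022216501, nat_lit 69912585525], [nat_lit 71020643509, nat_lit 71021683893, nat_lit 69912573109], [nat_lit 71020631093, nat_lit 71021151285, nat_lit 69912560693], [nat_lit 71020618677, nat_lit 69912548277], [nat_lit 139722785589], [nat_lit 2249753269, nat_lit 102793909], [nat_lit 102261301], [nat_lit 102261297], [nat_lit 102261293]] [])
(.leaf [[nat_lit 139739882933, nat_lit 139741963701, nat_lit 139725448629], [nat_lit 139739870517, nat_lit 139724916021], [nat_lit 139739858101, nat_lit 139724383413], [nat_lit 139739845685, nat_lit 139723850805], [nat_lit 139722798005, nat_lit 139723318197], [nat_lit 139722785589], [nat_lit 2249753269, nat_lit 102793909], [nat_lit 102261301], [nat_lit 102261297]] [])))))))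
(.node (nat_lit 779)
(.node (nat_lit 713)
(.node (nat_lit 706)
(.node (nat_lit 649)
(.node (nat_lit 647)
(.leaf [[nat_lit 209533097397, nat_lit 209535178165], [nat_lit 209533084981, nat_lit 209534645557], [nat_lit 209533072565, nat_lit 209534112949], [nat_lit 209533060149, nat_lit 209533580341], [nat_lit 209516012469, nat_lit 139723318197], [nat_lit 139722785589], [nat_lit 2249753269, nat_lit 102793909], [nat_lit 102261301], [nat_lit 102261297]] [])
(.node (nat_lit 648)
(.leaf [[nat_lit 209533097397, nat_lit 209535178165], [nat_lit 209533084981, nat_lit 209534645557], [nat_lit 209533072565, nat_lit 209534112949], [nat_lit 209533060149, nat_lit 209533580341], [nat_lit 209516012469, nat_lit 139723318197], [nat_lit 139722785589], [nat_lit 139722785585], [nat_lit 102261301], [nat_lit 102261297]] [])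
(.leaf [[nat_lit 279326311861, nat_lit 209535178165], [nat_lit 279326299445, nat_lit 209534645557], [nat_lit 279326287029, nat_lit 209534112949], [nat_lit 279326274613, nat_lit 209533580341], [nat_lit 209516012469, nat_lit 279292711861], [nat_lit 139722785589], [nat_lit 139722785585], [nat_lit 102261301], [nat_lit 102261297]] [])))
(.node (nat_lit 704)
(.leaf [[nat_lit 4448413109, nat_lit 3377014197], [nat_lit 4448400693, nat_lit 3376481589], [nat_lit 4448388277, nat_lit 3375948981], [nat_lit 4448375861, nat_lit 3375416373], [nat_lit 4448363445, nat_lit 3374883765], [nat_lit 4431315765], [nat_lit 6544712373], [nat_lit 102261301], [nat_lit 102261297], [nat_lit 102261293]] [])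
(.node (nat_lit 705)
(.leaf [[nat_lit 4448413109, nat_lit 3377014197], [nat_lit 4448400693, nat_lit 3376481589], [nat_lit 4448388277, nat_lit 3375948981], [nat_lit 4448375861, nat_lit 3375416373], [nat_lit 4448363445, nat_lit 3374883765], [nat_lit 4431315765], [nat_lit 6544712373], [nat_lit 102261301], [nat_lit 102261297], [nat_lit 102261293]] [])
(.leaf [[nat_lit 3374933429, nat_lit 3377014197, nat_lit 2266863029], [nat_lit 3374921013, nat_lit 3376481589, nat_lit 2266850613], [nat_lit 3374908597, nat_lit 3375948981, nat_lit 2266838197], [nat_lit 3374896181, nat_lit 3375416373, nat_lit 2266825781], [nat_lit 3374883765, nat_lit 2266813365], [nat_lit 4431315765], [nat_lit 6544712373], [nat_lit 102261301], [nat_lit 102261297], [nat_lit 102261293]] []))))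
(.node (nat_lit 709)
(.node (nat_lit 707)
(.leaf [[nat_lit 3374933429, nat_lit 3377014197, nat_lit 2266863029], [nat_lit 3374921013, nat_lit 3376481589, nat_lit 2266850613], [nat_lit 3374908597, nat_lit 3375948981, nat_lit 2266838197], [nat_lit 3374896181, nat_lit 3375416373, nat_lit 2266825781], [nat_lit 3374883765, nat_lit 2266813365], [nat_lit 4431315765], [nat_lit 2249753269, nat_lit 102793909], [nat_lit 102261301], [nat_lit 102261297], [nat_lit 102261293]] [])
(.node (nat_lit 708)
(.leaf [[nat_lit 3374933429, nat_lit 3377014197, nat_lit 2266863029], [nat_lit 3374921013, nat_lit 3376481589, nat_lit 2266850613], [nat_lit 3374908597, nat_lit 3375948981, nat_lit 2266838197], [nat_lit 3374896181, nat_lit 3375416373, nat_lit 2266825781], [nat_lit 3374883765, nat_lit 2266813365], [nat_lit 4431315765], [nat_lit 2249753269, nat_lit 102793909], [nat_lit 102261301], [nat_lit 102261297], [nat_lit 102261293]] [])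
(.leaf [[nat_lit 72094148021, nat_lit 72096228789, nat_lit 72079713717], [nat_lit 72094135605, nat_lit 72079181109], [nat_lit 72094123189, nat_lit 72078648501], [nat_lit 72094110773, nat_lit 72078115893], [nat_lit 72094098357, nat_lit 72077583285], [nat_lit 139722785589], [nat_lit 2249753269, nat_lit 102793909], [nat_lit 102261301], [nat_lit 102261297]] [])))
(.node (nat_lit 711)
(.node (nat_lit 710)
(.leaf [[nat_lit 140813882805, nat_lit 139725448629, nat_lit 139705812405, nat_lit 140797367733], [nat_lit 140813870389, nat_lit 139724916021, nat_lit 139705799989], [nat_lit 140813857973, nat_lit 139724383413, nat_lit 139705787573], [nat_lit 140813845557, nat_lit 140814103605, nat_lit 139705775157], [nat_lit 140796797877, nat_lit 140813570997, nat_lit 139705762741], [nat_lit 139722785589], [nat_lit 2249753269, nat_lit 102793909], [nat_lit 102261301], [nat_lit 102261297]] [])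
(.leaf [[nat_lit 209533097397, nat_lit 209535178165], [nat_lit 209533084981, nat_lit 209534645557], [nat_lit 209533072565, nat_lit 209534112949], [nat_lit 209533060149, nat_lit 209533580341], [nat_lit 210590012341, nat_lit 209498977205], [nat_lit 139722785589], [nat_lit 2249753269, nat_lit 102793909], [nat_lit 102261301], [nat_lit 102261297]] []))
(.node (nat_lit 712)
(.leaf [[nat_lit 279326311861, nat_lit 209535178165], [nat_lit 279326299445, nat_lit 209534645557], [nat_lit 279326287029, nat_lit 209534112949], [nat_lit 279326274613, nat_lit 209533580341], [nat_lit 209516012469, nat_lit 279292711861], [nat_lit 139722785589], [nat_lit 2249753269, nat_lit 102793909], [nat_lit 102261301], [nat_lit 102261297]] [])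
(.leaf [[nat_lit 279326311861, nat_lit 209535178165], [nat_lit 279326299445, nat_lit 209534645557], [nat_lit 279326287029, nat_lit 209534112949], [nat_lit 279326274613, nat_lit 279326532661], [nat_lit 209516012469, nat_lit 209516270517], [nat_lit 139722785589], [nat_lit 418861572913], [nat_lit 102261301], [nat_lit 102261297]] [])))))
(.node (nat_lit 772)
(.node (nat_lit 769)
(.node (nat_lit 714)
(.leaf [[nat_lit 349119526325, nat_lit 349104571829], [nat_lit 349119513909, nat_lit 349104039221], [nat_lit 349119501493, nat_lit 349103506613], [nat_lit 349119489077, nat_lit 349102974005], [nat_lit 209516012469, nat_lit 279292711861], [nat_lit 418861572917], [nat_lit 418861572913], [nat_lit 102261301], [nat_lit 102261297]] [])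
(.node (nat_lit 768)
(.leaf [[nat_lit 5523453365, nat_lit 4397307317, nat_lit 4433978805], [nat_lit 5522400565, nat_lit 4433446197, nat_lit 4397294901], [nat_lit 5522388149, nat_lit 4432913589, nat_lit 4397282485], [nat_lit 5522375733, nat_lit 4432380981, nat_lit 4397270069], [nat_lit 4448363445, nat_lit 4431848373], [nat_lit 4431315765], [nat_lit 6544712373], [nat_lit 102261301], [nat_lit 102261297], [nat_lit 102261293]] [[], [], [], [], [], [], [], [], [], [nat_lit 837724512408]])
(.leaf [[nat_lit 5522412981, nat_lit 4433978805, nat_lit 4414342581], [nat_lit 5522400565, nat_lit 4433446197, nat_lit 4414330165], [nat_lit 5522388149, nat_lit 4432913589, nat_lit 4414317749], [nat_lit 5522375733, nat_lit 4432380981, nat_lit 4414305333], [nat_lit 4448363445, nat_lit 4431848373], [nat_lit 4431315765], [nat_lit 6544712373], [nat_lit 102261301], [nat_lit 102261297], [nat_lit 102261293]] [])))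
(.node (nat_lit 770)
(.leaf [[nat_lit 4448413109, nat_lit 4433978805, nat_lit 4448933301], [nat_lit 4448400693, nat_lit 4433446197], [nat_lit 4448388277, nat_lit 4432913589], [nat_lit 4448375861, nat_lit 4432380981], [nat_lit 4448363445, nat_lit 4431848373], [nat_lit 4431315765], [nat_lit 6544712373], [nat_lit 102261301], [nat_lit 102261297], [nat_lit 102261293]] [])
(.node (nat_lit 771)
(.leaf [[nat_lit 4448413109, nat_lit 4450493877, nat_lit 4433978805], [nat_lit 4448400693, nat_lit 4433446197], [nat_lit 4448388277, nat_lit 4432913589], [nat_lit 4448375861, nat_lit 4432380981], [nat_lit 4448363445, nat_lit 4431848373], [nat_lit 4431315765], [nat_lit 6544712373], [nat_lit 102261301], [nat_lit 102261297], [nat_lit 102261293]] [])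
(.leaf [[nat_lit 4448413109, nat_lit 4450493877, nat_lit 4433978805], [nat_lit 4448400693, nat_lit 4433446197], [nat_lit 4448388277, nat_lit 4432913589], [nat_lit 4448375861, nat_lit 4432380981], [nat_lit 4448363445, nat_lit 4431848373], [nat_lit 4431315765], [nat_lit 6544712373], [nat_lit 102261301], [nat_lit 102261297]] []))))
(.node (nat_lit 775)
(.node (nat_lit 773)
(.leaf [[nat_lit 73168147893, nat_lit 72079713717, nat_lit 72060077493, nat_lit 73151632821], [nat_lit 73168135477, nat_lit 72079181109, nat_lit 72060065077], [nat_lit 73168123061, nat_lit 72078648501, nat_lit 72060052661], [nat_lit 73168110645, nat_lit 73168368693, nat_lit 72060040245], [nat_lit 73151062965, nat_lit 73167836085, nat_lit 72060027829], [nat_lit 4431315765], [nat_lit 6544712373], [nat_lit 102261301], [nat_lit 102261297]] [])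
(.node (nat_lit 774)
(.leaf [[nat_lit 141887362485, nat_lit 141889443253], [nat_lit 141887350069, nat_lit 141888910645], [nat_lit 141887337653, nat_lit 141888378037], [nat_lit 141887325237, nat_lit 141887845429], [nat_lit 141887312821], [nat_lit 139722785589], [nat_lit 2249753269, nat_lit 102793909], [nat_lit 102261301], [nat_lit 102261297]] [])
(.leaf [[nat_lit 210607097269, nat_lit 210592142773, nat_lit 209499026869], [nat_lit 210607084853, nat_lit 210591610165, nat_lit 209499014453], [nat_lit 210607072437, nat_lit 210591077557, nat_lit 209499002037], [nat_lit 210607060021, nat_lit 209498989621, nat_lit 210590544949], [nat_lit 210590012341, nat_lit 209498977205], [nat_lit 139722785589], [nat_lit 2249753269, nat_lit 102793909], [nat_lit 102261301], [nat_lit 102261297]] [])))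
(.node (nat_lit 777)
(.node (nat_lit 776)
(.leaf [[nat_lit 279326311861, nat_lit 210592142773, nat_lit 279309796789], [nat_lit 279326299445, nat_lit 210591610165], [nat_lit 279326287029, nat_lit 210591077557], [nat_lit 279326274613, nat_lit 279326532661], [nat_lit 210590012341, nat_lit 279292191669], [nat_lit 139722785589], [nat_lit 2249753269, nat_lit 102793909], [nat_lit 102261301], [nat_lit 102261297]] [])
(.leaf [[nat_lit 349119526325, nat_lit 349104571829], [nat_lit 349119513909, nat_lit 349104039221], [nat_lit 349119501493, nat_lit 349103506613], [nat_lit 349119489077, nat_lit 349102974005], [nat_lit 209516012469, nat_lit 279292711861], [nat_lit 418861572917], [nat_lit 418861572913], [nat_lit 102261301], [nat_lit 102261297]] []))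
(.node (nat_lit 778)
(.leaf [[nat_lit 349119526325, nat_lit 349104571829], [nat_lit 349119513909, nat_lit 349104039221], [nat_lit 349119501493, nat_lit 349103506613], [nat_lit 349119489077, nat_lit 349102974005], [nat_lit 279292191669, nat_lit 279292711861], [nat_lit 418861572917], [nat_lit 418861572913], [nat_lit 102261301]] [])
(.leaf [[nat_lit 418912740789, nat_lit 418914301365], [nat_lit 418912728373, nat_lit 418913768757], [nat_lit 418912715957, nat_lit 418913236149], [nat_lit 418912703541], [nat_lit 279292191669, nat_lit 418862105525], [nat_lit 418861572917], [nat_lit 418861572913], [nat_lit 102261301]] []))))))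
(.node (nat_lit 844)
(.node (nat_lit 837)
(.node (nat_lit 834)
(.node (nat_lit 832)
(.leaf [[nat_lit 6595892661, nat_lit 6597973429], [nat_lit 6595880245, nat_lit 6597440821], [nat_lit 6595867829, nat_lit 6596908213], [nat_lit 6595855413, nat_lit 6596375605], [nat_lit 6595842997], [nat_lit 4431315765], [nat_lit 6544712373], [nat_lit 102261301], [nat_lit 6544712365], [nat_lit 6544712361]] [])
(.node (nat_lit 833)
(.leaf [[nat_lit 6595892661, nat_lit 6597973429], [nat_lit 6595880245, nat_lit 6597440821], [nat_lit 6595867829, nat_lit 6596908213], [nat_lit 6595855413, nat_lit 6596375605], [nat_lit 6595842997], [nat_lit 4431315765], [nat_lit 6544712373], [nat_lit 102261301], [nat_lit 6544712365], [nat_lit 6544712361]] [])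
(.leaf [[nat_lit 6597973429, nat_lit 6578857397], [nat_lit 6597440821, nat_lit 4414330165], [nat_lit 6596908213, nat_lit 4414317749], [nat_lit 6596375605, nat_lit 4414305333], [nat_lit 6595842997], [nat_lit 4431315765], [nat_lit 6544712373], [nat_lit 102261301], [nat_lit 102261297], [nat_lit 6544712361]] [])))
(.node (nat_lit 835)
(.leaf [[nat_lit 6597973429, nat_lit 6578857397], [nat_lit 6597440821, nat_lit 4414330165], [nat_lit 6596908213, nat_lit 4414317749], [nat_lit 6596375605, nat_lit 4414305333], [nat_lit 6595842997], [nat_lit 4431315765], [nat_lit 6544712373], [nat_lit 102261301], [nat_lit 102261297]] [])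
(.node (nat_lit 836)
(.leaf [[nat_lit 5522412981, nat_lit 4433978805, nat_lit 4414342581, nat_lit 5505897909], [nat_lit 5522400565, nat_lit 4433446197, nat_lit 4414330165], [nat_lit 5522388149, nat_lit 4432913589, nat_lit 4414317749], [nat_lit 5522375733, nat_lit 5522633781, nat_lit 4414305333], [nat_lit 5505328053, nat_lit 5522101173, nat_lit 4414292917], [nat_lit 4431315765], [nat_lit 6544712373], [nat_lit 102261301], [nat_lit 102261297]] [])
(.leaf [[nat_lit 74241627573, nat_lit 74243708341], [nat_lit 74241615157, nat_lit 74243175733], [nat_lit 74241602741, nat_lit 74242643125], [nat_lit 74241590325, nat_lit 74242110517], [nat_lit 75298542517, nat_lit 74207507381], [nat_lit 4431315765], [nat_lit 6544712373], [nat_lit 102261301], [nat_lit 102261297]] []))))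
(.node (nat_lit 840)
(.node (nat_lit 838)
(.leaf [[nat_lit 142961362357, nat_lit 142946407861, nat_lit 141853291957], [nat_lit 142961349941, nat_lit 142945875253, nat_lit 141853279541], [nat_lit 142961337525, nat_lit 142945342645, nat_lit 141853267125], [nat_lit 142961325109, nat_lit 141853254709, nat_lit 142944810037], [nat_lit 142944277429, nat_lit 141853242293], [nat_lit 4431315765], [nat_lit 6544712373], [nat_lit 102261301], [nat_lit 102261297]] [])
(.node (nat_lit 839)
(.leaf [[nat_lit 211680576949, nat_lit 210592142773, nat_lit 211664061877], [nat_lit 211680564533, nat_lit 210591610165], [nat_lit 211680552117, nat_lit 210591077557], [nat_lit 211680539701, nat_lit 211680797749], [nat_lit 211663492021, nat_lit 210590012341], [nat_lit 279275143989, nat_lit 141836714805], [nat_lit 2249753269, nat_lit 102793909], [nat_lit 102261301], [nat_lit 102261297]] [])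
(.leaf [[nat_lit 280400311733, nat_lit 280401872309, nat_lit 279292241333], [nat_lit 280400299317, nat_lit 280401339701, nat_lit 279292228917], [nat_lit 280400286901, nat_lit 280400807093, nat_lit 279292216501], [nat_lit 280400274485, nat_lit 279292204085], [nat_lit 281456706485], [nat_lit 139722785589], [nat_lit 418861572913], [nat_lit 102261301], [nat_lit 102261297]] [])))
(.node (nat_lit 842)
(.node (nat_lit 841)
(.leaf [[nat_lit 349119526325, nat_lit 349104571829], [nat_lit 349119513909, nat_lit 349104039221], [nat_lit 349119501493, nat_lit 349103506613], [nat_lit 349119489077, nat_lit 349102974005], [nat_lit 281456706485], [nat_lit 418861572917], [nat_lit 418861572913], [nat_lit 102261301]] [])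
(.leaf [[nat_lit 418912740789, nat_lit 418914301365], [nat_lit 418912728373, nat_lit 418913768757], [nat_lit 418912715957, nat_lit 418913236149], [nat_lit 418912703541], [nat_lit 280382964661, nat_lit 279292191669, nat_lit 280366191541], [nat_lit 418861572917], [nat_lit 418861572913], [nat_lit 102261301]] []))
(.node (nat_lit 843)
(.leaf [[nat_lit 418912740789, nat_lit 418914301365], [nat_lit 418912728373, nat_lit 418913768757], [nat_lit 418912715957, nat_lit 418913236149], [nat_lit 418912703541], [nat_lit 279292191669, nat_lit 418862105525], [nat_lit 418861572917], [nat_lit 418861572913], [nat_lit 102261301]] [])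
(.leaf [[nat_lit 488705955253, nat_lit 418914301365], [nat_lit 488705942837, nat_lit 418913768757], [nat_lit 488705930421, nat_lit 418913236149], [nat_lit 418912703541], [nat_lit 279292191669, nat_lit 418862105525], [nat_lit 418861572917], [nat_lit 418861572913], [nat_lit 418861572909]] [])))))
(.node (nat_lit 902)
(.node (nat_lit 898)
(.node (nat_lit 896)
(.leaf [[nat_lit 7669892533, nat_lit 6597973429, nat_lit 6544786869], [nat_lit 7669880117, nat_lit 6597440821, nat_lit 6544774453], [nat_lit 7669867701, nat_lit 6596908213, nat_lit 6544762037], [nat_lit 7669855285, nat_lit 6544749621, nat_lit 6596375605], [nat_lit 6595842997], [nat_lit 4431315765], [nat_lit 6544712373], [nat_lit 6544712369], [nat_lit 6544712365], [nat_lit 6544712361]] [])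
(.node (nat_lit 897)
(.leaf [[nat_lit 7669892533, nat_lit 6597973429, nat_lit 6561822133], [nat_lit 7669880117, nat_lit 6597440821, nat_lit 6561809717], [nat_lit 7669867701, nat_lit 6596908213, nat_lit 6561797301], [nat_lit 7669855285, nat_lit 6561784885, nat_lit 6596375605], [nat_lit 6595842997], [nat_lit 4431315765], [nat_lit 6544712373], [nat_lit 6544712369], [nat_lit 6544712365], [nat_lit 6544712361]] [])
(.leaf [[nat_lit 6595892661, nat_lit 6597973429], [nat_lit 6595880245, nat_lit 6597440821], [nat_lit 6595867829, nat_lit 6596908213], [nat_lit 6595855413, nat_lit 6596375605], [nat_lit 6595842997], [nat_lit 4431315765], [nat_lit 6544712373], [nat_lit 6544712369], [nat_lit 6544712365]] [])))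
(.node (nat_lit 900)
(.node (nat_lit 899)
(.leaf [[nat_lit 6595892661, nat_lit 6597973429], [nat_lit 6595880245, nat_lit 6597440821], [nat_lit 6595867829, nat_lit 6596908213], [nat_lit 6595855413, nat_lit 6596375605], [nat_lit 6595842997], [nat_lit 4431315765], [nat_lit 6544712373], [nat_lit 6544712369], [nat_lit 6544712365]] [])
(.leaf [[nat_lit 6595892661, nat_lit 6597973429], [nat_lit 6595880245, nat_lit 6597440821], [nat_lit 6595867829, nat_lit 6596908213], [nat_lit 6595855413, nat_lit 6596375605], [nat_lit 6595842997], [nat_lit 4431315765], [nat_lit 6544712373], [nat_lit 6544712369], [nat_lit 6544712365]] []))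
(.node (nat_lit 901)
(.leaf [[nat_lit 75315627445, nat_lit 75300672949, nat_lit 74207557045], [nat_lit 75315615029, nat_lit 75300140341, nat_lit 74207544629], [nat_lit 75315602613, nat_lit 75299607733, nat_lit 74207532213], [nat_lit 75315590197, nat_lit 74207519797, nat_lit 75299075125], [nat_lit 75298542517, nat_lit 74207507381], [nat_lit 4431315765], [nat_lit 6544712373], [nat_lit 6544712369], [nat_lit 6544712365]] [])
(.leaf [[nat_lit 144034842037, nat_lit 142946407861, nat_lit 144018326965], [nat_lit 144034829621, nat_lit 142945875253], [nat_lit 144034817205, nat_lit 142945342645], [nat_lit 144034804789, nat_lit 144035062837], [nat_lit 144017757109, nat_lit 142944277429], [nat_lit 4431315765], [nat_lit 6544712373], [nat_lit 6544712369], [nat_lit 6544712365]] []))))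
(.node (nat_lit 905)
(.node (nat_lit 903)
(.leaf [[nat_lit 212754576821, nat_lit 212756137397, nat_lit 211646506421], [nat_lit 212754564405, nat_lit 212755604789, nat_lit 211646494005], [nat_lit 212754551989, nat_lit 212755072181, nat_lit 211646481589], [nat_lit 212754539573, nat_lit 211646469173], [nat_lit 144017757109, nat_lit 142944277429], [nat_lit 4431315765], [nat_lit 6544712373], [nat_lit 102261301], [nat_lit 6544712365]] [])
(.node (nat_lit 904)
(.leaf [[nat_lit 281473791413, nat_lit 281458836917], [nat_lit 281473778997, nat_lit 281458304309], [nat_lit 281473766581, nat_lit 281457771701], [nat_lit 281473754165, nat_lit 281457239093], [nat_lit 281456706485], [nat_lit 418861572917], [nat_lit 418861572913], [nat_lit 102261301]] [])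
(.leaf [[nat_lit 350193526197, nat_lit 349104571829, nat_lit 349085455797], [nat_lit 350193513781, nat_lit 349104039221, nat_lit 349085443381], [nat_lit 350193501365, nat_lit 350193759413, nat_lit 349085430965], [nat_lit 350176453685, nat_lit 350193226805, nat_lit 349085418549], [nat_lit 281456706485], [nat_lit 418861572917], [nat_lit 418861572913], [nat_lit 102261301]] [])))
(.node (nat_lit 907)
(.node (nat_lit 906)
(.leaf [[nat_lit 418912740789, nat_lit 418914301365], [nat_lit 418912728373, nat_lit 418913768757], [nat_lit 418912715957, nat_lit 418913236149], [nat_lit 418912703541], [nat_lit 281456706485], [nat_lit 418861572917], [nat_lit 418861572913], [nat_lit 418861572909]] [])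
(.leaf [[nat_lit 488705955253, nat_lit 418914301365], [nat_lit 488705942837, nat_lit 418913768757], [nat_lit 488705930421, nat_lit 418913236149], [nat_lit 418912703541], [nat_lit 279292191669, nat_lit 418862105525], [nat_lit 418861572917], [nat_lit 418861572913], [nat_lit 418861572909]] []))
(.node (nat_lit 908)
(.leaf [[nat_lit 488705955253, nat_lit 418914301365], [nat_lit 488705942837, nat_lit 418913768757], [nat_lit 488705930421, nat_lit 488706188469], [nat_lit 418912703541], [nat_lit 279292191669, nat_lit 418862105525], [nat_lit 418861572917], [nat_lit 418861572913], [nat_lit 418861572909]] [])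
(.leaf [[nat_lit 558499169717, nat_lit 558483695029], [nat_lit 558499157301, nat_lit 558483162421], [nat_lit 558499144885, nat_lit 558482629813], [nat_lit 558482097205], [nat_lit 279292191669, nat_lit 418862105525], [nat_lit 418861572917], [nat_lit 418861572913], [nat_lit 418861572909]] []))))))))
(.node (nat_lit 1155)
(.node (nat_lit 1034)
(.node (nat_lit 972)
(.node (nat_lit 965)
(.node (nat_lit 962)
(.node (nat_lit 960)
(.leaf [[nat_lit 8743372213, nat_lit 7654938037], [nat_lit 8743359797, nat_lit 7654405429], [nat_lit 8743347381, nat_lit 7653872821], [nat_lit 8743334965, nat_lit 7653340213], [nat_lit 6595842997], [nat_lit 4414280501, nat_lit 6545244981], [nat_lit 6544712373], [nat_lit 6544712369], [nat_lit 6544712365]] [[], [], [], [], [], [], [], [], [], [nat_lit 53614283661335]])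
(.node (nat_lit 961)
(.leaf [[nat_lit 8743372213, nat_lit 7654938037], [nat_lit 8743359797, nat_lit 7654405429], [nat_lit 8743347381, nat_lit 7653872821], [nat_lit 8743334965, nat_lit 7653340213], [nat_lit 6595842997], [nat_lit 4414280501, nat_lit 6545244981], [nat_lit 6544712373], [nat_lit 6544712369], [nat_lit 6544712365]] [])
(.leaf [[nat_lit 7669892533, nat_lit 7654938037, nat_lit 6561822133], [nat_lit 7669880117, nat_lit 7654405429, nat_lit 6561809717], [nat_lit 7669867701, nat_lit 7653872821, nat_lit 6561797301], [nat_lit 7669855285, nat_lit 6561784885, nat_lit 7653340213], [nat_lit 6595842997], [nat_lit 4414280501, nat_lit 6545244981], [nat_lit 6544712373], [nat_lit 6544712369], [nat_lit 6544712365]] [])))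
(.node (nat_lit 963)
(.leaf [[nat_lit 7669892533, nat_lit 7654938037, nat_lit 6561822133], [nat_lit 7669880117, nat_lit 7654405429, nat_lit 6561809717], [nat_lit 7669867701, nat_lit 7653872821, nat_lit 6561797301], [nat_lit 7669855285, nat_lit 6561784885, nat_lit 7653340213], [nat_lit 6595842997], [nat_lit 4431315765], [nat_lit 6544712373], [nat_lit 6544712369], [nat_lit 6544712365]] [])
(.node (nat_lit 964)
(.leaf [[nat_lit 7669892533, nat_lit 7654938037, nat_lit 6561822133], [nat_lit 7669880117, nat_lit 7654405429, nat_lit 6561809717], [nat_lit 7669867701, nat_lit 7653872821, nat_lit 6561797301], [nat_lit 7669855285, nat_lit 6561784885, nat_lit 7653340213], [nat_lit 6595842997], [nat_lit 4431315765], [nat_lit 6544712373], [nat_lit 6544712369], [nat_lit 6544712365]] [])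
(.leaf [[nat_lit 76389107125, nat_lit 75300672949, nat_lit 76372592053], [nat_lit 76389094709, nat_lit 75300140341], [nat_lit 76389082293, nat_lit 75299607733], [nat_lit 76389069877, nat_lit 76389327925], [nat_lit 76372022197, nat_lit 75298542517], [nat_lit 143983674165, nat_lit 6545244981], [nat_lit 6544712373], [nat_lit 6544712369], [nat_lit 6544712365]] []))))
(.node (nat_lit 968)
(.node (nat_lit 966)
(.leaf [[nat_lit 145108841909, nat_lit 145110402485, nat_lit 144000771509], [nat_lit 145108829493, nat_lit 145109869877, nat_lit 144000759093], [nat_lit 145108817077, nat_lit 145109337269, nat_lit 144000746677], [nat_lit 145108804661, nat_lit 144000734261], [nat_lit 146165236661], [nat_lit 4431315765], [nat_lit 6544712373], [nat_lit 6544712369], [nat_lit 6544712365]] [])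
(.node (nat_lit 967)
(.leaf [[nat_lit 213828056501, nat_lit 213813102005], [nat_lit 213828044085, nat_lit 213812569397], [nat_lit 213828031669, nat_lit 213812036789], [nat_lit 213828019253, nat_lit 213811504181], [nat_lit 144017757109, nat_lit 212737229749], [nat_lit 143983674165, nat_lit 141836714805], [nat_lit 6544712373], [nat_lit 6544712369]] [])
(.leaf [[nat_lit 282547791285, nat_lit 281458836917, nat_lit 281439720885], [nat_lit 282547778869, nat_lit 281458304309, nat_lit 281439708469], [nat_lit 282547766453, nat_lit 282548024501, nat_lit 281439696053], [nat_lit 282530718773, nat_lit 282547491893, nat_lit 281439683637], [nat_lit 281456706485], [nat_lit 418861572917], [nat_lit 6544712373], [nat_lit 6544712369]] [])))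
(.node (nat_lit 970)
(.node (nat_lit 969)
(.leaf [[nat_lit 351267005877, nat_lit 351268566453], [nat_lit 351266993461, nat_lit 351268033845], [nat_lit 351266981045, nat_lit 351267501237], [nat_lit 351266968629], [nat_lit 281456706485], [nat_lit 418861572917], [nat_lit 418861572913], [nat_lit 418861572909]] [])
(.leaf [[nat_lit 419986740661, nat_lit 419971265973, nat_lit 418878670261], [nat_lit 419986728245, nat_lit 419970733365, nat_lit 418878657845], [nat_lit 419986715829, nat_lit 418878645429, nat_lit 419970200757], [nat_lit 419969668149, nat_lit 418878633013], [nat_lit 281456706485], [nat_lit 418861572917], [nat_lit 418861572913], [nat_lit 418861572909]] []))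
(.node (nat_lit 971)
(.leaf [[nat_lit 488705955253, nat_lit 419971265973], [nat_lit 488705942837, nat_lit 419970733365], [nat_lit 488705930421, nat_lit 488706188469], [nat_lit 488688882741, nat_lit 419969668149], [nat_lit 281456706485], [nat_lit 418861572917], [nat_lit 418861572913], [nat_lit 418861572909]] [])
(.leaf [[nat_lit 558499169717, nat_lit 558483695029], [nat_lit 558499157301, nat_lit 558483162421], [nat_lit 558499144885, nat_lit 558482629813], [nat_lit 558482097205], [nat_lit 281439671221, nat_lit 418862105525], [nat_lit 418861572917], [nat_lit 418861572913], [nat_lit 418861572909]] [])))))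
(.node (nat_lit 1027)
(.node (nat_lit 1024)
(.node (nat_lit 973)
(.leaf [[nat_lit 558499169717, nat_lit 558483695029], [nat_lit 558499157301, nat_lit 558483162421], [nat_lit 558499144885, nat_lit 558482629813], [nat_lit 558482097205], [nat_lit 418862105525, nat_lit 350142108597, nat_lit 350142370741], [nat_lit 418861572917], [nat_lit 418861572913]] [])
(.node (nat_lit 974)
(.leaf [[nat_lit 628292384181, nat_lit 628293424565], [nat_lit 628292371765, nat_lit 628292891957], [nat_lit 558499144885, nat_lit 558482629813], [nat_lit 558482097205], [nat_lit 558482097201], [nat_lit 418861572917], [nat_lit 418861572913]] [])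
(.leaf [[nat_lit 9817372085, nat_lit 9818932661, nat_lit 7635559861], [nat_lit 9817359669, nat_lit 9818400053, nat_lit 7635547445], [nat_lit 9817347253, nat_lit 9817867445, nat_lit 7635535029], [nat_lit 8743334965, nat_lit 7653340213], [nat_lit 6595842997], [nat_lit 6545244981, nat_lit 4397245237], [nat_lit 6544712373], [nat_lit 6544712369], [nat_lit 6544712365]] [])))
(.node (nat_lit 1025)
(.leaf [[nat_lit 9817372085, nat_lit 9818932661, nat_lit 8726336949], [nat_lit 9817359669, nat_lit 9818400053, nat_lit 8726324533], [nat_lit 9817347253, nat_lit 9817867445, nat_lit 8726312117], [nat_lit 8743334965, nat_lit 7653340213], [nat_lit 6595842997], [nat_lit 6545244981, nat_lit 4397245237], [nat_lit 6544712373], [nat_lit 6544712369], [nat_lit 6544712365]] [])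
(.node (nat_lit 1026)
(.leaf [[nat_lit 9818932661, nat_lit 8726336949], [nat_lit 9818400053, nat_lit 8726324533], [nat_lit 9817867445, nat_lit 8726312117], [nat_lit 8743334965, nat_lit 7653340213], [nat_lit 6595842997], [nat_lit 6545244981, nat_lit 4397245237], [nat_lit 6544712373], [nat_lit 6544712369], [nat_lit 6544712365]] [])
(.leaf [[nat_lit 9818932661, nat_lit 8726336949], [nat_lit 9818400053, nat_lit 8726324533], [nat_lit 9817867445, nat_lit 8726312117], [nat_lit 8743334965, nat_lit 7653340213], [nat_lit 6595842997], [nat_lit 74190459701, nat_lit 6545244981], [nat_lit 6544712373], [nat_lit 6544712369], [nat_lit 6544712365]] []))))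
(.node (nat_lit 1030)
(.node (nat_lit 1028)
(.leaf [[nat_lit 8743372213, nat_lit 7654938037, nat_lit 8726857141], [nat_lit 8743359797, nat_lit 7654405429], [nat_lit 8743347381, nat_lit 7653872821], [nat_lit 8743334965, nat_lit 8743593013], [nat_lit 76372022197, nat_lit 7636030389], [nat_lit 143983674165, nat_lit 6545244981], [nat_lit 6544712373], [nat_lit 6544712369], [nat_lit 6544712365]] [])
(.node (nat_lit 1029)
(.leaf [[nat_lit 77463106997, nat_lit 77464667573, nat_lit 76355036597], [nat_lit 77463094581, nat_lit 77464134965, nat_lit 76355024181], [nat_lit 77463082165, nat_lit 77463602357, nat_lit 76355011765], [nat_lit 77463069749, nat_lit 76354999349], [nat_lit 146165236661], [nat_lit 143983674165, nat_lit 6545244981], [nat_lit 6544712373], [nat_lit 6544712369], [nat_lit 6544712365]] [])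
(.leaf [[nat_lit 146182321589, nat_lit 146167367093], [nat_lit 146182309173, nat_lit 146166834485], [nat_lit 146182296757, nat_lit 146166301877], [nat_lit 146182284341, nat_lit 146165769269], [nat_lit 146165236661], [nat_lit 143983674165, nat_lit 6545244981], [nat_lit 6544712373], [nat_lit 6544712369]] [])))
(.node (nat_lit 1032)
(.node (nat_lit 1031)
(.leaf [[nat_lit 214902056373, nat_lit 213813102005, nat_lit 213793985973], [nat_lit 214902043957, nat_lit 213812569397, nat_lit 213793973557], [nat_lit 214902031541, nat_lit 214902289589, nat_lit 213793961141], [nat_lit 214884983861, nat_lit 214901756981, nat_lit 213793948725], [nat_lit 146165236661], [nat_lit 143983674165, nat_lit 6545244981], [nat_lit 6544712373], [nat_lit 6544712369]] [])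
(.leaf [[nat_lit 283621270965, nat_lit 283622831541], [nat_lit 283621258549, nat_lit 283622298933], [nat_lit 283621246133, nat_lit 283621766325], [nat_lit 283621233717], [nat_lit 281456706485], [nat_lit 418861572917], [nat_lit 6544712373], [nat_lit 6544712369]] []))
(.node (nat_lit 1033)
(.leaf [[nat_lit 352341005749, nat_lit 352325531061, nat_lit 351232935349], [nat_lit 352340993333, nat_lit 352324998453, nat_lit 351232922933], [nat_lit 352340980917, nat_lit 351232910517, nat_lit 352324465845], [nat_lit 352323933237, nat_lit 351232898101], [nat_lit 281456706485], [nat_lit 418861572917], [nat_lit 6544712373], [nat_lit 6544712369]] [])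
(.leaf [[nat_lit 421060220341, nat_lit 419971265973], [nat_lit 421060207925, nat_lit 419970733365], [nat_lit 421060195509, nat_lit 421060453557], [nat_lit 419969668149, nat_lit 351232898101], [nat_lit 281456706485], [nat_lit 418861572917], [nat_lit 418861572913], [nat_lit 418861572909]] []))))))
(.node (nat_lit 1095)
(.node (nat_lit 1088)
(.node (nat_lit 1037)
(.node (nat_lit 1035)
(.leaf [[nat_lit 489779955125, nat_lit 489780995509, nat_lit 488671884725], [nat_lit 489779942709, nat_lit 489780462901, nat_lit 488671872309], [nat_lit 489779930293, nat_lit 488671859893], [nat_lit 488688882741, nat_lit 419969668149], [nat_lit 281456706485], [nat_lit 418861572917], [nat_lit 418861572913], [nat_lit 418861572909]] [])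
(.node (nat_lit 1036)
(.leaf [[nat_lit 558499169717, nat_lit 558483695029], [nat_lit 558499157301, nat_lit 558483162421], [nat_lit 558499144885, nat_lit 558482629813], [nat_lit 558482097205], [nat_lit 281456706485], [nat_lit 418861572917], [nat_lit 418861572913]] [])
(.leaf [[nat_lit 628292384181, nat_lit 628293424565], [nat_lit 628292371765, nat_lit 628292891957], [nat_lit 558499144885, nat_lit 558482629813], [nat_lit 558482097205], [nat_lit 281439671221, nat_lit 418862105525], [nat_lit 418861572917], [nat_lit 418861572913]] [])))
(.node (nat_lit 1038)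
(.leaf [[nat_lit 628292384181, nat_lit 628293424565], [nat_lit 628292371765, nat_lit 628292891957], [nat_lit 558499144885, nat_lit 558482629813], [nat_lit 558482097205], [nat_lit 558482097201], [nat_lit 418861572917], [nat_lit 418861572913]] [])
(.node (nat_lit 1039)
(.leaf [[nat_lit 628292384181, nat_lit 628293424565], [nat_lit 628292371765, nat_lit 628292891957], [nat_lit 558499144885, nat_lit 558482629813], [nat_lit 558482097205], [nat_lit 558482097201], [nat_lit 418861572917], [nat_lit 418861572913]] [])
(.leaf [[nat_lit 9817372085, nat_lit 9818932661, nat_lit 8726336949], [nat_lit 9817359669, nat_lit 9818400053, nat_lit 8726324533], [nat_lit 9817347253, nat_lit 9817867445, nat_lit 8726312117], [nat_lit 8726299701, nat_lit 7653340213], [nat_lit 6578807733, nat_lit 7636030389], [nat_lit 6545244981, nat_lit 4397245237], [nat_lit 6544712373], [nat_lit 6544712369], [nat_lit 6544712365]] []))))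
(.node (nat_lit 1091)
(.node (nat_lit 1089)
(.leaf [[nat_lit 9817372085, nat_lit 9818932661, nat_lit 8726336949], [nat_lit 9817359669, nat_lit 9818400053, nat_lit 8726324533], [nat_lit 9817347253, nat_lit 9817867445, nat_lit 8726312117], [nat_lit 9817072693, nat_lit 7653340213, nat_lit 8726299701], [nat_lit 6578807733, nat_lit 6545777589], [nat_lit 6545244981, nat_lit 5470982965, nat_lit 5471245109], [nat_lit 6544712373], [nat_lit 6544712369], [nat_lit 6544712365]] [])
(.node (nat_lit 1090)
(.leaf [[nat_lit 9817372085, nat_lit 9818932661, nat_lit 8726336949], [nat_lit 9817359669, nat_lit 9818400053, nat_lit 8726324533], [nat_lit 9817347253, nat_lit 9817867445, nat_lit 8726312117], [nat_lit 8726299701, nat_lit 7653340213], [nat_lit 6578807733, nat_lit 6545777589], [nat_lit 74190459701, nat_lit 6545244981], [nat_lit 6544712373], [nat_lit 6544712369], [nat_lit 6544712365]] [])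
(.leaf [[nat_lit 9817372085, nat_lit 9818932661, nat_lit 8726336949], [nat_lit 9817359669, nat_lit 9818400053, nat_lit 8726324533], [nat_lit 9817347253, nat_lit 9817867445, nat_lit 8726312117], [nat_lit 8743334965, nat_lit 7653340213], [nat_lit 76372022197, nat_lit 7636030389], [nat_lit 74190459701, nat_lit 6545244981], [nat_lit 6544712373], [nat_lit 6544712369], [nat_lit 6544712365]] [])))
(.node (nat_lit 1093)
(.node (nat_lit 1092)
(.leaf [[nat_lit 9817372085, nat_lit 9818932661, nat_lit 8726336949], [nat_lit 9817359669, nat_lit 9818400053, nat_lit 8726324533], [nat_lit 9817347253, nat_lit 9817867445, nat_lit 8726312117], [nat_lit 8743334965, nat_lit 7653340213], [nat_lit 76372022197, nat_lit 76355507125], [nat_lit 143983674165, nat_lit 6545244981], [nat_lit 6544712373], [nat_lit 6544712369], [nat_lit 6544712365]] [])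
(.leaf [[nat_lit 78536586677, nat_lit 9818932661], [nat_lit 78536574261, nat_lit 9818400053], [nat_lit 78536561845, nat_lit 9817867445], [nat_lit 77463069749, nat_lit 8726299701], [nat_lit 146165236661], [nat_lit 143983674165, nat_lit 6545244981], [nat_lit 6544712373], [nat_lit 6544712369]] []))
(.node (nat_lit 1094)
(.leaf [[nat_lit 147256321461, nat_lit 146167367093, nat_lit 146165286325], [nat_lit 147256309045, nat_lit 146166834485, nat_lit 146165273909], [nat_lit 147256296629, nat_lit 147256554677, nat_lit 146165261493], [nat_lit 146182284341, nat_lit 147256022069], [nat_lit 146165236661], [nat_lit 143983674165, nat_lit 6545244981], [nat_lit 6544712373], [nat_lit 6544712369]] [])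
(.leaf [[nat_lit 215975536053, nat_lit 215977096629], [nat_lit 215975523637, nat_lit 215976564021], [nat_lit 215975511221, nat_lit 215976031413], [nat_lit 147256022069, nat_lit 146165249077, nat_lit 146165769269], [nat_lit 146165236661], [nat_lit 143983674165, nat_lit 6545244981], [nat_lit 6544712373], [nat_lit 6544712369]] [])))))
(.node (nat_lit 1101)
(.node (nat_lit 1098)
(.node (nat_lit 1096)
(.leaf [[nat_lit 284695270837, nat_lit 215977096629, nat_lit 283604235701], [nat_lit 284695258421, nat_lit 215976564021, nat_lit 283604223285], [nat_lit 284695246005, nat_lit 283604210869, nat_lit 215976031413], [nat_lit 283621233717], [nat_lit 146165236661], [nat_lit 418861572917], [nat_lit 6544712373], [nat_lit 6544712369]] [])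
(.node (nat_lit 1097)
(.leaf [[nat_lit 353414485429, nat_lit 352325531061], [nat_lit 353414473013, nat_lit 352324998453], [nat_lit 353414460597, nat_lit 353414718645], [nat_lit 352323933237, nat_lit 283604198453], [nat_lit 146165236661], [nat_lit 418861572917], [nat_lit 6544712373], [nat_lit 6544712369]] [])
(.leaf [[nat_lit 422134220213, nat_lit 422135260597, nat_lit 421043185077], [nat_lit 422134207797, nat_lit 422134727989, nat_lit 421043172661], [nat_lit 422134195381, nat_lit 421043160245], [nat_lit 352323933237, nat_lit 351232898101], [nat_lit 281456706485], [nat_lit 418861572917], [nat_lit 6544712373], [nat_lit 418861572909]] [])))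
(.node (nat_lit 1099)
(.leaf [[nat_lit 490853434805, nat_lit 422135260597], [nat_lit 490853422389, nat_lit 422134727989], [nat_lit 490853409973, nat_lit 422134195381], [nat_lit 558482097205], [nat_lit 281456706485], [nat_lit 418861572917], [nat_lit 418861572913]] [])
(.node (nat_lit 1100)
(.leaf [[nat_lit 559573169589, nat_lit 558483695029, nat_lit 558482134453], [nat_lit 559573157173, nat_lit 559573415221, nat_lit 558482122037], [nat_lit 490853409973, nat_lit 559572882613], [nat_lit 558482097205], [nat_lit 281456706485], [nat_lit 418861572917], [nat_lit 418861572913]] [])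
(.leaf [[nat_lit 628292384181, nat_lit 628293424565], [nat_lit 628292371765, nat_lit 628292891957], [nat_lit 558499144885, nat_lit 558482629813], [nat_lit 558482097205], [nat_lit 281456706485], [nat_lit 418861572917], [nat_lit 418861572913]] []))))
(.node (nat_lit 1104)
(.node (nat_lit 1102)
(.leaf [[nat_lit 628292384181, nat_lit 628293424565], [nat_lit 628292371765, nat_lit 628292891957], [nat_lit 558499144885, nat_lit 558482629813], [nat_lit 558482097205], [nat_lit 558482097201], [nat_lit 418861572917], [nat_lit 418861572913]] [])
(.node (nat_lit 1103)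
(.leaf [[nat_lit 698102633909, nat_lit 698103154101], [nat_lit 698102621493], [nat_lit 558499144885, nat_lit 558482629813], [nat_lit 558482097205], [nat_lit 558482097201], [nat_lit 418861572917], [nat_lit 418861572913]] [])
(.leaf [[nat_lit 698102633909, nat_lit 698103154101], [nat_lit 698102621493], [nat_lit 558499144885, nat_lit 558482629813], [nat_lit 558482097205], [nat_lit 558482097201], [nat_lit 418861572917], [nat_lit 418861572913]] [])))
(.node (nat_lit 1153)
(.node (nat_lit 1152)
(.leaf [[nat_lit 10907887029, nat_lit 9818932661], [nat_lit 10907874613, nat_lit 9818400053], [nat_lit 10907862197, nat_lit 9817867445], [nat_lit 9817072693, nat_lit 7653340213, nat_lit 8726299701], [nat_lit 7652545461, nat_lit 6545777589, nat_lit 6544737205], [nat_lit 6545244981, nat_lit 5470982965, nat_lit 5471245109], [nat_lit 6544712373], [nat_lit 6544712369], [nat_lit 6544712365]] [])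
(.leaf [[nat_lit 10907887029, nat_lit 9818932661], [nat_lit 10907874613, nat_lit 9818400053], [nat_lit 10907862197, nat_lit 9817867445], [nat_lit 8726299701, nat_lit 7653340213], [nat_lit 7652545461, nat_lit 6545777589, nat_lit 6544737205], [nat_lit 6545244981, nat_lit 4380209973], [nat_lit 6544712373], [nat_lit 6544712369], [nat_lit 6544712365]] []))
(.node (nat_lit 1154)
(.leaf [[nat_lit 10907887029, nat_lit 9818932661], [nat_lit 10907874613, nat_lit 9818400053], [nat_lit 10907862197, nat_lit 9817867445], [nat_lit 9817072693, nat_lit 7653340213, nat_lit 8726299701], [nat_lit 76372022197, nat_lit 7636030389], [nat_lit 6545244981, nat_lit 75264197429, nat_lit 5471245109], [nat_lit 6544712373], [nat_lit 6544712369], [nat_lit 6544712365]] [])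
(.leaf [[nat_lit 10907887029, nat_lit 9818932661], [nat_lit 10907874613, nat_lit 9818400053], [nat_lit 10907862197, nat_lit 9817867445], [nat_lit 9817072693, nat_lit 7653340213, nat_lit 8726299701], [nat_lit 76372022197, nat_lit 76355507125], [nat_lit 143983674165, nat_lit 6545244981], [nat_lit 6544712373], [nat_lit 6544712369], [nat_lit 6544712365]] [])))))))
(.node (nat_lit 1227)
(.node (nat_lit 1168)
(.node (nat_lit 1161)
(.node (nat_lit 1158)
(.node (nat_lit 1156)
(.leaf [[nat_lit 10907887029, nat_lit 9818932661], [nat_lit 10907874613, nat_lit 9818400053], [nat_lit 10907862197, nat_lit 9817867445], [nat_lit 77463069749, nat_lit 8726299701], [nat_lit 146165236661], [nat_lit 143983674165, nat_lit 6545244981], [nat_lit 6544712373], [nat_lit 6544712369]] [])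
(.node (nat_lit 1157)
(.leaf [[nat_lit 78536586677, nat_lit 9818932661], [nat_lit 78536574261, nat_lit 9818400053], [nat_lit 78536561845, nat_lit 9817867445], [nat_lit 77463069749, nat_lit 8726299701], [nat_lit 146165236661], [nat_lit 143983674165, nat_lit 6545244981], [nat_lit 6544712373], [nat_lit 6544712369]] [])
(.leaf [[nat_lit 79628662197, nat_lit 146165286325], [nat_lit 79628129589, nat_lit 146165273909], [nat_lit 79627596981, nat_lit 146165261493], [nat_lit 147256022069, nat_lit 146165249077, nat_lit 146165769269], [nat_lit 146165236661], [nat_lit 143983674165, nat_lit 6545244981], [nat_lit 6544712373], [nat_lit 6544712369]] [])))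
(.node (nat_lit 1159)
(.leaf [[nat_lit 215975536053, nat_lit 215977096629], [nat_lit 215975523637, nat_lit 215976564021], [nat_lit 215975511221, nat_lit 215976031413], [nat_lit 147256022069, nat_lit 146165249077, nat_lit 214884983861], [nat_lit 146165236661], [nat_lit 143983674165, nat_lit 6545244981], [nat_lit 6544712373], [nat_lit 6544712369]] [])
(.node (nat_lit 1160)
(.leaf [[nat_lit 284695270837, nat_lit 215977096629, nat_lit 283604235701], [nat_lit 284695258421, nat_lit 215976564021, nat_lit 283604223285], [nat_lit 284695246005, nat_lit 283604210869, nat_lit 215976031413], [nat_lit 283621233717], [nat_lit 146165236661], [nat_lit 418861572917], [nat_lit 6544712373], [nat_lit 6544712369]] [])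
(.leaf [[nat_lit 285786826165, nat_lit 283604235701], [nat_lit 285786293557, nat_lit 283604223285], [nat_lit 285785760949], [nat_lit 352323933237, nat_lit 283604198453], [nat_lit 146165236661], [nat_lit 418861572917], [nat_lit 6544712373], [nat_lit 6544712369]] []))))
(.node (nat_lit 1164)
(.node (nat_lit 1162)
(.leaf [[nat_lit 422134220213, nat_lit 422135260597, nat_lit 421043185077], [nat_lit 422134207797, nat_lit 422134727989, nat_lit 421043172661], [nat_lit 422134195381, nat_lit 421043160245], [nat_lit 352323933237, nat_lit 352323671093], [nat_lit 146165236661], [nat_lit 418861572917], [nat_lit 6544712373]] [])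
(.node (nat_lit 1163)
(.leaf [[nat_lit 490853434805, nat_lit 422135260597], [nat_lit 490853422389, nat_lit 422134727989], [nat_lit 490853409973, nat_lit 422134195381], [nat_lit 558482097205], [nat_lit 281456706485], [nat_lit 418861572917], [nat_lit 418861572913]] [])
(.leaf [[nat_lit 491944990133, nat_lit 558482134453], [nat_lit 491944457525, nat_lit 558482122037], [nat_lit 490853409973, nat_lit 558482629813], [nat_lit 558482097205], [nat_lit 281439671221, nat_lit 418862105525], [nat_lit 418861572917], [nat_lit 418861572913]] [])))
(.node (nat_lit 1166)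
(.node (nat_lit 1165)
(.leaf [[nat_lit 628292384181, nat_lit 628293424565], [nat_lit 628292371765, nat_lit 628292891957], [nat_lit 490853409973, nat_lit 559572882613], [nat_lit 558482097205], [nat_lit 281439671221, nat_lit 418862105525], [nat_lit 418861572917], [nat_lit 418861572913]] [])
(.leaf [[nat_lit 698102633909, nat_lit 698103154101], [nat_lit 698102621493], [nat_lit 559572882613, nat_lit 558482109621, nat_lit 558482629813], [nat_lit 558482097205], [nat_lit 558482097201], [nat_lit 418861572917], [nat_lit 418861572913]] []))
(.node (nat_lit 1167)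
(.leaf [[nat_lit 698102633909, nat_lit 698103154101], [nat_lit 698102621493], [nat_lit 559572882613, nat_lit 558482109621, nat_lit 558482629813], [nat_lit 558482097205], [nat_lit 558482097201], [nat_lit 418861572917], [nat_lit 418861572913]] [])
(.leaf [[nat_lit 698102633909, nat_lit 698103154101], [nat_lit 698102621493], [nat_lit 558499144885, nat_lit 558482629813], [nat_lit 558482097205], [nat_lit 558482097201], [nat_lit 418861572917]] [])))))
(.node (nat_lit 1220)
(.node (nat_lit 1217)
(.node (nat_lit 1169)
(.leaf [[nat_lit 767912883637], [nat_lit 698102621493], [nat_lit 558499144885, nat_lit 558482629813], [nat_lit 558482097205], [nat_lit 558482097201], [nat_lit 418861572917]] [])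
(.node (nat_lit 1216)
(.leaf [[nat_lit 10907887029, nat_lit 9818932661], [nat_lit 10907874613, nat_lit 9818400053], [nat_lit 10907862197, nat_lit 9817867445], [nat_lit 8726299701, nat_lit 7653340213], [nat_lit 8726283189, nat_lit 6544737205, nat_lit 6545777589], [nat_lit 6545244981, nat_lit 4380209973], [nat_lit 6544712373], [nat_lit 6544712369], [nat_lit 6544712365]] [])
(.leaf [[nat_lit 10907887029, nat_lit 9818932661], [nat_lit 10907874613, nat_lit 9818400053], [nat_lit 10907862197, nat_lit 9817867445], [nat_lit 9817072693, nat_lit 7653340213, nat_lit 8726299701], [nat_lit 6561772469, nat_lit 6545777589], [nat_lit 6545244981, nat_lit 75264197429, nat_lit 5471245109], [nat_lit 6544712373], [nat_lit 6544712369], [nat_lit 6544712365]] [])))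
(.node (nat_lit 1218)
(.leaf [[nat_lit 10907887029, nat_lit 9818932661], [nat_lit 10907874613, nat_lit 9818400053], [nat_lit 10907862197, nat_lit 9817867445], [nat_lit 9817072693, nat_lit 7653340213, nat_lit 8726299701], [nat_lit 76354986933, nat_lit 76355507125], [nat_lit 143983674165, nat_lit 6545244981], [nat_lit 6544712373], [nat_lit 6544712369], [nat_lit 6544712365]] [])
(.node (nat_lit 1219)
(.leaf [[nat_lit 10907887029, nat_lit 9818932661], [nat_lit 10907874613, nat_lit 9818400053], [nat_lit 10907862197, nat_lit 9817867445], [nat_lit 9817072693, nat_lit 7653340213, nat_lit 8726299701], [nat_lit 146165236661], [nat_lit 143983674165, nat_lit 6545244981], [nat_lit 6544712373], [nat_lit 6544712369]] [])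
(.leaf [[nat_lit 10907887029, nat_lit 9818932661], [nat_lit 10907874613, nat_lit 9818400053], [nat_lit 10907862197, nat_lit 10908120245], [nat_lit 77463069749, nat_lit 8726299701], [nat_lit 146165236661], [nat_lit 143983674165, nat_lit 6545244981], [nat_lit 6544712373], [nat_lit 6544712369]] []))))
(.node (nat_lit 1223)
(.node (nat_lit 1221)
(.leaf [[nat_lit 79627621813, nat_lit 79628662197, nat_lit 8726336949], [nat_lit 79627609397, nat_lit 79628129589, nat_lit 8726324533], [nat_lit 79627596981, nat_lit 8726312117], [nat_lit 147256022069, nat_lit 77446034485, nat_lit 146165769269], [nat_lit 146165236661], [nat_lit 143983674165, nat_lit 6545244981], [nat_lit 6544712373], [nat_lit 6544712369]] [])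
(.node (nat_lit 1222)
(.leaf [[nat_lit 148346836405, nat_lit 79628662197], [nat_lit 148346823989, nat_lit 79628129589], [nat_lit 148346811573, nat_lit 79627596981], [nat_lit 147256022069, nat_lit 146165249077, nat_lit 146165769269], [nat_lit 146165236661], [nat_lit 143983674165, nat_lit 6545244981], [nat_lit 6544712373], [nat_lit 6544712369]] [])
(.leaf [[nat_lit 217066571189, nat_lit 215977096629, nat_lit 146165286325], [nat_lit 217066558773, nat_lit 217066816821, nat_lit 146165273909], [nat_lit 148346811573, nat_lit 217066284213], [nat_lit 147256022069, nat_lit 214884983861], [nat_lit 146165236661], [nat_lit 143983674165, nat_lit 6545244981], [nat_lit 6544712373], [nat_lit 6544712369]] [])))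
(.node (nat_lit 1225)
(.node (nat_lit 1224)
(.leaf [[nat_lit 285785785781, nat_lit 285786826165], [nat_lit 285785773365, nat_lit 285786293557], [nat_lit 285785760949], [nat_lit 283604198453, nat_lit 146165769269], [nat_lit 146165236661], [nat_lit 418861572917], [nat_lit 6544712373], [nat_lit 6544712369]] [])
(.leaf [[nat_lit 354505520565, nat_lit 285786826165, nat_lit 283604235701], [nat_lit 354505508149, nat_lit 283604223285, nat_lit 285786293557], [nat_lit 285785760949], [nat_lit 352323933237, nat_lit 283604198453], [nat_lit 146165236661], [nat_lit 418861572917], [nat_lit 6544712373]] []))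
(.node (nat_lit 1226)
(.leaf [[nat_lit 423224735157, nat_lit 422135260597], [nat_lit 423224722741, nat_lit 423224980789], [nat_lit 422134195381, nat_lit 421043160245], [nat_lit 352323933237, nat_lit 283604198453], [nat_lit 146165236661], [nat_lit 418861572917], [nat_lit 6544712373]] [])
(.leaf [[nat_lit 491944469941, nat_lit 491944990133, nat_lit 421043185077], [nat_lit 491944457525, nat_lit 421043172661], [nat_lit 490853409973, nat_lit 422134195381], [nat_lit 558482097205], [nat_lit 146165236661], [nat_lit 418861572917], [nat_lit 418861572913]] []))))))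
(.node (nat_lit 1285)
(.node (nat_lit 1233)
(.node (nat_lit 1230)
(.node (nat_lit 1228)
(.leaf [[nat_lit 560663684533, nat_lit 491944990133], [nat_lit 560663672117, nat_lit 491944457525], [nat_lit 490853409973, nat_lit 559572882613], [nat_lit 558482097205], [nat_lit 281439671221, nat_lit 418862105525], [nat_lit 418861572917], [nat_lit 418861572913]] [])
(.node (nat_lit 1229)
(.leaf [[nat_lit 629383419317, nat_lit 629383677365, nat_lit 558482134453], [nat_lit 560663672117, nat_lit 629383144757], [nat_lit 490853409973, nat_lit 559572882613], [nat_lit 558482097205], [nat_lit 558482097201], [nat_lit 418861572917], [nat_lit 418861572913]] [])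
(.leaf [[nat_lit 698102633909, nat_lit 698103154101], [nat_lit 698102621493], [nat_lit 490853409973, nat_lit 558482629813], [nat_lit 558482097205], [nat_lit 558482097201], [nat_lit 418861572917], [nat_lit 418861572913]] [])))
(.node (nat_lit 1231)
(.leaf [[nat_lit 698102633909, nat_lit 698103154101], [nat_lit 698102621493], [nat_lit 559572882613, nat_lit 558482109621, nat_lit 558482629813], [nat_lit 558482097205], [nat_lit 558482097201], [nat_lit 418861572917]] [])
(.node (nat_lit 1232)
(.leaf [[nat_lit 767912883637], [nat_lit 698102621493], [nat_lit 559572882613, nat_lit 558482109621, nat_lit 558482629813], [nat_lit 558482097205], [nat_lit 558482097201], [nat_lit 418861572917]] [])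
(.leaf [[nat_lit 767912883637], [nat_lit 698102621493], [nat_lit 559572882613, nat_lit 558482109621, nat_lit 558482629813], [nat_lit 558482097205], [nat_lit 558482097201], [nat_lit 418861572917]] []))))
(.node (nat_lit 1281)
(.node (nat_lit 1234)
(.leaf [[nat_lit 767912883637], [nat_lit 698102621493], [nat_lit 558482109621, nat_lit 558482629813], [nat_lit 558482097205], [nat_lit 558482097201], [nat_lit 418861572917]] [])
(.node (nat_lit 1280)
(.leaf [[nat_lit 11998922165, nat_lit 9818932661, nat_lit 8726336949], [nat_lit 11998909749, nat_lit 8726324533, nat_lit 10908652853], [nat_lit 10907862197, nat_lit 10908120245], [nat_lit 9817072693, nat_lit 8726299701, nat_lit 6546310197], [nat_lit 8726283189, nat_lit 6544737205, nat_lit 6545777589], [nat_lit 6545244981, nat_lit 6544737201], [nat_lit 6544712373], [nat_lit 6544712369], [nat_lit 6544712365]] [])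
(.leaf [[nat_lit 11998922165, nat_lit 9818932661, nat_lit 8726336949], [nat_lit 11998909749, nat_lit 8726324533, nat_lit 9818400053], [nat_lit 10907862197, nat_lit 9817867445], [nat_lit 9817072693, nat_lit 8726299701, nat_lit 6546310197], [nat_lit 76354986933, nat_lit 76355507125], [nat_lit 76354986929, nat_lit 6545244981], [nat_lit 6544712373], [nat_lit 6544712369], [nat_lit 6544712365]] [])))
(.node (nat_lit 1283)
(.node (nat_lit 1282)
(.leaf [[nat_lit 11998922165, nat_lit 9818932661, nat_lit 8726336949], [nat_lit 11998909749, nat_lit 8726324533, nat_lit 10908652853], [nat_lit 10907862197, nat_lit 9817867445], [nat_lit 9817072693, nat_lit 8726299701, nat_lit 8726815797, nat_lit 8726819893], [nat_lit 76354986933, nat_lit 76355507125], [nat_lit 143983674165, nat_lit 6545244981], [nat_lit 6544712373], [nat_lit 6544712369]] [])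
(.leaf [[nat_lit 11998922165, nat_lit 9818932661, nat_lit 8726336949], [nat_lit 11998909749, nat_lit 8726324533, nat_lit 10908652853], [nat_lit 10907862197, nat_lit 10908120245], [nat_lit 9817072693, nat_lit 76356039733, nat_lit 8726299701], [nat_lit 146165236661], [nat_lit 143983674165, nat_lit 6545244981], [nat_lit 6544712373], [nat_lit 6544712369]] []))
(.node (nat_lit 1284)
(.leaf [[nat_lit 11998922165, nat_lit 9818932661, nat_lit 9817109941], [nat_lit 11998909749, nat_lit 9817097525, nat_lit 9818400053], [nat_lit 79627596981, nat_lit 9817085109], [nat_lit 9817072693, nat_lit 146165769269, nat_lit 8726299701], [nat_lit 146165236661], [nat_lit 143983674165, nat_lit 6545244981], [nat_lit 6544712373], [nat_lit 6544712369]] [])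
(.leaf [[nat_lit 79627621813, nat_lit 79628662197, nat_lit 78536586677], [nat_lit 79627609397, nat_lit 79628129589, nat_lit 78536574261], [nat_lit 79627596981, nat_lit 78536561845], [nat_lit 147256022069, nat_lit 8726299701, nat_lit 8726819893], [nat_lit 146165236661], [nat_lit 143983674165, nat_lit 6545244981], [nat_lit 6544712373], [nat_lit 6544712369]] [])))))
(.node (nat_lit 1292)
(.node (nat_lit 1288)
(.node (nat_lit 1286)
(.leaf [[nat_lit 148346836405, nat_lit 79628662197], [nat_lit 148346823989, nat_lit 79628129589], [nat_lit 148346811573, nat_lit 79627596981], [nat_lit 147256022069, nat_lit 146165249077, nat_lit 146165769269], [nat_lit 146165236661], [nat_lit 143983674165, nat_lit 6545244981], [nat_lit 6544712373], [nat_lit 6544712369]] [])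
(.node (nat_lit 1287)
(.leaf [[nat_lit 149438391733, nat_lit 215975536053], [nat_lit 149437859125, nat_lit 215975523637], [nat_lit 148346811573, nat_lit 79627596981], [nat_lit 147256022069, nat_lit 146165249077, nat_lit 146165769269], [nat_lit 146165236661], [nat_lit 418861572917], [nat_lit 6544712373], [nat_lit 6544712369]] [])
(.leaf [[nat_lit 285785785781, nat_lit 285786826165], [nat_lit 285785773365, nat_lit 285786293557], [nat_lit 285785760949], [nat_lit 352323933237, nat_lit 283604198453], [nat_lit 146165236661], [nat_lit 418861572917], [nat_lit 6544712373]] [])))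
(.node (nat_lit 1290)
(.node (nat_lit 1289)
(.leaf [[nat_lit 354505520565, nat_lit 285786826165, nat_lit 353414485429], [nat_lit 354505508149, nat_lit 353414473013, nat_lit 285786293557], [nat_lit 285785760949], [nat_lit 352323933237, nat_lit 283604198453], [nat_lit 146165236661], [nat_lit 418861572917], [nat_lit 6544712373]] [])
(.leaf [[nat_lit 355596555701, nat_lit 353414485429], [nat_lit 355596023093], [nat_lit 285785760949], [nat_lit 352323933237, nat_lit 352323671093], [nat_lit 146165236661], [nat_lit 418861572917], [nat_lit 6544712373]] []))
(.node (nat_lit 1291)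
(.leaf [[nat_lit 491944469941, nat_lit 491944990133, nat_lit 490853434805], [nat_lit 491944457525, nat_lit 490853422389], [nat_lit 490853409973, nat_lit 422134195381], [nat_lit 558482097205], [nat_lit 146165236661], [nat_lit 418861572917], [nat_lit 6544712373]] [])
(.leaf [[nat_lit 560663684533, nat_lit 491944990133], [nat_lit 560663672117, nat_lit 491944457525], [nat_lit 490853409973, nat_lit 559572882613], [nat_lit 558482097205], [nat_lit 146165236661], [nat_lit 418861572917], [nat_lit 418861572913]] []))))
(.node (nat_lit 1295)
(.node (nat_lit 1293)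
(.leaf [[nat_lit 561754719669, nat_lit 628292384181], [nat_lit 560663672117, nat_lit 491944457525], [nat_lit 490853409973, nat_lit 558482629813], [nat_lit 558482097205], [nat_lit 558482097201], [nat_lit 418861572917], [nat_lit 418861572913]] [])
(.node (nat_lit 1294)
(.leaf [[nat_lit 698102633909, nat_lit 698103154101], [nat_lit 698102621493], [nat_lit 490853409973, nat_lit 559572882613], [nat_lit 558482097205], [nat_lit 558482097201], [nat_lit 418861572917]] [])
(.leaf [[nat_lit 767912883637], [nat_lit 698102621493], [nat_lit 490853409973, nat_lit 559572882613], [nat_lit 558482097205], [nat_lit 558482097201], [nat_lit 418861572917]] [])))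
(.node (nat_lit 1297)
(.node (nat_lit 1296)
(.leaf [[nat_lit 767912883637], [nat_lit 698102621493], [nat_lit 559572882613, nat_lit 558482109621, nat_lit 558482629813], [nat_lit 558482097205], [nat_lit 558482097201], [nat_lit 418861572917]] [])
(.leaf [[nat_lit 767912883637], [nat_lit 698102621493], [nat_lit 559572882613, nat_lit 558482109621, nat_lit 558482629813], [nat_lit 558482097205], [nat_lit 558482097201], [nat_lit 418861572917]] []))
(.node (nat_lit 1298)
(.leaf [[nat_lit 767912883637], [nat_lit 698102621493], [nat_lit 559572882613, nat_lit 558482109621, nat_lit 558482629813], [nat_lit 558482097205], [], [nat_lit 418861572917]] [])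
(.leaf [[nat_lit 767912883637], [nat_lit 698102621493], [nat_lit 558482629813], [nat_lit 558482097205], [], [nat_lit 418861572917]] [])))))))))

noncomputable def ct22 : Tc :=
(.node (nat_lit 969)
(.node (nat_lit 705)
(.node (nat_lit 454)
(.node (nat_lit 323)
(.node (nat_lit 256)
(.node (nat_lit 129)
(.node (nat_lit 64)
(.leaf [[nat_lit 153404358, nat_lit 153924550], [nat_lit 136356678, nat_lit 103326534], [nat_lit 102261322, nat_lit 51155530], [nat_lit 102261318], [nat_lit 82], [nat_lit 78], [nat_lit 74], [nat_lit 70], [nat_lit 66], [nat_lit 62], [nat_lit 58]] [])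
(.node (nat_lit 128)
(.leaf [[nat_lit 1227404230, nat_lit 1124918090, nat_lit 1210889158], [nat_lit 1193321286, nat_lit 1160291142, nat_lit 1124905674], [nat_lit 1159238342, nat_lit 1160291138, nat_lit 1107870406], [nat_lit 1159238338, nat_lit 1160291134, nat_lit 1124905666], [nat_lit 1176011454, nat_lit 1126208190, nat_lit 1142203070, nat_lit 1142981310], [nat_lit 136356661, nat_lit 103326517], [nat_lit 102793909, nat_lit 136356657], [nat_lit 102261301], [nat_lit 102261297], [nat_lit 102261293]] [[], [], [], [], [nat_lit 1260949776037], [nat_lit 846450828707], [], [], [nat_lit 837724545693], [nat_lit 837724512412, nat_lit 837724512539, nat_lit 837724512667], [nat_lit 837724479512, nat_lit 837724479513, nat_lit 837724479641]])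
(.leaf [[nat_lit 69946618822, nat_lit 69913588678], [nat_lit 69929571142, nat_lit 69846213446], [nat_lit 69912535874, nat_lit 69812925250], [nat_lit 69929571134, nat_lit 69896278846], [nat_lit 153404341, nat_lit 153924533], [nat_lit 136356661, nat_lit 103326517], [nat_lit 136356657, nat_lit 102793909], [nat_lit 102261301], [nat_lit 102261297], [nat_lit 102261293], [nat_lit 102261289]] [[], [], [], [], [], [], [], [], [], [], [nat_lit 837724479513]])))
(.node (nat_lit 193)
(.node (nat_lit 192)
(.leaf [[nat_lit 2300883910, nat_lit 2267853766], [nat_lit 2267321158, nat_lit 2181612234], [nat_lit 2249753286, nat_lit 2216723142], [nat_lit 2249753282, nat_lit 2216723138], [nat_lit 2249753278, nat_lit 153924533], [nat_lit 136356661, nat_lit 103326517], [nat_lit 136356657, nat_lit 102793909], [nat_lit 102261301], [nat_lit 102261297], [nat_lit 102261293]] [[], [], [], [], [], [], [], [], [], [nat_lit 837724512539], [nat_lit 837724479512, nat_lit 837724479513]])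
(.leaf [[nat_lit 71020618694, nat_lit 70918132554], [nat_lit 70986535750, nat_lit 70918132550, nat_lit 70953243462], [nat_lit 70986535746, nat_lit 70918132546, nat_lit 70953243458], [nat_lit 170452021, nat_lit 154457141], [nat_lit 153404341, nat_lit 153924533], [nat_lit 136356661, nat_lit 103326517], [nat_lit 136356657, nat_lit 102793909], [nat_lit 102261301], [nat_lit 102261297], [nat_lit 102261293], [nat_lit 102261289]] []))
(.node (nat_lit 194)
(.leaf [[nat_lit 139722785610], [nat_lit 139722785606], [nat_lit 139705750338, nat_lit 139672720194], [nat_lit 170452021, nat_lit 154457141], [nat_lit 153404341, nat_lit 153924533], [nat_lit 136356661, nat_lit 103326517], [nat_lit 136356657, nat_lit 102793909], [nat_lit 102261301], [nat_lit 102261297], [nat_lit 102261293]] [[], [], [], [], [], [], [], [], [], [], [nat_lit 837724479512]])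
(.leaf [[nat_lit 3374883782, nat_lit 3272397642, nat_lit 3272659786], [nat_lit 3340800838, nat_lit 3272397638, nat_lit 3324285766], [nat_lit 3324285762, nat_lit 3272397634, nat_lit 3272659778], [nat_lit 154457141, nat_lit 119346229], [nat_lit 153404341, nat_lit 153924533], [nat_lit 136356661, nat_lit 103326517], [nat_lit 102793909, nat_lit 1176011445, nat_lit 1159238325], [nat_lit 102261301], [nat_lit 102261297], [nat_lit 102261293]] [[], [], [], [], [], [], [], [], [], [], [nat_lit 837724479512]]))))
(.node (nat_lit 259)
(.node (nat_lit 257)
(.leaf [[nat_lit 72094098374, nat_lit 72077583302], [nat_lit 72042980166, nat_lit 72026985286], [nat_lit 170464437, nat_lit 154989749], [nat_lit 170452021, nat_lit 154457141], [nat_lit 153404341, nat_lit 153924533], [nat_lit 136356661, nat_lit 103326517], [nat_lit 136356657, nat_lit 102793909], [nat_lit 102261301], [nat_lit 102261297], [nat_lit 102261293]] [[], [], [], [], [], [], [], [], [], [], [nat_lit 837724479512]])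
(.node (nat_lit 258)
(.leaf [[nat_lit 140796797894, nat_lit 140745417546, nat_lit 140780282822], [nat_lit 140762714950, nat_lit 155522357, nat_lit 140728382278], [nat_lit 170464437, nat_lit 154989749], [nat_lit 170452021, nat_lit 154457141], [nat_lit 153404341, nat_lit 153924533], [nat_lit 136356661, nat_lit 103326517], [nat_lit 136356657, nat_lit 102793909], [nat_lit 102261301], [nat_lit 102261297], [nat_lit 102261293]] [])
(.leaf [[nat_lit 209516012486, nat_lit 209482982342], [nat_lit 209481929542, nat_lit 155522357], [nat_lit 170464437, nat_lit 154989749], [nat_lit 170452021, nat_lit 154457141], [nat_lit 153404341, nat_lit 153924533], [nat_lit 136356661, nat_lit 103326517], [nat_lit 136356657, nat_lit 102793909], [nat_lit 102261301], [nat_lit 102261297], [nat_lit 102261293]] [])))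
(.node (nat_lit 321)
(.node (nat_lit 320)
(.leaf [[nat_lit 4431315786, nat_lit 4380209994], [nat_lit 4431315782], [nat_lit 4363682502, nat_lit 4363174722, nat_lit 154989749], [nat_lit 4363682498, nat_lit 119346229, nat_lit 154457141], [nat_lit 153404341, nat_lit 153924533], [nat_lit 136356661, nat_lit 103326517], [nat_lit 2249753269, nat_lit 102793909], [nat_lit 102261301], [nat_lit 102261297], [nat_lit 102261293]] [[], [], [], [], [], [], [], [], [], [], [nat_lit 837724479512]])
(.leaf [[nat_lit 73151062982, nat_lit 73099682634, nat_lit 73134547910], [nat_lit 73116980038, nat_lit 155522357, nat_lit 73082647366], [nat_lit 170464437, nat_lit 154989749], [nat_lit 170452021, nat_lit 154457141], [nat_lit 153404341, nat_lit 153924533], [nat_lit 136356661, nat_lit 103326517], [nat_lit 2249753269, nat_lit 102793909], [nat_lit 102261301], [nat_lit 102261297], [nat_lit 102261293]] []))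
(.node (nat_lit 322)
(.leaf [[nat_lit 141836714826, nat_lit 119383477, nat_lit 141802644298], [nat_lit 141836714822, nat_lit 119371061], [nat_lit 170464437, nat_lit 154989749], [nat_lit 170452021, nat_lit 154457141], [nat_lit 153404341, nat_lit 153924533], [nat_lit 136356661, nat_lit 103326517], [nat_lit 2249753269, nat_lit 102793909], [nat_lit 102261301], [nat_lit 102261297], [nat_lit 102261293]] [])
(.leaf [[nat_lit 170489269, nat_lit 156054965], [nat_lit 170476853, nat_lit 155522357], [nat_lit 170464437, nat_lit 154989749], [nat_lit 170452021, nat_lit 154457141], [nat_lit 153404341, nat_lit 153924533], [nat_lit 136356661, nat_lit 103326517], [nat_lit 102793909, nat_lit 1176011445, nat_lit 1159238325], [nat_lit 102261301], [nat_lit 102261297], [nat_lit 102261293]] [])))))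
(.node (nat_lit 389)
(.node (nat_lit 385)
(.node (nat_lit 324)
(.leaf [[nat_lit 279241073482, nat_lit 279242646470], [nat_lit 279275144006, nat_lit 279242113862], [nat_lit 170464437, nat_lit 154989749], [nat_lit 170452021, nat_lit 154457141], [nat_lit 153404341, nat_lit 153924533], [nat_lit 136356661, nat_lit 103326517], [nat_lit 136356657, nat_lit 102793909], [nat_lit 102261301], [nat_lit 102261297], [nat_lit 102261293]] [])
(.node (nat_lit 384)
(.leaf [[nat_lit 5505328070, nat_lit 5470982986, nat_lit 5488812998], [nat_lit 5471245126, nat_lit 5470982982, nat_lit 5471503174, nat_lit 5454730054], [nat_lit 5471245122, nat_lit 154989749, nat_lit 119358645], [nat_lit 170972213, nat_lit 119346229, nat_lit 154457141], [nat_lit 153404341, nat_lit 153924533], [nat_lit 136356661, nat_lit 103326517], [nat_lit 2249753269, nat_lit 102793909], [nat_lit 102261301], [nat_lit 102261297], [nat_lit 102261293]] [])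
(.leaf [[nat_lit 74224542662, nat_lit 74191512518], [nat_lit 74190459718, nat_lit 155522357], [nat_lit 170464437, nat_lit 154989749], [nat_lit 170452021, nat_lit 154457141], [nat_lit 153404341, nat_lit 153924533], [nat_lit 136356661, nat_lit 103326517], [nat_lit 2249753269, nat_lit 102793909], [nat_lit 102261301], [nat_lit 102261297], [nat_lit 102261293]] [])))
(.node (nat_lit 387)
(.node (nat_lit 386)
(.leaf [[nat_lit 170489269, nat_lit 156054965], [nat_lit 170476853, nat_lit 155522357], [nat_lit 170464437, nat_lit 154989749], [nat_lit 170452021, nat_lit 154457141], [nat_lit 153404341, nat_lit 153924533], [nat_lit 136356661, nat_lit 103326517], [nat_lit 2249753269, nat_lit 102793909], [nat_lit 102261301], [nat_lit 102261297], [nat_lit 102261293]] [])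
(.leaf [[nat_lit 170489269, nat_lit 156054965, nat_lit 171009461], [nat_lit 170476853, nat_lit 155522357], [nat_lit 170464437, nat_lit 154989749], [nat_lit 170452021, nat_lit 154457141], [nat_lit 153404341, nat_lit 153924533], [nat_lit 136356661, nat_lit 103326517], [nat_lit 2249753269, nat_lit 102793909], [nat_lit 102261301], [nat_lit 102261297], [nat_lit 102261293]] []))
(.node (nat_lit 388)
(.leaf [[nat_lit 170489269, nat_lit 156054965, nat_lit 171009461], [nat_lit 170476853, nat_lit 155522357], [nat_lit 170464437, nat_lit 154989749], [nat_lit 170452021, nat_lit 154457141], [nat_lit 153404341, nat_lit 153924533], [nat_lit 136356661, nat_lit 103326517], [nat_lit 102793909, nat_lit 1176011445, nat_lit 1159238325], [nat_lit 102261301], [nat_lit 102261297], [nat_lit 102261293]] [])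
(.leaf [[nat_lit 170489269, nat_lit 172570037, nat_lit 156054965], [nat_lit 170476853, nat_lit 155522357], [nat_lit 170464437, nat_lit 154989749], [nat_lit 170452021, nat_lit 154457141], [nat_lit 153404341, nat_lit 153924533], [nat_lit 136356661, nat_lit 103326517], [nat_lit 136356657, nat_lit 102793909], [nat_lit 102261301], [nat_lit 102261297], [nat_lit 102261293]] []))))
(.node (nat_lit 450)
(.node (nat_lit 448)
(.leaf [[nat_lit 6595843014], [nat_lit 6544712394, nat_lit 6545244998], [nat_lit 6544712390], [nat_lit 6544712386], [nat_lit 153404341, nat_lit 153924533], [nat_lit 136356661, nat_lit 103326517], [nat_lit 2249753269, nat_lit 102793909], [nat_lit 102261301], [nat_lit 102261297], [nat_lit 102261293]] [])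
(.node (nat_lit 449)
(.leaf [[nat_lit 75281507270, nat_lit 156054965, nat_lit 136418741], [nat_lit 170476853, nat_lit 155522357], [nat_lit 170464437, nat_lit 154989749], [nat_lit 170452021, nat_lit 154457141], [nat_lit 153404341, nat_lit 153924533], [nat_lit 136356661, nat_lit 103326517], [nat_lit 2249753269, nat_lit 102793909], [nat_lit 102261301], [nat_lit 102261297], [nat_lit 102261293]] [])
(.leaf [[nat_lit 170489269, nat_lit 156054965, nat_lit 171009461], [nat_lit 170476853, nat_lit 155522357], [nat_lit 170464437, nat_lit 154989749], [nat_lit 170452021, nat_lit 154457141], [nat_lit 153404341, nat_lit 153924533], [nat_lit 136356661, nat_lit 103326517], [nat_lit 2249753269, nat_lit 102793909], [nat_lit 102261301], [nat_lit 102261297], [nat_lit 102261293]] [])))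
(.node (nat_lit 452)
(.node (nat_lit 451)
(.leaf [[nat_lit 170489269, nat_lit 156054965, nat_lit 171009461], [nat_lit 170476853, nat_lit 155522357], [nat_lit 170464437, nat_lit 154989749], [nat_lit 170452021, nat_lit 154457141], [nat_lit 153404341, nat_lit 153924533], [nat_lit 136356661, nat_lit 103326517], [nat_lit 2249753269, nat_lit 102793909], [nat_lit 102261301], [nat_lit 102261297], [nat_lit 102261293]] [])
(.leaf [[nat_lit 170489269, nat_lit 172570037, nat_lit 156054965], [nat_lit 170476853, nat_lit 155522357], [nat_lit 170464437, nat_lit 154989749], [nat_lit 170452021, nat_lit 154457141], [nat_lit 153404341, nat_lit 153924533], [nat_lit 136356661, nat_lit 103326517], [nat_lit 2249753269, nat_lit 102793909], [nat_lit 102261301], [nat_lit 102261297], [nat_lit 102261293]] []))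
(.node (nat_lit 453)
(.leaf [[nat_lit 170489269, nat_lit 172570037, nat_lit 156054965], [nat_lit 170476853, nat_lit 155522357], [nat_lit 170464437, nat_lit 154989749], [nat_lit 170452021, nat_lit 154457141], [nat_lit 153404341, nat_lit 153924533], [nat_lit 69929571125, nat_lit 119837493], [nat_lit 1176011445, nat_lit 102793909, nat_lit 1159238325], [nat_lit 102261301], [nat_lit 102261297]] [])
(.leaf [[nat_lit 418861572938], [nat_lit 69963691317, nat_lit 69965251893], [nat_lit 69963678901, nat_lit 69964719285], [nat_lit 69963666485, nat_lit 69964186677], [nat_lit 69946618805, nat_lit 153924533], [nat_lit 139722785589], [nat_lit 69929571121, nat_lit 102793909], [nat_lit 102261301], [nat_lit 102261297]] []))))))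
(.node (nat_lit 581)
(.node (nat_lit 518)
(.node (nat_lit 514)
(.node (nat_lit 512)
(.leaf [[nat_lit 7652545478, nat_lit 7635784770, nat_lit 156054965], [nat_lit 7635510210, nat_lit 155522357, nat_lit 136406325], [nat_lit 1244464309, nat_lit 154989749, nat_lit 119358645], [nat_lit 1244451893, nat_lit 154457141, nat_lit 119346229], [nat_lit 1227404213, nat_lit 119333813, nat_lit 153924533], [nat_lit 136356661, nat_lit 2267321141], [nat_lit 2249753269, nat_lit 102793909], [nat_lit 102261301], [nat_lit 102261297], [nat_lit 102261293]] [])
(.node (nat_lit 513)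
(.leaf [[nat_lit 76354986950, nat_lit 76355507142], [nat_lit 1244476725, nat_lit 155522357, nat_lit 136406325], [nat_lit 1244464309, nat_lit 154989749, nat_lit 136393909], [nat_lit 1244451893, nat_lit 154457141, nat_lit 136381493], [nat_lit 1227404213, nat_lit 136369077, nat_lit 153924533], [nat_lit 136356661, nat_lit 2267321141], [nat_lit 2249753269, nat_lit 102793909], [nat_lit 102261301], [nat_lit 102261297], [nat_lit 102261293]] [])
(.leaf [[nat_lit 170489269, nat_lit 156054965, nat_lit 171009461], [nat_lit 170476853, nat_lit 155522357], [nat_lit 170464437, nat_lit 154989749], [nat_lit 170452021, nat_lit 154457141], [nat_lit 153404341, nat_lit 153924533], [nat_lit 136356661, nat_lit 1193579317], [nat_lit 2249753269, nat_lit 102793909], [nat_lit 102261301], [nat_lit 102261297], [nat_lit 102261293]] [])))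
(.node (nat_lit 516)
(.node (nat_lit 515)
(.leaf [[nat_lit 170489269, nat_lit 172570037, nat_lit 156054965], [nat_lit 170476853, nat_lit 155522357], [nat_lit 170464437, nat_lit 154989749], [nat_lit 170452021, nat_lit 154457141], [nat_lit 153404341, nat_lit 153924533], [nat_lit 136356661, nat_lit 2267321141], [nat_lit 2249753269, nat_lit 102793909], [nat_lit 102261301], [nat_lit 102261297], [nat_lit 102261293]] [])
(.leaf [[nat_lit 170489269, nat_lit 172570037, nat_lit 156054965], [nat_lit 170476853, nat_lit 155522357], [nat_lit 170464437, nat_lit 154989749], [nat_lit 170452021, nat_lit 154457141], [nat_lit 153404341, nat_lit 153924533], [nat_lit 69929571125, nat_lit 1193579317], [nat_lit 2249753269, nat_lit 102793909], [nat_lit 102261301], [nat_lit 102261297]] []))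
(.node (nat_lit 517)
(.leaf [[nat_lit 69963703733, nat_lit 69965784501], [nat_lit 69963691317, nat_lit 69965251893], [nat_lit 69963678901, nat_lit 69964719285], [nat_lit 69963666485, nat_lit 69964186677], [nat_lit 69946618805, nat_lit 153924533], [nat_lit 139722785589], [nat_lit 2249753269, nat_lit 102793909], [nat_lit 102261301], [nat_lit 102261297]] [])
(.leaf [[nat_lit 69963703733, nat_lit 69965784501], [nat_lit 69963691317, nat_lit 69965251893], [nat_lit 69963678901, nat_lit 69964719285], [nat_lit 69963666485, nat_lit 69964186677], [nat_lit 69946618805, nat_lit 153924533], [nat_lit 139722785589], [nat_lit 1176011445, nat_lit 102793909, nat_lit 1159238325], [nat_lit 102261301], [nat_lit 102261297]] []))))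
(.node (nat_lit 577)
(.node (nat_lit 519)
(.leaf [[nat_lit 139756918197, nat_lit 69965784501], [nat_lit 139756905781, nat_lit 69965251893], [nat_lit 139756893365, nat_lit 69964719285], [nat_lit 139756880949, nat_lit 69964186677], [nat_lit 69946618805, nat_lit 139723318197], [nat_lit 139722785589], [nat_lit 139722785585], [nat_lit 102261301], [nat_lit 102261297]] [])
(.node (nat_lit 576)
(.leaf [[nat_lit 8726283206, nat_lit 1246049717, nat_lit 2283898293, nat_lit 2320049589], [nat_lit 2317956405, nat_lit 2319516981], [nat_lit 2317943989, nat_lit 2318984373], [nat_lit 2317931573, nat_lit 2318451765], [nat_lit 2317919157], [nat_lit 136356661, nat_lit 2267321141], [nat_lit 2249753269, nat_lit 102793909], [nat_lit 102261301], [nat_lit 102261297], [nat_lit 102261293]] [])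
(.leaf [[nat_lit 2317968821, nat_lit 2320049589], [nat_lit 2317956405, nat_lit 2319516981], [nat_lit 2317943989, nat_lit 2318984373], [nat_lit 2317931573, nat_lit 2318451765], [nat_lit 2317919157], [nat_lit 136356661, nat_lit 2267321141], [nat_lit 2249753269, nat_lit 102793909], [nat_lit 102261301], [nat_lit 102261297], [nat_lit 102261293]] [])))
(.node (nat_lit 579)
(.node (nat_lit 578)
(.leaf [[nat_lit 2320049589, nat_lit 2300933557], [nat_lit 2319516981, nat_lit 136406325], [nat_lit 2318984373, nat_lit 136393909], [nat_lit 2318451765, nat_lit 136381493], [nat_lit 2317919157], [nat_lit 136356661, nat_lit 2267321141], [nat_lit 2249753269, nat_lit 102793909], [nat_lit 102261301], [nat_lit 102261297], [nat_lit 102261293]] [])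
(.leaf [[nat_lit 2320049589, nat_lit 2300933557], [nat_lit 2319516981, nat_lit 136406325], [nat_lit 2318984373, nat_lit 136393909], [nat_lit 2318451765, nat_lit 136381493], [nat_lit 2317919157], [nat_lit 136356661, nat_lit 2267321141], [nat_lit 2249753269, nat_lit 102793909], [nat_lit 102261301], [nat_lit 102261297]] []))
(.node (nat_lit 580)
(.leaf [[nat_lit 1244489141, nat_lit 156054965, nat_lit 136418741, nat_lit 1227974069], [nat_lit 1244476725, nat_lit 155522357, nat_lit 136406325], [nat_lit 1244464309, nat_lit 154989749, nat_lit 136393909], [nat_lit 1244451893, nat_lit 1244709941, nat_lit 136381493], [nat_lit 1227404213, nat_lit 1244177333, nat_lit 136369077], [nat_lit 69929571125, nat_lit 2267321141], [nat_lit 2249753269, nat_lit 102793909], [nat_lit 102261301], [nat_lit 102261297]] [])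
(.leaf [[nat_lit 69963703733, nat_lit 69965784501], [nat_lit 69963691317, nat_lit 69965251893], [nat_lit 69963678901, nat_lit 69964719285], [nat_lit 69963666485, nat_lit 69964186677], [nat_lit 71020618677, nat_lit 69929583541], [nat_lit 139722785589], [nat_lit 2249753269, nat_lit 102793909], [nat_lit 102261301], [nat_lit 102261297]] [])))))
(.node (nat_lit 643)
(.node (nat_lit 584)
(.node (nat_lit 582)
(.leaf [[nat_lit 139756918197, nat_lit 69965784501], [nat_lit 139756905781, nat_lit 69965251893], [nat_lit 139756893365, nat_lit 69964719285], [nat_lit 139756880949, nat_lit 69964186677], [nat_lit 69946618805, nat_lit 139723318197], [nat_lit 139722785589], [nat_lit 2249753269, nat_lit 102793909], [nat_lit 102261301], [nat_lit 102261297]] [])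
(.node (nat_lit 583)
(.leaf [[nat_lit 139756918197, nat_lit 69965784501], [nat_lit 139756905781, nat_lit 69965251893], [nat_lit 139756893365, nat_lit 69964719285], [nat_lit 139756880949, nat_lit 139757138997], [nat_lit 69946618805, nat_lit 69946876853], [nat_lit 139722785589], [nat_lit 139722785585], [nat_lit 102261301], [nat_lit 102261297]] [])
(.leaf [[nat_lit 209550132661, nat_lit 209535178165], [nat_lit 209550120245, nat_lit 209534645557], [nat_lit 209550107829, nat_lit 209534112949], [nat_lit 209550095413, nat_lit 209533580341], [nat_lit 209516012469, nat_lit 139723318197], [nat_lit 139722785589], [nat_lit 139722785585], [nat_lit 102261301], [nat_lit 102261297]] [])))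
(.node (nat_lit 641)
(.node (nat_lit 640)
(.leaf [[nat_lit 3391968693, nat_lit 2320049589, nat_lit 2266863029], [nat_lit 3391956277, nat_lit 2319516981, nat_lit 2266850613], [nat_lit 3391943861, nat_lit 2318984373, nat_lit 2266838197], [nat_lit 3391931445, nat_lit 2266825781, nat_lit 2318451765], [nat_lit 2317919157], [nat_lit 4431315765], [nat_lit 2249753269, nat_lit 102793909], [nat_lit 102261301], [nat_lit 102261297], [nat_lit 102261293]] [])
(.leaf [[nat_lit 3391968693, nat_lit 2320049589, nat_lit 2283898293], [nat_lit 3391956277, nat_lit 2319516981, nat_lit 2283885877], [nat_lit 3391943861, nat_lit 2318984373, nat_lit 2283873461], [nat_lit 3391931445, nat_lit 2283861045, nat_lit 2318451765], [nat_lit 2317919157], [nat_lit 4431315765], [nat_lit 2249753269, nat_lit 102793909], [nat_lit 102261301], [nat_lit 102261297], [nat_lit 102261293]] []))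
(.node (nat_lit 642)
(.leaf [[nat_lit 2317968821, nat_lit 2320049589], [nat_lit 2317956405, nat_lit 2319516981], [nat_lit 2317943989, nat_lit 2318984373], [nat_lit 2317931573, nat_lit 2318451765], [nat_lit 2317919157], [nat_lit 4431315765], [nat_lit 2249753269, nat_lit 102793909], [nat_lit 102261301], [nat_lit 102261297]] [])
(.leaf [[nat_lit 2317968821, nat_lit 2320049589], [nat_lit 2317956405, nat_lit 2319516981], [nat_lit 2317943989, nat_lit 2318984373], [nat_lit 2317931573, nat_lit 2318451765], [nat_lit 2317919157], [nat_lit 4431315765], [nat_lit 2249753269, nat_lit 102793909], [nat_lit 102261301], [nat_lit 102261297]] []))))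
(.node (nat_lit 647)
(.node (nat_lit 645)
(.node (nat_lit 644)
(.leaf [[nat_lit 2317968821, nat_lit 2320049589], [nat_lit 2317956405, nat_lit 2319516981], [nat_lit 2317943989, nat_lit 2318984373], [nat_lit 2317931573, nat_lit 2318451765], [nat_lit 2317919157], [nat_lit 69929571125, nat_lit 2267321141], [nat_lit 2249753269, nat_lit 102793909], [nat_lit 102261301], [nat_lit 102261297]] [])
(.leaf [[nat_lit 71037703605, nat_lit 71022749109, nat_lit 69929633205], [nat_lit 71037691189, nat_lit 71022216501, nat_lit 69929620789], [nat_lit 71037678773, nat_lit 71021683893, nat_lit 69929608373], [nat_lit 71037666357, nat_lit 69929595957, nat_lit 71021151285], [nat_lit 71020618677, nat_lit 69929583541], [nat_lit 139722785589], [nat_lit 2249753269, nat_lit 102793909], [nat_lit 102261301], [nat_lit 102261297]] []))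
(.node (nat_lit 646)
(.leaf [[nat_lit 139756918197, nat_lit 71022749109, nat_lit 139740403125], [nat_lit 139756905781, nat_lit 71022216501], [nat_lit 139756893365, nat_lit 71021683893], [nat_lit 139756880949, nat_lit 139757138997], [nat_lit 71020618677, nat_lit 139722798005], [nat_lit 139722785589], [nat_lit 2249753269, nat_lit 102793909], [nat_lit 102261301], [nat_lit 102261297]] [])
(.leaf [[nat_lit 209550132661, nat_lit 209535178165], [nat_lit 209550120245, nat_lit 209534645557], [nat_lit 209550107829, nat_lit 209534112949], [nat_lit 209550095413, nat_lit 209533580341], [nat_lit 209516012469, nat_lit 139723318197], [nat_lit 139722785589], [nat_lit 2249753269, nat_lit 102793909], [nat_lit 102261301], [nat_lit 102261297]] [])))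
(.node (nat_lit 649)
(.node (nat_lit 648)
(.leaf [[nat_lit 209550132661, nat_lit 209535178165], [nat_lit 209550120245, nat_lit 209534645557], [nat_lit 209550107829, nat_lit 209534112949], [nat_lit 209550095413, nat_lit 209533580341], [nat_lit 209516012469, nat_lit 139723318197], [nat_lit 139722785589], [nat_lit 139722785585], [nat_lit 102261301]] [])
(.leaf [[nat_lit 279343347125, nat_lit 279344907701], [nat_lit 279343334709, nat_lit 279344375093], [nat_lit 279343322293, nat_lit 279343842485], [nat_lit 279343309877], [nat_lit 209516012469, nat_lit 209516270517], [nat_lit 139722785589], [nat_lit 139722785585], [nat_lit 102261301]] []))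
(.node (nat_lit 704)
(.leaf [[nat_lit 4466488757, nat_lit 4414342581, nat_lit 3377014197], [nat_lit 4465435957, nat_lit 3376481589], [nat_lit 4465423541, nat_lit 3375948981], [nat_lit 4465411125, nat_lit 3375416373], [nat_lit 4448363445, nat_lit 3374883765], [nat_lit 4431315765], [nat_lit 6544712373], [nat_lit 102261301], [nat_lit 102261297]] [[], [], [], [], [], [], [], [], [], [nat_lit 837724512280]])
(.leaf [[nat_lit 4465448373, nat_lit 3377014197], [nat_lit 4465435957, nat_lit 3376481589], [nat_lit 4465423541, nat_lit 3375948981], [nat_lit 4465411125, nat_lit 3375416373], [nat_lit 4448363445, nat_lit 3374883765], [nat_lit 4431315765], [nat_lit 6544712373], [nat_lit 102261301], [nat_lit 102261297]] [])))))))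
(.node (nat_lit 839)
(.node (nat_lit 772)
(.node (nat_lit 712)
(.node (nat_lit 708)
(.node (nat_lit 706)
(.leaf [[nat_lit 3391968693, nat_lit 3377014197, nat_lit 2283898293], [nat_lit 3391956277, nat_lit 3376481589, nat_lit 2283885877], [nat_lit 3391943861, nat_lit 3375948981, nat_lit 2283873461], [nat_lit 3391931445, nat_lit 2283861045, nat_lit 3375416373], [nat_lit 4448363445, nat_lit 3374883765], [nat_lit 4431315765], [nat_lit 6544712373], [nat_lit 102261301], [nat_lit 102261297]] [])
(.node (nat_lit 707)
(.leaf [[nat_lit 3391968693, nat_lit 3377014197, nat_lit 2283898293], [nat_lit 3391956277, nat_lit 3376481589, nat_lit 2283885877], [nat_lit 3391943861, nat_lit 3375948981, nat_lit 2283873461], [nat_lit 3391931445, nat_lit 2283861045, nat_lit 3375416373], [nat_lit 4448363445, nat_lit 3374883765], [nat_lit 4431315765], [nat_lit 6544712373], [nat_lit 102261301], [nat_lit 102261297]] [])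
(.leaf [[nat_lit 3391968693, nat_lit 3377014197, nat_lit 2283898293], [nat_lit 3391956277, nat_lit 3376481589, nat_lit 2283885877], [nat_lit 3391943861, nat_lit 3375948981, nat_lit 2283873461], [nat_lit 3391931445, nat_lit 2283861045, nat_lit 3375416373], [nat_lit 3374883765, nat_lit 2283848629], [nat_lit 4431315765], [nat_lit 2249753269, nat_lit 102793909], [nat_lit 102261301], [nat_lit 102261297]] [])))
(.node (nat_lit 710)
(.node (nat_lit 709)
(.leaf [[nat_lit 72111183285, nat_lit 71022749109, nat_lit 72094668213], [nat_lit 72111170869, nat_lit 71022216501], [nat_lit 72111158453, nat_lit 71021683893], [nat_lit 72111146037, nat_lit 72111404085], [nat_lit 72094098357, nat_lit 71020618677], [nat_lit 139722785589], [nat_lit 2249753269, nat_lit 102793909], [nat_lit 102261301], [nat_lit 102261297]] [])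
(.leaf [[nat_lit 140830918069, nat_lit 140832478645, nat_lit 139722847669], [nat_lit 140830905653, nat_lit 140831946037, nat_lit 139722835253], [nat_lit 140830893237, nat_lit 140831413429, nat_lit 139722822837], [nat_lit 140830880821, nat_lit 139722810421], [nat_lit 141887312821], [nat_lit 139722785589], [nat_lit 2249753269, nat_lit 102793909], [nat_lit 102261301], [nat_lit 102261297]] []))
(.node (nat_lit 711)
(.leaf [[nat_lit 209550132661, nat_lit 209535178165], [nat_lit 209550120245, nat_lit 209534645557], [nat_lit 209550107829, nat_lit 209534112949], [nat_lit 209550095413, nat_lit 209533580341], [nat_lit 210590012341, nat_lit 209516012469], [nat_lit 139722785589], [nat_lit 2249753269, nat_lit 102793909], [nat_lit 102261301]] [])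
(.leaf [[nat_lit 279343347125, nat_lit 279344907701], [nat_lit 279343334709, nat_lit 279344375093], [nat_lit 279343322293, nat_lit 279343842485], [nat_lit 279343309877], [nat_lit 210590012341, nat_lit 209516012469], [nat_lit 139722785589], [nat_lit 139722785585], [nat_lit 102261301]] []))))
(.node (nat_lit 768)
(.node (nat_lit 713)
(.leaf [[nat_lit 279343347125, nat_lit 279344907701], [nat_lit 279343334709, nat_lit 279344375093], [nat_lit 279343322293, nat_lit 279343842485], [nat_lit 279343309877], [nat_lit 209516012469, nat_lit 279292711861], [nat_lit 139722785589], [nat_lit 418861572913], [nat_lit 102261301]] [])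
(.node (nat_lit 714)
(.leaf [[nat_lit 349136561589, nat_lit 279344907701], [nat_lit 349136549173, nat_lit 279344375093], [nat_lit 349136536757, nat_lit 279343842485], [nat_lit 279343309877], [nat_lit 209516012469, nat_lit 279292711861], [nat_lit 139722785589], [nat_lit 418861572913], [nat_lit 102261301]] [])
(.leaf [[nat_lit 5539968437, nat_lit 5541008821, nat_lit 4414342581], [nat_lit 5539435829, nat_lit 5540476213, nat_lit 4414330165], [nat_lit 5539423413, nat_lit 5539943605, nat_lit 4414317749], [nat_lit 5539410997, nat_lit 4414305333], [nat_lit 4448363445, nat_lit 4431848373], [nat_lit 4431315765], [nat_lit 6544712373], [nat_lit 102261301], [nat_lit 102261297]] [])))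
(.node (nat_lit 770)
(.node (nat_lit 769)
(.leaf [[nat_lit 5539448245, nat_lit 5541008821, nat_lit 4431377845], [nat_lit 5539435829, nat_lit 5540476213, nat_lit 4431365429], [nat_lit 5539423413, nat_lit 5539943605, nat_lit 4431353013], [nat_lit 5539410997, nat_lit 4431340597], [nat_lit 4448363445, nat_lit 3374883765], [nat_lit 4431315765], [nat_lit 6544712373], [nat_lit 102261301], [nat_lit 102261297]] [])
(.leaf [[nat_lit 5541008821, nat_lit 4448413109], [nat_lit 5540476213, nat_lit 4431365429], [nat_lit 5539943605, nat_lit 4431353013], [nat_lit 5539410997, nat_lit 4431340597], [nat_lit 4448363445, nat_lit 3374883765], [nat_lit 4431315765], [nat_lit 6544712373], [nat_lit 102261301], [nat_lit 102261297]] []))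
(.node (nat_lit 771)
(.leaf [[nat_lit 5541008821, nat_lit 4448413109], [nat_lit 5540476213, nat_lit 4431365429], [nat_lit 5539943605, nat_lit 4431353013], [nat_lit 5539410997, nat_lit 4431340597], [nat_lit 4448363445, nat_lit 3374883765], [nat_lit 4431315765], [nat_lit 6544712373], [nat_lit 102261301], [nat_lit 102261297]] [])
(.leaf [[nat_lit 4465448373, nat_lit 3377014197, nat_lit 4448933301], [nat_lit 4465435957, nat_lit 3376481589], [nat_lit 4465423541, nat_lit 3375948981], [nat_lit 4465411125, nat_lit 4465669173], [nat_lit 4448363445, nat_lit 3374883765], [nat_lit 4431315765], [nat_lit 6544712373], [nat_lit 102261301], [nat_lit 102261297]] [])))))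
(.node (nat_lit 779)
(.node (nat_lit 775)
(.node (nat_lit 773)
(.leaf [[nat_lit 73185183157, nat_lit 73186743733, nat_lit 72077112757], [nat_lit 73185170741, nat_lit 73186211125, nat_lit 72077100341], [nat_lit 73185158325, nat_lit 73185678517, nat_lit 72077087925], [nat_lit 73185145909, nat_lit 72077075509], [nat_lit 4448363445, nat_lit 3374883765], [nat_lit 4431315765], [nat_lit 6544712373], [nat_lit 102261301], [nat_lit 102261297]] [])
(.node (nat_lit 774)
(.leaf [[nat_lit 141904397749, nat_lit 141889443253], [nat_lit 141904385333, nat_lit 141888910645], [nat_lit 141904372917, nat_lit 141888378037], [nat_lit 141904360501, nat_lit 141887845429], [nat_lit 141887312821], [nat_lit 139722785589], [nat_lit 4397228725, nat_lit 2249753269, nat_lit 102793909], [nat_lit 102261301]] [])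
(.leaf [[nat_lit 210624132533, nat_lit 209535178165, nat_lit 209516062133], [nat_lit 210624120117, nat_lit 209534645557, nat_lit 209516049717], [nat_lit 210624107701, nat_lit 210624365749, nat_lit 209516037301], [nat_lit 210607060021, nat_lit 210623833141, nat_lit 209516024885], [nat_lit 141887312821], [nat_lit 139722785589], [nat_lit 4397228725, nat_lit 2249753269, nat_lit 102793909], [nat_lit 102261301]] [])))
(.node (nat_lit 777)
(.node (nat_lit 776)
(.leaf [[nat_lit 279343347125, nat_lit 279344907701], [nat_lit 279343334709, nat_lit 279344375093], [nat_lit 279343322293, nat_lit 279343842485], [nat_lit 279343309877], [nat_lit 210590012341, nat_lit 209516012469], [nat_lit 139722785589], [nat_lit 139722785585], [nat_lit 102261301]] [])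
(.leaf [[nat_lit 349136561589, nat_lit 279344907701], [nat_lit 349136549173, nat_lit 279344375093], [nat_lit 349136536757, nat_lit 279343842485], [nat_lit 279343309877], [nat_lit 210590012341, nat_lit 279292191669], [nat_lit 139722785589], [nat_lit 418861572913], [nat_lit 102261301]] []))
(.node (nat_lit 778)
(.leaf [[nat_lit 349136561589, nat_lit 279344907701], [nat_lit 349136549173, nat_lit 279344375093], [nat_lit 349136536757, nat_lit 349136794805], [nat_lit 279343309877], [nat_lit 209516012469, nat_lit 279292711861], [nat_lit 418861572917], [nat_lit 418861572913], [nat_lit 102261301]] [])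
(.leaf [[nat_lit 418929776053, nat_lit 418914301365], [nat_lit 418929763637, nat_lit 418913768757], [nat_lit 418929751221, nat_lit 418913236149], [nat_lit 418912703541], [nat_lit 209516012469, nat_lit 279292711861], [nat_lit 418861572917], [nat_lit 418861572913], [nat_lit 102261301]] []))))
(.node (nat_lit 835)
(.node (nat_lit 833)
(.node (nat_lit 832)
(.leaf [[nat_lit 6612927925, nat_lit 5541008821], [nat_lit 6612915509, nat_lit 5540476213], [nat_lit 6612903093, nat_lit 5539943605], [nat_lit 6612890677, nat_lit 5539410997], [nat_lit 6595842997], [nat_lit 4431315765], [nat_lit 6544712373], [nat_lit 102261301], [nat_lit 102261297]] [])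
(.leaf [[nat_lit 6612927925, nat_lit 5541008821], [nat_lit 6612915509, nat_lit 5540476213], [nat_lit 6612903093, nat_lit 5539943605], [nat_lit 6612890677, nat_lit 5539410997], [nat_lit 6595842997], [nat_lit 4431315765], [nat_lit 6544712373], [nat_lit 102261301], [nat_lit 102261297]] []))
(.node (nat_lit 834)
(.leaf [[nat_lit 5539448245, nat_lit 5541008821, nat_lit 4431377845], [nat_lit 5539435829, nat_lit 5540476213, nat_lit 4431365429], [nat_lit 5539423413, nat_lit 5539943605, nat_lit 4431353013], [nat_lit 5539410997, nat_lit 4431340597], [nat_lit 6595842997], [nat_lit 4431315765], [nat_lit 6544712373], [nat_lit 102261301], [nat_lit 102261297]] [])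
(.leaf [[nat_lit 5539448245, nat_lit 5541008821, nat_lit 4431377845], [nat_lit 5539435829, nat_lit 5540476213, nat_lit 4431365429], [nat_lit 5539423413, nat_lit 5539943605, nat_lit 4431353013], [nat_lit 5539410997, nat_lit 4431340597], [nat_lit 6595842997], [nat_lit 4431315765], [nat_lit 6544712373], [nat_lit 102261301], [nat_lit 102261297]] [])))
(.node (nat_lit 837)
(.node (nat_lit 836)
(.leaf [[nat_lit 5539448245, nat_lit 5541008821, nat_lit 4431377845], [nat_lit 5539435829, nat_lit 5540476213, nat_lit 4431365429], [nat_lit 5539423413, nat_lit 5539943605, nat_lit 4431353013], [nat_lit 5539410997, nat_lit 4431340597], [nat_lit 6595842997], [nat_lit 4431315765], [nat_lit 6544712373], [nat_lit 102261301], [nat_lit 102261297]] [])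
(.leaf [[nat_lit 74258662837, nat_lit 74243708341], [nat_lit 74258650421, nat_lit 74243175733], [nat_lit 74258638005, nat_lit 74242643125], [nat_lit 74258625589, nat_lit 74242110517], [nat_lit 4448363445, nat_lit 73167836085], [nat_lit 4431315765], [nat_lit 6544712373], [nat_lit 102261301]] []))
(.node (nat_lit 838)
(.leaf [[nat_lit 142978397621, nat_lit 141889443253, nat_lit 141870327221], [nat_lit 142978385205, nat_lit 141888910645, nat_lit 141870314805], [nat_lit 142978372789, nat_lit 142978630837, nat_lit 141870302389], [nat_lit 142961325109, nat_lit 142978098229, nat_lit 141870289973], [nat_lit 141887312821], [nat_lit 4431315765], [nat_lit 6544712373], [nat_lit 102261301]] [])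
(.leaf [[nat_lit 211697612213, nat_lit 211699172789], [nat_lit 211697599797, nat_lit 211698640181], [nat_lit 211697587381, nat_lit 211698107573], [nat_lit 211697574965], [nat_lit 141887312821], [nat_lit 139722785589], [nat_lit 4397228725, nat_lit 2249753269, nat_lit 102793909], [nat_lit 102261301]] []))))))
(.node (nat_lit 904)
(.node (nat_lit 897)
(.node (nat_lit 842)
(.node (nat_lit 840)
(.leaf [[nat_lit 280417346997, nat_lit 280401872309, nat_lit 279309276597], [nat_lit 280417334581, nat_lit 280401339701, nat_lit 279309264181], [nat_lit 280417322165, nat_lit 279309251765, nat_lit 280400807093], [nat_lit 280400274485, nat_lit 279309239349], [nat_lit 281456706485], [nat_lit 139722785589], [nat_lit 418861572913], [nat_lit 102261301]] [])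
(.node (nat_lit 841)
(.leaf [[nat_lit 349136561589, nat_lit 280401872309], [nat_lit 349136549173, nat_lit 280401339701], [nat_lit 349136536757, nat_lit 349136794805], [nat_lit 349119489077, nat_lit 280400274485], [nat_lit 281456706485], [nat_lit 418861572917], [nat_lit 418861572913], [nat_lit 102261301]] [])
(.leaf [[nat_lit 418929776053, nat_lit 418914301365], [nat_lit 418929763637, nat_lit 418913768757], [nat_lit 418929751221, nat_lit 418913236149], [nat_lit 418912703541], [nat_lit 281456706485], [nat_lit 418861572917], [nat_lit 418861572913], [nat_lit 102261301]] [])))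
(.node (nat_lit 844)
(.node (nat_lit 843)
(.leaf [[nat_lit 418929776053, nat_lit 418914301365], [nat_lit 418929763637, nat_lit 418913768757], [nat_lit 418929751221, nat_lit 418913236149], [nat_lit 418912703541], [nat_lit 280382964661, nat_lit 279292191669, nat_lit 418862105525], [nat_lit 418861572917], [nat_lit 418861572913]] [])
(.leaf [[nat_lit 488722990517, nat_lit 488724030901], [nat_lit 488722978101, nat_lit 488723498293], [nat_lit 488722965685], [nat_lit 418912703541], [nat_lit 279292191669, nat_lit 418862105525], [nat_lit 418861572917], [nat_lit 418861572913]] []))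
(.node (nat_lit 896)
(.leaf [[nat_lit 7686927797, nat_lit 6597973429, nat_lit 6561822133], [nat_lit 7686915381, nat_lit 6597440821, nat_lit 6561809717], [nat_lit 7686902965, nat_lit 6596908213, nat_lit 6561797301], [nat_lit 6612890677, nat_lit 6596375605], [nat_lit 6595842997], [nat_lit 4431315765], [nat_lit 6544712373], [nat_lit 6544712369], [nat_lit 6544712365]] [])
(.leaf [[nat_lit 7686927797, nat_lit 6597973429, nat_lit 6578857397], [nat_lit 7686915381, nat_lit 6597440821, nat_lit 6578844981], [nat_lit 7686902965, nat_lit 6596908213, nat_lit 6578832565], [nat_lit 6612890677, nat_lit 6596375605], [nat_lit 6595842997], [nat_lit 4431315765], [nat_lit 6544712373], [nat_lit 6544712369], [nat_lit 6544712365]] []))))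
(.node (nat_lit 900)
(.node (nat_lit 898)
(.leaf [[nat_lit 6612927925, nat_lit 6597973429], [nat_lit 6612915509, nat_lit 6597440821], [nat_lit 6612903093, nat_lit 6596908213], [nat_lit 6612890677, nat_lit 6596375605], [nat_lit 6595842997], [nat_lit 4431315765], [nat_lit 6544712373], [nat_lit 102261301], [nat_lit 6544712365]] [])
(.node (nat_lit 899)
(.leaf [[nat_lit 6612927925, nat_lit 6597973429], [nat_lit 6612915509, nat_lit 6597440821], [nat_lit 6612903093, nat_lit 6596908213], [nat_lit 6612890677, nat_lit 6596375605], [nat_lit 6595842997], [nat_lit 4431315765], [nat_lit 6544712373], [nat_lit 102261301], [nat_lit 6544712365]] [])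
(.leaf [[nat_lit 6612927925, nat_lit 6597973429], [nat_lit 6612915509, nat_lit 6597440821], [nat_lit 6612903093, nat_lit 6596908213], [nat_lit 6612890677, nat_lit 6596375605], [nat_lit 6595842997], [nat_lit 4431315765], [nat_lit 6544712373], [nat_lit 102261301]] [])))
(.node (nat_lit 902)
(.node (nat_lit 901)
(.leaf [[nat_lit 75332662709, nat_lit 74243708341, nat_lit 74224592309], [nat_lit 75332650293, nat_lit 74243175733, nat_lit 74224579893], [nat_lit 75332637877, nat_lit 75332895925, nat_lit 74224567477], [nat_lit 75315590197, nat_lit 75332363317, nat_lit 74224555061], [nat_lit 6595842997], [nat_lit 4431315765], [nat_lit 6544712373], [nat_lit 102261301]] [])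
(.leaf [[nat_lit 144051877301, nat_lit 144053437877], [nat_lit 144051864885, nat_lit 144052905269], [nat_lit 144051852469, nat_lit 144052372661], [nat_lit 144051840053], [nat_lit 144017757109, nat_lit 142944277429], [nat_lit 4431315765], [nat_lit 6544712373], [nat_lit 102261301]] []))
(.node (nat_lit 903)
(.leaf [[nat_lit 212771612085, nat_lit 212756137397, nat_lit 211663541685], [nat_lit 212771599669, nat_lit 212755604789, nat_lit 211663529269], [nat_lit 212771587253, nat_lit 211663516853, nat_lit 212755072181], [nat_lit 212754539573, nat_lit 211663504437], [nat_lit 281456706485], [nat_lit 4431315765], [nat_lit 6544712373], [nat_lit 102261301]] [])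
(.leaf [[nat_lit 281490826677, nat_lit 280401872309], [nat_lit 281490814261, nat_lit 280401339701], [nat_lit 281490801845, nat_lit 281491059893], [nat_lit 281473754165, nat_lit 280400274485], [nat_lit 281456706485], [nat_lit 418861572917], [nat_lit 418861572913], [nat_lit 102261301]] [])))))
(.node (nat_lit 961)
(.node (nat_lit 907)
(.node (nat_lit 905)
(.leaf [[nat_lit 350210561461, nat_lit 350211601845, nat_lit 349102491061], [nat_lit 350210549045, nat_lit 350211069237, nat_lit 349102478645], [nat_lit 350210536629, nat_lit 349102466229], [nat_lit 351266968629], [nat_lit 281456706485], [nat_lit 418861572917], [nat_lit 418861572913], [nat_lit 102261301]] [])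
(.node (nat_lit 906)
(.leaf [[nat_lit 418929776053, nat_lit 418914301365], [nat_lit 418929763637, nat_lit 418913768757], [nat_lit 418929751221, nat_lit 418913236149], [nat_lit 418912703541], [nat_lit 281456706485], [nat_lit 418861572917], [nat_lit 418861572913]] [])
(.leaf [[nat_lit 488722990517, nat_lit 488724030901], [nat_lit 488722978101, nat_lit 488723498293], [nat_lit 488722965685], [nat_lit 418912703541], [nat_lit 281456706485], [nat_lit 418861572917], [nat_lit 418861572913]] [])))
(.node (nat_lit 909)
(.node (nat_lit 908)
(.leaf [[nat_lit 488722990517, nat_lit 488724030901], [nat_lit 488722978101, nat_lit 488723498293], [nat_lit 488722965685], [nat_lit 418912703541], [nat_lit 280382964661, nat_lit 279292191669, nat_lit 418862105525], [nat_lit 418861572917], [nat_lit 418861572913]] [])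
(.leaf [[nat_lit 558516204981, nat_lit 488724030901], [nat_lit 558516192565, nat_lit 488723498293], [nat_lit 488722965685], [nat_lit 558482097205], [nat_lit 279292191669, nat_lit 418862105525], [nat_lit 418861572917], [nat_lit 418861572913]] []))
(.node (nat_lit 960)
(.leaf [[nat_lit 8760407477, nat_lit 8761968053], [nat_lit 8760395061, nat_lit 8761435445], [nat_lit 8760382645, nat_lit 8760902837], [nat_lit 8760370229], [nat_lit 6595842997], [nat_lit 4431315765], [nat_lit 6544712373], [nat_lit 6544712369], [nat_lit 6544712365]] [])
(.leaf [[nat_lit 8760407477, nat_lit 8761968053], [nat_lit 8760395061, nat_lit 8761435445], [nat_lit 8760382645, nat_lit 8760902837], [nat_lit 8760370229], [nat_lit 6595842997], [nat_lit 4431315765], [nat_lit 6544712373], [nat_lit 6544712369], [nat_lit 6544712365]] []))))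
(.node (nat_lit 965)
(.node (nat_lit 963)
(.node (nat_lit 962)
(.leaf [[nat_lit 8761968053, nat_lit 6578857397], [nat_lit 8761435445, nat_lit 6578844981], [nat_lit 8760902837, nat_lit 6578832565], [nat_lit 8760370229], [nat_lit 6595842997], [nat_lit 4431315765], [nat_lit 6544712373], [nat_lit 6544712369], [nat_lit 6544712365]] [])
(.leaf [[nat_lit 8761968053, nat_lit 6578857397], [nat_lit 8761435445, nat_lit 6578844981], [nat_lit 8760902837, nat_lit 6578832565], [nat_lit 8760370229], [nat_lit 6595842997], [nat_lit 4431315765], [nat_lit 6544712373], [nat_lit 6544712369]] []))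
(.node (nat_lit 964)
(.leaf [[nat_lit 7686927797, nat_lit 6597973429, nat_lit 6578857397], [nat_lit 7686915381, nat_lit 6597440821, nat_lit 6578844981], [nat_lit 7686902965, nat_lit 7687161013, nat_lit 6578832565], [nat_lit 7669855285, nat_lit 7686628405, nat_lit 6578820149], [nat_lit 6595842997], [nat_lit 4431315765], [nat_lit 6544712373], [nat_lit 6544712369]] [])
(.leaf [[nat_lit 76406142389, nat_lit 76407702965], [nat_lit 76406129973, nat_lit 76407170357], [nat_lit 76406117557, nat_lit 76406637749], [nat_lit 76406105141], [nat_lit 6595842997], [nat_lit 4431315765], [nat_lit 6544712373], [nat_lit 6544712369]] [])))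
(.node (nat_lit 967)
(.node (nat_lit 966)
(.leaf [[nat_lit 145125877173, nat_lit 145110402485, nat_lit 144017806773], [nat_lit 145125864757, nat_lit 145109869877, nat_lit 144017794357], [nat_lit 145125852341, nat_lit 144017781941, nat_lit 145109337269], [nat_lit 145108804661, nat_lit 144017769525], [nat_lit 146165236661], [nat_lit 4431315765], [nat_lit 6544712373], [nat_lit 6544712369]] [])
(.leaf [[nat_lit 213845091765, nat_lit 212756137397], [nat_lit 213845079349, nat_lit 212755604789], [nat_lit 213845066933, nat_lit 213845324981], [nat_lit 213828019253, nat_lit 212754539573], [nat_lit 281456706485], [nat_lit 4431315765], [nat_lit 6544712373], [nat_lit 6544712369]] []))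
(.node (nat_lit 968)
(.leaf [[nat_lit 282564826549, nat_lit 282565866933, nat_lit 281456756149], [nat_lit 282564814133, nat_lit 282565334325, nat_lit 281456743733], [nat_lit 282564801717, nat_lit 281456731317], [nat_lit 283621233717], [nat_lit 281456706485], [nat_lit 418861572917], [nat_lit 6544712373], [nat_lit 6544712369]] [])
(.leaf [[nat_lit 351284041141, nat_lit 351268566453], [nat_lit 351284028725, nat_lit 351268033845], [nat_lit 351284016309, nat_lit 351267501237], [nat_lit 351266968629], [nat_lit 281456706485], [nat_lit 418861572917], [nat_lit 418861572913]] []))))))))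
(.node (nat_lit 1217)
(.node (nat_lit 1095)
(.node (nat_lit 1032)
(.node (nat_lit 1025)
(.node (nat_lit 972)
(.node (nat_lit 970)
(.leaf [[nat_lit 420003775925, nat_lit 418914301365, nat_lit 418895705525], [nat_lit 420003763509, nat_lit 420004021557, nat_lit 418895693109], [nat_lit 419986715829, nat_lit 420003488949, nat_lit 418895680693], [nat_lit 351266968629], [nat_lit 281456706485], [nat_lit 418861572917], [nat_lit 418861572913]] [])
(.node (nat_lit 971)
(.leaf [[nat_lit 488722990517, nat_lit 488724030901], [nat_lit 488722978101, nat_lit 488723498293], [nat_lit 488722965685], [nat_lit 418912703541], [nat_lit 281456706485], [nat_lit 418861572917], [nat_lit 418861572913]] [])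
(.leaf [[nat_lit 558516204981, nat_lit 488724030901], [nat_lit 558516192565, nat_lit 488723498293], [nat_lit 488722965685], [nat_lit 558482097205], [nat_lit 281456706485], [nat_lit 418861572917], [nat_lit 418861572913]] [])))
(.node (nat_lit 974)
(.node (nat_lit 973)
(.leaf [[nat_lit 558516204981, nat_lit 488724030901], [nat_lit 558516192565, nat_lit 558516450613], [nat_lit 488722965685], [nat_lit 558482097205], [nat_lit 558482097201], [nat_lit 418861572917], [nat_lit 418861572913]] [])
(.leaf [[nat_lit 628309419445, nat_lit 628293424565], [nat_lit 628309407029, nat_lit 628292891957], [nat_lit 558499144885, nat_lit 558482629813], [nat_lit 558482097205], [nat_lit 558482097201], [nat_lit 418861572917], [nat_lit 418861572913]] []))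
(.node (nat_lit 1024)
(.leaf [[nat_lit 9834407349, nat_lit 8761968053, nat_lit 8726336949], [nat_lit 9834394933, nat_lit 8761435445, nat_lit 8726324533], [nat_lit 9834382517, nat_lit 8726312117, nat_lit 8760902837], [nat_lit 8760370229], [nat_lit 6595842997], [nat_lit 4431315765], [nat_lit 6544712373], [nat_lit 6544712369], [nat_lit 6544712365]] [])
(.leaf [[nat_lit 9834407349, nat_lit 8761968053, nat_lit 8726336949], [nat_lit 9834394933, nat_lit 8761435445, nat_lit 8726324533], [nat_lit 9834382517, nat_lit 8726312117, nat_lit 8760902837], [nat_lit 8760370229], [nat_lit 6595842997], [nat_lit 4431315765], [nat_lit 6544712373], [nat_lit 6544712369], [nat_lit 6544712365]] []))))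
(.node (nat_lit 1028)
(.node (nat_lit 1026)
(.leaf [[nat_lit 8760407477, nat_lit 8761968053], [nat_lit 8760395061, nat_lit 8761435445], [nat_lit 8760382645, nat_lit 8760902837], [nat_lit 8760370229], [nat_lit 6595842997], [nat_lit 4431315765], [nat_lit 6544712373], [nat_lit 6544712369]] [])
(.node (nat_lit 1027)
(.leaf [[nat_lit 8760407477, nat_lit 8761968053], [nat_lit 8760395061, nat_lit 8761435445], [nat_lit 8760382645, nat_lit 8760902837], [nat_lit 8760370229], [nat_lit 6595842997], [nat_lit 4431315765], [nat_lit 6544712373], [nat_lit 6544712369]] [])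
(.leaf [[nat_lit 8760407477, nat_lit 8761968053], [nat_lit 8760395061, nat_lit 8761435445], [nat_lit 8760382645, nat_lit 8760902837], [nat_lit 8760370229], [nat_lit 6595842997], [nat_lit 4431315765], [nat_lit 6544712373], [nat_lit 6544712369]] [])))
(.node (nat_lit 1030)
(.node (nat_lit 1029)
(.leaf [[nat_lit 77480142261, nat_lit 77464667573, nat_lit 76372071861], [nat_lit 77480129845, nat_lit 77464134965, nat_lit 76372059445], [nat_lit 77480117429, nat_lit 76372047029, nat_lit 77463602357], [nat_lit 77463069749, nat_lit 76372034613], [nat_lit 146165236661], [nat_lit 4431315765], [nat_lit 6544712373], [nat_lit 6544712369]] [])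
(.leaf [[nat_lit 146199356853, nat_lit 145110402485], [nat_lit 146199344437, nat_lit 145109869877], [nat_lit 146199332021, nat_lit 146199590069], [nat_lit 146182284341, nat_lit 145108804661], [nat_lit 146165236661], [nat_lit 4431315765], [nat_lit 6544712373], [nat_lit 6544712369]] []))
(.node (nat_lit 1031)
(.leaf [[nat_lit 214919091637, nat_lit 214920132021, nat_lit 213811021237], [nat_lit 214919079221, nat_lit 214919599413, nat_lit 213811008821], [nat_lit 214919066805, nat_lit 213810996405], [nat_lit 146182284341, nat_lit 145108804661], [nat_lit 146165236661], [nat_lit 4431315765], [nat_lit 6544712373], [nat_lit 6544712369]] [])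
(.leaf [[nat_lit 283638306229, nat_lit 283622831541], [nat_lit 283638293813, nat_lit 283622298933], [nat_lit 283638281397, nat_lit 283621766325], [nat_lit 283621233717], [nat_lit 281456706485], [nat_lit 418861572917], [nat_lit 6544712373]] [])))))
(.node (nat_lit 1039)
(.node (nat_lit 1035)
(.node (nat_lit 1033)
(.leaf [[nat_lit 352358041013, nat_lit 351268566453, nat_lit 351249970613], [nat_lit 352358028597, nat_lit 352358286645, nat_lit 351249958197], [nat_lit 352340980917, nat_lit 352357754037, nat_lit 351249945781], [nat_lit 283621233717], [nat_lit 281456706485], [nat_lit 418861572917], [nat_lit 6544712373]] [])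
(.node (nat_lit 1034)
(.leaf [[nat_lit 421077255605, nat_lit 421078295989], [nat_lit 421077243189, nat_lit 421077763381], [nat_lit 421077230773], [nat_lit 351266968629], [nat_lit 281456706485], [nat_lit 418861572917], [nat_lit 418861572913]] [])
(.leaf [[nat_lit 489796990389, nat_lit 489780995509, nat_lit 488688919989], [nat_lit 489796977973, nat_lit 488688907573, nat_lit 489780462901], [nat_lit 489779930293, nat_lit 488688895157], [nat_lit 558482097205], [nat_lit 281456706485], [nat_lit 418861572917], [nat_lit 418861572913]] [])))
(.node (nat_lit 1037)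
(.node (nat_lit 1036)
(.leaf [[nat_lit 558516204981, nat_lit 489780995509], [nat_lit 558516192565, nat_lit 558516450613], [nat_lit 558499144885, nat_lit 489779930293], [nat_lit 558482097205], [nat_lit 281456706485], [nat_lit 418861572917], [nat_lit 418861572913]] [])
(.leaf [[nat_lit 628309419445, nat_lit 628293424565], [nat_lit 628309407029, nat_lit 628292891957], [nat_lit 558499144885, nat_lit 558482629813], [nat_lit 558482097205], [nat_lit 281456706485], [nat_lit 418861572917], [nat_lit 418861572913]] []))
(.node (nat_lit 1038)
(.leaf [[nat_lit 628309419445, nat_lit 628293424565], [nat_lit 628309407029, nat_lit 628292891957], [nat_lit 558499144885, nat_lit 558482629813], [nat_lit 558482097205], [nat_lit 558482097201], [nat_lit 418861572917]] [])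
(.leaf [[nat_lit 698102633909, nat_lit 698103154101], [nat_lit 698102621493], [nat_lit 558499144885, nat_lit 558482629813], [nat_lit 558482097205], [nat_lit 558482097201], [nat_lit 418861572917]] []))))
(.node (nat_lit 1091)
(.node (nat_lit 1089)
(.node (nat_lit 1088)
(.leaf [[nat_lit 10907887029, nat_lit 9818932661], [nat_lit 10907874613, nat_lit 9818400053], [nat_lit 10907862197, nat_lit 9817867445], [nat_lit 8760370229], [nat_lit 6595842997], [nat_lit 4414280501, nat_lit 6545244981], [nat_lit 6544712373], [nat_lit 6544712369], [nat_lit 6544712365]] [])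
(.leaf [[nat_lit 10907887029, nat_lit 9818932661], [nat_lit 10907874613, nat_lit 9818400053], [nat_lit 10907862197, nat_lit 9817867445], [nat_lit 8760370229], [nat_lit 6595842997], [nat_lit 4414280501, nat_lit 6545244981], [nat_lit 6544712373], [nat_lit 6544712369]] []))
(.node (nat_lit 1090)
(.leaf [[nat_lit 9834407349, nat_lit 9818932661, nat_lit 8726336949], [nat_lit 9834394933, nat_lit 9818400053, nat_lit 8726324533], [nat_lit 9834382517, nat_lit 8726312117, nat_lit 9817867445], [nat_lit 8760370229], [nat_lit 6595842997], [nat_lit 4414280501, nat_lit 6545244981], [nat_lit 6544712373], [nat_lit 6544712369]] [])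
(.leaf [[nat_lit 9834407349, nat_lit 9818932661, nat_lit 8726336949], [nat_lit 9834394933, nat_lit 9818400053, nat_lit 8726324533], [nat_lit 9834382517, nat_lit 8726312117, nat_lit 9817867445], [nat_lit 8760370229], [nat_lit 6595842997], [nat_lit 74190459701, nat_lit 6545244981], [nat_lit 6544712373], [nat_lit 6544712369]] [])))
(.node (nat_lit 1093)
(.node (nat_lit 1092)
(.leaf [[nat_lit 9834407349, nat_lit 9818932661, nat_lit 8726336949], [nat_lit 9834394933, nat_lit 9818400053, nat_lit 8726324533], [nat_lit 9834382517, nat_lit 8726312117, nat_lit 9817867445], [nat_lit 8760370229], [nat_lit 146165236661], [nat_lit 143983674165, nat_lit 6545244981], [nat_lit 6544712373], [nat_lit 6544712369]] [])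
(.leaf [[nat_lit 78553621941, nat_lit 77464667573], [nat_lit 78553609525, nat_lit 77464134965], [nat_lit 78553597109, nat_lit 78553855157], [nat_lit 77463069749, nat_lit 8726299701], [nat_lit 146165236661], [nat_lit 143983674165, nat_lit 6545244981], [nat_lit 6544712373], [nat_lit 6544712369]] []))
(.node (nat_lit 1094)
(.leaf [[nat_lit 147273356725, nat_lit 147274397109, nat_lit 146165286325], [nat_lit 147273344309, nat_lit 147273864501, nat_lit 146165273909], [nat_lit 147273331893, nat_lit 146165261493], [nat_lit 146182284341, nat_lit 77463069749], [nat_lit 146165236661], [nat_lit 143983674165, nat_lit 6545244981], [nat_lit 6544712373], [nat_lit 6544712369]] [])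
(.leaf [[nat_lit 215992571317, nat_lit 215977096629], [nat_lit 215992558901, nat_lit 215976564021], [nat_lit 215992546485, nat_lit 215976031413], [nat_lit 146182284341, nat_lit 214901756981], [nat_lit 146165236661], [nat_lit 418861572917], [nat_lit 6544712373]] []))))))
(.node (nat_lit 1156)
(.node (nat_lit 1102)
(.node (nat_lit 1098)
(.node (nat_lit 1096)
(.leaf [[nat_lit 284712306101, nat_lit 283622831541, nat_lit 283604235701], [nat_lit 284712293685, nat_lit 284712551733, nat_lit 283604223285], [nat_lit 284695246005, nat_lit 284712019125, nat_lit 283604210869], [nat_lit 283621233717], [nat_lit 146165236661], [nat_lit 418861572917], [nat_lit 6544712373]] [])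
(.node (nat_lit 1097)
(.leaf [[nat_lit 353431520693, nat_lit 353432561077], [nat_lit 353431508277, nat_lit 353432028469], [nat_lit 353431495861], [nat_lit 283621233717], [nat_lit 281456706485], [nat_lit 418861572917], [nat_lit 6544712373]] [])
(.leaf [[nat_lit 422151255477, nat_lit 422135260597, nat_lit 421043185077], [nat_lit 422151243061, nat_lit 421043172661, nat_lit 422134727989], [nat_lit 422134195381, nat_lit 421043160245], [nat_lit 283621233717], [nat_lit 281456706485], [nat_lit 418861572917], [nat_lit 6544712373]] [])))
(.node (nat_lit 1100)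
(.node (nat_lit 1099)
(.leaf [[nat_lit 490870470069, nat_lit 489780995509], [nat_lit 490870457653, nat_lit 490870715701], [nat_lit 490853409973, nat_lit 489779930293], [nat_lit 558482097205], [nat_lit 281456706485], [nat_lit 418861572917], [nat_lit 418861572913]] [])
(.leaf [[nat_lit 559590204853, nat_lit 559590725045, nat_lit 558482134453], [nat_lit 559590192437, nat_lit 558482122037], [nat_lit 490853409973, nat_lit 489779930293], [nat_lit 558482097205], [nat_lit 281456706485], [nat_lit 418861572917], [nat_lit 418861572913]] []))
(.node (nat_lit 1101)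
(.leaf [[nat_lit 628309419445, nat_lit 628293424565], [nat_lit 628309407029, nat_lit 628292891957], [nat_lit 558499144885, nat_lit 559572882613], [nat_lit 558482097205], [nat_lit 281456706485], [nat_lit 418861572917]] [])
(.leaf [[nat_lit 698102633909, nat_lit 698103154101], [nat_lit 698102621493], [nat_lit 558499144885, nat_lit 558482629813], [nat_lit 558482097205], [nat_lit 558482097201], [nat_lit 418861572917]] []))))
(.node (nat_lit 1152)
(.node (nat_lit 1103)
(.leaf [[nat_lit 698102633909, nat_lit 698103154101], [nat_lit 698102621493], [nat_lit 558499144885, nat_lit 558482629813], [nat_lit 558482097205], [nat_lit 558482097201], [nat_lit 418861572917]] [])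
(.node (nat_lit 1104)
(.leaf [[nat_lit 698102633909, nat_lit 698103154101], [nat_lit 698102621493], [nat_lit 558499144885, nat_lit 558482629813], [nat_lit 558482097205], [nat_lit 558482097201], [nat_lit 418861572917]] [])
(.leaf [[nat_lit 10907887029, nat_lit 9818932661], [nat_lit 10907874613, nat_lit 9818400053], [nat_lit 10907862197, nat_lit 9817867445], [nat_lit 8760370229], [nat_lit 6595842997], [nat_lit 6545244981, nat_lit 5470982965, nat_lit 5471245109], [nat_lit 6544712373], [nat_lit 6544712369]] [])))
(.node (nat_lit 1154)
(.node (nat_lit 1153)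
(.leaf [[nat_lit 10907887029, nat_lit 9818932661], [nat_lit 10907874613, nat_lit 9818400053], [nat_lit 10907862197, nat_lit 9817867445], [nat_lit 8760370229], [nat_lit 6595842997], [nat_lit 6545244981, nat_lit 4397245237], [nat_lit 6544712373], [nat_lit 6544712369]] [])
(.leaf [[nat_lit 10907887029, nat_lit 9818932661], [nat_lit 10907874613, nat_lit 9818400053], [nat_lit 10907862197, nat_lit 9817867445], [nat_lit 8760370229], [nat_lit 6595842997], [nat_lit 75264197429, nat_lit 6545244981, nat_lit 5471245109], [nat_lit 6544712373], [nat_lit 6544712369]] []))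
(.node (nat_lit 1155)
(.leaf [[nat_lit 10907887029, nat_lit 9818932661], [nat_lit 10907874613, nat_lit 9818400053], [nat_lit 10907862197, nat_lit 9817867445], [nat_lit 8760370229], [nat_lit 76372022197, nat_lit 8726283189], [nat_lit 143983674165, nat_lit 6545244981], [nat_lit 6544712373], [nat_lit 6544712369]] [])
(.leaf [[nat_lit 10907887029, nat_lit 9818932661], [nat_lit 10907874613, nat_lit 9818400053], [nat_lit 10907862197, nat_lit 10908120245], [nat_lit 8760370229], [nat_lit 146165236661], [nat_lit 143983674165, nat_lit 6545244981], [nat_lit 6544712373], [nat_lit 6544712369]] [])))))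
(.node (nat_lit 1163)
(.node (nat_lit 1159)
(.node (nat_lit 1157)
(.leaf [[nat_lit 79627621813, nat_lit 79628662197, nat_lit 78536586677], [nat_lit 79627609397, nat_lit 79628129589, nat_lit 78536574261], [nat_lit 79627596981, nat_lit 78536561845], [nat_lit 77463069749, nat_lit 8726299701], [nat_lit 146165236661], [nat_lit 143983674165, nat_lit 6545244981], [nat_lit 6544712373], [nat_lit 6544712369]] [])
(.node (nat_lit 1158)
(.leaf [[nat_lit 148346836405, nat_lit 79628662197], [nat_lit 148346823989, nat_lit 79628129589], [nat_lit 148346811573, nat_lit 79627596981], [nat_lit 146182284341, nat_lit 147256022069], [nat_lit 146165236661], [nat_lit 143983674165, nat_lit 6545244981], [nat_lit 6544712373]] [])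
(.leaf [[nat_lit 217066571189, nat_lit 215977096629, nat_lit 215975536053], [nat_lit 217066558773, nat_lit 217066816821, nat_lit 215975523637], [nat_lit 148346811573, nat_lit 217066284213], [nat_lit 146182284341, nat_lit 147256022069], [nat_lit 146165236661], [nat_lit 418861572917], [nat_lit 6544712373]] [])))
(.node (nat_lit 1161)
(.node (nat_lit 1160)
(.leaf [[nat_lit 285785785781, nat_lit 285786826165], [nat_lit 285785773365, nat_lit 285786293557], [nat_lit 285785760949], [nat_lit 283621233717], [nat_lit 146165236661], [nat_lit 418861572917], [nat_lit 6544712373]] [])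
(.leaf [[nat_lit 354505520565, nat_lit 285786826165, nat_lit 353414485429], [nat_lit 354505508149, nat_lit 353414473013, nat_lit 285786293557], [nat_lit 285785760949], [nat_lit 283621233717], [nat_lit 146165236661], [nat_lit 418861572917], [nat_lit 6544712373]] []))
(.node (nat_lit 1162)
(.leaf [[nat_lit 423224735157, nat_lit 422135260597], [nat_lit 423224722741, nat_lit 423224980789], [nat_lit 422134195381, nat_lit 353414460597], [nat_lit 283621233717], [nat_lit 146165236661], [nat_lit 418861572917], [nat_lit 6544712373]] [])
(.leaf [[nat_lit 491944469941, nat_lit 491944990133, nat_lit 490853434805], [nat_lit 491944457525, nat_lit 490853422389], [nat_lit 490853409973, nat_lit 422134195381], [nat_lit 558482097205], [nat_lit 281456706485], [nat_lit 418861572917], [nat_lit 418861572913]] []))))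
(.node (nat_lit 1167)
(.node (nat_lit 1165)
(.node (nat_lit 1164)
(.leaf [[nat_lit 560663684533, nat_lit 491944990133], [nat_lit 560663672117, nat_lit 491944457525], [nat_lit 490853409973, nat_lit 559572882613], [nat_lit 558482097205], [nat_lit 281456706485], [nat_lit 418861572917]] [])
(.leaf [[nat_lit 629383419317, nat_lit 629383677365, nat_lit 628292384181], [nat_lit 560663672117, nat_lit 629383144757], [nat_lit 490853409973, nat_lit 559572882613], [nat_lit 558482097205], [nat_lit 281456706485], [nat_lit 418861572917]] []))
(.node (nat_lit 1166)
(.leaf [[nat_lit 698102633909, nat_lit 698103154101], [nat_lit 698102621493], [nat_lit 558499144885, nat_lit 558482629813], [nat_lit 558482097205], [nat_lit 558482097201], [nat_lit 418861572917]] [])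
(.leaf [[nat_lit 698102633909, nat_lit 698103154101], [nat_lit 698102621493], [nat_lit 558499144885, nat_lit 559572882613], [nat_lit 558482097205], [nat_lit 558482097201], [nat_lit 418861572917]] [])))
(.node (nat_lit 1169)
(.node (nat_lit 1168)
(.leaf [[nat_lit 767912883637], [nat_lit 698102621493], [nat_lit 558499144885, nat_lit 559572882613], [nat_lit 558482097205], [nat_lit 558482097201], [nat_lit 418861572917]] [])
(.leaf [[nat_lit 767912883637], [nat_lit 698102621493], [nat_lit 558499144885, nat_lit 558482629813], [nat_lit 558482097205], [nat_lit 558482097201], [nat_lit 418861572917]] []))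
(.node (nat_lit 1216)
(.leaf [[nat_lit 11998922165, nat_lit 9818932661, nat_lit 8726336949], [nat_lit 11998909749, nat_lit 8726324533, nat_lit 10908652853], [nat_lit 10907862197, nat_lit 10908120245], [nat_lit 8743334965, nat_lit 8743593013], [nat_lit 7652545461, nat_lit 6545777589, nat_lit 6561772469], [nat_lit 6545244981, nat_lit 4397245237], [nat_lit 6544712373], [nat_lit 6544712369]] [])
(.leaf [[nat_lit 11998922165, nat_lit 9818932661, nat_lit 9817109941], [nat_lit 11998909749, nat_lit 9817097525, nat_lit 9818400053], [nat_lit 10907862197, nat_lit 9817867445], [nat_lit 8760370229], [nat_lit 6578807733, nat_lit 6545777589], [nat_lit 6545244981, nat_lit 5470982965, nat_lit 5471245109], [nat_lit 6544712373], [nat_lit 6544712369]] [])))))))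
(.node (nat_lit 1291)
(.node (nat_lit 1231)
(.node (nat_lit 1224)
(.node (nat_lit 1220)
(.node (nat_lit 1218)
(.leaf [[nat_lit 11998922165, nat_lit 9818932661, nat_lit 8726336949], [nat_lit 11998909749, nat_lit 8726324533, nat_lit 10908652853], [nat_lit 10907862197, nat_lit 9817867445], [nat_lit 8760370229], [nat_lit 76372022197, nat_lit 8726283189], [nat_lit 75264197429, nat_lit 6545244981, nat_lit 74190459701], [nat_lit 6544712373], [nat_lit 6544712369]] [])
(.node (nat_lit 1219)
(.leaf [[nat_lit 11998922165, nat_lit 9818932661, nat_lit 9817109941], [nat_lit 11998909749, nat_lit 9817097525, nat_lit 10908652853], [nat_lit 10907862197, nat_lit 10908120245], [nat_lit 8760370229], [nat_lit 146165236661], [nat_lit 143983674165, nat_lit 6545244981], [nat_lit 6544712373], [nat_lit 6544712369]] [])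
(.leaf [[nat_lit 11998922165, nat_lit 79628662197, nat_lit 8726336949], [nat_lit 11998909749, nat_lit 8726324533, nat_lit 79628129589], [nat_lit 79627596981, nat_lit 8726312117], [nat_lit 77463069749, nat_lit 8726299701], [nat_lit 146165236661], [nat_lit 143983674165, nat_lit 6545244981], [nat_lit 6544712373], [nat_lit 6544712369]] [])))
(.node (nat_lit 1222)
(.node (nat_lit 1221)
(.leaf [[nat_lit 79627621813, nat_lit 79628662197, nat_lit 78536586677], [nat_lit 79627609397, nat_lit 79628129589, nat_lit 78536574261], [nat_lit 79627596981, nat_lit 78536561845], [nat_lit 77463069749, nat_lit 9817072693], [nat_lit 146165236661], [nat_lit 143983674165, nat_lit 6545244981], [nat_lit 6544712373]] [])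
(.leaf [[nat_lit 148346836405, nat_lit 79628662197], [nat_lit 148346823989, nat_lit 79628129589], [nat_lit 148346811573, nat_lit 79627596981], [nat_lit 146182284341, nat_lit 147256022069], [nat_lit 146165236661], [nat_lit 143983674165, nat_lit 281422619445, nat_lit 6545244981], [nat_lit 6544712373]] []))
(.node (nat_lit 1223)
(.leaf [[nat_lit 149438391733, nat_lit 215975536053], [nat_lit 149437859125, nat_lit 215975523637], [nat_lit 148346811573, nat_lit 215976031413], [nat_lit 146182284341, nat_lit 146165769269], [nat_lit 146165236661], [nat_lit 418861572917], [nat_lit 6544712373]] [])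
(.leaf [[nat_lit 285785785781, nat_lit 285786826165], [nat_lit 285785773365, nat_lit 285786293557], [nat_lit 285785760949], [nat_lit 283621233717], [nat_lit 146165236661], [nat_lit 418861572917], [nat_lit 6544712373]] []))))
(.node (nat_lit 1227)
(.node (nat_lit 1225)
(.leaf [[nat_lit 354505520565, nat_lit 285786826165, nat_lit 353414485429], [nat_lit 354505508149, nat_lit 353414473013, nat_lit 285786293557], [nat_lit 285785760949], [nat_lit 283621233717], [nat_lit 146165236661], [nat_lit 418861572917], [nat_lit 6544712373]] [])
(.node (nat_lit 1226)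
(.leaf [[nat_lit 355596555701, nat_lit 353414485429], [nat_lit 355596023093], [nat_lit 285785760949], [nat_lit 283621233717], [nat_lit 146165236661], [nat_lit 418861572917], [nat_lit 6544712373]] [])
(.leaf [[nat_lit 491944469941, nat_lit 491944990133, nat_lit 490853434805], [nat_lit 491944457525, nat_lit 490853422389], [nat_lit 490853409973, nat_lit 422134195381], [nat_lit 558482097205], [nat_lit 146165236661], [nat_lit 418861572917]] [])))
(.node (nat_lit 1229)
(.node (nat_lit 1228)
(.leaf [[nat_lit 560663684533, nat_lit 491944990133], [nat_lit 560663672117, nat_lit 491944457525], [nat_lit 490853409973, nat_lit 559572882613], [nat_lit 558482097205], [nat_lit 281456706485], [nat_lit 418861572917]] [])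
(.leaf [[nat_lit 561754719669, nat_lit 628292384181], [nat_lit 560663672117, nat_lit 628292891957], [nat_lit 490853409973, nat_lit 558482629813], [nat_lit 558482097205], [nat_lit 558482097201], [nat_lit 418861572917]] []))
(.node (nat_lit 1230)
(.leaf [[nat_lit 698102633909, nat_lit 698103154101], [nat_lit 698102621493], [nat_lit 490853409973, nat_lit 559572882613], [nat_lit 558482097205], [nat_lit 558482097201], [nat_lit 418861572917]] [])
(.leaf [[nat_lit 767912883637], [nat_lit 698102621493], [nat_lit 558499144885, nat_lit 559572882613], [nat_lit 558482097205], [nat_lit 558482097201], [nat_lit 418861572917]] [])))))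
(.node (nat_lit 1283)
(.node (nat_lit 1234)
(.node (nat_lit 1232)
(.leaf [[nat_lit 767912883637], [nat_lit 698102621493], [nat_lit 558499144885, nat_lit 558482629813], [nat_lit 558482097205], [nat_lit 558482097201], [nat_lit 418861572917]] [])
(.node (nat_lit 1233)
(.leaf [[nat_lit 767912883637], [nat_lit 698102621493], [nat_lit 558499144885, nat_lit 559572882613], [nat_lit 558482097205], [nat_lit 558482097201]] [])
(.leaf [[nat_lit 767912883637], [nat_lit 698102621493], [nat_lit 558499144885, nat_lit 558482629813], [nat_lit 558482097205], [nat_lit 558482097201]] [])))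
(.node (nat_lit 1281)
(.node (nat_lit 1280)
(.leaf [[nat_lit 13089957301, nat_lit 10907887029], [nat_lit 13089424693], [nat_lit 10907862197, nat_lit 9817867445], [nat_lit 9817072693, nat_lit 7653340213, nat_lit 8726299701], [nat_lit 8726283189, nat_lit 6561772469, nat_lit 6545777589], [nat_lit 6545244981, nat_lit 5470982965, nat_lit 5471245109], [nat_lit 6544712373], [nat_lit 6544712369]] [])
(.leaf [[nat_lit 13089957301, nat_lit 10907887029], [nat_lit 13089424693], [nat_lit 10907862197, nat_lit 9817867445], [nat_lit 9817072693, nat_lit 7653340213, nat_lit 8726299701], [nat_lit 76354986933, nat_lit 76355507125], [nat_lit 74190459701, nat_lit 6545244981], [nat_lit 6544712373], [nat_lit 6544712369]] []))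
(.node (nat_lit 1282)
(.leaf [[nat_lit 13089957301, nat_lit 10907887029], [nat_lit 13089424693], [nat_lit 10907862197, nat_lit 10908120245], [nat_lit 9817072693, nat_lit 7653340213, nat_lit 8726299701], [nat_lit 76372022197, nat_lit 76355507125], [nat_lit 143983674165, nat_lit 6545244981], [nat_lit 6544712373], [nat_lit 6544712369]] [])
(.leaf [[nat_lit 13089957301, nat_lit 10907887029], [nat_lit 13089424693], [nat_lit 10907862197, nat_lit 9817867445], [nat_lit 77463069749, nat_lit 8726299701], [nat_lit 146165236661], [nat_lit 143983674165, nat_lit 6545244981], [nat_lit 6544712373], [nat_lit 6544712369]] []))))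
(.node (nat_lit 1287)
(.node (nat_lit 1285)
(.node (nat_lit 1284)
(.leaf [[nat_lit 11998922165, nat_lit 79628662197, nat_lit 10907887029], [nat_lit 11998909749, nat_lit 10907874613, nat_lit 10908652853], [nat_lit 79627596981, nat_lit 10907862197], [nat_lit 77463069749, nat_lit 9817072693], [nat_lit 146165236661], [nat_lit 143983674165, nat_lit 6545244981], [nat_lit 6544712373]] [])
(.leaf [[nat_lit 80718136757, nat_lit 79628662197], [nat_lit 80718124341, nat_lit 80718382389], [nat_lit 79627596981, nat_lit 78536561845], [nat_lit 147256022069, nat_lit 8726299701, nat_lit 8726819893], [nat_lit 146165236661], [nat_lit 143983674165, nat_lit 6545244981, nat_lit 212703142709], [nat_lit 6544712373]] []))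
(.node (nat_lit 1286)
(.leaf [[nat_lit 149437871541, nat_lit 149438391733, nat_lit 78536586677], [nat_lit 149437859125, nat_lit 78536574261], [nat_lit 148346811573, nat_lit 79627596981], [nat_lit 147256022069, nat_lit 146165249077, nat_lit 146165769269], [nat_lit 146165236661], [nat_lit 146165236657], [nat_lit 6544712373]] [])
(.leaf [[nat_lit 218157086133, nat_lit 149438391733], [nat_lit 218157073717, nat_lit 149437859125], [nat_lit 148346811573, nat_lit 217066284213], [nat_lit 147256022069, nat_lit 146165249077, nat_lit 146165769269], [nat_lit 146165236661], [nat_lit 418861572917], [nat_lit 6544712373]] [])))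
(.node (nat_lit 1289)
(.node (nat_lit 1288)
(.leaf [[nat_lit 286876820917, nat_lit 286877078965, nat_lit 215975536053], [nat_lit 218157073717, nat_lit 286876546357], [nat_lit 285785760949], [nat_lit 147256022069, nat_lit 283604198453], [nat_lit 146165236661], [nat_lit 418861572917], [nat_lit 6544712373]] [])
(.leaf [[nat_lit 355596035509, nat_lit 355596555701], [nat_lit 355596023093], [nat_lit 285785760949], [nat_lit 352323933237, nat_lit 283604198453], [nat_lit 146165236661], [nat_lit 418861572917], [nat_lit 6544712373]] []))
(.node (nat_lit 1290)
(.leaf [[nat_lit 424315770293, nat_lit 353414485429, nat_lit 355596555701], [nat_lit 355596023093], [nat_lit 285785760949], [nat_lit 352323933237, nat_lit 352323671093], [nat_lit 146165236661], [nat_lit 418861572917]] [])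
(.leaf [[nat_lit 493034984885, nat_lit 493035242933], [nat_lit 491944457525, nat_lit 490853422389], [nat_lit 490853409973, nat_lit 422134195381], [nat_lit 558482097205], [nat_lit 146165236661], [nat_lit 418861572917]] []))))))
(.node (nat_lit 1349)
(.node (nat_lit 1298)
(.node (nat_lit 1294)
(.node (nat_lit 1292)
(.leaf [[nat_lit 561754719669, nat_lit 490853434805], [nat_lit 560663672117, nat_lit 491944457525], [nat_lit 490853409973, nat_lit 422134195381], [nat_lit 558482097205], [nat_lit 146165236661], [nat_lit 418861572917]] [])
(.node (nat_lit 1293)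
(.leaf [[nat_lit 630473934261, nat_lit 561754719669], [nat_lit 560663672117, nat_lit 629383144757], [nat_lit 490853409973, nat_lit 559572882613], [nat_lit 558482097205], [nat_lit 558482097201], [nat_lit 418861572917]] [])
(.leaf [[nat_lit 630473934261, nat_lit 699193406901], [nat_lit 698102621493], [nat_lit 490853409973, nat_lit 559572882613], [nat_lit 558482097205], [nat_lit 558482097201], [nat_lit 418861572917]] [])))
(.node (nat_lit 1296)
(.node (nat_lit 1295)
(.leaf [[nat_lit 767912883637], [nat_lit 698102621493], [nat_lit 490853409973, nat_lit 558482629813], [nat_lit 558482097205], [nat_lit 558482097201], [nat_lit 418861572917]] [])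
(.leaf [[nat_lit 767912883637], [nat_lit 698102621493], [nat_lit 559572882613, nat_lit 558482109621, nat_lit 558482629813], [nat_lit 558482097205], [nat_lit 558482097201]] []))
(.node (nat_lit 1297)
(.leaf [[nat_lit 767912883637], [nat_lit 698102621493], [nat_lit 558499144885, nat_lit 559572882613], [nat_lit 558482097205], [nat_lit 558482097201]] [])
(.leaf [[nat_lit 767912883637], [nat_lit 698102621493], [nat_lit 559572882613, nat_lit 558482109621, nat_lit 558482629813], [nat_lit 558482097205], [nat_lit 558482097201]] []))))
(.node (nat_lit 1345)
(.node (nat_lit 1299)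
(.leaf [[nat_lit 767912883637], [nat_lit 698102621493], [nat_lit 698102621489], [nat_lit 558482097205], [nat_lit 558482097201]] [])
(.node (nat_lit 1344)
(.leaf [[nat_lit 13089437109, nat_lit 13089957301], [nat_lit 13089424693], [nat_lit 10907862197, nat_lit 9817867445], [nat_lit 9817072693, nat_lit 8726299701, nat_lit 7636562997, nat_lit 8726819893], [nat_lit 8726283189, nat_lit 6544737205, nat_lit 6545777589, nat_lit 7635510197], [nat_lit 6545244981, nat_lit 8726299693, nat_lit 6544720693], [nat_lit 6544712373], [nat_lit 6544712369]] [])
(.leaf [[nat_lit 13089437109, nat_lit 13089957301], [nat_lit 13089424693], [nat_lit 10907862197, nat_lit 10908120245], [nat_lit 9817072693, nat_lit 8726299701, nat_lit 7636562997, nat_lit 8726819893], [nat_lit 76354986933, nat_lit 76355507125], [nat_lit 75264197429, nat_lit 6545244981, nat_lit 76354986929], [nat_lit 6544712373], [nat_lit 6544712369]] [])))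
(.node (nat_lit 1347)
(.node (nat_lit 1346)
(.leaf [[nat_lit 13089437109, nat_lit 13089957301], [nat_lit 13089424693], [nat_lit 10907862197, nat_lit 9817867445], [nat_lit 9817072693, nat_lit 76356039733, nat_lit 8726299701], [nat_lit 146165236661], [nat_lit 143983674165, nat_lit 6545244981], [nat_lit 6544712373], [nat_lit 6544712369]] [])
(.leaf [[nat_lit 13089437109, nat_lit 13089957301], [nat_lit 13089424693], [nat_lit 10907862197, nat_lit 9817867445], [nat_lit 9817072693, nat_lit 8726299701, nat_lit 77446292533, nat_lit 8726819893], [nat_lit 146165236661], [nat_lit 143983674165, nat_lit 6545244981], [nat_lit 6544712373]] []))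
(.node (nat_lit 1348)
(.leaf [[nat_lit 13089437109, nat_lit 13089957301], [nat_lit 13089424693], [nat_lit 79627596981, nat_lit 10907862197], [nat_lit 147256022069, nat_lit 8726299701, nat_lit 8726819893], [nat_lit 146165236661], [nat_lit 146165236657], [nat_lit 6544712373]] [])
(.leaf [[nat_lit 13089957301, nat_lit 10907887029], [nat_lit 13089424693], [nat_lit 79627596981, nat_lit 10907862197], [nat_lit 147256022069, nat_lit 77446034485, nat_lit 146165769269], [nat_lit 146165236661], [nat_lit 146165236657], [nat_lit 6544712373]] [])))))
(.node (nat_lit 1356)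
(.node (nat_lit 1352)
(.node (nat_lit 1350)
(.leaf [[nat_lit 149437871541, nat_lit 149438391733, nat_lit 148346836405], [nat_lit 149437859125, nat_lit 148346823989], [nat_lit 148346811573, nat_lit 79627596981], [nat_lit 147256022069, nat_lit 146165249077, nat_lit 146165769269], [nat_lit 146165236661], [nat_lit 146165236657], [nat_lit 6544712373]] [])
(.node (nat_lit 1351)
(.leaf [[nat_lit 218157086133, nat_lit 149438391733], [nat_lit 218157073717, nat_lit 149437859125], [nat_lit 148346811573, nat_lit 217066284213], [nat_lit 147256022069, nat_lit 214884983861], [nat_lit 146165236661], [nat_lit 418861572917], [nat_lit 6544712373]] [])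
(.leaf [[nat_lit 219248121269, nat_lit 285785785781], [nat_lit 218157073717, nat_lit 149437859125], [nat_lit 285785760949], [nat_lit 352323933237, nat_lit 283604198453], [nat_lit 146165236661], [nat_lit 418861572917], [nat_lit 6544712373]] [])))
(.node (nat_lit 1354)
(.node (nat_lit 1353)
(.leaf [[nat_lit 355596035509, nat_lit 355596555701], [nat_lit 355596023093], [nat_lit 285785760949], [nat_lit 147256022069, nat_lit 352323933237], [nat_lit 146165236661], [nat_lit 418861572917]] [])
(.leaf [[nat_lit 424315770293, nat_lit 423224735157, nat_lit 355596555701], [nat_lit 355596023093], [nat_lit 285785760949], [nat_lit 352323933237, nat_lit 283604198453], [nat_lit 146165236661], [nat_lit 418861572917]] []))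
(.node (nat_lit 1355)
(.leaf [[nat_lit 425406285237], [nat_lit 355596023093], [nat_lit 285785760949], [nat_lit 558482097205], [nat_lit 146165236661], [nat_lit 418861572917]] [])
(.leaf [[nat_lit 561754719669, nat_lit 560663684533], [nat_lit 560663672117, nat_lit 491944457525], [nat_lit 490853409973, nat_lit 559572882613], [nat_lit 558482097205], [nat_lit 146165236661], [nat_lit 418861572917]] []))))
(.node (nat_lit 1360)
(.node (nat_lit 1358)
(.node (nat_lit 1357)
(.leaf [[nat_lit 630473934261, nat_lit 561754719669], [nat_lit 560663672117, nat_lit 629383144757], [nat_lit 490853409973, nat_lit 559572882613], [nat_lit 558482097205], [nat_lit 558482097201], [nat_lit 418861572917]] [])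
(.leaf [[nat_lit 630473934261, nat_lit 561754719669], [nat_lit 698102621493], [nat_lit 490853409973, nat_lit 558482629813], [nat_lit 558482097205], [nat_lit 558482097201], [nat_lit 418861572917]] []))
(.node (nat_lit 1359)
(.leaf [[nat_lit 767912883637], [nat_lit 698102621493], [nat_lit 490853409973, nat_lit 559572882613], [nat_lit 558482097205], [nat_lit 558482097201]] [])
(.leaf [[nat_lit 767912883637], [nat_lit 698102621493], [nat_lit 490853409973, nat_lit 559572882613], [nat_lit 558482097205], [nat_lit 558482097201]] [])))
(.node (nat_lit 1362)
(.node (nat_lit 1361)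
(.leaf [[nat_lit 767912883637], [nat_lit 698102621493], [nat_lit 490853409973, nat_lit 558482629813], [nat_lit 558482097205], [nat_lit 558482097201]] [])
(.leaf [[nat_lit 767912883637], [nat_lit 698102621493], [nat_lit 698102621489], [nat_lit 558482097205], [nat_lit 558482097201]] []))
(.node (nat_lit 1363)
(.leaf [[nat_lit 767912883637], [nat_lit 698102621493], [nat_lit 698102621489], [nat_lit 558482097205], [nat_lit 558482097201]] [])
(.leaf [[nat_lit 767912883637], [nat_lit 698102621493], [nat_lit 698102621489], [nat_lit 558482097205], [nat_lit 558482097201]] [])))))))))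

noncomputable def ct23 : Tc :=
(.node (nat_lit 1029)
(.node (nat_lit 711)
(.node (nat_lit 514)
(.node (nat_lit 324)
(.node (nat_lit 256)
(.node (nat_lit 129)
(.node (nat_lit 64)
(.leaf [[nat_lit 153404358, nat_lit 153924550], [nat_lit 102261326], [nat_lit 102261322], [nat_lit 102261318], [nat_lit 102261314], [nat_lit 78], [nat_lit 74], [nat_lit 70], [nat_lit 66], [nat_lit 62], [nat_lit 58]] [])
(.node (nat_lit 128)
(.leaf [[nat_lit 1227404230, nat_lit 1141953354, nat_lit 1210889158], [nat_lit 1159238346, nat_lit 1210094406, nat_lit 1160291142], [nat_lit 1159238342, nat_lit 1142981318, nat_lit 1124905670, nat_lit 1126208198], [nat_lit 1159238338, nat_lit 1142981314, nat_lit 1141940930, nat_lit 1126208194], [nat_lit 153924533, nat_lit 1176011454, nat_lit 1159238334], [nat_lit 136356661, nat_lit 103326517], [nat_lit 102793909, nat_lit 136356657], [nat_lit 102261301], [nat_lit 102261297], [nat_lit 102261293]] [[], [], [], [], [nat_lit 1260949775781], [nat_lit 846450828451], [], [], [], [nat_lit 837724512411]])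
(.leaf [[nat_lit 69946618822, nat_lit 69913588678], [nat_lit 69929571142, nat_lit 69896278854], [nat_lit 69929571138, nat_lit 69896278850], [nat_lit 69929571134, nat_lit 69896278846], [nat_lit 153404341, nat_lit 153924533], [nat_lit 136356661, nat_lit 103326517], [nat_lit 136356657, nat_lit 102793909], [nat_lit 102261301], [nat_lit 102261297], [nat_lit 102261293]] [])))
(.node (nat_lit 193)
(.node (nat_lit 192)
(.leaf [[nat_lit 2317919174], [nat_lit 2249753290, nat_lit 2267321158], [nat_lit 2249753286, nat_lit 2216723142], [nat_lit 2249753282, nat_lit 2216723138], [nat_lit 2249753278, nat_lit 153924533], [nat_lit 136356661, nat_lit 103326517], [nat_lit 136356657, nat_lit 102793909], [nat_lit 102261301], [nat_lit 102261297], [nat_lit 102261293]] [[], [], [], [], [], [], [], [], [], [nat_lit 837724512283]])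
(.leaf [[nat_lit 71020618694, nat_lit 70935167818], [nat_lit 70986535750, nat_lit 70918132550, nat_lit 70970553282], [nat_lit 70986535746, nat_lit 70935167810, nat_lit 154989749], [nat_lit 187487285, nat_lit 154457141], [nat_lit 153404341, nat_lit 153924533], [nat_lit 136356661, nat_lit 103326517], [nat_lit 136356657, nat_lit 102793909], [nat_lit 102261301], [nat_lit 102261297], [nat_lit 102261293]] []))
(.node (nat_lit 194)
(.leaf [[nat_lit 139722785610], [nat_lit 139722785606], [nat_lit 139722785602], [nat_lit 187487285, nat_lit 154457141], [nat_lit 153404341, nat_lit 153924533], [nat_lit 136356661, nat_lit 103326517], [nat_lit 136356657, nat_lit 102793909], [nat_lit 102261301], [nat_lit 102261297], [nat_lit 102261293]] [])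
(.leaf [[nat_lit 3374883782, nat_lit 3289432906], [nat_lit 3323765574, nat_lit 3357573958, nat_lit 3324285766], [nat_lit 3324285762, nat_lit 3289432898, nat_lit 3289695042], [nat_lit 154457141, nat_lit 136381493], [nat_lit 153924533, nat_lit 136369077], [nat_lit 136356661, nat_lit 103326517], [nat_lit 136356657, nat_lit 102793909], [nat_lit 102261301], [nat_lit 102261297], [nat_lit 102261293]] [[], [], [], [], [], [], [], [], [], [nat_lit 837724512410]]))))
(.node (nat_lit 320)
(.node (nat_lit 258)
(.node (nat_lit 257)
(.leaf [[nat_lit 72094098374, nat_lit 72077583302], [nat_lit 72042980166, nat_lit 72026985286], [nat_lit 187499701, nat_lit 154989749], [nat_lit 187487285, nat_lit 154457141], [nat_lit 153404341, nat_lit 153924533], [nat_lit 136356661, nat_lit 103326517], [nat_lit 136356657, nat_lit 102793909], [nat_lit 102261301], [nat_lit 102261297], [nat_lit 102261293]] [])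
(.leaf [[nat_lit 140796797894, nat_lit 140728382282, nat_lit 140780282822], [nat_lit 140762714950, nat_lit 140762972998, nat_lit 140728382278], [nat_lit 187499701, nat_lit 154989749], [nat_lit 187487285, nat_lit 154457141], [nat_lit 153404341, nat_lit 153924533], [nat_lit 136356661, nat_lit 103326517], [nat_lit 136356657, nat_lit 102793909], [nat_lit 102261301], [nat_lit 102261297], [nat_lit 102261293]] []))
(.node (nat_lit 259)
(.leaf [[nat_lit 209516012486, nat_lit 209482982342], [nat_lit 209481929542, nat_lit 155522357], [nat_lit 205055157, nat_lit 136393909], [nat_lit 204522549], [nat_lit 153404341, nat_lit 153924533], [nat_lit 136356661, nat_lit 103326517], [nat_lit 136356657, nat_lit 102793909], [nat_lit 102261301], [nat_lit 102261297], [nat_lit 102261293]] [])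
(.leaf [[nat_lit 4448363462, nat_lit 4431848390], [nat_lit 4431315782, nat_lit 4363158218], [nat_lit 4431315778], [nat_lit 170972213, nat_lit 136381493, nat_lit 4397228738], [nat_lit 153404341, nat_lit 153924533], [nat_lit 136356661, nat_lit 103326517], [nat_lit 2249753269, nat_lit 102793909], [nat_lit 102261301], [nat_lit 102261297], [nat_lit 102261293]] [])))
(.node (nat_lit 322)
(.node (nat_lit 321)
(.leaf [[nat_lit 73151062982, nat_lit 73082647370, nat_lit 73134547910], [nat_lit 73116980038, nat_lit 73117238086, nat_lit 73082647366], [nat_lit 187499701, nat_lit 154989749], [nat_lit 187487285, nat_lit 154457141], [nat_lit 153404341, nat_lit 153924533], [nat_lit 136356661, nat_lit 103326517], [nat_lit 2249753269, nat_lit 102793909], [nat_lit 102261301], [nat_lit 102261297], [nat_lit 102261293]] [])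
(.leaf [[nat_lit 141836714826, nat_lit 136418741], [nat_lit 141836714822, nat_lit 136406325], [nat_lit 187499701, nat_lit 154989749], [nat_lit 187487285, nat_lit 154457141], [nat_lit 153404341, nat_lit 153924533], [nat_lit 136356661, nat_lit 103326517], [nat_lit 2249753269, nat_lit 102793909], [nat_lit 102261301], [nat_lit 102261297], [nat_lit 102261293]] []))
(.node (nat_lit 323)
(.leaf [[nat_lit 187524533, nat_lit 156054965], [nat_lit 187512117, nat_lit 155522357], [nat_lit 187499701, nat_lit 154989749], [nat_lit 187487285, nat_lit 154457141], [nat_lit 153404341, nat_lit 153924533], [nat_lit 136356661, nat_lit 103326517], [nat_lit 136356657, nat_lit 102793909], [nat_lit 102261301], [nat_lit 102261297]] [])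
(.leaf [[nat_lit 279275144010, nat_lit 279242113866], [nat_lit 279275144006, nat_lit 205587765], [nat_lit 205055157, nat_lit 153429173], [nat_lit 204522549], [nat_lit 153404341, nat_lit 153924533], [nat_lit 136356661, nat_lit 103326517], [nat_lit 136356657, nat_lit 102793909], [nat_lit 102261301], [nat_lit 102261297]] [])))))
(.node (nat_lit 449)
(.node (nat_lit 387)
(.node (nat_lit 385)
(.node (nat_lit 384)
(.leaf [[nat_lit 5505328070, nat_lit 5470982986, nat_lit 5488812998], [nat_lit 5471245126, nat_lit 5471503174, nat_lit 5470982982], [nat_lit 5471245122, nat_lit 154989749, nat_lit 136393909], [nat_lit 187487285, nat_lit 154457141], [nat_lit 153404341, nat_lit 153924533], [nat_lit 136356661, nat_lit 103326517], [nat_lit 2249753269, nat_lit 102793909], [nat_lit 102261301], [nat_lit 102261297], [nat_lit 102261293]] [])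
(.leaf [[nat_lit 74224542662, nat_lit 74191512518], [nat_lit 74190459718, nat_lit 155522357], [nat_lit 187499701, nat_lit 154989749], [nat_lit 187487285, nat_lit 154457141], [nat_lit 153404341, nat_lit 153924533], [nat_lit 136356661, nat_lit 103326517], [nat_lit 2249753269, nat_lit 102793909], [nat_lit 102261301], [nat_lit 102261297], [nat_lit 102261293]] []))
(.node (nat_lit 386)
(.leaf [[nat_lit 142893159242, nat_lit 156054965, nat_lit 153454005], [nat_lit 187512117, nat_lit 155522357], [nat_lit 187499701, nat_lit 154989749], [nat_lit 187487285, nat_lit 154457141], [nat_lit 153404341, nat_lit 153924533], [nat_lit 136356661, nat_lit 103326517], [nat_lit 2249753269, nat_lit 102793909], [nat_lit 102261301], [nat_lit 102261297]] [])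
(.leaf [[nat_lit 206120373, nat_lit 153454005], [nat_lit 205587765, nat_lit 153441589], [nat_lit 205055157, nat_lit 153429173], [nat_lit 204522549], [nat_lit 153404341, nat_lit 153924533], [nat_lit 136356661, nat_lit 103326517], [nat_lit 2249753269, nat_lit 102793909], [nat_lit 102261301], [nat_lit 102261297]] [])))
(.node (nat_lit 389)
(.node (nat_lit 388)
(.leaf [[nat_lit 206120373, nat_lit 153454005], [nat_lit 205587765, nat_lit 153441589], [nat_lit 205055157, nat_lit 153429173], [nat_lit 204522549], [nat_lit 153404341, nat_lit 153924533], [nat_lit 136356661, nat_lit 103326517], [nat_lit 136356657, nat_lit 102793909], [nat_lit 102261301], [nat_lit 102261297]] [])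
(.leaf [[nat_lit 206120373, nat_lit 153454005], [nat_lit 205587765, nat_lit 153441589], [nat_lit 205055157, nat_lit 153429173], [nat_lit 204522549], [nat_lit 153404341, nat_lit 153924533], [nat_lit 139722785589], [nat_lit 69929571121, nat_lit 102793909], [nat_lit 102261301], [nat_lit 102261297]] []))
(.node (nat_lit 448)
(.leaf [[nat_lit 6595843014], [nat_lit 6544712394, nat_lit 6544720710], [nat_lit 6544712390], [nat_lit 6544712386], [nat_lit 153404341, nat_lit 153924533], [nat_lit 136356661, nat_lit 103326517], [nat_lit 2249753269, nat_lit 102793909], [nat_lit 102261301], [nat_lit 102261297], [nat_lit 102261293]] [])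
(.leaf [[nat_lit 75298542534, nat_lit 75264197450], [nat_lit 187512117, nat_lit 155522357], [nat_lit 187499701, nat_lit 154989749], [nat_lit 187487285, nat_lit 154457141], [nat_lit 153404341, nat_lit 153924533], [nat_lit 136356661, nat_lit 103326517], [nat_lit 2249753269, nat_lit 102793909], [nat_lit 102261301], [nat_lit 102261297]] []))))
(.node (nat_lit 453)
(.node (nat_lit 451)
(.node (nat_lit 450)
(.leaf [[nat_lit 187524533, nat_lit 156054965, nat_lit 188044725], [nat_lit 187512117, nat_lit 155522357], [nat_lit 187499701, nat_lit 154989749], [nat_lit 187487285, nat_lit 187745333], [nat_lit 153404341, nat_lit 153924533], [nat_lit 136356661, nat_lit 1193579317], [nat_lit 2249753269, nat_lit 102793909], [nat_lit 102261301], [nat_lit 102261297]] [])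
(.leaf [[nat_lit 206120373, nat_lit 153454005], [nat_lit 205587765, nat_lit 153441589], [nat_lit 205055157, nat_lit 153429173], [nat_lit 204522549], [nat_lit 153404341, nat_lit 153924533], [nat_lit 136356661, nat_lit 103326517], [nat_lit 2249753269, nat_lit 102793909], [nat_lit 102261301], [nat_lit 102261297]] []))
(.node (nat_lit 452)
(.leaf [[nat_lit 206120373, nat_lit 153454005], [nat_lit 205587765, nat_lit 153441589], [nat_lit 205055157, nat_lit 153429173], [nat_lit 204522549], [nat_lit 153404341, nat_lit 153924533], [nat_lit 69929571125, nat_lit 119837493], [nat_lit 2249753269, nat_lit 102793909], [nat_lit 102261301], [nat_lit 102261297]] [])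
(.leaf [[nat_lit 206120373, nat_lit 153454005], [nat_lit 205587765, nat_lit 153441589], [nat_lit 205055157, nat_lit 153429173], [nat_lit 204522549], [nat_lit 153404341, nat_lit 153924533], [nat_lit 139722785589], [nat_lit 69929571121, nat_lit 102793909], [nat_lit 102261301], [nat_lit 102261297]] [])))
(.node (nat_lit 512)
(.node (nat_lit 454)
(.leaf [[nat_lit 418861572938], [nat_lit 69980726581, nat_lit 69965251893], [nat_lit 69980714165, nat_lit 69964719285], [nat_lit 69980701749, nat_lit 69964186677], [nat_lit 69946618805, nat_lit 153924533], [nat_lit 139722785589], [nat_lit 139722785585], [nat_lit 102261301], [nat_lit 102261297]] [])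
(.leaf [[nat_lit 7653340226, nat_lit 136418741], [nat_lit 7635510210, nat_lit 1262552373, nat_lit 136406325], [nat_lit 1261499573, nat_lit 1262019765, nat_lit 136393909], [nat_lit 1261487157, nat_lit 136381493], [nat_lit 1244177333, nat_lit 1227404213], [nat_lit 136356661, nat_lit 2267321141], [nat_lit 2249753269, nat_lit 102793909], [nat_lit 102261301], [nat_lit 102261297]] []))
(.node (nat_lit 513)
(.leaf [[nat_lit 76372022214, nat_lit 76355507142], [nat_lit 1261511989, nat_lit 1262552373, nat_lit 153441589], [nat_lit 1261499573, nat_lit 1262019765, nat_lit 153429173], [nat_lit 1261487157, nat_lit 153416757], [nat_lit 1244177333, nat_lit 153404341, nat_lit 1227404213], [nat_lit 136356661, nat_lit 1193579317], [nat_lit 2249753269, nat_lit 102793909], [nat_lit 102261301], [nat_lit 102261297]] [])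
(.leaf [[nat_lit 1263084981, nat_lit 170489269], [nat_lit 1262552373, nat_lit 153441589], [nat_lit 1262019765, nat_lit 153429173], [nat_lit 1261487157, nat_lit 153416757], [nat_lit 1244177333, nat_lit 153404341, nat_lit 153924533], [nat_lit 136356661, nat_lit 2267321141], [nat_lit 2249753269, nat_lit 102793909], [nat_lit 102261301], [nat_lit 102261297]] []))))))
(.node (nat_lit 641)
(.node (nat_lit 578)
(.node (nat_lit 518)
(.node (nat_lit 516)
(.node (nat_lit 515)
(.leaf [[nat_lit 1263084981, nat_lit 170489269], [nat_lit 1262552373, nat_lit 153441589], [nat_lit 1262019765, nat_lit 153429173], [nat_lit 1261487157, nat_lit 153416757], [nat_lit 1244177333, nat_lit 153404341, nat_lit 153924533], [nat_lit 136356661, nat_lit 2267321141], [nat_lit 2249753269, nat_lit 102793909], [nat_lit 102261301], [nat_lit 102261297]] [])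
(.leaf [[nat_lit 1263084981, nat_lit 170489269], [nat_lit 1262552373, nat_lit 153441589], [nat_lit 1262019765, nat_lit 153429173], [nat_lit 1261487157, nat_lit 153416757], [nat_lit 1244177333, nat_lit 153404341, nat_lit 153924533], [nat_lit 139722785589], [nat_lit 2249753269, nat_lit 102793909], [nat_lit 102261301], [nat_lit 102261297]] []))
(.node (nat_lit 517)
(.leaf [[nat_lit 69980738997, nat_lit 69965784501], [nat_lit 69980726581, nat_lit 69965251893], [nat_lit 69980714165, nat_lit 69964719285], [nat_lit 69980701749, nat_lit 69964186677], [nat_lit 69946618805, nat_lit 153924533], [nat_lit 139722785589], [nat_lit 2249753269, nat_lit 102793909], [nat_lit 102261301], [nat_lit 102261297]] [])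
(.leaf [[nat_lit 69980738997, nat_lit 69965784501], [nat_lit 69980726581, nat_lit 69965251893], [nat_lit 69980714165, nat_lit 69964719285], [nat_lit 69980701749, nat_lit 69964186677], [nat_lit 69946618805, nat_lit 153924533], [nat_lit 139722785589], [nat_lit 139722785585], [nat_lit 102261301]] [])))
(.node (nat_lit 576)
(.node (nat_lit 519)
(.leaf [[nat_lit 139773953461, nat_lit 139775514037], [nat_lit 139773941045, nat_lit 139774981429], [nat_lit 139773928629, nat_lit 139774448821], [nat_lit 139773916213], [nat_lit 69946618805, nat_lit 69946876853], [nat_lit 139722785589], [nat_lit 139722785585], [nat_lit 102261301]] [])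
(.leaf [[nat_lit 8726819906, nat_lit 2283898293, nat_lit 1263084981], [nat_lit 2334991669, nat_lit 1262552373], [nat_lit 2334979253, nat_lit 1262019765], [nat_lit 2334966837, nat_lit 1261487157], [nat_lit 2317919157], [nat_lit 136356661, nat_lit 3357573941], [nat_lit 2249753269, nat_lit 102793909], [nat_lit 102261301], [nat_lit 102261297]] []))
(.node (nat_lit 577)
(.leaf [[nat_lit 2335004085, nat_lit 1263084981], [nat_lit 2334991669, nat_lit 1262552373], [nat_lit 2334979253, nat_lit 1262019765], [nat_lit 2334966837, nat_lit 1261487157], [nat_lit 2317919157], [nat_lit 136356661, nat_lit 2267321141], [nat_lit 2249753269, nat_lit 102793909], [nat_lit 102261301], [nat_lit 102261297]] [])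
(.leaf [[nat_lit 1261524405, nat_lit 1263084981, nat_lit 153454005], [nat_lit 1261511989, nat_lit 1262552373, nat_lit 153441589], [nat_lit 1261499573, nat_lit 1262019765, nat_lit 153429173], [nat_lit 1261487157, nat_lit 153416757], [nat_lit 2317919157], [nat_lit 136356661, nat_lit 2267321141], [nat_lit 2249753269, nat_lit 102793909], [nat_lit 102261301], [nat_lit 102261297]] []))))
(.node (nat_lit 582)
(.node (nat_lit 580)
(.node (nat_lit 579)
(.leaf [[nat_lit 1261524405, nat_lit 1263084981, nat_lit 153454005], [nat_lit 1261511989, nat_lit 1262552373, nat_lit 153441589], [nat_lit 1261499573, nat_lit 1262019765, nat_lit 153429173], [nat_lit 1261487157, nat_lit 153416757], [nat_lit 2317919157], [nat_lit 136356661, nat_lit 2267321141], [nat_lit 2249753269, nat_lit 102793909], [nat_lit 102261301], [nat_lit 102261297]] [])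
(.leaf [[nat_lit 1261524405, nat_lit 1263084981, nat_lit 153454005], [nat_lit 1261511989, nat_lit 1262552373, nat_lit 153441589], [nat_lit 1261499573, nat_lit 1262019765, nat_lit 153429173], [nat_lit 1261487157, nat_lit 153416757], [nat_lit 2317919157], [nat_lit 139722785589], [nat_lit 2249753269, nat_lit 102793909], [nat_lit 102261301], [nat_lit 102261297]] []))
(.node (nat_lit 581)
(.leaf [[nat_lit 69980738997, nat_lit 69965784501], [nat_lit 69980726581, nat_lit 69965251893], [nat_lit 69980714165, nat_lit 69964719285], [nat_lit 69980701749, nat_lit 69964186677], [nat_lit 71020618677, nat_lit 69946618805], [nat_lit 139722785589], [nat_lit 2249753269, nat_lit 102793909], [nat_lit 102261301]] [])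
(.leaf [[nat_lit 139773953461, nat_lit 139775514037], [nat_lit 139773941045, nat_lit 139774981429], [nat_lit 139773928629, nat_lit 139774448821], [nat_lit 139773916213], [nat_lit 71020618677, nat_lit 69946618805], [nat_lit 139722785589], [nat_lit 2249753269, nat_lit 102793909, nat_lit 1176007349], [nat_lit 102261301]] [])))
(.node (nat_lit 584)
(.node (nat_lit 583)
(.leaf [[nat_lit 139773953461, nat_lit 139775514037], [nat_lit 139773941045, nat_lit 139774981429], [nat_lit 139773928629, nat_lit 139774448821], [nat_lit 139773916213], [nat_lit 69946618805, nat_lit 139723318197], [nat_lit 139722785589], [nat_lit 139722785585], [nat_lit 102261301]] [])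
(.leaf [[nat_lit 209567167925, nat_lit 139775514037], [nat_lit 209567155509, nat_lit 139774981429], [nat_lit 209567143093, nat_lit 139774448821], [nat_lit 139773916213], [nat_lit 209516012469, nat_lit 139723318197], [nat_lit 139722785589], [nat_lit 139722785585], [nat_lit 102261301]] []))
(.node (nat_lit 640)
(.leaf [[nat_lit 3409003957, nat_lit 2320049589, nat_lit 2283898293], [nat_lit 3408991541, nat_lit 2319516981, nat_lit 2283885877], [nat_lit 3408979125, nat_lit 2318984373, nat_lit 2283873461], [nat_lit 2334966837, nat_lit 2318451765], [nat_lit 2317919157], [nat_lit 4431315765], [nat_lit 2249753269, nat_lit 102793909], [nat_lit 102261301], [nat_lit 102261297]] [])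
(.leaf [[nat_lit 3409003957, nat_lit 2320049589, nat_lit 2300933557], [nat_lit 3408991541, nat_lit 2319516981, nat_lit 2300921141], [nat_lit 3408979125, nat_lit 2318984373, nat_lit 2300908725], [nat_lit 2334966837, nat_lit 2318451765], [nat_lit 2317919157], [nat_lit 4431315765], [nat_lit 2249753269, nat_lit 102793909], [nat_lit 102261301], [nat_lit 102261297]] [])))))
(.node (nat_lit 649)
(.node (nat_lit 645)
(.node (nat_lit 643)
(.node (nat_lit 642)
(.leaf [[nat_lit 2335004085, nat_lit 2320049589], [nat_lit 2334991669, nat_lit 2319516981], [nat_lit 2334979253, nat_lit 2318984373], [nat_lit 2334966837, nat_lit 2318451765], [nat_lit 2317919157], [nat_lit 4431315765], [nat_lit 2249753269, nat_lit 102793909], [nat_lit 102261301], [nat_lit 102261297]] [])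
(.leaf [[nat_lit 2335004085, nat_lit 2320049589], [nat_lit 2334991669, nat_lit 2319516981], [nat_lit 2334979253, nat_lit 2318984373], [nat_lit 2334966837, nat_lit 2318451765], [nat_lit 2317919157], [nat_lit 4431315765], [nat_lit 2249753269, nat_lit 102793909], [nat_lit 102261301], [nat_lit 102261297]] []))
(.node (nat_lit 644)
(.leaf [[nat_lit 2335004085, nat_lit 2320049589], [nat_lit 2334991669, nat_lit 2319516981], [nat_lit 2334979253, nat_lit 2318984373], [nat_lit 2334966837, nat_lit 2318451765], [nat_lit 2317919157], [nat_lit 69929571125, nat_lit 3357573941], [nat_lit 2249753269, nat_lit 102793909], [nat_lit 102261301]] [])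
(.leaf [[nat_lit 71054738869, nat_lit 69965784501, nat_lit 69946668469], [nat_lit 71054726453, nat_lit 69965251893, nat_lit 69946656053], [nat_lit 71054714037, nat_lit 71054972085, nat_lit 69946643637], [nat_lit 71037666357, nat_lit 71054439477, nat_lit 69946631221], [nat_lit 2317919157], [nat_lit 139722785589], [nat_lit 2249753269, nat_lit 102793909, nat_lit 3323486901], [nat_lit 102261301]] [])))
(.node (nat_lit 647)
(.node (nat_lit 646)
(.leaf [[nat_lit 139773953461, nat_lit 139775514037], [nat_lit 139773941045, nat_lit 139774981429], [nat_lit 139773928629, nat_lit 139774448821], [nat_lit 139773916213], [nat_lit 71020618677, nat_lit 69946618805], [nat_lit 139722785589], [nat_lit 2249753269, nat_lit 102793909, nat_lit 2249745077], [nat_lit 102261301]] [])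
(.leaf [[nat_lit 209567167925, nat_lit 139775514037], [nat_lit 209567155509, nat_lit 139774981429], [nat_lit 209567143093, nat_lit 139774448821], [nat_lit 139773916213], [nat_lit 71020618677, nat_lit 139722798005], [nat_lit 139722785589], [nat_lit 139722785585], [nat_lit 102261301]] []))
(.node (nat_lit 648)
(.leaf [[nat_lit 209567167925, nat_lit 139775514037], [nat_lit 209567155509, nat_lit 139774981429], [nat_lit 209567143093, nat_lit 209567401141], [nat_lit 139773916213], [nat_lit 209516012469, nat_lit 209516270517], [nat_lit 139722785589], [nat_lit 139722785585], [nat_lit 102261301]] [])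
(.leaf [[nat_lit 279360382389, nat_lit 279344907701], [nat_lit 279360369973, nat_lit 279344375093], [nat_lit 279360357557, nat_lit 279343842485], [nat_lit 279343309877], [nat_lit 209516012469, nat_lit 139723318197], [nat_lit 139722785589], [nat_lit 139722785585], [nat_lit 102261301]] []))))
(.node (nat_lit 707)
(.node (nat_lit 705)
(.node (nat_lit 704)
(.leaf [[nat_lit 4483003829, nat_lit 4484044213, nat_lit 4431377845], [nat_lit 4482471221, nat_lit 4483511605], [nat_lit 4482458805, nat_lit 4482978997], [nat_lit 4482446389], [nat_lit 2317919157], [nat_lit 4431315765], [nat_lit 6544712373], [nat_lit 102261301], [nat_lit 102261297]] [])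
(.leaf [[nat_lit 4482483637, nat_lit 4484044213], [nat_lit 4482471221, nat_lit 4483511605], [nat_lit 4482458805, nat_lit 4482978997], [nat_lit 4482446389], [nat_lit 2317919157], [nat_lit 4431315765], [nat_lit 6544712373], [nat_lit 102261301], [nat_lit 102261297]] []))
(.node (nat_lit 706)
(.leaf [[nat_lit 4484044213, nat_lit 2300933557], [nat_lit 4483511605, nat_lit 2300921141], [nat_lit 4482978997, nat_lit 2300908725], [nat_lit 4482446389], [nat_lit 2317919157], [nat_lit 4431315765], [nat_lit 6544712373], [nat_lit 102261301], [nat_lit 102261297]] [])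
(.leaf [[nat_lit 4484044213, nat_lit 2300933557], [nat_lit 4483511605, nat_lit 2300921141], [nat_lit 4482978997, nat_lit 2300908725], [nat_lit 4482446389], [nat_lit 2317919157], [nat_lit 4431315765], [nat_lit 6544712373], [nat_lit 102261301]] [])))
(.node (nat_lit 709)
(.node (nat_lit 708)
(.leaf [[nat_lit 3409003957, nat_lit 2320049589, nat_lit 2300933557], [nat_lit 3408991541, nat_lit 2319516981, nat_lit 2300921141], [nat_lit 3408979125, nat_lit 3409237173, nat_lit 2300908725], [nat_lit 3391931445, nat_lit 3408704565, nat_lit 2300896309], [nat_lit 2317919157], [nat_lit 4431315765], [nat_lit 6544712373], [nat_lit 102261301]] [])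
(.leaf [[nat_lit 72128218549, nat_lit 72129779125], [nat_lit 72128206133, nat_lit 72129246517], [nat_lit 72128193717, nat_lit 72128713909], [nat_lit 72128181301], [nat_lit 2317919157], [nat_lit 139722785589], [nat_lit 4397228725, nat_lit 2249753269, nat_lit 102793909], [nat_lit 102261301]] []))
(.node (nat_lit 710)
(.leaf [[nat_lit 140847953333, nat_lit 140832478645, nat_lit 139739882933], [nat_lit 140847940917, nat_lit 140831946037, nat_lit 139739870517], [nat_lit 140847928501, nat_lit 139739858101, nat_lit 140831413429], [nat_lit 140830880821, nat_lit 139739845685], [nat_lit 141887312821], [nat_lit 139722785589], [nat_lit 4397228725, nat_lit 2249753269, nat_lit 102793909], [nat_lit 102261301]] [])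
(.leaf [[nat_lit 209567167925, nat_lit 140832478645], [nat_lit 209567155509, nat_lit 140831946037], [nat_lit 209567143093, nat_lit 209567401141], [nat_lit 209550095413, nat_lit 140830880821], [nat_lit 141887312821], [nat_lit 139722785589], [nat_lit 139722785585], [nat_lit 102261301]] [])))))))
(.node (nat_lit 898)
(.node (nat_lit 779)
(.node (nat_lit 771)
(.node (nat_lit 714)
(.node (nat_lit 712)
(.leaf [[nat_lit 279360382389, nat_lit 279344907701], [nat_lit 279360369973, nat_lit 279344375093], [nat_lit 279360357557, nat_lit 279343842485], [nat_lit 279343309877], [nat_lit 210590012341, nat_lit 209516012469], [nat_lit 139722785589], [nat_lit 139722785585], [nat_lit 102261301]] [])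
(.node (nat_lit 713)
(.leaf [[nat_lit 279360382389, nat_lit 279344907701], [nat_lit 279360369973, nat_lit 279344375093], [nat_lit 279360357557, nat_lit 279343842485], [nat_lit 279343309877], [nat_lit 209516012469, nat_lit 279292711861], [nat_lit 139722785589], [nat_lit 139722785585]] [])
(.leaf [[nat_lit 349153596853, nat_lit 349154637237], [nat_lit 349153584437, nat_lit 349154104629], [nat_lit 349153572021], [nat_lit 279343309877], [nat_lit 209516012469, nat_lit 209516270517], [nat_lit 139722785589], [nat_lit 418861572913]] [])))
(.node (nat_lit 769)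
(.node (nat_lit 768)
(.leaf [[nat_lit 5556483509, nat_lit 4484044213, nat_lit 4431377845], [nat_lit 5556471093, nat_lit 4483511605, nat_lit 4431365429], [nat_lit 5556458677, nat_lit 4431353013, nat_lit 4482978997], [nat_lit 4482446389], [nat_lit 4448363445, nat_lit 3374883765], [nat_lit 4431315765], [nat_lit 6544712373], [nat_lit 102261301], [nat_lit 102261297]] [])
(.leaf [[nat_lit 5556483509, nat_lit 4484044213, nat_lit 4448413109], [nat_lit 5556471093, nat_lit 4483511605, nat_lit 4448400693], [nat_lit 5556458677, nat_lit 4448388277, nat_lit 4482978997], [nat_lit 4482446389], [nat_lit 4448363445, nat_lit 3374883765], [nat_lit 4431315765], [nat_lit 6544712373], [nat_lit 102261301], [nat_lit 102261297]] []))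
(.node (nat_lit 770)
(.leaf [[nat_lit 4482483637, nat_lit 4484044213], [nat_lit 4482471221, nat_lit 4483511605], [nat_lit 4482458805, nat_lit 4482978997], [nat_lit 4482446389], [nat_lit 4448363445, nat_lit 3374883765], [nat_lit 4431315765], [nat_lit 6544712373], [nat_lit 102261301]] [])
(.leaf [[nat_lit 4482483637, nat_lit 4484044213], [nat_lit 4482471221, nat_lit 4483511605], [nat_lit 4482458805, nat_lit 4482978997], [nat_lit 4482446389], [nat_lit 4448363445, nat_lit 3374883765], [nat_lit 4431315765], [nat_lit 6544712373], [nat_lit 102261301]] []))))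
(.node (nat_lit 775)
(.node (nat_lit 773)
(.node (nat_lit 772)
(.leaf [[nat_lit 4482483637, nat_lit 4484044213], [nat_lit 4482471221, nat_lit 4483511605], [nat_lit 4482458805, nat_lit 4482978997], [nat_lit 4482446389], [nat_lit 4448363445, nat_lit 3374883765], [nat_lit 4431315765], [nat_lit 6544712373], [nat_lit 102261301]] [])
(.leaf [[nat_lit 73202218421, nat_lit 73186743733, nat_lit 72094148021], [nat_lit 73202206005, nat_lit 73186211125, nat_lit 72094135605], [nat_lit 73202193589, nat_lit 72094123189, nat_lit 73185678517], [nat_lit 73185145909, nat_lit 72094110773], [nat_lit 141887312821], [nat_lit 4431315765], [nat_lit 6544712373], [nat_lit 102261301]] []))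
(.node (nat_lit 774)
(.leaf [[nat_lit 141921433013, nat_lit 140832478645], [nat_lit 141921420597, nat_lit 140831946037], [nat_lit 141921408181, nat_lit 141921666229], [nat_lit 141904360501, nat_lit 140830880821], [nat_lit 141887312821], [nat_lit 139722785589], [nat_lit 4397228725, nat_lit 2249753269, nat_lit 102793909], [nat_lit 102261301]] [])
(.leaf [[nat_lit 210641167797, nat_lit 210642208181, nat_lit 209533097397], [nat_lit 210641155381, nat_lit 210641675573, nat_lit 209533084981], [nat_lit 210641142965, nat_lit 209533072565], [nat_lit 211697574965], [nat_lit 141887312821], [nat_lit 139722785589], [nat_lit 139722785585], [nat_lit 102261301]] [])))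
(.node (nat_lit 777)
(.node (nat_lit 776)
(.leaf [[nat_lit 279360382389, nat_lit 279344907701], [nat_lit 279360369973, nat_lit 279344375093], [nat_lit 279360357557, nat_lit 279343842485], [nat_lit 279343309877], [nat_lit 141887312821], [nat_lit 139722785589], [nat_lit 139722785585]] [])
(.leaf [[nat_lit 349153596853, nat_lit 349154637237], [nat_lit 349153584437, nat_lit 349154104629], [nat_lit 349153572021], [nat_lit 279343309877], [nat_lit 280382964661, nat_lit 209516012469], [nat_lit 139722785589], [nat_lit 418861572913]] []))
(.node (nat_lit 778)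
(.leaf [[nat_lit 349153596853, nat_lit 349154637237], [nat_lit 349153584437, nat_lit 349154104629], [nat_lit 349153572021], [nat_lit 279343309877], [nat_lit 209516012469, nat_lit 279292711861], [nat_lit 418861572917], [nat_lit 418861572913]] [])
(.leaf [[nat_lit 418946811317, nat_lit 349154637237], [nat_lit 418946798901, nat_lit 349154104629], [nat_lit 349153572021], [nat_lit 418912703541], [nat_lit 209516012469, nat_lit 279292711861], [nat_lit 418861572917], [nat_lit 418861572913]] [])))))
(.node (nat_lit 839)
(.node (nat_lit 835)
(.node (nat_lit 833)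
(.node (nat_lit 832)
(.leaf [[nat_lit 6629963189, nat_lit 5541008821], [nat_lit 6629950773, nat_lit 5540476213], [nat_lit 6629938357, nat_lit 5539943605], [nat_lit 6612890677, nat_lit 5539410997], [nat_lit 6595842997], [nat_lit 4431315765], [nat_lit 6544712373], [nat_lit 102261301], [nat_lit 102261297]] [])
(.leaf [[nat_lit 6629963189, nat_lit 5541008821], [nat_lit 6629950773, nat_lit 5540476213], [nat_lit 6629938357, nat_lit 5539943605], [nat_lit 6612890677, nat_lit 5539410997], [nat_lit 6595842997], [nat_lit 4431315765], [nat_lit 6544712373], [nat_lit 102261301]] []))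
(.node (nat_lit 834)
(.leaf [[nat_lit 5556483509, nat_lit 5541008821, nat_lit 4448413109], [nat_lit 5556471093, nat_lit 5540476213, nat_lit 4448400693], [nat_lit 5556458677, nat_lit 4448388277, nat_lit 5539943605], [nat_lit 6612890677, nat_lit 5539410997], [nat_lit 6595842997], [nat_lit 4431315765], [nat_lit 6544712373], [nat_lit 102261301]] [])
(.leaf [[nat_lit 5556483509, nat_lit 5541008821, nat_lit 4448413109], [nat_lit 5556471093, nat_lit 5540476213, nat_lit 4448400693], [nat_lit 5556458677, nat_lit 4448388277, nat_lit 5539943605], [nat_lit 6612890677, nat_lit 5539410997], [nat_lit 6595842997], [nat_lit 4431315765], [nat_lit 6544712373], [nat_lit 102261301]] [])))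
(.node (nat_lit 837)
(.node (nat_lit 836)
(.leaf [[nat_lit 5556483509, nat_lit 5541008821, nat_lit 4448413109], [nat_lit 5556471093, nat_lit 5540476213, nat_lit 4448400693], [nat_lit 5556458677, nat_lit 4448388277, nat_lit 5539943605], [nat_lit 5539410997, nat_lit 4448375861], [nat_lit 6595842997], [nat_lit 4431315765], [nat_lit 6544712373], [nat_lit 102261301]] [])
(.leaf [[nat_lit 74275698101, nat_lit 73186743733], [nat_lit 74275685685, nat_lit 73186211125], [nat_lit 74275673269, nat_lit 74275931317], [nat_lit 74258625589, nat_lit 73185145909], [nat_lit 141887312821], [nat_lit 4431315765], [nat_lit 6544712373], [nat_lit 102261301]] []))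
(.node (nat_lit 838)
(.leaf [[nat_lit 142995432885, nat_lit 142996473269, nat_lit 141887362485], [nat_lit 142995420469, nat_lit 142995940661, nat_lit 141887350069], [nat_lit 142995408053, nat_lit 141887337653], [nat_lit 144051840053], [nat_lit 141887312821], [nat_lit 4431315765], [nat_lit 6544712373], [nat_lit 102261301]] [])
(.leaf [[nat_lit 211714647477, nat_lit 211699172789], [nat_lit 211714635061, nat_lit 211698640181], [nat_lit 211714622645, nat_lit 211698107573], [nat_lit 211697574965], [nat_lit 141887312821], [nat_lit 139722785589], [nat_lit 139722785585]] []))))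
(.node (nat_lit 843)
(.node (nat_lit 841)
(.node (nat_lit 840)
(.leaf [[nat_lit 280434382261, nat_lit 279344907701, nat_lit 279326311861], [nat_lit 280434369845, nat_lit 280434627893, nat_lit 279326299445], [nat_lit 280417322165, nat_lit 280434095285, nat_lit 279326287029], [nat_lit 211697574965], [nat_lit 141887312821], [nat_lit 139722785589], [nat_lit 418861572913]] [])
(.leaf [[nat_lit 349153596853, nat_lit 349154637237], [nat_lit 349153584437, nat_lit 349154104629], [nat_lit 349153572021], [nat_lit 279343309877], [nat_lit 281456706485], [nat_lit 418861572917], [nat_lit 418861572913]] []))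
(.node (nat_lit 842)
(.leaf [[nat_lit 418946811317, nat_lit 349154637237], [nat_lit 418946798901, nat_lit 349154104629], [nat_lit 349153572021], [nat_lit 418912703541], [nat_lit 281456706485], [nat_lit 418861572917], [nat_lit 418861572913]] [])
(.leaf [[nat_lit 418946811317, nat_lit 349154637237], [nat_lit 418946798901, nat_lit 418947056949], [nat_lit 349153572021], [nat_lit 418912703541], [nat_lit 280382964661, nat_lit 209516012469], [nat_lit 418861572917], [nat_lit 418861572913]] [])))
(.node (nat_lit 896)
(.node (nat_lit 844)
(.leaf [[nat_lit 488740025781, nat_lit 488724030901], [nat_lit 488740013365, nat_lit 488723498293], [nat_lit 488722965685], [nat_lit 418912703541], [nat_lit 209516012469, nat_lit 418862105525], [nat_lit 418861572917], [nat_lit 418861572913]] [])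
(.leaf [[nat_lit 7703963061, nat_lit 7705003445, nat_lit 6578857397], [nat_lit 7703950645, nat_lit 7704470837, nat_lit 6578844981], [nat_lit 7703938229, nat_lit 6578832565], [nat_lit 6612890677, nat_lit 6596375605], [nat_lit 6595842997], [nat_lit 4431315765], [nat_lit 6544712373], [nat_lit 102261301]] []))
(.node (nat_lit 897)
(.leaf [[nat_lit 7703963061, nat_lit 7705003445, nat_lit 6595892661], [nat_lit 7703950645, nat_lit 7704470837, nat_lit 6595880245], [nat_lit 7703938229, nat_lit 6595867829], [nat_lit 6612890677, nat_lit 5539410997], [nat_lit 6595842997], [nat_lit 4431315765], [nat_lit 6544712373], [nat_lit 102261301]] [])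
(.leaf [[nat_lit 7705003445, nat_lit 6595892661], [nat_lit 7704470837, nat_lit 6595880245], [nat_lit 7703938229, nat_lit 6595867829], [nat_lit 6612890677, nat_lit 5539410997], [nat_lit 6595842997], [nat_lit 4431315765], [nat_lit 6544712373], [nat_lit 102261301]] []))))))
(.node (nat_lit 964)
(.node (nat_lit 906)
(.node (nat_lit 902)
(.node (nat_lit 900)
(.node (nat_lit 899)
(.leaf [[nat_lit 7705003445, nat_lit 6595892661], [nat_lit 7704470837, nat_lit 6595880245], [nat_lit 7703938229, nat_lit 6595867829], [nat_lit 6612890677, nat_lit 5539410997], [nat_lit 6595842997], [nat_lit 4431315765], [nat_lit 6544712373], [nat_lit 102261301]] [])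
(.leaf [[nat_lit 6629963189, nat_lit 5541008821], [nat_lit 6629950773, nat_lit 5540476213], [nat_lit 6629938357, nat_lit 6630196405], [nat_lit 6612890677, nat_lit 5539410997], [nat_lit 6595842997], [nat_lit 4431315765], [nat_lit 6544712373], [nat_lit 102261301]] []))
(.node (nat_lit 901)
(.leaf [[nat_lit 75349697973, nat_lit 75350738357, nat_lit 74241627573], [nat_lit 75349685557, nat_lit 75350205749, nat_lit 74241615157], [nat_lit 75349673141, nat_lit 74241602741], [nat_lit 76406105141], [nat_lit 6595842997], [nat_lit 4431315765], [nat_lit 6544712373], [nat_lit 102261301]] [])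
(.leaf [[nat_lit 144068912565, nat_lit 144053437877], [nat_lit 144068900149, nat_lit 144052905269], [nat_lit 144068887733, nat_lit 144052372661], [nat_lit 144051840053], [nat_lit 141887312821], [nat_lit 4431315765], [nat_lit 6544712373]] [])))
(.node (nat_lit 904)
(.node (nat_lit 903)
(.leaf [[nat_lit 212788647349, nat_lit 211699172789, nat_lit 211680576949], [nat_lit 212788634933, nat_lit 212788892981, nat_lit 211680564533], [nat_lit 212771587253, nat_lit 212788360373, nat_lit 211680552117], [nat_lit 144051840053], [nat_lit 141887312821], [nat_lit 4431315765], [nat_lit 6544712373]] [])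
(.leaf [[nat_lit 281507861941, nat_lit 281508902325], [nat_lit 281507849525, nat_lit 281508369717], [nat_lit 281507837109], [nat_lit 211697574965], [nat_lit 281456706485], [nat_lit 418861572917], [nat_lit 418861572913]] []))
(.node (nat_lit 905)
(.leaf [[nat_lit 350227596725, nat_lit 350211601845, nat_lit 349119526325], [nat_lit 350227584309, nat_lit 349119513909, nat_lit 350211069237], [nat_lit 350210536629, nat_lit 349119501493], [nat_lit 351266968629], [nat_lit 281456706485], [nat_lit 418861572917], [nat_lit 418861572913]] [])
(.leaf [[nat_lit 418946811317, nat_lit 350211601845], [nat_lit 418946798901, nat_lit 418947056949], [nat_lit 418929751221, nat_lit 350210536629], [nat_lit 418912703541], [nat_lit 281456706485], [nat_lit 418861572917], [nat_lit 418861572913]] []))))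
(.node (nat_lit 960)
(.node (nat_lit 908)
(.node (nat_lit 907)
(.leaf [[nat_lit 488740025781, nat_lit 488724030901], [nat_lit 488740013365, nat_lit 488723498293], [nat_lit 488722965685], [nat_lit 418912703541], [nat_lit 281456706485], [nat_lit 418861572917], [nat_lit 418861572913]] [])
(.leaf [[nat_lit 488740025781, nat_lit 488724030901], [nat_lit 488740013365, nat_lit 488723498293], [nat_lit 488722965685], [nat_lit 418912703541], [nat_lit 280382964661, nat_lit 280366191541], [nat_lit 418861572917]] []))
(.node (nat_lit 909)
(.leaf [[nat_lit 558533240245, nat_lit 558533760437], [nat_lit 558533227829], [nat_lit 488722965685], [nat_lit 558482097205], [nat_lit 558482097201], [nat_lit 418861572917]] [])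
(.leaf [[nat_lit 8777442741, nat_lit 7705003445], [nat_lit 8777430325, nat_lit 7704470837], [nat_lit 8777417909, nat_lit 7703938229], [nat_lit 8760370229], [nat_lit 6595842997], [nat_lit 4431315765], [nat_lit 6544712373], [nat_lit 6544712369]] [])))
(.node (nat_lit 962)
(.node (nat_lit 961)
(.leaf [[nat_lit 8777442741, nat_lit 7705003445], [nat_lit 8777430325, nat_lit 7704470837], [nat_lit 8777417909, nat_lit 7703938229], [nat_lit 8760370229], [nat_lit 6595842997], [nat_lit 4431315765], [nat_lit 6544712373], [nat_lit 6544712369]] [])
(.leaf [[nat_lit 7703963061, nat_lit 7705003445, nat_lit 6595892661], [nat_lit 7703950645, nat_lit 7704470837, nat_lit 6595880245], [nat_lit 7703938229, nat_lit 6595867829], [nat_lit 8760370229], [nat_lit 6595842997], [nat_lit 4431315765], [nat_lit 6544712373], [nat_lit 6544712369]] []))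
(.node (nat_lit 963)
(.leaf [[nat_lit 7703963061, nat_lit 7705003445, nat_lit 6595892661], [nat_lit 7703950645, nat_lit 7704470837, nat_lit 6595880245], [nat_lit 7703938229, nat_lit 6595867829], [nat_lit 8760370229], [nat_lit 6595842997], [nat_lit 4431315765], [nat_lit 6544712373], [nat_lit 6544712369]] [])
(.leaf [[nat_lit 7703963061, nat_lit 7705003445, nat_lit 6595892661], [nat_lit 7703950645, nat_lit 7704470837, nat_lit 6595880245], [nat_lit 7703938229, nat_lit 6595867829], [nat_lit 8760370229], [nat_lit 6595842997], [nat_lit 4431315765], [nat_lit 6544712373], [nat_lit 6544712369]] [])))))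
(.node (nat_lit 972)
(.node (nat_lit 968)
(.node (nat_lit 966)
(.node (nat_lit 965)
(.leaf [[nat_lit 76423177653, nat_lit 76407702965], [nat_lit 76423165237, nat_lit 76407170357], [nat_lit 76423152821, nat_lit 76406637749], [nat_lit 76406105141], [nat_lit 6595842997], [nat_lit 4431315765], [nat_lit 6544712373]] [])
(.leaf [[nat_lit 145142912437, nat_lit 144053437877, nat_lit 144034842037], [nat_lit 145142900021, nat_lit 145143158069, nat_lit 144034829621], [nat_lit 145125852341, nat_lit 145142625461, nat_lit 144034817205], [nat_lit 76406105141], [nat_lit 6595842997], [nat_lit 4431315765], [nat_lit 6544712373]] []))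
(.node (nat_lit 967)
(.leaf [[nat_lit 213862127029, nat_lit 213863167413], [nat_lit 213862114613, nat_lit 213862634805], [nat_lit 213862102197], [nat_lit 144051840053], [nat_lit 281456706485], [nat_lit 4431315765], [nat_lit 6544712373]] [])
(.leaf [[nat_lit 282581861813, nat_lit 282565866933, nat_lit 281473791413], [nat_lit 282581849397, nat_lit 281473778997, nat_lit 282565334325], [nat_lit 282564801717, nat_lit 281473766581], [nat_lit 283621233717], [nat_lit 281456706485], [nat_lit 418861572917], [nat_lit 6544712373]] [])))
(.node (nat_lit 970)
(.node (nat_lit 969)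
(.leaf [[nat_lit 351301076405, nat_lit 350211601845], [nat_lit 351301063989, nat_lit 351301322037], [nat_lit 351284016309, nat_lit 350210536629], [nat_lit 351266968629], [nat_lit 281456706485], [nat_lit 418861572917], [nat_lit 418861572913]] [])
(.leaf [[nat_lit 420020811189, nat_lit 420021331381, nat_lit 418912740789], [nat_lit 420020798773, nat_lit 418912728373], [nat_lit 421077230773], [nat_lit 418912703541], [nat_lit 281456706485], [nat_lit 418861572917], [nat_lit 418861572913]] []))
(.node (nat_lit 971)
(.leaf [[nat_lit 488740025781, nat_lit 488724030901], [nat_lit 488740013365, nat_lit 488723498293], [nat_lit 488722965685], [nat_lit 418912703541], [nat_lit 281456706485], [nat_lit 418861572917]] [])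
(.leaf [[nat_lit 558533240245, nat_lit 558533760437], [nat_lit 558533227829], [nat_lit 488722965685], [nat_lit 558482097205], [nat_lit 281456706485], [nat_lit 418861572917]] []))))
(.node (nat_lit 1025)
(.node (nat_lit 974)
(.node (nat_lit 973)
(.leaf [[nat_lit 558533240245, nat_lit 558533760437], [nat_lit 558533227829], [nat_lit 488722965685], [nat_lit 558482097205], [nat_lit 558482097201], [nat_lit 418861572917]] [])
(.leaf [[nat_lit 628326454709, nat_lit 558533760437], [nat_lit 558533227829], [nat_lit 488722965685], [nat_lit 558482097205], [nat_lit 558482097201], [nat_lit 418861572917]] []))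
(.node (nat_lit 1024)
(.leaf [[nat_lit 9851442613, nat_lit 8761968053, nat_lit 8726336949], [nat_lit 9851430197, nat_lit 8761435445, nat_lit 8726324533], [nat_lit 8777417909, nat_lit 8760902837], [nat_lit 8760370229], [nat_lit 6595842997], [nat_lit 4431315765], [nat_lit 6544712373], [nat_lit 6544712369]] [])
(.leaf [[nat_lit 9851442613, nat_lit 8761968053, nat_lit 8743372213], [nat_lit 9851430197, nat_lit 8761435445, nat_lit 8743359797], [nat_lit 8777417909, nat_lit 8760902837], [nat_lit 8760370229], [nat_lit 6595842997], [nat_lit 4431315765], [nat_lit 6544712373], [nat_lit 6544712369]] [])))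
(.node (nat_lit 1027)
(.node (nat_lit 1026)
(.leaf [[nat_lit 8777442741, nat_lit 8761968053], [nat_lit 8777430325, nat_lit 8761435445], [nat_lit 8777417909, nat_lit 8760902837], [nat_lit 8760370229], [nat_lit 6595842997], [nat_lit 4431315765], [nat_lit 6544712373], [nat_lit 6544712369]] [])
(.leaf [[nat_lit 8777442741, nat_lit 8761968053], [nat_lit 8777430325, nat_lit 8761435445], [nat_lit 8777417909, nat_lit 8760902837], [nat_lit 8760370229], [nat_lit 6595842997], [nat_lit 4431315765], [nat_lit 6544712373], [nat_lit 6544712369]] []))
(.node (nat_lit 1028)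
(.leaf [[nat_lit 8777442741, nat_lit 8761968053], [nat_lit 8777430325, nat_lit 8761435445], [nat_lit 8777417909, nat_lit 8760902837], [nat_lit 8760370229], [nat_lit 6595842997], [nat_lit 4431315765], [nat_lit 6544712373]] [])
(.leaf [[nat_lit 77497177525, nat_lit 76407702965, nat_lit 76389107125], [nat_lit 77497165109, nat_lit 77497423157, nat_lit 76389094709], [nat_lit 77480117429, nat_lit 77496890549, nat_lit 76389082293], [nat_lit 8760370229], [nat_lit 6595842997], [nat_lit 4431315765], [nat_lit 6544712373]] []))))))))
(.node (nat_lit 1233)
(.node (nat_lit 1155)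
(.node (nat_lit 1092)
(.node (nat_lit 1036)
(.node (nat_lit 1032)
(.node (nat_lit 1030)
(.leaf [[nat_lit 146216392117, nat_lit 146217432501], [nat_lit 146216379701, nat_lit 146216899893], [nat_lit 146216367285], [nat_lit 76406105141], [nat_lit 146165236661], [nat_lit 4431315765], [nat_lit 6544712373]] [])
(.node (nat_lit 1031)
(.leaf [[nat_lit 214936126901, nat_lit 214920132021, nat_lit 213828056501], [nat_lit 214936114485, nat_lit 213828044085, nat_lit 214919599413], [nat_lit 214919066805, nat_lit 213828031669], [nat_lit 283621233717], [nat_lit 146165236661], [nat_lit 4431315765], [nat_lit 6544712373]] [])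
(.leaf [[nat_lit 283655341493, nat_lit 282565866933], [nat_lit 283655329077, nat_lit 283655587125], [nat_lit 283638281397, nat_lit 282564801717], [nat_lit 283621233717], [nat_lit 281456706485], [nat_lit 418861572917], [nat_lit 6544712373]] [])))
(.node (nat_lit 1034)
(.node (nat_lit 1033)
(.leaf [[nat_lit 352375076277, nat_lit 352375596469, nat_lit 351267005877], [nat_lit 352375063861, nat_lit 351266993461], [nat_lit 353431495861], [nat_lit 351266968629], [nat_lit 281456706485], [nat_lit 418861572917], [nat_lit 6544712373]] [])
(.leaf [[nat_lit 421094290869, nat_lit 421078295989], [nat_lit 421094278453, nat_lit 421077763381], [nat_lit 421077230773], [nat_lit 351266968629], [nat_lit 281456706485], [nat_lit 418861572917]] []))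
(.node (nat_lit 1035)
(.leaf [[nat_lit 489814025653, nat_lit 489814283701, nat_lit 488705955253], [nat_lit 489796977973, nat_lit 489813751093, nat_lit 488705942837], [nat_lit 421077230773], [nat_lit 418912703541], [nat_lit 281456706485], [nat_lit 418861572917]] [])
(.leaf [[nat_lit 558533240245, nat_lit 558533760437], [nat_lit 558533227829], [nat_lit 488722965685], [nat_lit 558482097205], [nat_lit 281456706485], [nat_lit 418861572917]] []))))
(.node (nat_lit 1088)
(.node (nat_lit 1038)
(.node (nat_lit 1037)
(.leaf [[nat_lit 628326454709, nat_lit 558533760437], [nat_lit 558533227829], [nat_lit 488722965685], [nat_lit 558482097205], [nat_lit 281456706485], [nat_lit 418861572917]] [])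
(.leaf [[nat_lit 628326454709, nat_lit 628326712757], [nat_lit 558533227829], [nat_lit 488722965685], [nat_lit 558482097205], [nat_lit 558482097201], [nat_lit 418861572917]] []))
(.node (nat_lit 1039)
(.leaf [[nat_lit 698119669173, nat_lit 698103154101], [nat_lit 698102621493], [nat_lit 488722965685], [nat_lit 558482097205], [nat_lit 558482097201], [nat_lit 418861572917]] [])
(.leaf [[nat_lit 10924922293, nat_lit 10925962677], [nat_lit 10924909877, nat_lit 10925430069], [nat_lit 10924897461], [nat_lit 8760370229], [nat_lit 6595842997], [nat_lit 4431315765], [nat_lit 6544712373], [nat_lit 6544712369]] [])))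
(.node (nat_lit 1090)
(.node (nat_lit 1089)
(.leaf [[nat_lit 10924922293, nat_lit 10925962677], [nat_lit 10924909877, nat_lit 10925430069], [nat_lit 10924897461], [nat_lit 8760370229], [nat_lit 6595842997], [nat_lit 4431315765], [nat_lit 6544712373], [nat_lit 6544712369]] [])
(.leaf [[nat_lit 10925962677, nat_lit 8743372213], [nat_lit 10925430069, nat_lit 8743359797], [nat_lit 10924897461], [nat_lit 8760370229], [nat_lit 6595842997], [nat_lit 4431315765], [nat_lit 6544712373], [nat_lit 6544712369]] []))
(.node (nat_lit 1091)
(.leaf [[nat_lit 10925962677, nat_lit 8743372213], [nat_lit 10925430069, nat_lit 8743359797], [nat_lit 10924897461], [nat_lit 8760370229], [nat_lit 6595842997], [nat_lit 4431315765], [nat_lit 6544712373]] [])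
(.leaf [[nat_lit 9851442613, nat_lit 8761968053, nat_lit 8743372213], [nat_lit 9851430197, nat_lit 9851688245, nat_lit 8743359797], [nat_lit 9834382517, nat_lit 9851155637, nat_lit 8743347381], [nat_lit 8760370229], [nat_lit 6595842997], [nat_lit 4431315765], [nat_lit 6544712373]] [])))))
(.node (nat_lit 1100)
(.node (nat_lit 1096)
(.node (nat_lit 1094)
(.node (nat_lit 1093)
(.leaf [[nat_lit 78570657205, nat_lit 78571697589], [nat_lit 78570644789, nat_lit 78571164981], [nat_lit 78570632373], [nat_lit 8760370229], [nat_lit 146165236661], [nat_lit 4431315765], [nat_lit 6544712373]] [])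
(.leaf [[nat_lit 147290391989, nat_lit 147274397109, nat_lit 146182321589], [nat_lit 147290379573, nat_lit 146182309173, nat_lit 147273864501], [nat_lit 147273331893, nat_lit 146182296757], [nat_lit 146182284341, nat_lit 147256022069], [nat_lit 146165236661], [nat_lit 4431315765], [nat_lit 6544712373]] []))
(.node (nat_lit 1095)
(.leaf [[nat_lit 216009606581, nat_lit 214920132021], [nat_lit 216009594165, nat_lit 216009852213], [nat_lit 215992546485, nat_lit 214919066805], [nat_lit 283621233717], [nat_lit 146165236661], [nat_lit 4431315765], [nat_lit 6544712373]] [])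
(.leaf [[nat_lit 284729341365, nat_lit 284729861557, nat_lit 283621270965], [nat_lit 284729328949, nat_lit 283621258549], [nat_lit 285785760949], [nat_lit 283621233717], [nat_lit 146165236661], [nat_lit 418861572917], [nat_lit 6544712373]] [])))
(.node (nat_lit 1098)
(.node (nat_lit 1097)
(.leaf [[nat_lit 353448555957, nat_lit 353432561077], [nat_lit 353448543541, nat_lit 353432028469], [nat_lit 353431495861], [nat_lit 283621233717], [nat_lit 281456706485], [nat_lit 418861572917]] [])
(.leaf [[nat_lit 422168290741, nat_lit 422168548789, nat_lit 421060220341], [nat_lit 422151243061, nat_lit 422168016181, nat_lit 421060207925], [nat_lit 353431495861], [nat_lit 351266968629], [nat_lit 281456706485], [nat_lit 418861572917]] []))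
(.node (nat_lit 1099)
(.leaf [[nat_lit 490887505333, nat_lit 490888025525], [nat_lit 490887492917], [nat_lit 421077230773], [nat_lit 558482097205], [nat_lit 281456706485], [nat_lit 418861572917]] [])
(.leaf [[nat_lit 559607240117, nat_lit 558499169717, nat_lit 559590725045], [nat_lit 559590192437, nat_lit 558499157301], [nat_lit 558499144885, nat_lit 559572882613], [nat_lit 558482097205], [nat_lit 281456706485], [nat_lit 418861572917]] []))))
(.node (nat_lit 1104)
(.node (nat_lit 1102)
(.node (nat_lit 1101)
(.leaf [[nat_lit 628326454709, nat_lit 628326712757], [nat_lit 628309407029, nat_lit 559590192437], [nat_lit 558499144885, nat_lit 559572882613], [nat_lit 558482097205], [nat_lit 281456706485], [nat_lit 418861572917]] [])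
(.leaf [[nat_lit 698119669173, nat_lit 698103154101], [nat_lit 698102621493], [nat_lit 558499144885, nat_lit 558482629813], [nat_lit 558482097205], [nat_lit 558482097201], [nat_lit 418861572917]] []))
(.node (nat_lit 1103)
(.leaf [[nat_lit 698119669173, nat_lit 698103154101], [nat_lit 698102621493], [nat_lit 558499144885, nat_lit 558499140789], [nat_lit 558482097205], [nat_lit 558482097201]] [])
(.leaf [[nat_lit 767912883637], [nat_lit 698102621493], [nat_lit 558499144885, nat_lit 558482629813], [nat_lit 558482097205], [nat_lit 558482097201]] [])))
(.node (nat_lit 1153)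
(.node (nat_lit 1152)
(.leaf [[nat_lit 11998922165, nat_lit 10925962677, nat_lit 9817109941], [nat_lit 11998909749, nat_lit 9817097525, nat_lit 10925430069], [nat_lit 10924897461], [nat_lit 8760370229], [nat_lit 6595842997], [nat_lit 4431315765], [nat_lit 6544712373], [nat_lit 6544712369]] [])
(.leaf [[nat_lit 11998922165, nat_lit 10925962677, nat_lit 10907887029], [nat_lit 11998909749, nat_lit 10907874613, nat_lit 10925430069], [nat_lit 10924897461], [nat_lit 8760370229], [nat_lit 6595842997], [nat_lit 4431315765], [nat_lit 6544712373], [nat_lit 6544712369]] []))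
(.node (nat_lit 1154)
(.leaf [[nat_lit 10924922293, nat_lit 10925962677], [nat_lit 10924909877, nat_lit 10925430069], [nat_lit 10924897461], [nat_lit 8760370229], [nat_lit 6595842997], [nat_lit 4431315765], [nat_lit 6544712373]] [])
(.leaf [[nat_lit 10924922293, nat_lit 10925962677], [nat_lit 10924909877, nat_lit 10925430069], [nat_lit 10924897461], [nat_lit 8760370229], [nat_lit 6595842997], [nat_lit 4431315765], [nat_lit 6544712373]] []))))))
(.node (nat_lit 1217)
(.node (nat_lit 1163)
(.node (nat_lit 1159)
(.node (nat_lit 1157)
(.node (nat_lit 1156)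
(.leaf [[nat_lit 10924922293, nat_lit 10925962677], [nat_lit 10924909877, nat_lit 10925430069], [nat_lit 10924897461], [nat_lit 8760370229], [nat_lit 146165236661], [nat_lit 4431315765], [nat_lit 6544712373]] [])
(.leaf [[nat_lit 79644657077, nat_lit 79628662197, nat_lit 78536586677], [nat_lit 79644644661, nat_lit 78536574261, nat_lit 79628129589], [nat_lit 79627596981, nat_lit 78536561845], [nat_lit 8760370229], [nat_lit 146165236661], [nat_lit 4431315765], [nat_lit 6544712373]] []))
(.node (nat_lit 1158)
(.leaf [[nat_lit 148363871669, nat_lit 147274397109], [nat_lit 148363859253, nat_lit 148364117301], [nat_lit 148346811573, nat_lit 147273331893], [nat_lit 146182284341, nat_lit 147256022069], [nat_lit 146165236661], [nat_lit 146165236657], [nat_lit 6544712373]] [])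
(.leaf [[nat_lit 217083606453, nat_lit 217084126645, nat_lit 215975536053], [nat_lit 217083594037, nat_lit 215975523637], [nat_lit 148346811573, nat_lit 147273331893], [nat_lit 283621233717], [nat_lit 146165236661], [nat_lit 418861572917], [nat_lit 6544712373]] [])))
(.node (nat_lit 1161)
(.node (nat_lit 1160)
(.leaf [[nat_lit 285802821045, nat_lit 285786826165], [nat_lit 285802808629, nat_lit 285786293557], [nat_lit 285785760949], [nat_lit 283621233717], [nat_lit 146165236661], [nat_lit 418861572917]] [])
(.leaf [[nat_lit 354522555829, nat_lit 354522813877, nat_lit 353414485429], [nat_lit 354505508149, nat_lit 354522281269, nat_lit 353414473013], [nat_lit 285785760949], [nat_lit 283621233717], [nat_lit 146165236661], [nat_lit 418861572917]] []))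
(.node (nat_lit 1162)
(.leaf [[nat_lit 423241770421, nat_lit 423242290613], [nat_lit 423241758005], [nat_lit 353431495861], [nat_lit 283621233717], [nat_lit 281456706485], [nat_lit 418861572917]] [])
(.leaf [[nat_lit 491961505205, nat_lit 490853434805, nat_lit 491944990133], [nat_lit 491944457525, nat_lit 490853422389], [nat_lit 490853409973, nat_lit 422134195381], [nat_lit 558482097205], [nat_lit 281456706485], [nat_lit 418861572917]] []))))
(.node (nat_lit 1167)
(.node (nat_lit 1165)
(.node (nat_lit 1164)
(.leaf [[nat_lit 560680719797, nat_lit 560680977845], [nat_lit 560663672117, nat_lit 559590192437], [nat_lit 490853409973, nat_lit 559572882613], [nat_lit 558482097205], [nat_lit 281456706485], [nat_lit 418861572917]] [])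
(.leaf [[nat_lit 629400454581, nat_lit 628292384181], [nat_lit 560663672117, nat_lit 559590192437], [nat_lit 558499144885, nat_lit 489779930293], [nat_lit 558482097205], [nat_lit 281456706485], [nat_lit 418861572917]] []))
(.node (nat_lit 1166)
(.leaf [[nat_lit 698119669173, nat_lit 698103154101], [nat_lit 698102621493], [nat_lit 558499144885, nat_lit 559572882613], [nat_lit 558482097205], [nat_lit 558482097201]] [])
(.leaf [[nat_lit 767912883637], [nat_lit 698102621493], [nat_lit 558499144885, nat_lit 559572882613], [nat_lit 558482097205], [nat_lit 558482097201]] [])))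
(.node (nat_lit 1169)
(.node (nat_lit 1168)
(.leaf [[nat_lit 767912883637], [nat_lit 698102621493], [nat_lit 558499144885, nat_lit 558482629813], [nat_lit 558482097205], [nat_lit 558482097201]] [])
(.leaf [[nat_lit 767912883637], [nat_lit 698102621493], [nat_lit 558499144885, nat_lit 558499140789], [nat_lit 558482097205], [nat_lit 558482097201]] []))
(.node (nat_lit 1216)
(.leaf [[nat_lit 11998922165, nat_lit 10925962677, nat_lit 10907887029], [nat_lit 11998909749, nat_lit 10907874613, nat_lit 10925430069], [nat_lit 10924897461], [nat_lit 8760370229], [nat_lit 6595842997], [nat_lit 4414280501, nat_lit 6545244981], [nat_lit 6544712373], [nat_lit 6544712369]] [])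
(.leaf [[nat_lit 11998922165, nat_lit 10925962677, nat_lit 10907887029], [nat_lit 11998909749, nat_lit 10907874613, nat_lit 10925430069], [nat_lit 10924897461], [nat_lit 8760370229], [nat_lit 6595842997], [nat_lit 8726283185, nat_lit 75264197429, nat_lit 5471245109, nat_lit 6545244981], [nat_lit 6544712373]] [])))))
(.node (nat_lit 1225)
(.node (nat_lit 1221)
(.node (nat_lit 1219)
(.node (nat_lit 1218)
(.leaf [[nat_lit 11998922165, nat_lit 10925962677, nat_lit 10907887029], [nat_lit 11998909749, nat_lit 10907874613, nat_lit 10925430069], [nat_lit 10924897461], [nat_lit 8760370229], [nat_lit 6595842997], [nat_lit 143983674165, nat_lit 8726283185, nat_lit 6545244981], [nat_lit 6544712373]] [])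
(.leaf [[nat_lit 11998922165, nat_lit 10925962677, nat_lit 10907887029], [nat_lit 11998909749, nat_lit 10907874613, nat_lit 10925430069], [nat_lit 10924897461], [nat_lit 8760370229], [nat_lit 146165236661], [nat_lit 146165236657], [nat_lit 6544712373]] []))
(.node (nat_lit 1220)
(.leaf [[nat_lit 11998922165, nat_lit 10925962677, nat_lit 10907887029], [nat_lit 11998909749, nat_lit 10907874613, nat_lit 10925430069], [nat_lit 10924897461], [nat_lit 8760370229], [nat_lit 146165236661], [nat_lit 146165236657], [nat_lit 6544712373]] [])
(.leaf [[nat_lit 80718136757, nat_lit 79628662197], [nat_lit 80718124341, nat_lit 80718382389], [nat_lit 79627596981, nat_lit 10907862197], [nat_lit 8760370229], [nat_lit 146165236661], [nat_lit 146165236657], [nat_lit 6544712373]] [])))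
(.node (nat_lit 1223)
(.node (nat_lit 1222)
(.leaf [[nat_lit 149437871541, nat_lit 149438391733, nat_lit 148346836405], [nat_lit 149437859125, nat_lit 148346823989], [nat_lit 148346811573, nat_lit 79627596981], [nat_lit 146182284341, nat_lit 77463069749], [nat_lit 146165236661], [nat_lit 146165236657], [nat_lit 6544712373]] [])
(.leaf [[nat_lit 218157086133, nat_lit 149438391733], [nat_lit 218157073717, nat_lit 149437859125], [nat_lit 285785760949], [nat_lit 283621233717], [nat_lit 146165236661], [nat_lit 418861572917]] []))
(.node (nat_lit 1224)
(.leaf [[nat_lit 286876820917, nat_lit 286877078965, nat_lit 285785785781], [nat_lit 218157073717, nat_lit 286876546357], [nat_lit 285785760949], [nat_lit 283621233717], [nat_lit 146165236661], [nat_lit 418861572917]] [])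
(.leaf [[nat_lit 355596035509, nat_lit 355596555701], [nat_lit 355596023093], [nat_lit 285785760949], [nat_lit 283621233717], [nat_lit 146165236661], [nat_lit 418861572917]] []))))
(.node (nat_lit 1229)
(.node (nat_lit 1227)
(.node (nat_lit 1226)
(.leaf [[nat_lit 424315770293, nat_lit 423224735157, nat_lit 355596555701], [nat_lit 355596023093], [nat_lit 285785760949], [nat_lit 283621233717], [nat_lit 146165236661], [nat_lit 418861572917]] [])
(.leaf [[nat_lit 493034984885, nat_lit 493035242933], [nat_lit 491944457525, nat_lit 423224722741], [nat_lit 490853409973, nat_lit 422134195381], [nat_lit 558482097205], [nat_lit 146165236661], [nat_lit 418861572917]] []))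
(.node (nat_lit 1228)
(.leaf [[nat_lit 561754719669, nat_lit 560663684533], [nat_lit 560663672117, nat_lit 491944457525], [nat_lit 490853409973, nat_lit 422134195381], [nat_lit 558482097205], [nat_lit 281456706485], [nat_lit 418861572917]] [])
(.leaf [[nat_lit 630473934261, nat_lit 561754719669], [nat_lit 698102621493], [nat_lit 490853409973, nat_lit 559572882613], [nat_lit 558482097205], [nat_lit 281456706485]] [])))
(.node (nat_lit 1231)
(.node (nat_lit 1230)
(.leaf [[nat_lit 630473934261, nat_lit 699193406901], [nat_lit 698102621493], [nat_lit 490853409973, nat_lit 559572882613], [nat_lit 558482097205], [nat_lit 558482097201]] [])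
(.leaf [[nat_lit 767912883637], [nat_lit 698102621493], [nat_lit 558499144885, nat_lit 558482629813], [nat_lit 558482097205], [nat_lit 558482097201]] []))
(.node (nat_lit 1232)
(.leaf [[nat_lit 767912883637], [nat_lit 698102621493], [nat_lit 558499144885, nat_lit 559572882613], [nat_lit 558482097205], [nat_lit 558482097201]] [])
(.leaf [[nat_lit 767912883637], [nat_lit 698102621493], [nat_lit 559572882613, nat_lit 558499144885], [nat_lit 558482097205], [nat_lit 558482097201]] [])))))))
(.node (nat_lit 1354)
(.node (nat_lit 1294)
(.node (nat_lit 1286)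
(.node (nat_lit 1282)
(.node (nat_lit 1280)
(.node (nat_lit 1234)
(.leaf [[nat_lit 767912883637], [nat_lit 698102621493], [nat_lit 558499144885, nat_lit 558482629813], [nat_lit 558482097205], [nat_lit 558482097201]] [])
(.leaf [[nat_lit 13089437109, nat_lit 13089957301], [nat_lit 13089424693], [nat_lit 10924897461], [nat_lit 8760370229], [nat_lit 6578807733, nat_lit 6545777589], [nat_lit 8726283185, nat_lit 5471245109, nat_lit 5470982965, nat_lit 6545244981], [nat_lit 6544712373]] []))
(.node (nat_lit 1281)
(.leaf [[nat_lit 13089437109, nat_lit 13089957301], [nat_lit 13089424693], [nat_lit 10924897461], [nat_lit 8760370229], [nat_lit 76372022197, nat_lit 76355507125], [nat_lit 8726283185, nat_lit 74190459701, nat_lit 6545244981], [nat_lit 6544712373]] [])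
(.leaf [[nat_lit 13089437109, nat_lit 13089957301], [nat_lit 13089424693], [nat_lit 10924897461], [nat_lit 8760370229], [nat_lit 76372022197, nat_lit 76355507125], [nat_lit 146165236657], [nat_lit 6544712373]] [])))
(.node (nat_lit 1284)
(.node (nat_lit 1283)
(.leaf [[nat_lit 13089437109, nat_lit 13089957301], [nat_lit 13089424693], [nat_lit 10924897461], [nat_lit 8760370229], [nat_lit 146165236661], [nat_lit 146165236657], [nat_lit 6544712373]] [])
(.leaf [[nat_lit 13089437109, nat_lit 13089957301], [nat_lit 13089424693], [nat_lit 10924897461], [nat_lit 8760370229], [nat_lit 146165236661], [nat_lit 146165236657], [nat_lit 6544712373]] []))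
(.node (nat_lit 1285)
(.leaf [[nat_lit 13089957301, nat_lit 10907887029], [nat_lit 13089424693], [nat_lit 79627596981, nat_lit 10907862197], [nat_lit 77463069749, nat_lit 8743334965], [nat_lit 146165236661], [nat_lit 146165236657], [nat_lit 6544712373]] [])
(.leaf [[nat_lit 149437871541, nat_lit 149438391733, nat_lit 148346836405], [nat_lit 149437859125, nat_lit 148346823989], [nat_lit 148346811573, nat_lit 79627596981], [nat_lit 146182284341, nat_lit 147256022069], [nat_lit 146165236661], [nat_lit 146165236657]] []))))
(.node (nat_lit 1290)
(.node (nat_lit 1288)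
(.node (nat_lit 1287)
(.leaf [[nat_lit 218157086133, nat_lit 149438391733], [nat_lit 218157073717, nat_lit 149437859125], [nat_lit 148346811573, nat_lit 217066284213], [nat_lit 283621233717], [nat_lit 146165236661], [nat_lit 418861572917]] [])
(.leaf [[nat_lit 219248121269, nat_lit 285785785781], [nat_lit 218157073717, nat_lit 285786293557], [nat_lit 285785760949], [nat_lit 283621233717], [nat_lit 146165236661], [nat_lit 418861572917]] []))
(.node (nat_lit 1289)
(.leaf [[nat_lit 355596035509, nat_lit 355596555701], [nat_lit 355596023093], [nat_lit 285785760949], [nat_lit 283621233717], [nat_lit 146165236661], [nat_lit 418861572917]] [])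
(.leaf [[nat_lit 424315770293, nat_lit 423224735157, nat_lit 355596555701], [nat_lit 355596023093], [nat_lit 285785760949], [nat_lit 283621233717], [nat_lit 146165236661], [nat_lit 418861572917]] [])))
(.node (nat_lit 1292)
(.node (nat_lit 1291)
(.leaf [[nat_lit 425406285237], [nat_lit 355596023093], [nat_lit 285785760949], [nat_lit 558482097205], [nat_lit 146165236661], [nat_lit 418861572917]] [])
(.leaf [[nat_lit 561754719669, nat_lit 560663684533], [nat_lit 560663672117, nat_lit 491944457525], [nat_lit 490853409973, nat_lit 559572882613], [nat_lit 558482097205], [nat_lit 146165236661]] []))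
(.node (nat_lit 1293)
(.leaf [[nat_lit 630473934261, nat_lit 561754719669], [nat_lit 560663672117, nat_lit 629383144757], [nat_lit 490853409973, nat_lit 559572882613], [nat_lit 558482097205], [nat_lit 558482097201]] [])
(.leaf [[nat_lit 630473934261, nat_lit 698103154101], [nat_lit 698102621493], [nat_lit 490853409973, nat_lit 558482629813], [nat_lit 558482097205], [nat_lit 558482097201]] [])))))
(.node (nat_lit 1346)
(.node (nat_lit 1298)
(.node (nat_lit 1296)
(.node (nat_lit 1295)
(.leaf [[nat_lit 767912883637], [nat_lit 698102621493], [nat_lit 490853409973, nat_lit 559572882613], [nat_lit 558482097205], [nat_lit 558482097201]] [])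
(.leaf [[nat_lit 767912883637], [nat_lit 698102621493], [nat_lit 559572882613, nat_lit 558499144885], [nat_lit 558482097205], [nat_lit 558482097201]] []))
(.node (nat_lit 1297)
(.leaf [[nat_lit 767912883637], [nat_lit 698102621493], [nat_lit 558499144885, nat_lit 558482629813], [nat_lit 558482097205], [nat_lit 558482097201]] [])
(.leaf [[nat_lit 767912883637], [nat_lit 698102621493], [nat_lit 559572882613, nat_lit 558499144885], [nat_lit 558482097205]] [])))
(.node (nat_lit 1344)
(.node (nat_lit 1299)
(.leaf [[nat_lit 767912883637], [nat_lit 698102621493], [nat_lit 698102621489], [nat_lit 558482097205]] [])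
(.leaf [[nat_lit 13089437109, nat_lit 13089957301], [nat_lit 13089424693], [nat_lit 10924897461], [nat_lit 9817072693, nat_lit 7653340213, nat_lit 8726299701], [nat_lit 7652545461, nat_lit 6561772469, nat_lit 7636030389, nat_lit 6562292661], [nat_lit 8726283185, nat_lit 8743334957, nat_lit 6545244981], [nat_lit 6544712373]] []))
(.node (nat_lit 1345)
(.leaf [[nat_lit 13089437109, nat_lit 13089957301], [nat_lit 13089424693], [nat_lit 10924897461], [nat_lit 8743334965, nat_lit 7653340213], [nat_lit 76372022197, nat_lit 76355507125], [nat_lit 8726283185, nat_lit 6545244981, nat_lit 75264197429, nat_lit 5471245109], [nat_lit 6544712373]] [])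
(.leaf [[nat_lit 13089437109, nat_lit 13089957301], [nat_lit 13089424693], [nat_lit 10924897461], [nat_lit 77463069749, nat_lit 8726299701], [nat_lit 146165236661], [nat_lit 146165236657], [nat_lit 6544712373]] []))))
(.node (nat_lit 1350)
(.node (nat_lit 1348)
(.node (nat_lit 1347)
(.leaf [[nat_lit 13089437109, nat_lit 13089957301], [nat_lit 13089424693], [nat_lit 10924897461], [nat_lit 77463069749, nat_lit 9817072693], [nat_lit 146165236661], [nat_lit 146165236657], [nat_lit 6544712373]] [])
(.leaf [[nat_lit 13089437109, nat_lit 13089957301], [nat_lit 13089424693], [nat_lit 79627596981, nat_lit 10907862197], [nat_lit 77463069749, nat_lit 8726299701], [nat_lit 146165236661], [nat_lit 146165236657], [nat_lit 6544712373]] []))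
(.node (nat_lit 1349)
(.leaf [[nat_lit 81809171893, nat_lit 10907887029, nat_lit 13089957301], [nat_lit 13089424693], [nat_lit 79627596981, nat_lit 10907862197], [nat_lit 147256022069, nat_lit 77463069749], [nat_lit 146165236661], [nat_lit 146165236657]] [])
(.leaf [[nat_lit 150528386485, nat_lit 150528644533], [nat_lit 149437859125, nat_lit 148346823989], [nat_lit 148346811573, nat_lit 79627596981], [nat_lit 146182284341, nat_lit 147256022069], [nat_lit 146165236661], [nat_lit 146165236657]] [])))
(.node (nat_lit 1352)
(.node (nat_lit 1351)
(.leaf [[nat_lit 219248121269, nat_lit 148346836405], [nat_lit 218157073717, nat_lit 149437859125], [nat_lit 285785760949], [nat_lit 283621233717], [nat_lit 146165236661], [nat_lit 418861572917]] [])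
(.leaf [[nat_lit 287967335861, nat_lit 219248121269], [nat_lit 218157073717, nat_lit 286876546357], [nat_lit 285785760949], [nat_lit 283621233717], [nat_lit 146165236661], [nat_lit 418861572917]] []))
(.node (nat_lit 1353)
(.leaf [[nat_lit 287967335861, nat_lit 356686808501], [nat_lit 355596023093], [nat_lit 285785760949], [nat_lit 283621233717], [nat_lit 146165236661], [nat_lit 418861572917]] [])
(.leaf [[nat_lit 425406285237], [nat_lit 355596023093], [nat_lit 285785760949], [nat_lit 283621233717], [nat_lit 146165236661], [nat_lit 418861572917]] []))))))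
(.node (nat_lit 1413)
(.node (nat_lit 1362)
(.node (nat_lit 1358)
(.node (nat_lit 1356)
(.node (nat_lit 1355)
(.leaf [[nat_lit 425406285237], [nat_lit 355596023093], [nat_lit 285785760949], [nat_lit 558482097205], [nat_lit 146165236661]] [])
(.leaf [[nat_lit 561754719669, nat_lit 560663684533], [nat_lit 560663672117, nat_lit 491944457525], [nat_lit 490853409973, nat_lit 559572882613], [nat_lit 558482097205], [nat_lit 146165236661]] []))
(.node (nat_lit 1357)
(.leaf [[nat_lit 630473934261, nat_lit 561754719669], [nat_lit 698102621493], [nat_lit 490853409973, nat_lit 422134195381], [nat_lit 558482097205], [nat_lit 558482097201]] [])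
(.leaf [[nat_lit 630473934261, nat_lit 699193406901], [nat_lit 698102621493], [nat_lit 490853409973, nat_lit 559572882613], [nat_lit 558482097205], [nat_lit 558482097201]] [])))
(.node (nat_lit 1360)
(.node (nat_lit 1359)
(.leaf [[nat_lit 767912883637], [nat_lit 698102621493], [nat_lit 559572882613, nat_lit 490853409973], [nat_lit 558482097205], [nat_lit 558482097201]] [])
(.leaf [[nat_lit 767912883637], [nat_lit 698102621493], [nat_lit 490853409973, nat_lit 558482629813], [nat_lit 558482097205], [nat_lit 558482097201]] []))
(.node (nat_lit 1361)
(.leaf [[nat_lit 767912883637], [nat_lit 698102621493], [nat_lit 559572882613, nat_lit 490853409973], [nat_lit 558482097205]] [])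
(.leaf [[nat_lit 767912883637], [nat_lit 698102621493], [nat_lit 698102621489], [nat_lit 558482097205]] []))))
(.node (nat_lit 1409)
(.node (nat_lit 1364)
(.node (nat_lit 1363)
(.leaf [[nat_lit 767912883637], [nat_lit 698102621493], [nat_lit 698102621489], [nat_lit 558482097205]] [])
(.leaf [[nat_lit 767912883637], [nat_lit 698102621493], [nat_lit 698102621489], [nat_lit 558482097205]] []))
(.node (nat_lit 1408)
(.leaf [[nat_lit 13089437109, nat_lit 13089957301], [nat_lit 13089424693], [nat_lit 10907862197, nat_lit 9817867445], [nat_lit 9817072693, nat_lit 9817867441, nat_lit 8726299701], [nat_lit 8726283189, nat_lit 8726299697, nat_lit 8726819889, nat_lit 6545777589], [nat_lit 9817072685, nat_lit 6545244981], [nat_lit 6544712373]] [[], [], [], [], [], [nat_lit 107228566954141]])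
(.leaf [[nat_lit 13089437109, nat_lit 13089957301], [nat_lit 13089424693], [nat_lit 10907862197, nat_lit 9817867445], [nat_lit 9817072693, nat_lit 8726299701, nat_lit 8726815797, nat_lit 8726819893], [nat_lit 8726283189, nat_lit 76354986933, nat_lit 76355507125], [nat_lit 8726283185, nat_lit 76354986929, nat_lit 75264197429, nat_lit 6545244981], [nat_lit 6544712373]] [])))
(.node (nat_lit 1411)
(.node (nat_lit 1410)
(.leaf [[nat_lit 13089437109, nat_lit 13089957301], [nat_lit 13089424693], [nat_lit 10907862197, nat_lit 10908120245], [nat_lit 9817072693, nat_lit 8726299701, nat_lit 77446292533, nat_lit 8726819893], [nat_lit 146165236661], [nat_lit 146165236657], [nat_lit 6544712373]] [])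
(.leaf [[nat_lit 13089437109, nat_lit 13089957301], [nat_lit 13089424693], [nat_lit 79627596981, nat_lit 10907862197], [nat_lit 9817072693, nat_lit 146165769269, nat_lit 8726299701], [nat_lit 146165236661], [nat_lit 146165236657], [nat_lit 6544712373]] []))
(.node (nat_lit 1412)
(.leaf [[nat_lit 13089437109, nat_lit 13089957301], [nat_lit 13089424693], [nat_lit 79627596981, nat_lit 10907862197], [nat_lit 147256022069, nat_lit 8726299701, nat_lit 8726819893], [nat_lit 146165236661], [nat_lit 146165236657]] [])
(.leaf [[nat_lit 81809171893, nat_lit 80718136757, nat_lit 13089957301], [nat_lit 13089424693], [nat_lit 79627596981, nat_lit 10907862197], [nat_lit 147256022069, nat_lit 146165249077, nat_lit 77446034485], [nat_lit 146165236661], [nat_lit 146165236657]] [])))))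
(.node (nat_lit 1421)
(.node (nat_lit 1417)
(.node (nat_lit 1415)
(.node (nat_lit 1414)
(.leaf [[nat_lit 82899686837], [nat_lit 13089424693], [nat_lit 148346811573, nat_lit 79627596981], [nat_lit 147256022069, nat_lit 146165249077, nat_lit 146165769269], [nat_lit 146165236661], [nat_lit 146165236657]] [])
(.leaf [[nat_lit 219248121269, nat_lit 218157086133], [nat_lit 218157073717, nat_lit 149437859125], [nat_lit 285785760949], [nat_lit 147256022069, nat_lit 283604198453, nat_lit 214884983861], [nat_lit 146165236661], [nat_lit 418861572917]] []))
(.node (nat_lit 1416)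
(.leaf [[nat_lit 287967335861, nat_lit 219248121269], [nat_lit 218157073717, nat_lit 286876546357], [nat_lit 285785760949], [nat_lit 147256022069, nat_lit 283604198453], [nat_lit 146165236661], [nat_lit 418861572917]] [])
(.leaf [[nat_lit 287967335861, nat_lit 219248121269], [nat_lit 355596023093], [nat_lit 285785760949], [nat_lit 147256022069, nat_lit 283604198453, nat_lit 352323933237], [nat_lit 146165236661], [nat_lit 418861572917]] [])))
(.node (nat_lit 1419)
(.node (nat_lit 1418)
(.leaf [[nat_lit 425406285237], [nat_lit 355596023093], [nat_lit 285785760949], [nat_lit 558482097205], [nat_lit 146165236661]] [])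
(.leaf [[nat_lit 425406285237], [nat_lit 355596023093], [nat_lit 285785760949], [nat_lit 558482097205], [nat_lit 146165236661]] []))
(.node (nat_lit 1420)
(.leaf [[nat_lit 425406285237], [nat_lit 355596023093], [nat_lit 285785760949], [nat_lit 558482097205], [nat_lit 146165236661]] [])
(.leaf [[nat_lit 630473934261, nat_lit 561754719669], [nat_lit 698102621493], [nat_lit 490853409973, nat_lit 559572882613], [nat_lit 558482097205], [nat_lit 146165236661]] []))))
(.node (nat_lit 1425)
(.node (nat_lit 1423)
(.node (nat_lit 1422)
(.leaf [[nat_lit 630473934261, nat_lit 699193406901], [nat_lit 698102621493], [nat_lit 559572882613, nat_lit 490853409973], [nat_lit 558482097205], [nat_lit 558482097201]] [])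
(.leaf [[nat_lit 767912883637], [nat_lit 698102621493], [nat_lit 490853409973, nat_lit 422134195381], [nat_lit 558482097205], [nat_lit 558482097201]] []))
(.node (nat_lit 1424)
(.leaf [[nat_lit 767912883637], [nat_lit 698102621493], [nat_lit 559572882613, nat_lit 490853409973], [nat_lit 558482097205]] [])
(.leaf [[nat_lit 767912883637], [nat_lit 698102621493], [nat_lit 559572882613, nat_lit 490853409973], [nat_lit 558482097205]] [])))
(.node (nat_lit 1427)
(.node (nat_lit 1426)
(.leaf [[nat_lit 767912883637], [nat_lit 698102621493], [nat_lit 698102621489], [nat_lit 558482097205]] [])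
(.leaf [[nat_lit 767912883637], [nat_lit 698102621493], [nat_lit 698102621489], [nat_lit 558482097205]] []))
(.node (nat_lit 1428)
(.leaf [[nat_lit 767912883637], [nat_lit 698102621493], [], [nat_lit 558482097205]] [])
(.leaf [[nat_lit 767912883637], [nat_lit 698102621493], [], [nat_lit 558482097205]] [])))))))))

end Vale.Agent.P181.K
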