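import Vale.Agent.P181.S.Eng2

namespace Vale.Agent.P181.K

noncomputable def ct24 : Tc :=
(.node (nat_lit 1089)
(.node (nat_lit 770)
(.node (nat_lit 517)
(.node (nat_lit 385)
(.node (nat_lit 257)
(.node (nat_lit 192)
(.node (nat_lit 128)
(.node (nat_lit 64)
(.leaf [[nat_lit 102793934, nat_lit 85250890], [nat_lit 102261326], [nat_lit 102261322, nat_lit 85758662], [nat_lit 102261318], [nat_lit 82], [nat_lit 78], [nat_lit 74], [nat_lit 70], [nat_lit 66], [nat_lit 62]] [])
(.leaf [[nat_lit 1227404230, nat_lit 1158988618, nat_lit 1210889158], [nat_lit 1193321286, nat_lit 1160291142, nat_lit 1176011466], [nat_lit 1159238342, nat_lit 1142981318, nat_lit 1141940934, nat_lit 1126208198], [nat_lit 1159238338, nat_lit 1142981314, nat_lit 1176011458, nat_lit 1126208194], [nat_lit 153924533, nat_lit 1176011454, nat_lit 1159238334], [nat_lit 136356661, nat_lit 103326517], [nat_lit 102793909, nat_lit 136356657], [nat_lit 102261301], [nat_lit 102261297]] [[], [], [], [], [], [nat_lit 846450828195], [], [], [], [nat_lit 837724512282]]))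
(.node (nat_lit 129)
(.leaf [[nat_lit 69946618822, nat_lit 69913588678], [nat_lit 69929571142, nat_lit 69812925254], [nat_lit 69929571138, nat_lit 69812925250], [nat_lit 204522549], [nat_lit 153404341, nat_lit 153924533], [nat_lit 136356661, nat_lit 103326517], [nat_lit 136356657, nat_lit 102793909], [nat_lit 102261301], [nat_lit 102261297]] [[], [], [], [], [], [], [], [], [], [nat_lit 837724512282]])
(.leaf [[nat_lit 2317919174], [nat_lit 2249753290, nat_lit 2267321158], [nat_lit 2249753286, nat_lit 2216723142], [nat_lit 2249753282, nat_lit 2216723138], [nat_lit 2249753278, nat_lit 153924533], [nat_lit 136356661, nat_lit 103326517], [nat_lit 136356657, nat_lit 102793909], [nat_lit 102261301], [nat_lit 102261297]] [[], [], [], [], [], [], [], [], [], [nat_lit 837724512282]])))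
(.node (nat_lit 194)
(.node (nat_lit 193)
(.leaf [[nat_lit 71020618694, nat_lit 70952203082], [nat_lit 70986535750, nat_lit 70935167814, nat_lit 70953243462], [nat_lit 70986535746, nat_lit 70952203074, nat_lit 70953243458], [nat_lit 204522549], [nat_lit 153404341, nat_lit 153924533], [nat_lit 136356661, nat_lit 103326517], [nat_lit 136356657, nat_lit 102793909], [nat_lit 102261301], [nat_lit 102261297]] [])
(.leaf [[nat_lit 139722785610, nat_lit 139671679818], [nat_lit 139722785606], [nat_lit 139722785602], [nat_lit 204522549], [nat_lit 153404341, nat_lit 153924533], [nat_lit 136356661, nat_lit 103326517], [nat_lit 136356657, nat_lit 102793909], [nat_lit 102261301], [nat_lit 102261297]] []))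
(.node (nat_lit 256)
(.leaf [[nat_lit 3374883782, nat_lit 3306468170], [nat_lit 3340800838, nat_lit 3323486922, nat_lit 3289432902, nat_lit 3324285766], [nat_lit 3324285762, nat_lit 3306468162, nat_lit 3306730306], [nat_lit 204522549], [nat_lit 153404341, nat_lit 153924533], [nat_lit 136356661, nat_lit 103326517], [nat_lit 136356657, nat_lit 102793909], [nat_lit 102261301], [nat_lit 102261297]] [])
(.leaf [[nat_lit 72094098374, nat_lit 72077583302], [nat_lit 72042980166, nat_lit 72026985286], [nat_lit 204534965, nat_lit 205055157], [nat_lit 204522549], [nat_lit 153404341, nat_lit 153924533], [nat_lit 136356661, nat_lit 103326517], [nat_lit 136356657, nat_lit 102793909], [nat_lit 102261301], [nat_lit 102261297]] []))))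
(.node (nat_lit 321)
(.node (nat_lit 259)
(.node (nat_lit 258)
(.leaf [[nat_lit 140762714954, nat_lit 140813571014, nat_lit 140780282822], [nat_lit 140762714950, nat_lit 205587765, nat_lit 140728382278], [nat_lit 204534965, nat_lit 205055157], [nat_lit 204522549], [nat_lit 153404341, nat_lit 153924533], [nat_lit 136356661, nat_lit 103326517], [nat_lit 136356657, nat_lit 102793909], [nat_lit 102261301], [nat_lit 102261297]] [])
(.leaf [[nat_lit 209481929546, nat_lit 209482982342], [nat_lit 209481929542, nat_lit 205587765], [nat_lit 204534965, nat_lit 205055157], [nat_lit 204522549], [nat_lit 153404341, nat_lit 153924533], [nat_lit 136356661, nat_lit 103326517], [nat_lit 136356657, nat_lit 102793909], [nat_lit 102261301], [nat_lit 102261297]] []))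
(.node (nat_lit 320)
(.leaf [[nat_lit 4448363462, nat_lit 4431848390], [nat_lit 4431315782], [nat_lit 4431315778], [nat_lit 204522549], [nat_lit 153404341, nat_lit 153924533], [nat_lit 136356661, nat_lit 103326517], [nat_lit 2249753269, nat_lit 102793909], [nat_lit 102261301], [nat_lit 102261297]] [])
(.leaf [[nat_lit 73116980042, nat_lit 73167836102, nat_lit 73134547910], [nat_lit 73116980038, nat_lit 205587765, nat_lit 73082647366], [nat_lit 204534965, nat_lit 205055157], [nat_lit 204522549], [nat_lit 153404341, nat_lit 153924533], [nat_lit 136356661, nat_lit 103326517], [nat_lit 2249753269, nat_lit 102793909], [nat_lit 102261301], [nat_lit 102261297]] [])))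
(.node (nat_lit 323)
(.node (nat_lit 322)
(.leaf [[nat_lit 141836714826, nat_lit 153454005, nat_lit 141853762502], [nat_lit 204547381, nat_lit 205587765], [nat_lit 204534965, nat_lit 205055157], [nat_lit 204522549], [nat_lit 153404341, nat_lit 153924533], [nat_lit 136356661, nat_lit 103326517], [nat_lit 2249753269, nat_lit 102793909], [nat_lit 102261301], [nat_lit 102261297]] [])
(.leaf [[nat_lit 204559797, nat_lit 206120373], [nat_lit 204547381, nat_lit 205587765], [nat_lit 204534965, nat_lit 205055157], [nat_lit 204522549], [nat_lit 153404341, nat_lit 153924533], [nat_lit 136356661, nat_lit 103326517], [nat_lit 136356657, nat_lit 102793909], [nat_lit 102261301], [nat_lit 102261297]] []))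
(.node (nat_lit 324)
(.leaf [[nat_lit 279275144010, nat_lit 279292711878], [nat_lit 279275144006, nat_lit 205587765], [nat_lit 204534965, nat_lit 205055157], [nat_lit 204522549], [nat_lit 153404341, nat_lit 153924533], [nat_lit 136356661, nat_lit 103326517], [nat_lit 136356657, nat_lit 102793909], [nat_lit 102261301], [nat_lit 102261297]] [])
(.node (nat_lit 384)
(.leaf [[nat_lit 5471245130, nat_lit 5522101190, nat_lit 5488812998], [nat_lit 5471245126, nat_lit 205587765, nat_lit 5470982982], [nat_lit 205055157, nat_lit 153429173], [nat_lit 204522549], [nat_lit 153404341, nat_lit 153924533], [nat_lit 136356661, nat_lit 103326517], [nat_lit 2249753269, nat_lit 102793909], [nat_lit 102261301], [nat_lit 102261297]] [])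
(.leaf [[nat_lit 74190459722, nat_lit 74191512518], [nat_lit 74190459718, nat_lit 205587765], [nat_lit 204534965, nat_lit 205055157], [nat_lit 204522549], [nat_lit 153404341, nat_lit 153924533], [nat_lit 136356661, nat_lit 103326517], [nat_lit 2249753269, nat_lit 102793909], [nat_lit 102261301], [nat_lit 102261297]] []))))))
(.node (nat_lit 451)
(.node (nat_lit 389)
(.node (nat_lit 387)
(.node (nat_lit 386)
(.leaf [[nat_lit 142893159242, nat_lit 206120373, nat_lit 170489269], [nat_lit 204547381, nat_lit 205587765], [nat_lit 204534965, nat_lit 205055157], [nat_lit 204522549], [nat_lit 153404341, nat_lit 153924533], [nat_lit 136356661, nat_lit 1193579317], [nat_lit 2249753269, nat_lit 102793909], [nat_lit 102261301], [nat_lit 102261297]] [])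
(.leaf [[nat_lit 204559797, nat_lit 206120373], [nat_lit 204547381, nat_lit 205587765], [nat_lit 204534965, nat_lit 205055157], [nat_lit 204522549], [nat_lit 153404341, nat_lit 153924533], [nat_lit 136356661, nat_lit 103326517], [nat_lit 2249753269, nat_lit 102793909], [nat_lit 102261301], [nat_lit 102261297]] []))
(.node (nat_lit 388)
(.leaf [[nat_lit 204559797, nat_lit 206120373], [nat_lit 204547381, nat_lit 205587765], [nat_lit 204534965, nat_lit 205055157], [nat_lit 204522549], [nat_lit 153404341, nat_lit 153924533], [nat_lit 139722785589], [nat_lit 69929571121, nat_lit 102793909], [nat_lit 102261301]] [])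
(.leaf [[nat_lit 204559797, nat_lit 206120373], [nat_lit 204547381, nat_lit 205587765], [nat_lit 204534965, nat_lit 205055157], [nat_lit 204522549], [nat_lit 153404341, nat_lit 153924533], [nat_lit 139722785589], [nat_lit 69929571121, nat_lit 102793909], [nat_lit 102261301]] [])))
(.node (nat_lit 449)
(.node (nat_lit 448)
(.leaf [[nat_lit 6544712398], [nat_lit 6544712394, nat_lit 6545244998], [nat_lit 6544712390], [nat_lit 204522549], [nat_lit 153404341, nat_lit 153924533], [nat_lit 136356661, nat_lit 2267321141], [nat_lit 2249753269, nat_lit 102793909], [nat_lit 102261301], [nat_lit 102261297]] [])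
(.leaf [[nat_lit 75298542534, nat_lit 75264197450], [nat_lit 204547381, nat_lit 205587765], [nat_lit 204534965, nat_lit 205055157], [nat_lit 204522549], [nat_lit 1244177333, nat_lit 153404341, nat_lit 153924533], [nat_lit 136356661, nat_lit 1193579317], [nat_lit 2249753269, nat_lit 102793909], [nat_lit 102261301], [nat_lit 102261297]] []))
(.node (nat_lit 450)
(.leaf [[nat_lit 143983674186, nat_lit 206120373], [nat_lit 204547381, nat_lit 205587765], [nat_lit 204534965, nat_lit 205055157], [nat_lit 204522549], [nat_lit 1244177333, nat_lit 153404341, nat_lit 153924533], [nat_lit 136356661, nat_lit 2267321141], [nat_lit 2249753269, nat_lit 102793909], [nat_lit 102261301], [nat_lit 102261297]] [])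
(.leaf [[nat_lit 204559797, nat_lit 206120373], [nat_lit 204547381, nat_lit 205587765], [nat_lit 204534965, nat_lit 205055157], [nat_lit 204522549], [nat_lit 153404341, nat_lit 153924533], [nat_lit 136356661, nat_lit 2267321141], [nat_lit 2249753269, nat_lit 102793909], [nat_lit 102261301]] []))))
(.node (nat_lit 512)
(.node (nat_lit 453)
(.node (nat_lit 452)
(.leaf [[nat_lit 204559797, nat_lit 206120373], [nat_lit 204547381, nat_lit 205587765], [nat_lit 204534965, nat_lit 205055157], [nat_lit 204522549], [nat_lit 153404341, nat_lit 153924533], [nat_lit 139722785589], [nat_lit 2249753269, nat_lit 102793909, nat_lit 1176007349], [nat_lit 102261301]] [])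
(.leaf [[nat_lit 204559797, nat_lit 206120373], [nat_lit 204547381, nat_lit 205587765], [nat_lit 204534965, nat_lit 205055157], [nat_lit 204522549], [nat_lit 153404341, nat_lit 153924533], [nat_lit 139722785589], [nat_lit 139722785585], [nat_lit 102261301]] []))
(.node (nat_lit 454)
(.leaf [[nat_lit 418861572938], [nat_lit 69997761845, nat_lit 205587765], [nat_lit 69997749429, nat_lit 205055157], [nat_lit 204522549], [nat_lit 69946618805, nat_lit 153924533], [nat_lit 139722785589], [nat_lit 139722785585], [nat_lit 102261301]] [])
(.leaf [[nat_lit 7653340226, nat_lit 153454005], [nat_lit 7652545474, nat_lit 205587765, nat_lit 153441589], [nat_lit 1278534837, nat_lit 153429173, nat_lit 205055157], [nat_lit 204522549], [nat_lit 2317919157], [nat_lit 136356661, nat_lit 2267321141], [nat_lit 2249753269, nat_lit 102793909], [nat_lit 102261301], [nat_lit 102261297]] [])))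
(.node (nat_lit 514)
(.node (nat_lit 513)
(.leaf [[nat_lit 76354986950, nat_lit 76355507142], [nat_lit 1278547253, nat_lit 205587765, nat_lit 170476853], [nat_lit 1278534837, nat_lit 170464437, nat_lit 205055157], [nat_lit 204522549], [nat_lit 2317919157], [nat_lit 136356661, nat_lit 2267321141], [nat_lit 2249753269, nat_lit 102793909], [nat_lit 102261301], [nat_lit 102261297]] [])
(.leaf [[nat_lit 204559797, nat_lit 206120373], [nat_lit 204547381, nat_lit 205587765], [nat_lit 204534965, nat_lit 205055157], [nat_lit 204522549], [nat_lit 2317919157], [nat_lit 136356661, nat_lit 2267321141], [nat_lit 2249753269, nat_lit 102793909], [nat_lit 102261301]] []))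
(.node (nat_lit 515)
(.leaf [[nat_lit 204559797, nat_lit 206120373], [nat_lit 204547381, nat_lit 205587765], [nat_lit 204534965, nat_lit 205055157], [nat_lit 204522549], [nat_lit 2317919157], [nat_lit 69929571125, nat_lit 2267321141], [nat_lit 2249753269, nat_lit 102793909, nat_lit 3323486901], [nat_lit 102261301]] [])
(.node (nat_lit 516)
(.leaf [[nat_lit 204559797, nat_lit 206120373], [nat_lit 204547381, nat_lit 205587765], [nat_lit 204534965, nat_lit 205055157], [nat_lit 204522549], [nat_lit 1244177333, nat_lit 153404341, nat_lit 153924533], [nat_lit 139722785589], [nat_lit 2249753269, nat_lit 102793909, nat_lit 1176007349], [nat_lit 102261301]] [])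
(.leaf [[nat_lit 69997774261, nat_lit 206120373], [nat_lit 69997761845, nat_lit 205587765], [nat_lit 69997749429, nat_lit 205055157], [nat_lit 204522549], [nat_lit 69946618805, nat_lit 153924533], [nat_lit 139722785589], [nat_lit 139722785585], [nat_lit 102261301]] [])))))))
(.node (nat_lit 645)
(.node (nat_lit 581)
(.node (nat_lit 577)
(.node (nat_lit 519)
(.node (nat_lit 518)
(.leaf [[nat_lit 69997774261, nat_lit 206120373], [nat_lit 69997761845, nat_lit 205587765], [nat_lit 69997749429, nat_lit 69998007477], [nat_lit 204522549], [nat_lit 69946618805, nat_lit 69946876853], [nat_lit 139722785589], [nat_lit 139722785585], [nat_lit 102261301]] [])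
(.leaf [[nat_lit 139790988725, nat_lit 139775514037], [nat_lit 139790976309, nat_lit 139774981429], [nat_lit 139790963893, nat_lit 139774448821], [nat_lit 139773916213], [nat_lit 69946618805, nat_lit 153924533], [nat_lit 139722785589], [nat_lit 139722785585], [nat_lit 102261301]] []))
(.node (nat_lit 576)
(.leaf [[nat_lit 8743334978, nat_lit 1263084981], [nat_lit 2352026933, nat_lit 1262552373], [nat_lit 2352014517, nat_lit 1262019765], [nat_lit 2334966837, nat_lit 1261487157], [nat_lit 2317919157], [nat_lit 4431315765], [nat_lit 2249753269, nat_lit 102793909], [nat_lit 102261301], [nat_lit 102261297]] [])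
(.leaf [[nat_lit 2352039349, nat_lit 1263084981], [nat_lit 2352026933, nat_lit 1262552373], [nat_lit 2352014517, nat_lit 1262019765], [nat_lit 2334966837, nat_lit 1261487157], [nat_lit 2317919157], [nat_lit 4431315765], [nat_lit 2249753269, nat_lit 102793909], [nat_lit 102261301]] [])))
(.node (nat_lit 579)
(.node (nat_lit 578)
(.leaf [[nat_lit 1278559669, nat_lit 1263084981, nat_lit 170489269], [nat_lit 1278547253, nat_lit 1262552373, nat_lit 170476853], [nat_lit 1278534837, nat_lit 170464437, nat_lit 1262019765], [nat_lit 2334966837, nat_lit 1261487157], [nat_lit 2317919157], [nat_lit 4431315765], [nat_lit 2249753269, nat_lit 102793909, nat_lit 3323486901], [nat_lit 102261301]] [])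
(.leaf [[nat_lit 1278559669, nat_lit 1263084981, nat_lit 170489269], [nat_lit 1278547253, nat_lit 1262552373, nat_lit 170476853], [nat_lit 1278534837, nat_lit 170464437, nat_lit 1262019765], [nat_lit 2334966837, nat_lit 1261487157], [nat_lit 2317919157], [nat_lit 69929571125, nat_lit 2267321141], [nat_lit 2249753269, nat_lit 102793909, nat_lit 3323486901], [nat_lit 102261301]] []))
(.node (nat_lit 580)
(.leaf [[nat_lit 1278559669, nat_lit 1263084981, nat_lit 170489269], [nat_lit 1278547253, nat_lit 1262552373, nat_lit 170476853], [nat_lit 1278534837, nat_lit 170464437, nat_lit 1262019765], [nat_lit 1261487157, nat_lit 170452021], [nat_lit 2317919157], [nat_lit 139722785589], [nat_lit 4397228725, nat_lit 2249753269, nat_lit 102793909], [nat_lit 102261301]] [])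
(.leaf [[nat_lit 69997774261, nat_lit 1263084981], [nat_lit 69997761845, nat_lit 1262552373], [nat_lit 69997749429, nat_lit 69998007477], [nat_lit 69980701749, nat_lit 1261487157], [nat_lit 2317919157], [nat_lit 139722785589], [nat_lit 139722785585], [nat_lit 102261301]] []))))
(.node (nat_lit 640)
(.node (nat_lit 583)
(.node (nat_lit 582)
(.leaf [[nat_lit 139790988725, nat_lit 139775514037], [nat_lit 139790976309, nat_lit 139774981429], [nat_lit 139790963893, nat_lit 139774448821], [nat_lit 139773916213], [nat_lit 71020618677, nat_lit 69946618805], [nat_lit 139722785589], [nat_lit 139722785585], [nat_lit 102261301]] [])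
(.leaf [[nat_lit 139790988725, nat_lit 139775514037], [nat_lit 139790976309, nat_lit 139774981429], [nat_lit 139790963893, nat_lit 139774448821], [nat_lit 139773916213], [nat_lit 69946618805, nat_lit 139723318197], [nat_lit 139722785589], [nat_lit 139722785585]] []))
(.node (nat_lit 584)
(.leaf [[nat_lit 209584203189, nat_lit 209585243573], [nat_lit 209584190773, nat_lit 209584710965], [nat_lit 209584178357], [nat_lit 139773916213], [nat_lit 69946618805, nat_lit 69946876853], [nat_lit 139722785589], [nat_lit 139722785585]] [])
(.leaf [[nat_lit 9817072706, nat_lit 3427079605, nat_lit 2300933557], [nat_lit 3426026805, nat_lit 3426546997, nat_lit 2300921141], [nat_lit 3426014389, nat_lit 2300908725], [nat_lit 2334966837, nat_lit 2318451765], [nat_lit 2317919157], [nat_lit 4431315765], [nat_lit 6544712373], [nat_lit 102261301]] [])))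
(.node (nat_lit 642)
(.node (nat_lit 641)
(.leaf [[nat_lit 3426039221, nat_lit 3427079605, nat_lit 2317968821], [nat_lit 3426026805, nat_lit 3426546997, nat_lit 2317956405], [nat_lit 3426014389, nat_lit 2317943989], [nat_lit 2334966837, nat_lit 1261487157], [nat_lit 2317919157], [nat_lit 4431315765], [nat_lit 6544712373], [nat_lit 102261301]] [])
(.leaf [[nat_lit 3427079605, nat_lit 2317968821], [nat_lit 3426546997, nat_lit 2317956405], [nat_lit 3426014389, nat_lit 2317943989], [nat_lit 2334966837, nat_lit 1261487157], [nat_lit 2317919157], [nat_lit 4431315765], [nat_lit 6544712373], [nat_lit 102261301]] []))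
(.node (nat_lit 643)
(.leaf [[nat_lit 3427079605, nat_lit 2317968821], [nat_lit 3426546997, nat_lit 2317956405], [nat_lit 3426014389, nat_lit 2317943989], [nat_lit 2334966837, nat_lit 1261487157], [nat_lit 2317919157], [nat_lit 4431315765], [nat_lit 4397228725, nat_lit 2249753269, nat_lit 102793909], [nat_lit 102261301]] [])
(.node (nat_lit 644)
(.leaf [[nat_lit 2352039349, nat_lit 1263084981], [nat_lit 2352026933, nat_lit 1262552373], [nat_lit 2352014517, nat_lit 2352272565], [nat_lit 2334966837, nat_lit 1261487157], [nat_lit 2317919157], [nat_lit 4431315765], [nat_lit 4397228725, nat_lit 2249753269, nat_lit 102793909], [nat_lit 102261301]] [])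
(.leaf [[nat_lit 71071774133, nat_lit 71072814517, nat_lit 69963703733], [nat_lit 71071761717, nat_lit 71072281909, nat_lit 69963691317], [nat_lit 71071749301, nat_lit 69963678901], [nat_lit 72128181301], [nat_lit 2317919157], [nat_lit 139722785589], [nat_lit 139722785585], [nat_lit 102261301]] []))))))
(.node (nat_lit 708)
(.node (nat_lit 649)
(.node (nat_lit 647)
(.node (nat_lit 646)
(.leaf [[nat_lit 139790988725, nat_lit 139775514037], [nat_lit 139790976309, nat_lit 139774981429], [nat_lit 139790963893, nat_lit 139774448821], [nat_lit 139773916213], [nat_lit 2317919157], [nat_lit 139722785589], [nat_lit 139722785585]] [])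
(.leaf [[nat_lit 209584203189, nat_lit 209585243573], [nat_lit 209584190773, nat_lit 209584710965], [nat_lit 209584178357], [nat_lit 139773916213], [nat_lit 140813570997, nat_lit 69946618805], [nat_lit 139722785589], [nat_lit 139722785585]] []))
(.node (nat_lit 648)
(.leaf [[nat_lit 209584203189, nat_lit 209585243573], [nat_lit 209584190773, nat_lit 209584710965], [nat_lit 209584178357], [nat_lit 139773916213], [nat_lit 209516012469, nat_lit 139723318197], [nat_lit 139722785589], [nat_lit 139722785585]] [])
(.leaf [[nat_lit 279377417653, nat_lit 209585243573], [nat_lit 279377405237, nat_lit 209584710965], [nat_lit 209584178357], [nat_lit 279343309877], [nat_lit 209516012469, nat_lit 139723318197], [nat_lit 139722785589], [nat_lit 139722785585]] [])))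
(.node (nat_lit 705)
(.node (nat_lit 704)
(.leaf [[nat_lit 4499518901, nat_lit 3427079605], [nat_lit 4499506485, nat_lit 3426546997], [nat_lit 4499494069, nat_lit 3426014389], [nat_lit 4482446389], [nat_lit 2317919157], [nat_lit 4431315765], [nat_lit 6544712373], [nat_lit 102261301]] [])
(.leaf [[nat_lit 4499518901, nat_lit 3427079605], [nat_lit 4499506485, nat_lit 3426546997], [nat_lit 4499494069, nat_lit 3426014389], [nat_lit 4482446389], [nat_lit 2317919157], [nat_lit 4431315765], [nat_lit 6544712373], [nat_lit 102261301]] []))
(.node (nat_lit 706)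
(.leaf [[nat_lit 3426039221, nat_lit 3427079605, nat_lit 2317968821], [nat_lit 3426026805, nat_lit 3426546997, nat_lit 2317956405], [nat_lit 3426014389, nat_lit 2317943989], [nat_lit 4482446389], [nat_lit 2317919157], [nat_lit 4431315765], [nat_lit 6544712373], [nat_lit 102261301]] [])
(.node (nat_lit 707)
(.leaf [[nat_lit 3426039221, nat_lit 3427079605, nat_lit 2317968821], [nat_lit 3426026805, nat_lit 3426546997, nat_lit 2317956405], [nat_lit 3426014389, nat_lit 2317943989], [nat_lit 4482446389], [nat_lit 2317919157], [nat_lit 4431315765], [nat_lit 6544712373], [nat_lit 102261301]] [])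
(.leaf [[nat_lit 3426039221, nat_lit 3427079605, nat_lit 2317968821], [nat_lit 3426026805, nat_lit 3426546997, nat_lit 2317956405], [nat_lit 3426014389, nat_lit 2317943989], [nat_lit 4482446389], [nat_lit 2317919157], [nat_lit 4431315765], [nat_lit 6544712373], [nat_lit 102261301]] [])))))
(.node (nat_lit 712)
(.node (nat_lit 710)
(.node (nat_lit 709)
(.leaf [[nat_lit 72145253813, nat_lit 72129779125], [nat_lit 72145241397, nat_lit 72129246517], [nat_lit 72145228981, nat_lit 72128713909], [nat_lit 72128181301], [nat_lit 2317919157], [nat_lit 139722785589], [nat_lit 139722785585]] [])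
(.leaf [[nat_lit 140864988597, nat_lit 139775514037, nat_lit 139756918197], [nat_lit 140864976181, nat_lit 140865234229, nat_lit 139756905781], [nat_lit 140847928501, nat_lit 140864701621, nat_lit 139756893365], [nat_lit 72128181301], [nat_lit 2317919157], [nat_lit 139722785589], [nat_lit 139722785585]] []))
(.node (nat_lit 711)
(.leaf [[nat_lit 209584203189, nat_lit 209585243573], [nat_lit 209584190773, nat_lit 209584710965], [nat_lit 209584178357], [nat_lit 139773916213], [nat_lit 141887312821], [nat_lit 139722785589], [nat_lit 139722785585]] [])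
(.leaf [[nat_lit 279377417653, nat_lit 209585243573], [nat_lit 279377405237, nat_lit 209584710965], [nat_lit 209584178357], [nat_lit 279343309877], [nat_lit 140813570997, nat_lit 209516012469, nat_lit 210590012341], [nat_lit 139722785589], [nat_lit 139722785585]] [])))
(.node (nat_lit 714)
(.node (nat_lit 713)
(.leaf [[nat_lit 279377417653, nat_lit 209585243573], [nat_lit 279377405237, nat_lit 279377663285], [nat_lit 209584178357], [nat_lit 279343309877], [nat_lit 210590012341, nat_lit 209516012469], [nat_lit 139722785589], [nat_lit 139722785585]] [])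
(.leaf [[nat_lit 349170632117, nat_lit 349154637237], [nat_lit 349170619701, nat_lit 349154104629], [nat_lit 349153572021], [nat_lit 279343309877], [nat_lit 209516012469, nat_lit 279292711861], [nat_lit 139722785589], [nat_lit 418861572913]] []))
(.node (nat_lit 768)
(.leaf [[nat_lit 5573518773, nat_lit 4484044213, nat_lit 4448413109], [nat_lit 5573506357, nat_lit 4483511605, nat_lit 4448400693], [nat_lit 4499494069, nat_lit 4482978997], [nat_lit 4482446389], [nat_lit 2317919157], [nat_lit 4431315765], [nat_lit 6544712373], [nat_lit 102261301]] [])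
(.node (nat_lit 769)
(.leaf [[nat_lit 5573518773, nat_lit 4484044213, nat_lit 4465448373], [nat_lit 5573506357, nat_lit 4483511605, nat_lit 4465435957], [nat_lit 4499494069, nat_lit 4482978997], [nat_lit 4482446389], [nat_lit 2317919157], [nat_lit 4431315765], [nat_lit 6544712373], [nat_lit 102261301]] [])
(.leaf [[nat_lit 4499518901, nat_lit 4484044213], [nat_lit 4499506485, nat_lit 4483511605], [nat_lit 4499494069, nat_lit 4482978997], [nat_lit 4482446389], [nat_lit 2317919157], [nat_lit 4431315765], [nat_lit 6544712373], [nat_lit 102261301]] []))))))))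
(.node (nat_lit 907)
(.node (nat_lit 839)
(.node (nat_lit 778)
(.node (nat_lit 774)
(.node (nat_lit 772)
(.node (nat_lit 771)
(.leaf [[nat_lit 4499518901, nat_lit 4484044213], [nat_lit 4499506485, nat_lit 4483511605], [nat_lit 4499494069, nat_lit 4482978997], [nat_lit 4482446389], [nat_lit 2317919157], [nat_lit 4431315765], [nat_lit 6544712373], [nat_lit 102261301]] [])
(.leaf [[nat_lit 4499518901, nat_lit 4484044213], [nat_lit 4499506485, nat_lit 4483511605], [nat_lit 4499494069, nat_lit 4482978997], [nat_lit 4482446389], [nat_lit 2317919157], [nat_lit 4431315765], [nat_lit 6544712373]] []))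
(.node (nat_lit 773)
(.leaf [[nat_lit 73219253685, nat_lit 72129779125, nat_lit 72111183285], [nat_lit 73219241269, nat_lit 73219499317, nat_lit 72111170869], [nat_lit 73202193589, nat_lit 73218966709, nat_lit 72111158453], [nat_lit 4482446389], [nat_lit 2317919157], [nat_lit 4431315765], [nat_lit 6544712373]] [])
(.leaf [[nat_lit 141938468277, nat_lit 141939508661], [nat_lit 141938455861, nat_lit 141938976053], [nat_lit 141938443445], [nat_lit 72128181301], [nat_lit 141887312821], [nat_lit 139722785589], [nat_lit 139722785585]] [])))
(.node (nat_lit 776)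
(.node (nat_lit 775)
(.leaf [[nat_lit 210658203061, nat_lit 210642208181, nat_lit 209550132661], [nat_lit 210658190645, nat_lit 209550120245, nat_lit 210641675573], [nat_lit 210641142965, nat_lit 209550107829], [nat_lit 211697574965], [nat_lit 141887312821], [nat_lit 139722785589], [nat_lit 139722785585]] [])
(.leaf [[nat_lit 279377417653, nat_lit 210642208181], [nat_lit 279377405237, nat_lit 279377663285], [nat_lit 279360357557, nat_lit 210641142965], [nat_lit 279343309877], [nat_lit 141887312821], [nat_lit 139722785589], [nat_lit 139722785585]] []))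
(.node (nat_lit 777)
(.leaf [[nat_lit 349170632117, nat_lit 349154637237], [nat_lit 349170619701, nat_lit 349154104629], [nat_lit 349153572021], [nat_lit 279343309877], [nat_lit 141887312821], [nat_lit 139722785589], [nat_lit 418861572913]] [])
(.leaf [[nat_lit 349170632117, nat_lit 349154637237], [nat_lit 349170619701, nat_lit 349154104629], [nat_lit 349153572021], [nat_lit 279343309877], [nat_lit 280382964661, nat_lit 210590012341], [nat_lit 418861572917]] []))))
(.node (nat_lit 834)
(.node (nat_lit 832)
(.node (nat_lit 779)
(.leaf [[nat_lit 418963846581, nat_lit 418964366773], [nat_lit 418963834165], [nat_lit 349153572021], [nat_lit 418912703541], [nat_lit 279309222837, nat_lit 209516012469, nat_lit 209516270517], [nat_lit 418861572917]] [])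
(.leaf [[nat_lit 6646998453, nat_lit 6648038837], [nat_lit 6646986037, nat_lit 6647506229], [nat_lit 6646973621], [nat_lit 4482446389], [nat_lit 6595842997], [nat_lit 4431315765], [nat_lit 6544712373], [nat_lit 102261301]] []))
(.node (nat_lit 833)
(.leaf [[nat_lit 6646998453, nat_lit 6648038837], [nat_lit 6646986037, nat_lit 6647506229], [nat_lit 6646973621], [nat_lit 4482446389], [nat_lit 6595842997], [nat_lit 4431315765], [nat_lit 6544712373], [nat_lit 102261301]] [])
(.leaf [[nat_lit 6648038837, nat_lit 4465448373], [nat_lit 6647506229, nat_lit 4465435957], [nat_lit 6646973621], [nat_lit 4482446389], [nat_lit 6595842997], [nat_lit 4431315765], [nat_lit 6544712373], [nat_lit 102261301]] [])))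
(.node (nat_lit 836)
(.node (nat_lit 835)
(.leaf [[nat_lit 6648038837, nat_lit 4465448373], [nat_lit 6647506229, nat_lit 4465435957], [nat_lit 6646973621], [nat_lit 4482446389], [nat_lit 6595842997], [nat_lit 4431315765], [nat_lit 6544712373]] [])
(.leaf [[nat_lit 5573518773, nat_lit 4484044213, nat_lit 4465448373], [nat_lit 5573506357, nat_lit 5573764405, nat_lit 4465435957], [nat_lit 5556458677, nat_lit 5573231797, nat_lit 4465423541], [nat_lit 4482446389], [nat_lit 6595842997], [nat_lit 4431315765], [nat_lit 6544712373]] []))
(.node (nat_lit 837)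
(.leaf [[nat_lit 74292733365, nat_lit 74293773749], [nat_lit 74292720949, nat_lit 74293241141], [nat_lit 74292708533], [nat_lit 4482446389], [nat_lit 141887312821], [nat_lit 4431315765], [nat_lit 6544712373]] [])
(.node (nat_lit 838)
(.leaf [[nat_lit 143012468149, nat_lit 142996473269, nat_lit 141904397749], [nat_lit 143012455733, nat_lit 141904385333, nat_lit 142995940661], [nat_lit 142995408053, nat_lit 141904372917], [nat_lit 144051840053], [nat_lit 141887312821], [nat_lit 4431315765], [nat_lit 6544712373]] [])
(.leaf [[nat_lit 211731682741, nat_lit 210642208181], [nat_lit 211731670325, nat_lit 211731928373], [nat_lit 211714622645, nat_lit 210641142965], [nat_lit 211697574965], [nat_lit 141887312821], [nat_lit 139722785589], [nat_lit 139722785585]] []))))))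
(.node (nat_lit 898)
(.node (nat_lit 843)
(.node (nat_lit 841)
(.node (nat_lit 840)
(.leaf [[nat_lit 280451417525, nat_lit 280451937717, nat_lit 279343347125], [nat_lit 280451405109, nat_lit 279343334709], [nat_lit 281507837109], [nat_lit 279343309877], [nat_lit 141887312821], [nat_lit 139722785589], [nat_lit 418861572913]] [])
(.leaf [[nat_lit 349170632117, nat_lit 349154637237], [nat_lit 349170619701, nat_lit 349154104629], [nat_lit 349153572021], [nat_lit 279343309877], [nat_lit 281456706485], [nat_lit 418861572917]] []))
(.node (nat_lit 842)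
(.leaf [[nat_lit 418963846581, nat_lit 418964366773], [nat_lit 418963834165], [nat_lit 349153572021], [nat_lit 418912703541], [nat_lit 281456706485], [nat_lit 418861572917]] [])
(.leaf [[nat_lit 418963846581, nat_lit 418964366773], [nat_lit 418963834165], [nat_lit 349153572021], [nat_lit 418912703541], [nat_lit 280382964661, nat_lit 210590012341], [nat_lit 418861572917]] [])))
(.node (nat_lit 896)
(.node (nat_lit 844)
(.leaf [[nat_lit 488757061045, nat_lit 418964366773], [nat_lit 418963834165], [nat_lit 488722965685], [nat_lit 418912703541], [nat_lit 418912703537], [nat_lit 418861572917]] [])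
(.leaf [[nat_lit 7720998325, nat_lit 6648038837, nat_lit 6595892661], [nat_lit 7720985909, nat_lit 6595880245, nat_lit 6647506229], [nat_lit 6646973621], [nat_lit 6612890677, nat_lit 5539410997], [nat_lit 6595842997], [nat_lit 4431315765], [nat_lit 6544712373], [nat_lit 102261301]] []))
(.node (nat_lit 897)
(.leaf [[nat_lit 7720998325, nat_lit 6648038837, nat_lit 6612927925], [nat_lit 7720985909, nat_lit 6612915509, nat_lit 6647506229], [nat_lit 6646973621], [nat_lit 6612890677, nat_lit 5539410997], [nat_lit 6595842997], [nat_lit 4431315765], [nat_lit 6544712373], [nat_lit 102261301]] [])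
(.leaf [[nat_lit 6646998453, nat_lit 6648038837], [nat_lit 6646986037, nat_lit 6647506229], [nat_lit 6646973621], [nat_lit 6612890677, nat_lit 5539410997], [nat_lit 6595842997], [nat_lit 4431315765], [nat_lit 6544712373]] []))))
(.node (nat_lit 902)
(.node (nat_lit 900)
(.node (nat_lit 899)
(.leaf [[nat_lit 6646998453, nat_lit 6648038837], [nat_lit 6646986037, nat_lit 6647506229], [nat_lit 6646973621], [nat_lit 6612890677, nat_lit 5539410997], [nat_lit 6595842997], [nat_lit 4431315765], [nat_lit 6544712373]] [])
(.leaf [[nat_lit 6646998453, nat_lit 6648038837], [nat_lit 6646986037, nat_lit 6647506229], [nat_lit 6646973621], [nat_lit 6612890677, nat_lit 5539410997], [nat_lit 6595842997], [nat_lit 4431315765], [nat_lit 6544712373]] []))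
(.node (nat_lit 901)
(.leaf [[nat_lit 75366733237, nat_lit 75350738357, nat_lit 74258662837], [nat_lit 75366720821, nat_lit 74258650421, nat_lit 75350205749], [nat_lit 75349673141, nat_lit 74258638005], [nat_lit 76406105141], [nat_lit 6595842997], [nat_lit 4431315765], [nat_lit 6544712373]] [])
(.leaf [[nat_lit 144085947829, nat_lit 142996473269], [nat_lit 144085935413, nat_lit 144086193461], [nat_lit 144068887733, nat_lit 142995408053], [nat_lit 144051840053], [nat_lit 141887312821], [nat_lit 4431315765], [nat_lit 6544712373]] [])))
(.node (nat_lit 904)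
(.node (nat_lit 903)
(.leaf [[nat_lit 212805682613, nat_lit 212806202805, nat_lit 211697612213], [nat_lit 212805670197, nat_lit 211697599797], [nat_lit 213862102197], [nat_lit 211697574965], [nat_lit 141887312821], [nat_lit 4431315765], [nat_lit 6544712373]] [])
(.leaf [[nat_lit 281524897205, nat_lit 281508902325], [nat_lit 281524884789, nat_lit 281508369717], [nat_lit 281507837109], [nat_lit 211697574965], [nat_lit 281456706485], [nat_lit 139722785589]] []))
(.node (nat_lit 905)
(.leaf [[nat_lit 350244631989, nat_lit 350244890037, nat_lit 349136561589], [nat_lit 350227584309, nat_lit 350244357429, nat_lit 349136549173], [nat_lit 281507837109], [nat_lit 279343309877], [nat_lit 281456706485], [nat_lit 418861572917]] [])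
(.node (nat_lit 906)
(.leaf [[nat_lit 418963846581, nat_lit 418964366773], [nat_lit 418963834165], [nat_lit 349153572021], [nat_lit 418912703541], [nat_lit 281456706485], [nat_lit 418861572917]] [])
(.leaf [[nat_lit 488757061045, nat_lit 418964366773], [nat_lit 418963834165], [nat_lit 488722965685], [nat_lit 418912703541], [nat_lit 281456706485], [nat_lit 418861572917]] [])))))))
(.node (nat_lit 974)
(.node (nat_lit 965)
(.node (nat_lit 961)
(.node (nat_lit 909)
(.node (nat_lit 908)
(.leaf [[nat_lit 488757061045, nat_lit 488757319093], [nat_lit 418963834165], [nat_lit 488722965685], [nat_lit 418912703541], [nat_lit 280382964661, nat_lit 210590012341], [nat_lit 418861572917]] [])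
(.leaf [[nat_lit 558550275509, nat_lit 558533760437], [nat_lit 558533227829], [nat_lit 488722965685], [nat_lit 418912703541], [nat_lit 558482097201], [nat_lit 418861572917]] []))
(.node (nat_lit 960)
(.leaf [[nat_lit 8794478005, nat_lit 7705003445], [nat_lit 8794465589, nat_lit 7704470837], [nat_lit 8777417909, nat_lit 7703938229], [nat_lit 8760370229], [nat_lit 6595842997], [nat_lit 4431315765], [nat_lit 6544712373], [nat_lit 6544712369]] [])
(.leaf [[nat_lit 8794478005, nat_lit 7705003445], [nat_lit 8794465589, nat_lit 7704470837], [nat_lit 8777417909, nat_lit 7703938229], [nat_lit 8760370229], [nat_lit 6595842997], [nat_lit 4431315765], [nat_lit 6544712373]] [])))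
(.node (nat_lit 963)
(.node (nat_lit 962)
(.leaf [[nat_lit 7720998325, nat_lit 7705003445, nat_lit 6612927925], [nat_lit 7720985909, nat_lit 6612915509, nat_lit 7704470837], [nat_lit 8777417909, nat_lit 7703938229], [nat_lit 8760370229], [nat_lit 6595842997], [nat_lit 4431315765], [nat_lit 6544712373]] [])
(.leaf [[nat_lit 7720998325, nat_lit 7705003445, nat_lit 6612927925], [nat_lit 7720985909, nat_lit 6612915509, nat_lit 7704470837], [nat_lit 8777417909, nat_lit 7703938229], [nat_lit 8760370229], [nat_lit 6595842997], [nat_lit 4431315765], [nat_lit 6544712373]] []))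
(.node (nat_lit 964)
(.leaf [[nat_lit 7720998325, nat_lit 7705003445, nat_lit 6612927925], [nat_lit 7720985909, nat_lit 6612915509, nat_lit 7704470837], [nat_lit 7703938229, nat_lit 6612903093], [nat_lit 8760370229], [nat_lit 6595842997], [nat_lit 4431315765], [nat_lit 6544712373]] [])
(.leaf [[nat_lit 76440212917, nat_lit 75350738357], [nat_lit 76440200501, nat_lit 76440458549], [nat_lit 76423152821, nat_lit 75349673141], [nat_lit 76406105141], [nat_lit 6595842997], [nat_lit 4431315765], [nat_lit 6544712373]] []))))
(.node (nat_lit 969)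
(.node (nat_lit 967)
(.node (nat_lit 966)
(.leaf [[nat_lit 145159947701, nat_lit 145160467893, nat_lit 144051877301], [nat_lit 145159935285, nat_lit 144051864885], [nat_lit 146216367285], [nat_lit 144051840053], [nat_lit 6595842997], [nat_lit 4431315765], [nat_lit 6544712373]] [])
(.leaf [[nat_lit 213879162293, nat_lit 213863167413], [nat_lit 213879149877, nat_lit 213862634805], [nat_lit 213862102197], [nat_lit 144051840053], [nat_lit 281456706485], [nat_lit 4431315765]] []))
(.node (nat_lit 968)
(.leaf [[nat_lit 282598897077, nat_lit 282599155125, nat_lit 281490826677], [nat_lit 282581849397, nat_lit 282598622517, nat_lit 281490814261], [nat_lit 213862102197], [nat_lit 211697574965], [nat_lit 281456706485], [nat_lit 418861572917]] [])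
(.leaf [[nat_lit 351318111669, nat_lit 351318631861], [nat_lit 351318099253], [nat_lit 281507837109], [nat_lit 351266968629], [nat_lit 281456706485], [nat_lit 418861572917]] [])))
(.node (nat_lit 971)
(.node (nat_lit 970)
(.leaf [[nat_lit 420037846453, nat_lit 418929776053, nat_lit 420021331381], [nat_lit 420020798773, nat_lit 418929763637], [nat_lit 421077230773], [nat_lit 418912703541], [nat_lit 281456706485], [nat_lit 418861572917]] [])
(.leaf [[nat_lit 488757061045, nat_lit 488757319093], [nat_lit 488740013365, nat_lit 420020798773], [nat_lit 488722965685], [nat_lit 418912703541], [nat_lit 281456706485], [nat_lit 418861572917]] []))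
(.node (nat_lit 972)
(.leaf [[nat_lit 558550275509, nat_lit 558533760437], [nat_lit 558533227829], [nat_lit 488722965685], [nat_lit 418912703541], [nat_lit 281456706485], [nat_lit 418861572917]] [])
(.node (nat_lit 973)
(.leaf [[nat_lit 558550275509, nat_lit 558533760437], [nat_lit 558533227829], [nat_lit 488722965685], [nat_lit 558482097205], [nat_lit 558482097201]] [])
(.leaf [[nat_lit 628343489973], [nat_lit 558533227829], [nat_lit 488722965685], [nat_lit 558482097205], [nat_lit 558482097201]] []))))))
(.node (nat_lit 1032)
(.node (nat_lit 1027)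
(.node (nat_lit 1025)
(.node (nat_lit 1024)
(.leaf [[nat_lit 9868477877, nat_lit 9868998069, nat_lit 8743372213], [nat_lit 9868465461, nat_lit 8743359797], [nat_lit 8777417909, nat_lit 8760902837], [nat_lit 8760370229], [nat_lit 6595842997], [nat_lit 4431315765], [nat_lit 6544712373]] [])
(.leaf [[nat_lit 9868477877, nat_lit 9868998069, nat_lit 8760407477], [nat_lit 9868465461, nat_lit 8760395061], [nat_lit 8777417909, nat_lit 7703938229], [nat_lit 8760370229], [nat_lit 6595842997], [nat_lit 4431315765], [nat_lit 6544712373]] []))
(.node (nat_lit 1026)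
(.leaf [[nat_lit 9868998069, nat_lit 8760407477], [nat_lit 9868465461, nat_lit 8760395061], [nat_lit 8777417909, nat_lit 7703938229], [nat_lit 8760370229], [nat_lit 6595842997], [nat_lit 4431315765], [nat_lit 6544712373]] [])
(.leaf [[nat_lit 9868998069, nat_lit 8760407477], [nat_lit 9868465461, nat_lit 8760395061], [nat_lit 8777417909, nat_lit 7703938229], [nat_lit 8760370229], [nat_lit 6595842997], [nat_lit 4431315765], [nat_lit 6544712373]] [])))
(.node (nat_lit 1029)
(.node (nat_lit 1028)
(.leaf [[nat_lit 8794478005, nat_lit 7705003445], [nat_lit 8794465589, nat_lit 8794723637], [nat_lit 8777417909, nat_lit 7703938229], [nat_lit 8760370229], [nat_lit 6595842997], [nat_lit 4431315765], [nat_lit 6544712373]] [])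
(.leaf [[nat_lit 77514212789, nat_lit 77514732981, nat_lit 76406142389], [nat_lit 77514200373, nat_lit 76406129973], [nat_lit 78570632373], [nat_lit 76406105141], [nat_lit 6595842997], [nat_lit 4431315765], [nat_lit 6544712373]] []))
(.node (nat_lit 1030)
(.leaf [[nat_lit 146233427381, nat_lit 146217432501], [nat_lit 146233414965, nat_lit 146216899893], [nat_lit 146216367285], [nat_lit 76406105141], [nat_lit 146165236661], [nat_lit 4431315765]] [])
(.node (nat_lit 1031)
(.leaf [[nat_lit 214953162165, nat_lit 214953420213, nat_lit 213845091765], [nat_lit 214936114485, nat_lit 214952887605, nat_lit 213845079349], [nat_lit 146216367285], [nat_lit 144051840053], [nat_lit 146165236661], [nat_lit 4431315765]] [])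
(.leaf [[nat_lit 283672376757, nat_lit 283672896949], [nat_lit 283672364341], [nat_lit 213862102197], [nat_lit 283621233717], [nat_lit 281456706485], [nat_lit 418861572917]] [])))))
(.node (nat_lit 1036)
(.node (nat_lit 1034)
(.node (nat_lit 1033)
(.leaf [[nat_lit 352392111541, nat_lit 351284041141, nat_lit 352375596469], [nat_lit 352375063861, nat_lit 351284028725], [nat_lit 353431495861], [nat_lit 351266968629], [nat_lit 281456706485], [nat_lit 418861572917]] [])
(.leaf [[nat_lit 421111326133, nat_lit 421111584181], [nat_lit 421094278453, nat_lit 420020798773], [nat_lit 421077230773], [nat_lit 351266968629], [nat_lit 281456706485], [nat_lit 418861572917]] []))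
(.node (nat_lit 1035)
(.leaf [[nat_lit 489831060917, nat_lit 488722990517], [nat_lit 490887492917], [nat_lit 488722965685], [nat_lit 418912703541], [nat_lit 281456706485], [nat_lit 418861572917]] [])
(.leaf [[nat_lit 558550275509, nat_lit 558533760437], [nat_lit 558533227829], [nat_lit 488722965685], [nat_lit 558482097205], [nat_lit 281456706485]] [])))
(.node (nat_lit 1038)
(.node (nat_lit 1037)
(.leaf [[nat_lit 628343489973], [nat_lit 558533227829], [nat_lit 488722965685], [nat_lit 558482097205], [nat_lit 281456706485]] [])
(.leaf [[nat_lit 628343489973], [nat_lit 558533227829], [nat_lit 488722965685], [nat_lit 558482097205], [nat_lit 558482097201]] []))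
(.node (nat_lit 1039)
(.leaf [[nat_lit 628343489973], [nat_lit 698102621493], [nat_lit 488722965685], [nat_lit 558482097205], [nat_lit 558482097201]] [])
(.node (nat_lit 1088)
(.leaf [[nat_lit 10941957557, nat_lit 9868998069], [nat_lit 10941945141, nat_lit 9868465461], [nat_lit 10924897461], [nat_lit 8760370229], [nat_lit 6595842997], [nat_lit 4431315765], [nat_lit 6544712373]] [])
(.leaf [[nat_lit 10941957557, nat_lit 9868998069], [nat_lit 10941945141, nat_lit 9868465461], [nat_lit 10924897461], [nat_lit 8760370229], [nat_lit 6595842997], [nat_lit 4431315765], [nat_lit 6544712373]] [])))))))))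
(.node (nat_lit 1296)
(.node (nat_lit 1216)
(.node (nat_lit 1153)
(.node (nat_lit 1097)
(.node (nat_lit 1093)
(.node (nat_lit 1091)
(.node (nat_lit 1090)
(.leaf [[nat_lit 9868477877, nat_lit 9868998069, nat_lit 8760407477], [nat_lit 9868465461, nat_lit 8760395061], [nat_lit 10924897461], [nat_lit 8760370229], [nat_lit 6595842997], [nat_lit 4431315765], [nat_lit 6544712373]] [])
(.leaf [[nat_lit 9868477877, nat_lit 9868998069, nat_lit 8760407477], [nat_lit 9868465461, nat_lit 8760395061], [nat_lit 10924897461], [nat_lit 8760370229], [nat_lit 6595842997], [nat_lit 4431315765], [nat_lit 6544712373]] []))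
(.node (nat_lit 1092)
(.leaf [[nat_lit 9868477877, nat_lit 9868998069, nat_lit 8760407477], [nat_lit 9868465461, nat_lit 8760395061], [nat_lit 10924897461], [nat_lit 8760370229], [nat_lit 6595842997], [nat_lit 4431315765], [nat_lit 6544712373]] [])
(.leaf [[nat_lit 78587692469, nat_lit 78571697589], [nat_lit 78587680053, nat_lit 78571164981], [nat_lit 78570632373], [nat_lit 8760370229], [nat_lit 146165236661], [nat_lit 4431315765]] [])))
(.node (nat_lit 1095)
(.node (nat_lit 1094)
(.leaf [[nat_lit 147307427253, nat_lit 147307685301, nat_lit 146199356853], [nat_lit 147290379573, nat_lit 147307152693, nat_lit 146199344437], [nat_lit 78570632373], [nat_lit 76406105141], [nat_lit 146165236661], [nat_lit 4431315765]] [])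
(.leaf [[nat_lit 216026641845, nat_lit 216027162037], [nat_lit 216026629429], [nat_lit 146216367285], [nat_lit 283621233717], [nat_lit 146165236661], [nat_lit 4431315765]] []))
(.node (nat_lit 1096)
(.leaf [[nat_lit 284746376629, nat_lit 283638306229, nat_lit 284729861557], [nat_lit 284729328949, nat_lit 283638293813], [nat_lit 285785760949], [nat_lit 283621233717], [nat_lit 146165236661], [nat_lit 418861572917]] [])
(.leaf [[nat_lit 353465591221, nat_lit 353465849269], [nat_lit 353448543541, nat_lit 352375063861], [nat_lit 353431495861], [nat_lit 283621233717], [nat_lit 281456706485], [nat_lit 418861572917]] []))))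
(.node (nat_lit 1101)
(.node (nat_lit 1099)
(.node (nat_lit 1098)
(.leaf [[nat_lit 422185326005, nat_lit 421077255605], [nat_lit 423241758005], [nat_lit 421077230773], [nat_lit 351266968629], [nat_lit 281456706485], [nat_lit 418861572917]] [])
(.leaf [[nat_lit 490904540597, nat_lit 490888025525], [nat_lit 490887492917], [nat_lit 421077230773], [nat_lit 351266968629], [nat_lit 281456706485]] []))
(.node (nat_lit 1100)
(.leaf [[nat_lit 559607240117, nat_lit 559624013237, nat_lit 558516204981], [nat_lit 490887492917], [nat_lit 488722965685], [nat_lit 558482097205], [nat_lit 281456706485]] [])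
(.leaf [[nat_lit 628343489973], [nat_lit 558533227829], [nat_lit 488722965685], [nat_lit 558482097205], [nat_lit 281456706485]] [])))
(.node (nat_lit 1103)
(.node (nat_lit 1102)
(.leaf [[nat_lit 628343489973], [nat_lit 698102621493], [nat_lit 488722965685], [nat_lit 558482097205], [nat_lit 281456706485]] [])
(.leaf [[nat_lit 628343489973], [nat_lit 698102621493], [nat_lit 488722965685], [nat_lit 558482097205], [nat_lit 558482097201]] []))
(.node (nat_lit 1104)
(.leaf [[nat_lit 767912883637], [nat_lit 698102621493], [nat_lit 488722965685], [nat_lit 558482097205], [nat_lit 558482097201]] [])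
(.node (nat_lit 1152)
(.leaf [[nat_lit 12015957429, nat_lit 10925962677, nat_lit 10907887029], [nat_lit 10941945141, nat_lit 10925430069], [nat_lit 10924897461], [nat_lit 8760370229], [nat_lit 6595842997], [nat_lit 4431315765], [nat_lit 6544712373]] [])
(.leaf [[nat_lit 12015957429, nat_lit 10925962677, nat_lit 10907887029], [nat_lit 10941945141, nat_lit 10925430069], [nat_lit 10924897461], [nat_lit 8760370229], [nat_lit 6595842997], [nat_lit 4431315765], [nat_lit 6544712373]] []))))))
(.node (nat_lit 1161)
(.node (nat_lit 1157)
(.node (nat_lit 1155)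
(.node (nat_lit 1154)
(.leaf [[nat_lit 10941957557, nat_lit 10925962677], [nat_lit 10941945141, nat_lit 10925430069], [nat_lit 10924897461], [nat_lit 8760370229], [nat_lit 6595842997], [nat_lit 4431315765], [nat_lit 6544712373]] [])
(.leaf [[nat_lit 10941957557, nat_lit 10925962677], [nat_lit 10941945141, nat_lit 10925430069], [nat_lit 10924897461], [nat_lit 8760370229], [nat_lit 6595842997], [nat_lit 4431315765], [nat_lit 6544712373]] []))
(.node (nat_lit 1156)
(.leaf [[nat_lit 10941957557, nat_lit 10925962677], [nat_lit 10941945141, nat_lit 10925430069], [nat_lit 10924897461], [nat_lit 8760370229], [nat_lit 146165236661], [nat_lit 4431315765]] [])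
(.leaf [[nat_lit 79661692341, nat_lit 79661950389, nat_lit 78553621941], [nat_lit 79644644661, nat_lit 79661417781, nat_lit 78553609525], [nat_lit 10924897461], [nat_lit 8760370229], [nat_lit 146165236661], [nat_lit 4431315765]] [])))
(.node (nat_lit 1159)
(.node (nat_lit 1158)
(.leaf [[nat_lit 148380906933, nat_lit 148381427125], [nat_lit 148380894517], [nat_lit 78570632373], [nat_lit 8760370229], [nat_lit 146165236661], [nat_lit 4431315765]] [])
(.leaf [[nat_lit 217100641717, nat_lit 215992571317, nat_lit 217084126645], [nat_lit 217083594037, nat_lit 215992558901], [nat_lit 285785760949], [nat_lit 283621233717], [nat_lit 146165236661], [nat_lit 418861572917]] []))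
(.node (nat_lit 1160)
(.leaf [[nat_lit 285819856309, nat_lit 285820114357], [nat_lit 285802808629, nat_lit 284729328949], [nat_lit 285785760949], [nat_lit 283621233717], [nat_lit 146165236661], [nat_lit 418861572917]] [])
(.leaf [[nat_lit 354539591093, nat_lit 353431520693], [nat_lit 355596023093], [nat_lit 353431495861], [nat_lit 283621233717], [nat_lit 146165236661], [nat_lit 418861572917]] []))))
(.node (nat_lit 1165)
(.node (nat_lit 1163)
(.node (nat_lit 1162)
(.leaf [[nat_lit 423258805685, nat_lit 423242290613], [nat_lit 423241758005], [nat_lit 353431495861], [nat_lit 283621233717], [nat_lit 281456706485]] [])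
(.leaf [[nat_lit 491961505205, nat_lit 491978278325, nat_lit 490870470069], [nat_lit 423241758005], [nat_lit 421077230773], [nat_lit 558482097205], [nat_lit 281456706485]] []))
(.node (nat_lit 1164)
(.leaf [[nat_lit 560697755061], [nat_lit 490887492917], [nat_lit 421077230773], [nat_lit 558482097205], [nat_lit 281456706485]] [])
(.leaf [[nat_lit 629400454581, nat_lit 628309419445], [nat_lit 698102621493], [nat_lit 558499144885, nat_lit 559572882613], [nat_lit 558482097205], [nat_lit 281456706485]] [])))
(.node (nat_lit 1167)
(.node (nat_lit 1166)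
(.leaf [[nat_lit 698119669173, nat_lit 629400454581], [nat_lit 698102621493], [nat_lit 488722965685], [nat_lit 558482097205], [nat_lit 281456706485]] [])
(.leaf [[nat_lit 767912883637], [nat_lit 698102621493], [nat_lit 488722965685], [nat_lit 558482097205], [nat_lit 558482097201]] []))
(.node (nat_lit 1168)
(.leaf [[nat_lit 767912883637], [nat_lit 698102621493], [nat_lit 488722965685], [nat_lit 558482097205]] [])
(.node (nat_lit 1169)
(.leaf [[nat_lit 767912883637], [nat_lit 698102621493], [nat_lit 488722965685], [nat_lit 558482097205]] [])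
(.leaf [[nat_lit 13089437109, nat_lit 13089957301], [nat_lit 13089424693], [nat_lit 10924897461], [nat_lit 8760370229], [nat_lit 6595842997], [nat_lit 4431315765], [nat_lit 6544712373]] [])))))))
(.node (nat_lit 1233)
(.node (nat_lit 1224)
(.node (nat_lit 1220)
(.node (nat_lit 1218)
(.node (nat_lit 1217)
(.leaf [[nat_lit 13089437109, nat_lit 13089957301], [nat_lit 13089424693], [nat_lit 10924897461], [nat_lit 8760370229], [nat_lit 6595842997], [nat_lit 4431315765], [nat_lit 6544712373]] [])
(.leaf [[nat_lit 13089957301, nat_lit 10907887029], [nat_lit 13089424693], [nat_lit 10924897461], [nat_lit 8760370229], [nat_lit 6595842997], [nat_lit 4431315765], [nat_lit 6544712373]] []))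
(.node (nat_lit 1219)
(.leaf [[nat_lit 13089957301, nat_lit 10907887029], [nat_lit 13089424693], [nat_lit 10924897461], [nat_lit 8760370229], [nat_lit 6595842997], [nat_lit 4431315765]] [])
(.leaf [[nat_lit 12015957429, nat_lit 12016215477, nat_lit 10907887029], [nat_lit 11998909749, nat_lit 12015682869, nat_lit 10907874613], [nat_lit 10924897461], [nat_lit 8760370229], [nat_lit 146165236661], [nat_lit 146165236657]] [])))
(.node (nat_lit 1222)
(.node (nat_lit 1221)
(.leaf [[nat_lit 80735172021, nat_lit 80735692213], [nat_lit 80735159605], [nat_lit 10924897461], [nat_lit 8760370229], [nat_lit 146165236661], [nat_lit 146165236657]] [])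
(.leaf [[nat_lit 149454906805, nat_lit 148346836405, nat_lit 149438391733], [nat_lit 149437859125, nat_lit 148346823989], [nat_lit 148346811573, nat_lit 79627596981], [nat_lit 8760370229], [nat_lit 146165236661], [nat_lit 146165236657]] []))
(.node (nat_lit 1223)
(.leaf [[nat_lit 218174121397, nat_lit 218174379445], [nat_lit 218157073717, nat_lit 217083594037], [nat_lit 285785760949], [nat_lit 283621233717], [nat_lit 146165236661], [nat_lit 418861572917]] [])
(.leaf [[nat_lit 286893856181, nat_lit 285785785781], [nat_lit 218157073717, nat_lit 217083594037], [nat_lit 285785760949], [nat_lit 283621233717], [nat_lit 146165236661], [nat_lit 418861572917]] []))))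
(.node (nat_lit 1228)
(.node (nat_lit 1226)
(.node (nat_lit 1225)
(.leaf [[nat_lit 355613070773, nat_lit 355596555701], [nat_lit 355596023093], [nat_lit 285785760949], [nat_lit 283621233717], [nat_lit 146165236661]] [])
(.leaf [[nat_lit 424315770293, nat_lit 424332543413, nat_lit 423224735157], [nat_lit 355596023093], [nat_lit 353431495861], [nat_lit 283621233717], [nat_lit 146165236661]] []))
(.node (nat_lit 1227)
(.leaf [[nat_lit 493052020149], [nat_lit 423241758005], [nat_lit 353431495861], [nat_lit 558482097205], [nat_lit 281456706485]] [])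
(.leaf [[nat_lit 561754719669, nat_lit 560663684533], [nat_lit 560663672117, nat_lit 491944457525], [nat_lit 490853409973, nat_lit 559572882613], [nat_lit 558482097205], [nat_lit 281456706485]] [])))
(.node (nat_lit 1230)
(.node (nat_lit 1229)
(.leaf [[nat_lit 630473934261, nat_lit 629400454581], [nat_lit 698102621493], [nat_lit 559572882613, nat_lit 490853409973], [nat_lit 558482097205], [nat_lit 281456706485]] [])
(.leaf [[nat_lit 630473934261, nat_lit 629400454581], [nat_lit 698102621493], [nat_lit 558499144885, nat_lit 489779930293], [nat_lit 558482097205], [nat_lit 558482097201]] []))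
(.node (nat_lit 1231)
(.leaf [[nat_lit 767912883637], [nat_lit 698102621493], [nat_lit 559572882613, nat_lit 558499144885], [nat_lit 558482097205]] [])
(.node (nat_lit 1232)
(.leaf [[nat_lit 767912883637], [nat_lit 698102621493], [nat_lit 559572882613, nat_lit 558499144885], [nat_lit 558482097205]] [])
(.leaf [[nat_lit 767912883637], [nat_lit 698102621493], [nat_lit 559572882613, nat_lit 558499144885, nat_lit 558482629813], [nat_lit 558482097205]] []))))))
(.node (nat_lit 1287)
(.node (nat_lit 1282)
(.node (nat_lit 1280)
(.node (nat_lit 1234)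
(.leaf [[nat_lit 767912883637], [nat_lit 698102621493], [nat_lit 698102621489], [nat_lit 558482097205]] [])
(.leaf [[nat_lit 13089437109, nat_lit 13089957301], [nat_lit 13089424693], [nat_lit 10924897461], [nat_lit 8760370229], [nat_lit 6595842997], [nat_lit 6595842993], [nat_lit 6544712373]] []))
(.node (nat_lit 1281)
(.leaf [[nat_lit 13089437109, nat_lit 13089957301], [nat_lit 13089424693], [nat_lit 10924897461], [nat_lit 8760370229], [nat_lit 6595842997], [nat_lit 6595842993], [nat_lit 6544712373]] [])
(.leaf [[nat_lit 13089437109, nat_lit 13089957301], [nat_lit 13089424693], [nat_lit 10924897461], [nat_lit 8760370229], [nat_lit 6595842997], [nat_lit 146165236657]] [])))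
(.node (nat_lit 1284)
(.node (nat_lit 1283)
(.leaf [[nat_lit 13089437109, nat_lit 13089957301], [nat_lit 13089424693], [nat_lit 10924897461], [nat_lit 8760370229], [nat_lit 146165236661], [nat_lit 146165236657]] [])
(.leaf [[nat_lit 13089437109, nat_lit 13089957301], [nat_lit 13089424693], [nat_lit 10924897461], [nat_lit 8760370229], [nat_lit 146165236661], [nat_lit 146165236657]] []))
(.node (nat_lit 1285)
(.leaf [[nat_lit 81809171893, nat_lit 80718136757, nat_lit 13089957301], [nat_lit 13089424693], [nat_lit 10924897461], [nat_lit 8760370229], [nat_lit 146165236661], [nat_lit 146165236657]] [])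
(.node (nat_lit 1286)
(.leaf [[nat_lit 150528386485, nat_lit 150528644533], [nat_lit 149437859125, nat_lit 80718124341], [nat_lit 148346811573, nat_lit 79627596981], [nat_lit 8760370229], [nat_lit 146165236661], [nat_lit 146165236657]] [])
(.leaf [[nat_lit 219248121269, nat_lit 218157086133], [nat_lit 218157073717, nat_lit 149437859125], [nat_lit 285785760949], [nat_lit 283621233717], [nat_lit 146165236661], [nat_lit 418861572917]] [])))))
(.node (nat_lit 1291)
(.node (nat_lit 1289)
(.node (nat_lit 1288)
(.leaf [[nat_lit 287967335861, nat_lit 219248121269], [nat_lit 355596023093], [nat_lit 285785760949], [nat_lit 283621233717], [nat_lit 146165236661]] [])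
(.leaf [[nat_lit 287967335861, nat_lit 356686808501], [nat_lit 355596023093], [nat_lit 285785760949], [nat_lit 283621233717], [nat_lit 146165236661]] []))
(.node (nat_lit 1290)
(.leaf [[nat_lit 425406285237], [nat_lit 355596023093], [nat_lit 285785760949], [nat_lit 283621233717], [nat_lit 146165236661]] [])
(.leaf [[nat_lit 425406285237], [nat_lit 355596023093], [nat_lit 285785760949], [nat_lit 558482097205], [nat_lit 146165236661]] [])))
(.node (nat_lit 1293)
(.node (nat_lit 1292)
(.leaf [[nat_lit 561754719669, nat_lit 493034984885], [nat_lit 560663672117, nat_lit 491944457525], [nat_lit 559572882613, nat_lit 490853409973], [nat_lit 558482097205], [nat_lit 146165236661]] [])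
(.leaf [[nat_lit 630473934261, nat_lit 561754719669], [nat_lit 698102621493], [nat_lit 490853409973, nat_lit 422134195381], [nat_lit 558482097205], [nat_lit 281456706485]] []))
(.node (nat_lit 1294)
(.leaf [[nat_lit 767912883637], [nat_lit 698102621493], [nat_lit 559572882613, nat_lit 490853409973], [nat_lit 558482097205]] [])
(.node (nat_lit 1295)
(.leaf [[nat_lit 767912883637], [nat_lit 698102621493], [nat_lit 559572882613, nat_lit 490853409973], [nat_lit 558482097205]] [])
(.leaf [[nat_lit 767912883637], [nat_lit 698102621493], [nat_lit 559572882613, nat_lit 489779930293], [nat_lit 558482097205]] []))))))))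
(.node (nat_lit 1417)
(.node (nat_lit 1357)
(.node (nat_lit 1348)
(.node (nat_lit 1344)
(.node (nat_lit 1298)
(.node (nat_lit 1297)
(.leaf [[nat_lit 767912883637], [nat_lit 698102621493], [nat_lit 559572882613, nat_lit 558499144885], [nat_lit 558482097205]] [])
(.leaf [[nat_lit 767912883637], [nat_lit 698102621493], [nat_lit 559572882613, nat_lit 558499144885], [nat_lit 558482097205]] []))
(.node (nat_lit 1299)
(.leaf [[nat_lit 767912883637], [nat_lit 698102621493], [nat_lit 698102621489], [nat_lit 558482097205]] [])
(.leaf [[nat_lit 13089437109, nat_lit 13089957301], [nat_lit 13089424693], [nat_lit 10924897461], [nat_lit 8760370229], [nat_lit 8760370225], [nat_lit 8760370221, nat_lit 6545244981], [nat_lit 6544712373]] [])))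
(.node (nat_lit 1346)
(.node (nat_lit 1345)
(.leaf [[nat_lit 13089437109, nat_lit 13089957301], [nat_lit 13089424693], [nat_lit 10924897461], [nat_lit 8760370229], [nat_lit 76372022197, nat_lit 8726283189], [nat_lit 8726283185, nat_lit 76372022193]] [])
(.leaf [[nat_lit 13089437109, nat_lit 13089957301], [nat_lit 13089424693], [nat_lit 10924897461], [nat_lit 8760370229], [nat_lit 146165236661], [nat_lit 146165236657]] []))
(.node (nat_lit 1347)
(.leaf [[nat_lit 13089437109, nat_lit 13089957301], [nat_lit 13089424693], [nat_lit 10924897461], [nat_lit 8760370229], [nat_lit 146165236661], [nat_lit 146165236657]] [])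
(.leaf [[nat_lit 13089437109, nat_lit 13089957301], [nat_lit 13089424693], [nat_lit 10924897461], [nat_lit 8760370229], [nat_lit 146165236661], [nat_lit 146165236657]] []))))
(.node (nat_lit 1352)
(.node (nat_lit 1350)
(.node (nat_lit 1349)
(.leaf [[nat_lit 81809171893, nat_lit 80718136757, nat_lit 13089957301], [nat_lit 13089424693], [nat_lit 10924897461], [nat_lit 8760370229], [nat_lit 146165236661], [nat_lit 146165236657]] [])
(.leaf [[nat_lit 82899686837], [nat_lit 13089424693], [nat_lit 148346811573, nat_lit 79627596981], [nat_lit 146182284341, nat_lit 77463069749], [nat_lit 146165236661], [nat_lit 146165236657]] []))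
(.node (nat_lit 1351)
(.leaf [[nat_lit 219248121269, nat_lit 218157086133], [nat_lit 218157073717, nat_lit 149437859125], [nat_lit 285785760949], [nat_lit 283621233717], [nat_lit 146165236661]] [])
(.leaf [[nat_lit 287967335861, nat_lit 219248121269], [nat_lit 218157073717, nat_lit 286876546357], [nat_lit 285785760949], [nat_lit 283621233717], [nat_lit 146165236661]] [])))
(.node (nat_lit 1354)
(.node (nat_lit 1353)
(.leaf [[nat_lit 287967335861, nat_lit 355596555701], [nat_lit 355596023093], [nat_lit 285785760949], [nat_lit 283621233717], [nat_lit 146165236661]] [])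
(.leaf [[nat_lit 425406285237], [nat_lit 355596023093], [nat_lit 285785760949], [nat_lit 283621233717], [nat_lit 146165236661]] []))
(.node (nat_lit 1355)
(.leaf [[nat_lit 425406285237], [nat_lit 355596023093], [nat_lit 285785760949], [nat_lit 558482097205], [nat_lit 146165236661]] [])
(.node (nat_lit 1356)
(.leaf [[nat_lit 425406285237], [nat_lit 355596023093], [nat_lit 285785760949], [nat_lit 558482097205], [nat_lit 146165236661]] [])
(.leaf [[nat_lit 630473934261, nat_lit 561754719669], [nat_lit 698102621493], [nat_lit 559572882613, nat_lit 490853409973], [nat_lit 558482097205]] []))))))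
(.node (nat_lit 1408)
(.node (nat_lit 1361)
(.node (nat_lit 1359)
(.node (nat_lit 1358)
(.leaf [[nat_lit 630473934261, nat_lit 699193406901], [nat_lit 698102621493], [nat_lit 559572882613, nat_lit 490853409973], [nat_lit 558482097205]] [])
(.leaf [[nat_lit 767912883637], [nat_lit 698102621493], [nat_lit 559572882613, nat_lit 422134195381], [nat_lit 558482097205]] []))
(.node (nat_lit 1360)
(.leaf [[nat_lit 767912883637], [nat_lit 698102621493], [nat_lit 559572882613, nat_lit 490853409973], [nat_lit 558482097205]] [])
(.leaf [[nat_lit 767912883637], [nat_lit 698102621493], [nat_lit 559572882613, nat_lit 558499144885], [nat_lit 558482097205]] [])))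
(.node (nat_lit 1363)
(.node (nat_lit 1362)
(.leaf [[nat_lit 767912883637], [nat_lit 698102621493], [nat_lit 698102621489], [nat_lit 558482097205]] [])
(.leaf [[nat_lit 767912883637], [nat_lit 698102621493], [nat_lit 698102621489]] []))
(.node (nat_lit 1364)
(.leaf [[nat_lit 767912883637], [nat_lit 698102621493], [nat_lit 698102621489]] [])
(.leaf [[nat_lit 13089437109, nat_lit 13089957301], [nat_lit 13089424693], [nat_lit 10924897461], [nat_lit 8743334965, nat_lit 8743593013, nat_lit 8726819893], [nat_lit 10924897453], [nat_lit 8726283185, nat_lit 7652545457]] [[], [], [], [], [], [nat_lit 89496759902364]]))))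
(.node (nat_lit 1412)
(.node (nat_lit 1410)
(.node (nat_lit 1409)
(.leaf [[nat_lit 13089437109, nat_lit 13089957301], [nat_lit 13089424693], [nat_lit 10924897461], [nat_lit 8743334965, nat_lit 8743593013], [nat_lit 76372022197, nat_lit 7636030389], [nat_lit 10924897449, nat_lit 76372022193]] [])
(.leaf [[nat_lit 13089437109, nat_lit 13089957301], [nat_lit 13089424693], [nat_lit 10924897461], [nat_lit 77463069749, nat_lit 9817072693], [nat_lit 146165236661], [nat_lit 146165236657]] []))
(.node (nat_lit 1411)
(.leaf [[nat_lit 13089437109, nat_lit 13089957301], [nat_lit 13089424693], [nat_lit 10924897461], [nat_lit 77463069749, nat_lit 8743334965], [nat_lit 146165236661], [nat_lit 146165236657]] [])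
(.leaf [[nat_lit 82899686837], [nat_lit 13089424693], [nat_lit 10924897461], [nat_lit 147256022069, nat_lit 8743334965], [nat_lit 146165236661], [nat_lit 146165236657]] [])))
(.node (nat_lit 1414)
(.node (nat_lit 1413)
(.leaf [[nat_lit 82899686837], [nat_lit 13089424693], [nat_lit 79627596981, nat_lit 10907862197], [nat_lit 146182284341, nat_lit 77463069749], [nat_lit 146165236661], [nat_lit 146165236657]] [])
(.leaf [[nat_lit 82899686837], [nat_lit 13089424693], [nat_lit 148346811573, nat_lit 79627596981], [nat_lit 147256022069, nat_lit 146182284341], [nat_lit 146165236661]] []))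
(.node (nat_lit 1415)
(.leaf [[nat_lit 219248121269, nat_lit 218157086133], [nat_lit 218157073717, nat_lit 149437859125], [nat_lit 285785760949], [nat_lit 283621233717], [nat_lit 146165236661]] [])
(.node (nat_lit 1416)
(.leaf [[nat_lit 287967335861, nat_lit 219248121269], [nat_lit 355596023093], [nat_lit 285785760949], [nat_lit 283621233717], [nat_lit 146165236661]] [])
(.leaf [[nat_lit 287967335861, nat_lit 356686808501], [nat_lit 355596023093], [nat_lit 285785760949], [nat_lit 283621233717], [nat_lit 146165236661]] [])))))))
(.node (nat_lit 1476)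
(.node (nat_lit 1425)
(.node (nat_lit 1421)
(.node (nat_lit 1419)
(.node (nat_lit 1418)
(.leaf [[nat_lit 425406285237], [nat_lit 355596023093], [nat_lit 285785760949], [nat_lit 558482097205], [nat_lit 146165236661]] [])
(.leaf [[nat_lit 425406285237], [nat_lit 355596023093], [nat_lit 285785760949], [nat_lit 558482097205], [nat_lit 146165236661]] []))
(.node (nat_lit 1420)
(.leaf [[nat_lit 425406285237], [nat_lit 355596023093], [nat_lit 285785760949], [nat_lit 558482097205]] [])
(.leaf [[nat_lit 630473934261, nat_lit 561754719669], [nat_lit 698102621493], [nat_lit 559572882613, nat_lit 490853409973], [nat_lit 558482097205]] [])))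
(.node (nat_lit 1423)
(.node (nat_lit 1422)
(.leaf [[nat_lit 767912883637], [nat_lit 698102621493], [nat_lit 559572882613, nat_lit 422134195381], [nat_lit 558482097205]] [])
(.leaf [[nat_lit 767912883637], [nat_lit 698102621493], [nat_lit 559572882613, nat_lit 490853409973], [nat_lit 558482097205]] []))
(.node (nat_lit 1424)
(.leaf [[nat_lit 767912883637], [nat_lit 698102621493], [nat_lit 559572882613, nat_lit 490853409973], [nat_lit 558482097205]] [])
(.leaf [[nat_lit 767912883637], [nat_lit 698102621493], [nat_lit 698102621489], [nat_lit 558482097205]] []))))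
(.node (nat_lit 1429)
(.node (nat_lit 1427)
(.node (nat_lit 1426)
(.leaf [[nat_lit 767912883637], [nat_lit 698102621493], [nat_lit 698102621489]] [])
(.leaf [[nat_lit 767912883637], [nat_lit 698102621493], [nat_lit 698102621489]] []))
(.node (nat_lit 1428)
(.leaf [[nat_lit 767912883637], [nat_lit 698102621493], [nat_lit 559572882613]] [])
(.leaf [[nat_lit 767912883637], [nat_lit 698102621493], [nat_lit 698102621489]] [])))
(.node (nat_lit 1473)
(.node (nat_lit 1472)
(.leaf [[nat_lit 13089437109, nat_lit 13089957301], [nat_lit 13089424693], [nat_lit 10907862197, nat_lit 10908120245], [nat_lit 9817072693, nat_lit 8726299701, nat_lit 10908120241, nat_lit 8726819893], [nat_lit 13089424681], [nat_lit 8726283185]] [[], [], [], [], [], [nat_lit 107228566954012, nat_lit 89359320948891]])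
(.leaf [[nat_lit 13089437109, nat_lit 13089957301], [nat_lit 13089424693], [nat_lit 10907862197, nat_lit 9817867445], [nat_lit 79627596977, nat_lit 9817072693], [nat_lit 8726283189, nat_lit 9817072689, nat_lit 76354986933, nat_lit 76355507125], [nat_lit 8726283185, nat_lit 9817072685]] [[], [], [], [], [], [nat_lit 652309274370203]]))
(.node (nat_lit 1474)
(.leaf [[nat_lit 13089437109, nat_lit 13089957301], [nat_lit 13089424693], [nat_lit 79627596981, nat_lit 10907862197], [nat_lit 9817072693, nat_lit 8726299701, nat_lit 78536545333, nat_lit 8726819893], [nat_lit 146165236661], [nat_lit 146165236657]] [])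
(.node (nat_lit 1475)
(.leaf [[nat_lit 14180210101, nat_lit 13089437109, nat_lit 13089957301], [nat_lit 13089424693], [nat_lit 79627596981, nat_lit 10907862197], [nat_lit 147256022069, nat_lit 77446034485], [nat_lit 146165236661], [nat_lit 146165236657]] [])
(.leaf [[nat_lit 82899686837], [nat_lit 13089424693], [nat_lit 79627596981, nat_lit 10907862197], [nat_lit 147256022069, nat_lit 146165249077, nat_lit 146165769269], [nat_lit 146165236661], [nat_lit 146165236657]] []))))))
(.node (nat_lit 1485)
(.node (nat_lit 1480)
(.node (nat_lit 1478)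
(.node (nat_lit 1477)
(.leaf [[nat_lit 82899686837], [nat_lit 13089424693], [nat_lit 148346811573, nat_lit 79627596981], [nat_lit 147256022069, nat_lit 214884983861], [nat_lit 146165236661]] [])
(.leaf [[nat_lit 82899686837], [nat_lit 13089424693], [nat_lit 148346811573, nat_lit 79627596981], [nat_lit 147256022069, nat_lit 283604198453], [nat_lit 146165236661]] []))
(.node (nat_lit 1479)
(.leaf [[nat_lit 82899686837], [nat_lit 13089424693], [nat_lit 285785760949], [nat_lit 147256022069, nat_lit 352323933237], [nat_lit 146165236661]] [])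
(.leaf [[nat_lit 287967335861, nat_lit 219248121269], [nat_lit 355596023093], [nat_lit 285785760949], [nat_lit 147256022069, nat_lit 283604198453, nat_lit 352323933237], [nat_lit 146165236661]] [])))
(.node (nat_lit 1482)
(.node (nat_lit 1481)
(.leaf [[nat_lit 287967335861, nat_lit 356686808501], [nat_lit 355596023093], [nat_lit 285785760949], [nat_lit 147256022069, nat_lit 352323933237], [nat_lit 146165236661]] [])
(.leaf [[nat_lit 425406285237], [nat_lit 355596023093], [nat_lit 285785760949], [nat_lit 558482097205], [nat_lit 146165236661]] []))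
(.node (nat_lit 1483)
(.leaf [[nat_lit 425406285237], [nat_lit 355596023093], [nat_lit 285785760949], [nat_lit 558482097205]] [])
(.node (nat_lit 1484)
(.leaf [[nat_lit 425406285237], [nat_lit 355596023093], [nat_lit 285785760949], [nat_lit 558482097205]] [])
(.leaf [[nat_lit 425406285237], [nat_lit 698102621493], [nat_lit 285785760949], [nat_lit 558482097205]] [])))))
(.node (nat_lit 1489)
(.node (nat_lit 1487)
(.node (nat_lit 1486)
(.leaf [[nat_lit 767912883637], [nat_lit 698102621493], [nat_lit 559572882613, nat_lit 490853409973], [nat_lit 558482097205]] [])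
(.leaf [[nat_lit 767912883637], [nat_lit 698102621493], [nat_lit 559572882613, nat_lit 490853409973], [nat_lit 558482097205]] []))
(.node (nat_lit 1488)
(.leaf [[nat_lit 767912883637], [nat_lit 698102621493], [nat_lit 698102621489], [nat_lit 558482097205]] [])
(.leaf [[nat_lit 767912883637], [nat_lit 698102621493], [nat_lit 698102621489]] [])))
(.node (nat_lit 1491)
(.node (nat_lit 1490)
(.leaf [[nat_lit 767912883637], [nat_lit 698102621493], [nat_lit 698102621489]] [])
(.leaf [[nat_lit 767912883637], [nat_lit 698102621493], [nat_lit 559572882613]] []))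
(.node (nat_lit 1492)
(.leaf [[nat_lit 767912883637], [nat_lit 698102621493], [nat_lit 698102621489]] [])
(.node (nat_lit 1493)
(.leaf [[nat_lit 767912883637], [nat_lit 698102621493], [nat_lit 698102621489]] [])
(.leaf [[nat_lit 767912883637], [nat_lit 698102621493], [nat_lit 698102621489]] []))))))))))

noncomputable def ct25 : Tc :=
(.node (nat_lit 1101)
(.node (nat_lit 776)
(.node (nat_lit 576)
(.node (nat_lit 386)
(.node (nat_lit 258)
(.node (nat_lit 192)
(.node (nat_lit 128)
(.node (nat_lit 64)
(.leaf [[nat_lit 136356682, nat_lit 153924550], [nat_lit 102261326], [nat_lit 102261322], [nat_lit 102261318], [nat_lit 102261314], [nat_lit 78], [nat_lit 74], [nat_lit 70], [nat_lit 66]] [])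
(.leaf [[nat_lit 1193321290, nat_lit 1244177350, nat_lit 1210889158], [nat_lit 1193321286, nat_lit 1160291142, nat_lit 1176011466], [nat_lit 1159238342, nat_lit 1160291138, nat_lit 1141940934], [nat_lit 1176011458, nat_lit 1159238338, nat_lit 1142981314], [nat_lit 153924533, nat_lit 1176011454, nat_lit 1159238334], [nat_lit 136356661, nat_lit 103326517, nat_lit 119841589], [nat_lit 136356657, nat_lit 102793909], [nat_lit 102261301], [nat_lit 102261297]] [[], [], [], [nat_lit 9505104971174], [nat_lit 1260949775524], [nat_lit 846450828194], [nat_lit 1117033734306, nat_lit 842087703200], [], [nat_lit 837724545180]]))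
(.node (nat_lit 129)
(.leaf [[nat_lit 69929571146, nat_lit 69913588678], [nat_lit 69929571142, nat_lit 69896278854], [nat_lit 69929571138, nat_lit 69896278850], [nat_lit 204522549], [nat_lit 153404341, nat_lit 153924533], [nat_lit 136356661, nat_lit 103326517], [nat_lit 136356657, nat_lit 102793909], [nat_lit 102261301], [nat_lit 102261297]] [])
(.leaf [[nat_lit 2317919174, nat_lit 2249761610], [nat_lit 2249753290, nat_lit 2267321158], [nat_lit 2249753286, nat_lit 2216723142], [nat_lit 2249753282, nat_lit 2216723138], [nat_lit 2249753278, nat_lit 153924533], [nat_lit 136356661, nat_lit 103326517], [nat_lit 136356657, nat_lit 102793909], [nat_lit 102261301], [nat_lit 102261297]] [])))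
(.node (nat_lit 194)
(.node (nat_lit 193)
(.leaf [[nat_lit 71020618694, nat_lit 70969238346], [nat_lit 70986535750, nat_lit 70952203078, nat_lit 70953243462], [nat_lit 70986535746, nat_lit 70969238338, nat_lit 205055157], [nat_lit 204522549], [nat_lit 153404341, nat_lit 153924533], [nat_lit 136356661, nat_lit 103326517], [nat_lit 136356657, nat_lit 102793909], [nat_lit 102261301], [nat_lit 102261297]] [])
(.leaf [[nat_lit 139722785610], [nat_lit 139722785606], [nat_lit 139722785602], [nat_lit 204522549], [nat_lit 153404341, nat_lit 153924533], [nat_lit 136356661, nat_lit 103326517], [nat_lit 136356657, nat_lit 102793909], [nat_lit 102261301], [nat_lit 102261297]] []))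
(.node (nat_lit 256)
(.leaf [[nat_lit 3374883782, nat_lit 3323503434], [nat_lit 3340800838, nat_lit 3323486922, nat_lit 3306468166, nat_lit 3324285766], [nat_lit 3323765570, nat_lit 3324285762, nat_lit 3323503426], [nat_lit 204522549], [nat_lit 153404341, nat_lit 153924533], [nat_lit 136356661, nat_lit 103326517], [nat_lit 136356657, nat_lit 102793909], [nat_lit 102261301], [nat_lit 102261297]] [])
(.node (nat_lit 257)
(.leaf [[nat_lit 72077063110, nat_lit 72077583302], [nat_lit 72042980166, nat_lit 72026985286], [nat_lit 221570229, nat_lit 205055157], [nat_lit 204522549], [nat_lit 153404341, nat_lit 153924533], [nat_lit 136356661, nat_lit 103326517], [nat_lit 136356657, nat_lit 102793909], [nat_lit 102261301], [nat_lit 102261297]] [])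
(.leaf [[nat_lit 140796797894, nat_lit 140762452810, nat_lit 140780282822], [nat_lit 140762714950, nat_lit 205587765, nat_lit 140745417542], [nat_lit 221570229, nat_lit 205055157], [nat_lit 204522549], [nat_lit 153404341, nat_lit 153924533], [nat_lit 136356661, nat_lit 103326517], [nat_lit 136356657, nat_lit 102793909], [nat_lit 102261301]] [])))))
(.node (nat_lit 322)
(.node (nat_lit 320)
(.node (nat_lit 259)
(.leaf [[nat_lit 209516012486, nat_lit 209482982342], [nat_lit 209481929542, nat_lit 205587765], [nat_lit 221570229, nat_lit 205055157], [nat_lit 204522549], [nat_lit 153404341, nat_lit 153924533], [nat_lit 136356661, nat_lit 119837493, nat_lit 103326517], [nat_lit 136356657, nat_lit 102793909, nat_lit 102265525], [nat_lit 102261301]] [])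
(.leaf [[nat_lit 4431315786, nat_lit 4397241162], [nat_lit 4431315782], [nat_lit 4431315778], [nat_lit 204522549], [nat_lit 153404341, nat_lit 153924533], [nat_lit 136356661, nat_lit 103326517], [nat_lit 2249753269, nat_lit 102793909], [nat_lit 102261301], [nat_lit 102261297]] []))
(.node (nat_lit 321)
(.leaf [[nat_lit 73151062982, nat_lit 73116717898, nat_lit 73134547910], [nat_lit 73116980038, nat_lit 205587765, nat_lit 73099682630], [nat_lit 221570229, nat_lit 205055157], [nat_lit 204522549], [nat_lit 153404341, nat_lit 153924533], [nat_lit 136356661, nat_lit 103326517], [nat_lit 2249753269, nat_lit 102793909], [nat_lit 102261301]] [])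
(.leaf [[nat_lit 141887312838], [nat_lit 221582645, nat_lit 205587765], [nat_lit 221570229, nat_lit 205055157], [nat_lit 204522549], [nat_lit 153404341, nat_lit 153924533], [nat_lit 136356661, nat_lit 119837493, nat_lit 103326517], [nat_lit 2249753269, nat_lit 102793909, nat_lit 1176007349], [nat_lit 102261301]] [])))
(.node (nat_lit 324)
(.node (nat_lit 323)
(.leaf [[nat_lit 210555667274, nat_lit 206120373, nat_lit 170489269], [nat_lit 221582645, nat_lit 205587765], [nat_lit 221570229, nat_lit 205055157], [nat_lit 204522549], [nat_lit 153404341, nat_lit 153924533], [nat_lit 136356661, nat_lit 103326517, nat_lit 136352565], [nat_lit 69929571121, nat_lit 102793909], [nat_lit 102261301]] [])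
(.leaf [[nat_lit 279275144010, nat_lit 279292711878], [nat_lit 221582645, nat_lit 205587765], [nat_lit 221570229, nat_lit 205055157], [nat_lit 204522549], [nat_lit 153404341, nat_lit 153924533], [nat_lit 139722785589], [nat_lit 139722785585], [nat_lit 102261301]] []))
(.node (nat_lit 384)
(.leaf [[nat_lit 5505328070, nat_lit 5470982986, nat_lit 5488812998], [nat_lit 5471245126, nat_lit 5470982982, nat_lit 5471503174, nat_lit 5454730054], [nat_lit 221570229, nat_lit 205055157], [nat_lit 204522549], [nat_lit 153404341, nat_lit 153924533], [nat_lit 136356661, nat_lit 2267321141], [nat_lit 2249753269, nat_lit 102793909], [nat_lit 102261301]] [])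
(.node (nat_lit 385)
(.leaf [[nat_lit 74224542662, nat_lit 74191512518], [nat_lit 74190459718, nat_lit 205587765], [nat_lit 221570229, nat_lit 205055157], [nat_lit 204522549], [nat_lit 153404341, nat_lit 153924533], [nat_lit 136356661, nat_lit 1193579317], [nat_lit 2249753269, nat_lit 102793909, nat_lit 1176007349], [nat_lit 102261301]] [])
(.leaf [[nat_lit 142893159242, nat_lit 206120373, nat_lit 187524533], [nat_lit 221582645, nat_lit 205587765], [nat_lit 221570229, nat_lit 205055157], [nat_lit 204522549], [nat_lit 153404341, nat_lit 153924533], [nat_lit 136356661, nat_lit 2267321141], [nat_lit 2249753269, nat_lit 102793909, nat_lit 1176007349], [nat_lit 102261301]] []))))))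
(.node (nat_lit 453)
(.node (nat_lit 448)
(.node (nat_lit 388)
(.node (nat_lit 387)
(.leaf [[nat_lit 221595061, nat_lit 206120373], [nat_lit 221582645, nat_lit 205587765], [nat_lit 221570229, nat_lit 205055157], [nat_lit 204522549], [nat_lit 153404341, nat_lit 153924533], [nat_lit 69929571125, nat_lit 1193579317], [nat_lit 69929571121, nat_lit 2249745077, nat_lit 102793909], [nat_lit 102261301]] [])
(.leaf [[nat_lit 221595061, nat_lit 206120373], [nat_lit 221582645, nat_lit 205587765], [nat_lit 221570229, nat_lit 205055157], [nat_lit 204522549], [nat_lit 153404341, nat_lit 153924533], [nat_lit 139722785589], [nat_lit 139722785585], [nat_lit 102261301]] []))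
(.node (nat_lit 389)
(.leaf [[nat_lit 221595061, nat_lit 206120373], [nat_lit 221582645, nat_lit 205587765], [nat_lit 221570229, nat_lit 205055157], [nat_lit 204522549], [nat_lit 153404341, nat_lit 153924533], [nat_lit 139722785589], [nat_lit 139722785585], [nat_lit 102261301]] [])
(.leaf [[nat_lit 6544712398], [nat_lit 6544712394], [nat_lit 6544712390], [nat_lit 204522549], [nat_lit 2317919157], [nat_lit 136356661, nat_lit 1193579317], [nat_lit 2249753269, nat_lit 102793909, nat_lit 3323486901], [nat_lit 102261301]] [])))
(.node (nat_lit 450)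
(.node (nat_lit 449)
(.leaf [[nat_lit 75298542534, nat_lit 75264197450], [nat_lit 221582645, nat_lit 205587765], [nat_lit 221570229, nat_lit 205055157], [nat_lit 204522549], [nat_lit 2317919157], [nat_lit 136356661, nat_lit 2267321141], [nat_lit 2249753269, nat_lit 102793909, nat_lit 1176007349], [nat_lit 102261301]] [])
(.leaf [[nat_lit 143983674186, nat_lit 206120373], [nat_lit 221582645, nat_lit 205587765], [nat_lit 221570229, nat_lit 205055157], [nat_lit 204522549], [nat_lit 1244177333, nat_lit 153404341, nat_lit 153924533], [nat_lit 136356661, nat_lit 2267321141], [nat_lit 2249753269, nat_lit 3323486901, nat_lit 102793909], [nat_lit 102261301]] []))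
(.node (nat_lit 451)
(.leaf [[nat_lit 221595061, nat_lit 206120373], [nat_lit 221582645, nat_lit 205587765], [nat_lit 221570229, nat_lit 205055157], [nat_lit 204522549], [nat_lit 1244177333, nat_lit 153404341, nat_lit 153924533], [nat_lit 69929571125, nat_lit 2267321141], [nat_lit 139722785585], [nat_lit 102261301]] [])
(.node (nat_lit 452)
(.leaf [[nat_lit 221595061, nat_lit 206120373], [nat_lit 221582645, nat_lit 205587765], [nat_lit 221570229, nat_lit 205055157], [nat_lit 204522549], [nat_lit 1244177333, nat_lit 153404341, nat_lit 153924533], [nat_lit 139722785589], [nat_lit 139722785585], [nat_lit 102261301]] [])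
(.leaf [[nat_lit 221595061, nat_lit 206120373], [nat_lit 221582645, nat_lit 205587765], [nat_lit 221570229, nat_lit 205055157], [nat_lit 204522549], [nat_lit 69946618805, nat_lit 153924533], [nat_lit 139722785589], [nat_lit 139722785585]] [])))))
(.node (nat_lit 515)
(.node (nat_lit 512)
(.node (nat_lit 454)
(.leaf [[nat_lit 418861572938], [nat_lit 70014797109, nat_lit 70015317301], [nat_lit 70014784693], [nat_lit 204522549], [nat_lit 69946618805, nat_lit 153924533], [nat_lit 139722785589], [nat_lit 139722785585]] [])
(.leaf [[nat_lit 7669855298, nat_lit 7635510214, nat_lit 7653340226], [nat_lit 1295582517, nat_lit 205587765, nat_lit 170476853], [nat_lit 221570229, nat_lit 205055157], [nat_lit 204522549], [nat_lit 2317919157], [nat_lit 3357573941, nat_lit 136356661, nat_lit 2267321141], [nat_lit 2249753269, nat_lit 102793909, nat_lit 3323486901], [nat_lit 102261301]] []))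
(.node (nat_lit 513)
(.leaf [[nat_lit 76372022214, nat_lit 76355507142], [nat_lit 1295582517, nat_lit 205587765, nat_lit 187512117], [nat_lit 221570229, nat_lit 205055157], [nat_lit 204522549], [nat_lit 2317919157], [nat_lit 3357573941, nat_lit 136356661, nat_lit 2267321141], [nat_lit 4397228725, nat_lit 2249753269, nat_lit 102793909], [nat_lit 102261301]] [])
(.node (nat_lit 514)
(.leaf [[nat_lit 221595061, nat_lit 206120373], [nat_lit 221582645, nat_lit 205587765], [nat_lit 221570229, nat_lit 205055157], [nat_lit 204522549], [nat_lit 2317919157], [nat_lit 3357573941, nat_lit 136356661], [nat_lit 4397228725, nat_lit 2249753269, nat_lit 102793909], [nat_lit 102261301]] [])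
(.leaf [[nat_lit 221595061, nat_lit 206120373], [nat_lit 221582645, nat_lit 205587765], [nat_lit 221570229, nat_lit 205055157], [nat_lit 204522549], [nat_lit 2317919157], [nat_lit 69929571125, nat_lit 2267321141], [nat_lit 139722785585], [nat_lit 102261301]] []))))
(.node (nat_lit 517)
(.node (nat_lit 516)
(.leaf [[nat_lit 221595061, nat_lit 206120373], [nat_lit 221582645, nat_lit 205587765], [nat_lit 221570229, nat_lit 205055157], [nat_lit 204522549], [nat_lit 2317919157], [nat_lit 139722785589], [nat_lit 139722785585]] [])
(.leaf [[nat_lit 70014809525, nat_lit 70015849909], [nat_lit 70014797109, nat_lit 70015317301], [nat_lit 70014784693], [nat_lit 204522549], [nat_lit 1244177333, nat_lit 69946618805], [nat_lit 139722785589], [nat_lit 139722785585]] []))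
(.node (nat_lit 518)
(.leaf [[nat_lit 70014809525, nat_lit 70015849909], [nat_lit 70014797109, nat_lit 70015317301], [nat_lit 70014784693], [nat_lit 204522549], [nat_lit 69946618805, nat_lit 153924533], [nat_lit 139722785589], [nat_lit 139722785585]] [])
(.node (nat_lit 519)
(.leaf [[nat_lit 139808023989, nat_lit 70015849909], [nat_lit 139808011573, nat_lit 70015317301], [nat_lit 70014784693], [nat_lit 139773916213], [nat_lit 69946618805, nat_lit 153924533], [nat_lit 139722785589], [nat_lit 139722785585]] [])
(.leaf [[nat_lit 8760370242], [nat_lit 2369062197, nat_lit 2369582389], [nat_lit 2369049781], [nat_lit 204522549], [nat_lit 2317919157], [nat_lit 4431315765], [nat_lit 6544712373], [nat_lit 102261301]] [])))))))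
(.node (nat_lit 704)
(.node (nat_lit 640)
(.node (nat_lit 580)
(.node (nat_lit 578)
(.node (nat_lit 577)
(.leaf [[nat_lit 2369074613, nat_lit 2370114997], [nat_lit 2369062197, nat_lit 2369582389], [nat_lit 2369049781], [nat_lit 204522549], [nat_lit 2317919157], [nat_lit 4431315765], [nat_lit 6544712373], [nat_lit 102261301]] [])
(.leaf [[nat_lit 2370114997, nat_lit 187524533], [nat_lit 2369582389, nat_lit 187512117], [nat_lit 2369049781], [nat_lit 204522549], [nat_lit 2317919157], [nat_lit 4431315765], [nat_lit 4431315761], [nat_lit 102261301]] []))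
(.node (nat_lit 579)
(.leaf [[nat_lit 2370114997, nat_lit 187524533], [nat_lit 2369582389, nat_lit 187512117], [nat_lit 2369049781], [nat_lit 204522549], [nat_lit 2317919157], [nat_lit 4431315765], [nat_lit 4431315761]] [])
(.leaf [[nat_lit 1295594933, nat_lit 206120373, nat_lit 187524533], [nat_lit 1295582517, nat_lit 1295840565, nat_lit 187512117], [nat_lit 1278534837, nat_lit 1295307957, nat_lit 187499701], [nat_lit 204522549], [nat_lit 2317919157], [nat_lit 139722785589], [nat_lit 139722785585]] [])))
(.node (nat_lit 582)
(.node (nat_lit 581)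
(.leaf [[nat_lit 70014809525, nat_lit 70015849909], [nat_lit 70014797109, nat_lit 70015317301], [nat_lit 70014784693], [nat_lit 204522549], [nat_lit 2317919157], [nat_lit 139722785589], [nat_lit 139722785585]] [])
(.leaf [[nat_lit 139808023989, nat_lit 70015849909], [nat_lit 139808011573, nat_lit 70015317301], [nat_lit 70014784693], [nat_lit 139773916213], [nat_lit 1244177333, nat_lit 69946618805, nat_lit 71020618677], [nat_lit 139722785589], [nat_lit 139722785585]] []))
(.node (nat_lit 583)
(.leaf [[nat_lit 139808023989, nat_lit 70015849909], [nat_lit 139808011573, nat_lit 139808269621], [nat_lit 70014784693], [nat_lit 139773916213], [nat_lit 71020618677, nat_lit 69946618805], [nat_lit 139722785589], [nat_lit 139722785585]] [])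
(.node (nat_lit 584)
(.leaf [[nat_lit 209601238453, nat_lit 209585243573], [nat_lit 209601226037, nat_lit 209584710965], [nat_lit 209584178357], [nat_lit 139773916213], [nat_lit 69946618805, nat_lit 139723318197], [nat_lit 139722785589], [nat_lit 139722785585]] [])
(.leaf [[nat_lit 9817072706, nat_lit 2370114997, nat_lit 2317968821], [nat_lit 3443062069, nat_lit 2317956405, nat_lit 2369582389], [nat_lit 2369049781], [nat_lit 2334966837, nat_lit 1261487157], [nat_lit 2317919157], [nat_lit 4431315765], [nat_lit 6544712373], [nat_lit 102261301]] [])))))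
(.node (nat_lit 645)
(.node (nat_lit 642)
(.node (nat_lit 641)
(.leaf [[nat_lit 3443074485, nat_lit 2370114997, nat_lit 2335004085], [nat_lit 3443062069, nat_lit 2334991669, nat_lit 2369582389], [nat_lit 2369049781], [nat_lit 2334966837, nat_lit 1261487157], [nat_lit 2317919157], [nat_lit 4431315765], [nat_lit 6544712373], [nat_lit 102261301]] [])
(.leaf [[nat_lit 2369074613, nat_lit 2370114997], [nat_lit 2369062197, nat_lit 2369582389], [nat_lit 2369049781], [nat_lit 2334966837, nat_lit 1261487157], [nat_lit 2317919157], [nat_lit 4431315765], [nat_lit 6544712373]] []))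
(.node (nat_lit 643)
(.leaf [[nat_lit 2369074613, nat_lit 2370114997], [nat_lit 2369062197, nat_lit 2369582389], [nat_lit 2369049781], [nat_lit 2334966837, nat_lit 1261487157], [nat_lit 2317919157], [nat_lit 4431315765], [nat_lit 6544712373]] [])
(.node (nat_lit 644)
(.leaf [[nat_lit 2369074613, nat_lit 2370114997], [nat_lit 2369062197, nat_lit 2369582389], [nat_lit 2369049781], [nat_lit 2334966837, nat_lit 1261487157], [nat_lit 2317919157], [nat_lit 4431315765], [nat_lit 139722785585]] [])
(.leaf [[nat_lit 71088809397, nat_lit 71072814517, nat_lit 69980738997], [nat_lit 71088796981, nat_lit 69980726581, nat_lit 71072281909], [nat_lit 71071749301, nat_lit 69980714165], [nat_lit 72128181301], [nat_lit 2317919157], [nat_lit 139722785589], [nat_lit 139722785585]] []))))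
(.node (nat_lit 647)
(.node (nat_lit 646)
(.leaf [[nat_lit 139808023989, nat_lit 71072814517], [nat_lit 139808011573, nat_lit 139808269621], [nat_lit 139790963893, nat_lit 71071749301], [nat_lit 139773916213], [nat_lit 2317919157], [nat_lit 139722785589], [nat_lit 139722785585]] [])
(.leaf [[nat_lit 209601238453, nat_lit 209585243573], [nat_lit 209601226037, nat_lit 209584710965], [nat_lit 209584178357], [nat_lit 139773916213], [nat_lit 2317919157], [nat_lit 139722785589], [nat_lit 139722785585]] []))
(.node (nat_lit 648)
(.leaf [[nat_lit 209601238453, nat_lit 209585243573], [nat_lit 209601226037, nat_lit 209584710965], [nat_lit 209584178357], [nat_lit 139773916213], [nat_lit 140813570997, nat_lit 71020618677], [nat_lit 139722785589]] [])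
(.node (nat_lit 649)
(.leaf [[nat_lit 279394452917, nat_lit 279394973109], [nat_lit 279394440501], [nat_lit 209584178357], [nat_lit 279343309877], [nat_lit 139739829173, nat_lit 209516012469, nat_lit 209516270517], [nat_lit 139722785589]] [])
(.leaf [[nat_lit 4516554165, nat_lit 3427079605], [nat_lit 4516541749, nat_lit 3426546997], [nat_lit 4499494069, nat_lit 3426014389], [nat_lit 4482446389], [nat_lit 2317919157], [nat_lit 4431315765], [nat_lit 6544712373], [nat_lit 102261301]] []))))))
(.node (nat_lit 713)
(.node (nat_lit 708)
(.node (nat_lit 706)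
(.node (nat_lit 705)
(.leaf [[nat_lit 4516554165, nat_lit 3427079605], [nat_lit 4516541749, nat_lit 3426546997], [nat_lit 4499494069, nat_lit 3426014389], [nat_lit 4482446389], [nat_lit 2317919157], [nat_lit 4431315765], [nat_lit 6544712373]] [])
(.leaf [[nat_lit 3443074485, nat_lit 3427079605, nat_lit 2335004085], [nat_lit 3443062069, nat_lit 2334991669, nat_lit 3426546997], [nat_lit 4499494069, nat_lit 3426014389], [nat_lit 4482446389], [nat_lit 2317919157], [nat_lit 4431315765], [nat_lit 6544712373]] []))
(.node (nat_lit 707)
(.leaf [[nat_lit 3443074485, nat_lit 3427079605, nat_lit 2335004085], [nat_lit 3443062069, nat_lit 2334991669, nat_lit 3426546997], [nat_lit 4499494069, nat_lit 3426014389], [nat_lit 4482446389], [nat_lit 2317919157], [nat_lit 4431315765], [nat_lit 6544712373]] [])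
(.leaf [[nat_lit 3443074485, nat_lit 3427079605, nat_lit 2335004085], [nat_lit 3443062069, nat_lit 2334991669, nat_lit 3426546997], [nat_lit 3426014389, nat_lit 2334979253], [nat_lit 4482446389], [nat_lit 2317919157], [nat_lit 4431315765], [nat_lit 6544712373]] [])))
(.node (nat_lit 710)
(.node (nat_lit 709)
(.leaf [[nat_lit 72162289077, nat_lit 71072814517], [nat_lit 72162276661, nat_lit 72162534709], [nat_lit 72145228981, nat_lit 71071749301], [nat_lit 72128181301], [nat_lit 2317919157], [nat_lit 139722785589], [nat_lit 139722785585]] [])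
(.leaf [[nat_lit 140882023861, nat_lit 140882544053, nat_lit 139773953461], [nat_lit 140882011445, nat_lit 139773941045], [nat_lit 141938443445], [nat_lit 139773916213], [nat_lit 2317919157], [nat_lit 139722785589], [nat_lit 139722785585]] []))
(.node (nat_lit 711)
(.leaf [[nat_lit 209601238453, nat_lit 209585243573], [nat_lit 209601226037, nat_lit 209584710965], [nat_lit 209584178357], [nat_lit 139773916213], [nat_lit 141887312821], [nat_lit 139722785589]] [])
(.node (nat_lit 712)
(.leaf [[nat_lit 279394452917, nat_lit 279394973109], [nat_lit 279394440501], [nat_lit 209584178357], [nat_lit 279343309877], [nat_lit 141887312821], [nat_lit 139722785589]] [])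
(.leaf [[nat_lit 279394452917, nat_lit 279394973109], [nat_lit 279394440501], [nat_lit 209584178357], [nat_lit 279343309877], [nat_lit 140813570997, nat_lit 210590012341], [nat_lit 139722785589]] [])))))
(.node (nat_lit 771)
(.node (nat_lit 768)
(.node (nat_lit 714)
(.leaf [[nat_lit 349187667381, nat_lit 279394973109], [nat_lit 279394440501], [nat_lit 349153572021], [nat_lit 279343309877], [nat_lit 279309222837, nat_lit 209516012469, nat_lit 279292711861], [nat_lit 139722785589]] [])
(.leaf [[nat_lit 5590554037, nat_lit 5591074229, nat_lit 4465448373], [nat_lit 5590541621, nat_lit 4465435957], [nat_lit 4499494069, nat_lit 4482978997], [nat_lit 4482446389], [nat_lit 2317919157], [nat_lit 4431315765], [nat_lit 6544712373]] []))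
(.node (nat_lit 769)
(.leaf [[nat_lit 5590554037, nat_lit 5591074229, nat_lit 4482483637], [nat_lit 5590541621, nat_lit 4482471221], [nat_lit 4499494069, nat_lit 3426014389], [nat_lit 4482446389], [nat_lit 2317919157], [nat_lit 4431315765], [nat_lit 6544712373]] [])
(.node (nat_lit 770)
(.leaf [[nat_lit 5591074229, nat_lit 4482483637], [nat_lit 5590541621, nat_lit 4482471221], [nat_lit 4499494069, nat_lit 3426014389], [nat_lit 4482446389], [nat_lit 2317919157], [nat_lit 4431315765], [nat_lit 6544712373]] [])
(.leaf [[nat_lit 5591074229, nat_lit 4482483637], [nat_lit 5590541621, nat_lit 4482471221], [nat_lit 4499494069, nat_lit 3426014389], [nat_lit 4482446389], [nat_lit 2317919157], [nat_lit 4431315765], [nat_lit 6544712373]] []))))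
(.node (nat_lit 773)
(.node (nat_lit 772)
(.leaf [[nat_lit 4516554165, nat_lit 3427079605], [nat_lit 4516541749, nat_lit 4516799797], [nat_lit 4499494069, nat_lit 3426014389], [nat_lit 4482446389], [nat_lit 2317919157], [nat_lit 4431315765], [nat_lit 6544712373]] [])
(.leaf [[nat_lit 73236288949, nat_lit 73236809141, nat_lit 72128218549], [nat_lit 73236276533, nat_lit 72128206133], [nat_lit 74292708533], [nat_lit 72128181301], [nat_lit 2317919157], [nat_lit 4431315765], [nat_lit 6544712373]] []))
(.node (nat_lit 774)
(.leaf [[nat_lit 141955503541, nat_lit 141939508661], [nat_lit 141955491125, nat_lit 141938976053], [nat_lit 141938443445], [nat_lit 72128181301], [nat_lit 141887312821], [nat_lit 139722785589]] [])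
(.node (nat_lit 775)
(.leaf [[nat_lit 210675238325, nat_lit 210675496373, nat_lit 209567167925], [nat_lit 210658190645, nat_lit 210674963765, nat_lit 209567155509], [nat_lit 141938443445], [nat_lit 139773916213], [nat_lit 141887312821], [nat_lit 139722785589]] [])
(.leaf [[nat_lit 279394452917, nat_lit 279394973109], [nat_lit 279394440501], [nat_lit 209584178357], [nat_lit 279343309877], [nat_lit 141887312821], [nat_lit 139722785589]] []))))))))
(.node (nat_lit 966)
(.node (nat_lit 897)
(.node (nat_lit 837)
(.node (nat_lit 832)
(.node (nat_lit 778)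
(.node (nat_lit 777)
(.leaf [[nat_lit 349187667381, nat_lit 279394973109], [nat_lit 279394440501], [nat_lit 349153572021], [nat_lit 279343309877], [nat_lit 141887312821], [nat_lit 139722785589]] [])
(.leaf [[nat_lit 349187667381, nat_lit 349187925429], [nat_lit 279394440501], [nat_lit 349153572021], [nat_lit 279343309877], [nat_lit 280382964661, nat_lit 210590012341], [nat_lit 139722785589]] []))
(.node (nat_lit 779)
(.leaf [[nat_lit 418980881845, nat_lit 418964366773], [nat_lit 418963834165], [nat_lit 349153572021], [nat_lit 279343309877], [nat_lit 279309222837, nat_lit 209516012469, nat_lit 209516270517, nat_lit 279292711861], [nat_lit 418861572917]] [])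
(.leaf [[nat_lit 6664033717, nat_lit 5591074229], [nat_lit 6664021301, nat_lit 5590541621], [nat_lit 6646973621], [nat_lit 4482446389], [nat_lit 6595842997], [nat_lit 4431315765], [nat_lit 6544712373]] [])))
(.node (nat_lit 834)
(.node (nat_lit 833)
(.leaf [[nat_lit 6664033717, nat_lit 5591074229], [nat_lit 6664021301, nat_lit 5590541621], [nat_lit 6646973621], [nat_lit 4482446389], [nat_lit 6595842997], [nat_lit 4431315765], [nat_lit 6544712373]] [])
(.leaf [[nat_lit 5590554037, nat_lit 5591074229, nat_lit 4482483637], [nat_lit 5590541621, nat_lit 4482471221], [nat_lit 6646973621], [nat_lit 4482446389], [nat_lit 6595842997], [nat_lit 4431315765], [nat_lit 6544712373]] []))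
(.node (nat_lit 835)
(.leaf [[nat_lit 5590554037, nat_lit 5591074229, nat_lit 4482483637], [nat_lit 5590541621, nat_lit 4482471221], [nat_lit 6646973621], [nat_lit 4482446389], [nat_lit 6595842997], [nat_lit 4431315765], [nat_lit 6544712373]] [])
(.node (nat_lit 836)
(.leaf [[nat_lit 5590554037, nat_lit 5591074229, nat_lit 4482483637], [nat_lit 5590541621, nat_lit 4482471221], [nat_lit 6646973621], [nat_lit 4482446389], [nat_lit 6595842997], [nat_lit 4431315765], [nat_lit 6544712373]] [])
(.leaf [[nat_lit 74309768629, nat_lit 74293773749], [nat_lit 74309756213, nat_lit 74293241141], [nat_lit 74292708533], [nat_lit 4482446389], [nat_lit 141887312821], [nat_lit 4431315765]] [])))))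
(.node (nat_lit 841)
(.node (nat_lit 839)
(.node (nat_lit 838)
(.leaf [[nat_lit 143029503413, nat_lit 143029761461, nat_lit 141921433013], [nat_lit 143012455733, nat_lit 143029228853, nat_lit 141921420597], [nat_lit 74292708533], [nat_lit 72128181301], [nat_lit 141887312821], [nat_lit 4431315765]] [])
(.leaf [[nat_lit 211748718005, nat_lit 211749238197], [nat_lit 211748705589], [nat_lit 141938443445], [nat_lit 211697574965], [nat_lit 141887312821], [nat_lit 139722785589]] []))
(.node (nat_lit 840)
(.leaf [[nat_lit 280468452789, nat_lit 279360382389, nat_lit 280451937717], [nat_lit 280451405109, nat_lit 279360369973], [nat_lit 281507837109], [nat_lit 279343309877], [nat_lit 141887312821], [nat_lit 139722785589]] [])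
(.leaf [[nat_lit 349187667381, nat_lit 349187925429], [nat_lit 349170619701, nat_lit 280451405109], [nat_lit 349153572021], [nat_lit 279343309877], [nat_lit 281456706485], [nat_lit 139722785589]] [])))
(.node (nat_lit 843)
(.node (nat_lit 842)
(.leaf [[nat_lit 418980881845, nat_lit 418964366773], [nat_lit 418963834165], [nat_lit 349153572021], [nat_lit 279343309877], [nat_lit 281456706485], [nat_lit 418861572917]] [])
(.leaf [[nat_lit 418980881845, nat_lit 418964366773], [nat_lit 418963834165], [nat_lit 349153572021], [nat_lit 418912703541], [nat_lit 280382964661, nat_lit 210590012341]] []))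
(.node (nat_lit 844)
(.leaf [[nat_lit 488774096309], [nat_lit 418963834165], [nat_lit 488722965685], [nat_lit 418912703541], [nat_lit 418912703537]] [])
(.node (nat_lit 896)
(.leaf [[nat_lit 7738033589, nat_lit 6648038837, nat_lit 6612927925], [nat_lit 6664021301, nat_lit 6647506229], [nat_lit 6646973621], [nat_lit 4482446389], [nat_lit 6595842997], [nat_lit 4431315765], [nat_lit 6544712373]] [])
(.leaf [[nat_lit 7738033589, nat_lit 6648038837, nat_lit 6629963189], [nat_lit 6664021301, nat_lit 6647506229], [nat_lit 6646973621], [nat_lit 4482446389], [nat_lit 6595842997], [nat_lit 4431315765], [nat_lit 6544712373]] []))))))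
(.node (nat_lit 906)
(.node (nat_lit 901)
(.node (nat_lit 899)
(.node (nat_lit 898)
(.leaf [[nat_lit 6664033717, nat_lit 6648038837], [nat_lit 6664021301, nat_lit 6647506229], [nat_lit 6646973621], [nat_lit 4482446389], [nat_lit 6595842997], [nat_lit 4431315765], [nat_lit 6544712373]] [])
(.leaf [[nat_lit 6664033717, nat_lit 6648038837], [nat_lit 6664021301, nat_lit 6647506229], [nat_lit 6646973621], [nat_lit 4482446389], [nat_lit 6595842997], [nat_lit 4431315765], [nat_lit 6544712373]] []))
(.node (nat_lit 900)
(.leaf [[nat_lit 6664033717, nat_lit 6648038837], [nat_lit 6664021301, nat_lit 6647506229], [nat_lit 6646973621], [nat_lit 4482446389], [nat_lit 6595842997], [nat_lit 4431315765]] [])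
(.leaf [[nat_lit 75383768501, nat_lit 75384026549, nat_lit 74275698101], [nat_lit 75366720821, nat_lit 75383493941, nat_lit 74275685685], [nat_lit 6646973621], [nat_lit 4482446389], [nat_lit 6595842997], [nat_lit 4431315765]] [])))
(.node (nat_lit 903)
(.node (nat_lit 902)
(.leaf [[nat_lit 144102983093, nat_lit 144103503285], [nat_lit 144102970677], [nat_lit 74292708533], [nat_lit 144051840053], [nat_lit 141887312821], [nat_lit 4431315765]] [])
(.leaf [[nat_lit 212822717877, nat_lit 211714647477, nat_lit 212806202805], [nat_lit 212805670197, nat_lit 211714635061], [nat_lit 213862102197], [nat_lit 211697574965], [nat_lit 141887312821], [nat_lit 4431315765]] []))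
(.node (nat_lit 904)
(.leaf [[nat_lit 281541932469, nat_lit 281542190517], [nat_lit 281524884789, nat_lit 280451405109], [nat_lit 281507837109], [nat_lit 211697574965], [nat_lit 281456706485], [nat_lit 139722785589]] [])
(.node (nat_lit 905)
(.leaf [[nat_lit 350261667253, nat_lit 349153596853], [nat_lit 351318099253], [nat_lit 349153572021], [nat_lit 279343309877], [nat_lit 281456706485], [nat_lit 418861572917]] [])
(.leaf [[nat_lit 418980881845, nat_lit 418964366773], [nat_lit 418963834165], [nat_lit 349153572021], [nat_lit 418912703541], [nat_lit 281456706485]] [])))))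
(.node (nat_lit 961)
(.node (nat_lit 908)
(.node (nat_lit 907)
(.leaf [[nat_lit 488774096309], [nat_lit 418963834165], [nat_lit 488722965685], [nat_lit 418912703541], [nat_lit 281456706485]] [])
(.leaf [[nat_lit 488774096309], [nat_lit 418963834165], [nat_lit 488722965685], [nat_lit 418912703541], [nat_lit 418912703537]] []))
(.node (nat_lit 909)
(.leaf [[nat_lit 488774096309], [nat_lit 558533227829], [nat_lit 488722965685], [nat_lit 418912703541], [nat_lit 558482097201]] [])
(.node (nat_lit 960)
(.leaf [[nat_lit 8811513269, nat_lit 8812033461], [nat_lit 8811500853], [nat_lit 6646973621], [nat_lit 8760370229], [nat_lit 6595842997], [nat_lit 4431315765], [nat_lit 6544712373]] [])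
(.leaf [[nat_lit 8811513269, nat_lit 8812033461], [nat_lit 8811500853], [nat_lit 6646973621], [nat_lit 8760370229], [nat_lit 6595842997], [nat_lit 4431315765], [nat_lit 6544712373]] []))))
(.node (nat_lit 963)
(.node (nat_lit 962)
(.leaf [[nat_lit 8812033461, nat_lit 6629963189], [nat_lit 8811500853], [nat_lit 6646973621], [nat_lit 8760370229], [nat_lit 6595842997], [nat_lit 4431315765], [nat_lit 6544712373]] [])
(.leaf [[nat_lit 8812033461, nat_lit 6629963189], [nat_lit 8811500853], [nat_lit 6646973621], [nat_lit 8760370229], [nat_lit 6595842997], [nat_lit 4431315765]] []))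
(.node (nat_lit 964)
(.leaf [[nat_lit 7738033589, nat_lit 7738291637, nat_lit 6629963189], [nat_lit 7720985909, nat_lit 7737759029, nat_lit 6629950773], [nat_lit 6646973621], [nat_lit 8760370229], [nat_lit 6595842997], [nat_lit 4431315765]] [])
(.node (nat_lit 965)
(.leaf [[nat_lit 76457248181, nat_lit 76457768373], [nat_lit 76457235765], [nat_lit 6646973621], [nat_lit 76406105141], [nat_lit 6595842997], [nat_lit 4431315765]] [])
(.leaf [[nat_lit 145176982965, nat_lit 144068912565, nat_lit 145160467893], [nat_lit 145159935285, nat_lit 144068900149], [nat_lit 146216367285], [nat_lit 144051840053], [nat_lit 6595842997], [nat_lit 4431315765]] [])))))))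
(.node (nat_lit 1034)
(.node (nat_lit 1024)
(.node (nat_lit 970)
(.node (nat_lit 968)
(.node (nat_lit 967)
(.leaf [[nat_lit 213896197557, nat_lit 213896455605], [nat_lit 213879149877, nat_lit 212805670197], [nat_lit 213862102197], [nat_lit 144051840053], [nat_lit 281456706485], [nat_lit 4431315765]] [])
(.leaf [[nat_lit 282615932341, nat_lit 281507861941], [nat_lit 283672364341], [nat_lit 281507837109], [nat_lit 211697574965], [nat_lit 281456706485], [nat_lit 418861572917]] []))
(.node (nat_lit 969)
(.leaf [[nat_lit 351335146933, nat_lit 351318631861], [nat_lit 351318099253], [nat_lit 281507837109], [nat_lit 351266968629], [nat_lit 281456706485]] [])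
(.leaf [[nat_lit 420037846453, nat_lit 420054619573, nat_lit 418946811317], [nat_lit 351318099253], [nat_lit 349153572021], [nat_lit 418912703541], [nat_lit 281456706485]] [])))
(.node (nat_lit 972)
(.node (nat_lit 971)
(.leaf [[nat_lit 488774096309], [nat_lit 418963834165], [nat_lit 488722965685], [nat_lit 418912703541], [nat_lit 281456706485]] [])
(.leaf [[nat_lit 488774096309], [nat_lit 558533227829], [nat_lit 488722965685], [nat_lit 418912703541], [nat_lit 281456706485]] []))
(.node (nat_lit 973)
(.leaf [[nat_lit 488774096309], [nat_lit 558533227829], [nat_lit 488722965685], [nat_lit 558482097205], [nat_lit 558482097201]] [])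
(.node (nat_lit 974)
(.leaf [[nat_lit 628343489973], [nat_lit 558533227829], [nat_lit 488722965685], [nat_lit 558482097205], [nat_lit 558482097201]] [])
(.leaf [[nat_lit 9885513141, nat_lit 8760407477, nat_lit 8812033461], [nat_lit 8811500853], [nat_lit 8777417909, nat_lit 7703938229], [nat_lit 8760370229], [nat_lit 6595842997], [nat_lit 4431315765], [nat_lit 6544712373]] [])))))
(.node (nat_lit 1029)
(.node (nat_lit 1026)
(.node (nat_lit 1025)
(.leaf [[nat_lit 9885513141, nat_lit 8777442741, nat_lit 8812033461], [nat_lit 8811500853], [nat_lit 8777417909, nat_lit 7703938229], [nat_lit 8760370229], [nat_lit 6595842997], [nat_lit 4431315765], [nat_lit 6544712373]] [])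
(.leaf [[nat_lit 8811513269, nat_lit 8812033461], [nat_lit 8811500853], [nat_lit 8777417909, nat_lit 7703938229], [nat_lit 8760370229], [nat_lit 6595842997], [nat_lit 4431315765]] []))
(.node (nat_lit 1027)
(.leaf [[nat_lit 8811513269, nat_lit 8812033461], [nat_lit 8811500853], [nat_lit 8777417909, nat_lit 7703938229], [nat_lit 8760370229], [nat_lit 6595842997], [nat_lit 4431315765]] [])
(.node (nat_lit 1028)
(.leaf [[nat_lit 8811513269, nat_lit 8812033461], [nat_lit 8811500853], [nat_lit 8777417909, nat_lit 7703938229], [nat_lit 8760370229], [nat_lit 6595842997], [nat_lit 4431315765]] [])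
(.leaf [[nat_lit 77531248053, nat_lit 76423177653, nat_lit 77514732981], [nat_lit 77514200373, nat_lit 76423165237], [nat_lit 78570632373], [nat_lit 76406105141], [nat_lit 6595842997], [nat_lit 4431315765]] []))))
(.node (nat_lit 1031)
(.node (nat_lit 1030)
(.leaf [[nat_lit 146250462645, nat_lit 146250720693], [nat_lit 146233414965, nat_lit 145159935285], [nat_lit 146216367285], [nat_lit 76406105141], [nat_lit 146165236661], [nat_lit 4431315765]] [])
(.leaf [[nat_lit 214970197429, nat_lit 213862127029], [nat_lit 216026629429], [nat_lit 213862102197], [nat_lit 144051840053], [nat_lit 146165236661], [nat_lit 4431315765]] []))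
(.node (nat_lit 1032)
(.leaf [[nat_lit 283689412021, nat_lit 283672896949], [nat_lit 283672364341], [nat_lit 213862102197], [nat_lit 283621233717], [nat_lit 281456706485]] [])
(.node (nat_lit 1033)
(.leaf [[nat_lit 352392111541, nat_lit 352408884661, nat_lit 351301076405], [nat_lit 283672364341], [nat_lit 281507837109], [nat_lit 351266968629], [nat_lit 281456706485]] [])
(.leaf [[nat_lit 421128361397], [nat_lit 351318099253], [nat_lit 421077230773], [nat_lit 351266968629], [nat_lit 281456706485]] []))))))
(.node (nat_lit 1091)
(.node (nat_lit 1038)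
(.node (nat_lit 1036)
(.node (nat_lit 1035)
(.leaf [[nat_lit 489831060917, nat_lit 488740025781], [nat_lit 490887492917], [nat_lit 488722965685], [nat_lit 418912703541], [nat_lit 281456706485]] [])
(.leaf [[nat_lit 558550275509, nat_lit 489831060917], [nat_lit 558533227829], [nat_lit 488722965685], [nat_lit 558482097205], [nat_lit 281456706485]] []))
(.node (nat_lit 1037)
(.leaf [[nat_lit 628343489973], [nat_lit 558533227829], [nat_lit 488722965685], [nat_lit 558482097205], [nat_lit 281456706485]] [])
(.leaf [[nat_lit 628343489973], [nat_lit 558533227829], [nat_lit 488722965685], [nat_lit 558482097205]] [])))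
(.node (nat_lit 1088)
(.node (nat_lit 1039)
(.leaf [[nat_lit 628343489973], [nat_lit 698102621493], [nat_lit 488722965685], [nat_lit 558482097205]] [])
(.leaf [[nat_lit 10958992821, nat_lit 9868998069], [nat_lit 10941945141, nat_lit 9868465461], [nat_lit 10924897461], [nat_lit 8760370229], [nat_lit 6595842997], [nat_lit 4431315765], [nat_lit 6544712373]] []))
(.node (nat_lit 1089)
(.leaf [[nat_lit 10958992821, nat_lit 9868998069], [nat_lit 10941945141, nat_lit 9868465461], [nat_lit 10924897461], [nat_lit 8760370229], [nat_lit 6595842997], [nat_lit 4431315765]] [])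
(.node (nat_lit 1090)
(.leaf [[nat_lit 9885513141, nat_lit 8777442741, nat_lit 9868998069], [nat_lit 10941945141, nat_lit 9868465461], [nat_lit 10924897461], [nat_lit 8760370229], [nat_lit 6595842997], [nat_lit 4431315765]] [])
(.leaf [[nat_lit 9885513141, nat_lit 8777442741, nat_lit 9868998069], [nat_lit 10941945141, nat_lit 9868465461], [nat_lit 10924897461], [nat_lit 8760370229], [nat_lit 6595842997], [nat_lit 4431315765]] [])))))
(.node (nat_lit 1096)
(.node (nat_lit 1093)
(.node (nat_lit 1092)
(.leaf [[nat_lit 9885513141, nat_lit 8777442741, nat_lit 9868998069], [nat_lit 9868465461, nat_lit 8777430325], [nat_lit 10924897461], [nat_lit 8760370229], [nat_lit 6595842997], [nat_lit 4431315765]] [])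
(.leaf [[nat_lit 78604727733, nat_lit 78604985781], [nat_lit 78587680053, nat_lit 77514200373], [nat_lit 78570632373], [nat_lit 8760370229], [nat_lit 146165236661], [nat_lit 4431315765]] []))
(.node (nat_lit 1094)
(.leaf [[nat_lit 147324462517, nat_lit 146216392117], [nat_lit 148380894517], [nat_lit 146216367285], [nat_lit 76406105141], [nat_lit 146165236661], [nat_lit 4431315765]] [])
(.node (nat_lit 1095)
(.leaf [[nat_lit 216043677109, nat_lit 216027162037], [nat_lit 216026629429], [nat_lit 146216367285], [nat_lit 76406105141], [nat_lit 146165236661]] [])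
(.leaf [[nat_lit 284746376629, nat_lit 284763149749, nat_lit 283655341493], [nat_lit 216026629429], [nat_lit 213862102197], [nat_lit 283621233717], [nat_lit 146165236661]] []))))
(.node (nat_lit 1098)
(.node (nat_lit 1097)
(.leaf [[nat_lit 353482626485], [nat_lit 283672364341], [nat_lit 353431495861], [nat_lit 283621233717], [nat_lit 281456706485]] [])
(.leaf [[nat_lit 422185326005, nat_lit 421094290869], [nat_lit 423241758005], [nat_lit 421077230773], [nat_lit 351266968629], [nat_lit 281456706485]] []))
(.node (nat_lit 1099)
(.leaf [[nat_lit 490904540597, nat_lit 489831060917], [nat_lit 490887492917], [nat_lit 421077230773], [nat_lit 351266968629], [nat_lit 281456706485]] [])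
(.node (nat_lit 1100)
(.leaf [[nat_lit 560697755061], [nat_lit 558533227829], [nat_lit 488722965685], [nat_lit 558482097205], [nat_lit 281456706485]] [])
(.leaf [[nat_lit 628343489973], [nat_lit 558533227829], [nat_lit 488722965685], [nat_lit 558482097205]] [])))))))))
(.node (nat_lit 1358)
(.node (nat_lit 1231)
(.node (nat_lit 1166)
(.node (nat_lit 1157)
(.node (nat_lit 1152)
(.node (nat_lit 1103)
(.node (nat_lit 1102)
(.leaf [[nat_lit 628343489973], [nat_lit 698102621493], [nat_lit 488722965685], [nat_lit 558482097205]] [])
(.leaf [[nat_lit 628343489973], [nat_lit 698102621493], [nat_lit 488722965685], [nat_lit 558482097205]] []))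
(.node (nat_lit 1104)
(.leaf [[nat_lit 767912883637], [nat_lit 698102621493], [nat_lit 488722965685], [nat_lit 558482097205]] [])
(.leaf [[nat_lit 12032992693, nat_lit 10907887029], [nat_lit 10941945141, nat_lit 10925430069], [nat_lit 10924897461], [nat_lit 8760370229], [nat_lit 6595842997], [nat_lit 4431315765]] [])))
(.node (nat_lit 1154)
(.node (nat_lit 1153)
(.leaf [[nat_lit 12032992693, nat_lit 10924922293], [nat_lit 10941945141, nat_lit 9868465461], [nat_lit 10924897461], [nat_lit 8760370229], [nat_lit 6595842997], [nat_lit 4431315765]] [])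
(.leaf [[nat_lit 12032992693, nat_lit 10924922293], [nat_lit 10941945141, nat_lit 9868465461], [nat_lit 10924897461], [nat_lit 8760370229], [nat_lit 6595842997], [nat_lit 4431315765]] []))
(.node (nat_lit 1155)
(.leaf [[nat_lit 12032992693, nat_lit 10924922293], [nat_lit 10941945141, nat_lit 9868465461], [nat_lit 10924897461], [nat_lit 8760370229], [nat_lit 6595842997], [nat_lit 4431315765]] [])
(.node (nat_lit 1156)
(.leaf [[nat_lit 10958992821, nat_lit 10959250869], [nat_lit 10941945141, nat_lit 9868465461], [nat_lit 10924897461], [nat_lit 8760370229], [nat_lit 6595842997], [nat_lit 4431315765]] [])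
(.leaf [[nat_lit 79678727605, nat_lit 78570657205], [nat_lit 80735159605], [nat_lit 78570632373], [nat_lit 8760370229], [nat_lit 146165236661], [nat_lit 4431315765]] [])))))
(.node (nat_lit 1161)
(.node (nat_lit 1159)
(.node (nat_lit 1158)
(.leaf [[nat_lit 148397942197, nat_lit 148381427125], [nat_lit 148380894517], [nat_lit 78570632373], [nat_lit 8760370229], [nat_lit 146165236661]] [])
(.leaf [[nat_lit 217100641717, nat_lit 217117414837, nat_lit 216009606581], [nat_lit 148380894517], [nat_lit 146216367285], [nat_lit 283621233717], [nat_lit 146165236661]] []))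
(.node (nat_lit 1160)
(.leaf [[nat_lit 285836891573], [nat_lit 216026629429], [nat_lit 285785760949], [nat_lit 283621233717], [nat_lit 146165236661]] [])
(.leaf [[nat_lit 354539591093, nat_lit 353448555957], [nat_lit 355596023093], [nat_lit 353431495861], [nat_lit 283621233717], [nat_lit 146165236661]] [])))
(.node (nat_lit 1163)
(.node (nat_lit 1162)
(.leaf [[nat_lit 423258805685, nat_lit 422185326005], [nat_lit 423241758005], [nat_lit 353431495861], [nat_lit 283621233717], [nat_lit 281456706485]] [])
(.leaf [[nat_lit 493052020149], [nat_lit 490887492917], [nat_lit 421077230773], [nat_lit 558482097205], [nat_lit 281456706485]] []))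
(.node (nat_lit 1164)
(.leaf [[nat_lit 560697755061], [nat_lit 490887492917], [nat_lit 421077230773], [nat_lit 558482097205]] [])
(.node (nat_lit 1165)
(.leaf [[nat_lit 560697755061], [nat_lit 558533227829], [nat_lit 488722965685], [nat_lit 558482097205]] [])
(.leaf [[nat_lit 628343489973], [nat_lit 698102621493], [nat_lit 488722965685], [nat_lit 558482097205]] []))))))
(.node (nat_lit 1221)
(.node (nat_lit 1216)
(.node (nat_lit 1168)
(.node (nat_lit 1167)
(.leaf [[nat_lit 767912883637], [nat_lit 698102621493], [nat_lit 488722965685], [nat_lit 558482097205]] [])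
(.leaf [[nat_lit 767912883637], [nat_lit 698102621493], [nat_lit 488722965685], [nat_lit 558482097205]] []))
(.node (nat_lit 1169)
(.leaf [[nat_lit 767912883637], [nat_lit 698102621493], [nat_lit 488722965685], [nat_lit 558482097205]] [])
(.leaf [[nat_lit 13106472373, nat_lit 12032992693], [nat_lit 13089424693], [nat_lit 10924897461], [nat_lit 8760370229], [nat_lit 6595842997], [nat_lit 4431315765]] [])))
(.node (nat_lit 1218)
(.node (nat_lit 1217)
(.leaf [[nat_lit 13106472373, nat_lit 12032992693], [nat_lit 13089424693], [nat_lit 10924897461], [nat_lit 8760370229], [nat_lit 6595842997], [nat_lit 4431315765]] [])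
(.leaf [[nat_lit 12032992693, nat_lit 10924922293], [nat_lit 13089424693], [nat_lit 10924897461], [nat_lit 8760370229], [nat_lit 6595842997], [nat_lit 4431315765]] []))
(.node (nat_lit 1219)
(.leaf [[nat_lit 12032992693, nat_lit 10924922293], [nat_lit 13089424693], [nat_lit 10924897461], [nat_lit 8760370229], [nat_lit 6595842997], [nat_lit 4431315765]] [])
(.node (nat_lit 1220)
(.leaf [[nat_lit 12032992693, nat_lit 10924922293], [nat_lit 13089424693], [nat_lit 10924897461], [nat_lit 8760370229], [nat_lit 146165236661], [nat_lit 4431315765]] [])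
(.leaf [[nat_lit 80752207285, nat_lit 80735692213], [nat_lit 80735159605], [nat_lit 10924897461], [nat_lit 8760370229], [nat_lit 146165236661]] [])))))
(.node (nat_lit 1226)
(.node (nat_lit 1223)
(.node (nat_lit 1222)
(.leaf [[nat_lit 149454906805, nat_lit 149471679925, nat_lit 148363871669], [nat_lit 80735159605], [nat_lit 78570632373], [nat_lit 8760370229], [nat_lit 146165236661]] [])
(.leaf [[nat_lit 218191156661], [nat_lit 148380894517], [nat_lit 285785760949], [nat_lit 283621233717], [nat_lit 146165236661]] []))
(.node (nat_lit 1224)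
(.leaf [[nat_lit 286893856181, nat_lit 285802821045], [nat_lit 355596023093], [nat_lit 285785760949], [nat_lit 283621233717], [nat_lit 146165236661]] [])
(.node (nat_lit 1225)
(.leaf [[nat_lit 355613070773, nat_lit 354539591093], [nat_lit 355596023093], [nat_lit 285785760949], [nat_lit 283621233717], [nat_lit 146165236661]] [])
(.leaf [[nat_lit 425406285237], [nat_lit 423241758005], [nat_lit 353431495861], [nat_lit 283621233717], [nat_lit 146165236661]] []))))
(.node (nat_lit 1228)
(.node (nat_lit 1227)
(.leaf [[nat_lit 493052020149], [nat_lit 423241758005], [nat_lit 353431495861], [nat_lit 558482097205]] [])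
(.leaf [[nat_lit 493052020149], [nat_lit 490887492917], [nat_lit 421077230773], [nat_lit 558482097205]] []))
(.node (nat_lit 1229)
(.leaf [[nat_lit 560697755061], [nat_lit 698102621493], [nat_lit 421077230773], [nat_lit 558482097205]] [])
(.node (nat_lit 1230)
(.leaf [[nat_lit 767912883637], [nat_lit 698102621493], [nat_lit 488722965685], [nat_lit 558482097205]] [])
(.leaf [[nat_lit 767912883637], [nat_lit 698102621493], [nat_lit 488722965685], [nat_lit 558482097205]] [])))))))
(.node (nat_lit 1295)
(.node (nat_lit 1285)
(.node (nat_lit 1280)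
(.node (nat_lit 1233)
(.node (nat_lit 1232)
(.leaf [[nat_lit 767912883637], [nat_lit 698102621493], [nat_lit 488722965685], [nat_lit 558482097205]] [])
(.leaf [[nat_lit 767912883637], [nat_lit 698102621493], [nat_lit 488722965685]] []))
(.node (nat_lit 1234)
(.leaf [[nat_lit 767912883637], [nat_lit 698102621493], [nat_lit 488722965685]] [])
(.leaf [[nat_lit 13106472373, nat_lit 13089957301], [nat_lit 13089424693], [nat_lit 10924897461], [nat_lit 8760370229], [nat_lit 6595842997], [nat_lit 4431315765]] [])))
(.node (nat_lit 1282)
(.node (nat_lit 1281)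
(.leaf [[nat_lit 13106472373, nat_lit 13089957301], [nat_lit 13089424693], [nat_lit 10924897461], [nat_lit 8760370229], [nat_lit 6595842997], [nat_lit 4431315765]] [])
(.leaf [[nat_lit 13106472373, nat_lit 13089957301], [nat_lit 13089424693], [nat_lit 10924897461], [nat_lit 8760370229], [nat_lit 6595842997], [nat_lit 4431315765]] []))
(.node (nat_lit 1283)
(.leaf [[nat_lit 13106472373, nat_lit 13089957301], [nat_lit 13089424693], [nat_lit 10924897461], [nat_lit 8760370229], [nat_lit 146165236661], [nat_lit 146165236657]] [])
(.node (nat_lit 1284)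
(.leaf [[nat_lit 13106472373, nat_lit 13089957301], [nat_lit 13089424693], [nat_lit 10924897461], [nat_lit 8760370229], [nat_lit 146165236661]] [])
(.leaf [[nat_lit 81809171893, nat_lit 81825945013, nat_lit 80718136757], [nat_lit 13089424693], [nat_lit 10924897461], [nat_lit 8760370229], [nat_lit 146165236661]] [])))))
(.node (nat_lit 1290)
(.node (nat_lit 1287)
(.node (nat_lit 1286)
(.leaf [[nat_lit 150545421749], [nat_lit 80735159605], [nat_lit 10924897461], [nat_lit 8760370229], [nat_lit 146165236661]] [])
(.leaf [[nat_lit 219248121269, nat_lit 218157086133], [nat_lit 218157073717, nat_lit 149437859125], [nat_lit 285785760949], [nat_lit 283621233717], [nat_lit 146165236661]] []))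
(.node (nat_lit 1288)
(.leaf [[nat_lit 287967335861, nat_lit 286893856181], [nat_lit 355596023093], [nat_lit 285785760949], [nat_lit 283621233717], [nat_lit 146165236661]] [])
(.node (nat_lit 1289)
(.leaf [[nat_lit 287967335861, nat_lit 286893856181], [nat_lit 355596023093], [nat_lit 285785760949], [nat_lit 283621233717], [nat_lit 146165236661]] [])
(.leaf [[nat_lit 425406285237], [nat_lit 355596023093], [nat_lit 285785760949], [nat_lit 283621233717]] []))))
(.node (nat_lit 1292)
(.node (nat_lit 1291)
(.leaf [[nat_lit 425406285237], [nat_lit 423241758005], [nat_lit 353431495861], [nat_lit 558482097205]] [])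
(.leaf [[nat_lit 493052020149], [nat_lit 423241758005], [nat_lit 353431495861], [nat_lit 558482097205]] []))
(.node (nat_lit 1293)
(.leaf [[nat_lit 630473934261, nat_lit 561754719669], [nat_lit 698102621493], [nat_lit 421077230773], [nat_lit 558482097205]] [])
(.node (nat_lit 1294)
(.leaf [[nat_lit 767912883637], [nat_lit 698102621493], [nat_lit 559572882613, nat_lit 490853409973], [nat_lit 558482097205]] [])
(.leaf [[nat_lit 767912883637], [nat_lit 698102621493], [nat_lit 421077230773], [nat_lit 558482097205]] []))))))
(.node (nat_lit 1348)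
(.node (nat_lit 1299)
(.node (nat_lit 1297)
(.node (nat_lit 1296)
(.leaf [[nat_lit 767912883637], [nat_lit 698102621493], [nat_lit 559572882613, nat_lit 558499144885]] [])
(.leaf [[nat_lit 767912883637], [nat_lit 698102621493], [nat_lit 559572882613, nat_lit 558499144885]] []))
(.node (nat_lit 1298)
(.leaf [[nat_lit 767912883637], [nat_lit 698102621493], [nat_lit 698102621489]] [])
(.leaf [[nat_lit 767912883637], [nat_lit 698102621493], [nat_lit 698102621489]] [])))
(.node (nat_lit 1345)
(.node (nat_lit 1344)
(.leaf [[nat_lit 13089437109, nat_lit 13089957301], [nat_lit 13089424693], [nat_lit 10924897461], [nat_lit 8760370229], [nat_lit 6595842997], [nat_lit 6595842993]] [])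
(.leaf [[nat_lit 14180210101, nat_lit 13089437109, nat_lit 13089957301], [nat_lit 13089424693], [nat_lit 10924897461], [nat_lit 8760370229], [nat_lit 6595842997], [nat_lit 6595842993]] []))
(.node (nat_lit 1346)
(.leaf [[nat_lit 13089437109, nat_lit 13089957301], [nat_lit 13089424693], [nat_lit 10924897461], [nat_lit 8760370229], [nat_lit 146165236661], [nat_lit 146165236657]] [])
(.node (nat_lit 1347)
(.leaf [[nat_lit 13106472373, nat_lit 14180210101], [nat_lit 13089424693], [nat_lit 10924897461], [nat_lit 8760370229], [nat_lit 146165236661]] [])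
(.leaf [[nat_lit 13106472373, nat_lit 14180210101], [nat_lit 13089424693], [nat_lit 10924897461], [nat_lit 8760370229], [nat_lit 146165236661]] [])))))
(.node (nat_lit 1353)
(.node (nat_lit 1350)
(.node (nat_lit 1349)
(.leaf [[nat_lit 82899686837], [nat_lit 13089424693], [nat_lit 10924897461], [nat_lit 8760370229], [nat_lit 146165236661]] [])
(.leaf [[nat_lit 82899686837], [nat_lit 13089424693], [nat_lit 10924897461], [nat_lit 8760370229], [nat_lit 146165236661]] []))
(.node (nat_lit 1351)
(.leaf [[nat_lit 219248121269, nat_lit 150528386485], [nat_lit 218157073717, nat_lit 149437859125], [nat_lit 285785760949], [nat_lit 283621233717], [nat_lit 146165236661]] [])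
(.node (nat_lit 1352)
(.leaf [[nat_lit 287967335861, nat_lit 219248121269], [nat_lit 355596023093], [nat_lit 285785760949], [nat_lit 283621233717], [nat_lit 146165236661]] [])
(.leaf [[nat_lit 425406285237], [nat_lit 355596023093], [nat_lit 285785760949], [nat_lit 283621233717]] []))))
(.node (nat_lit 1355)
(.node (nat_lit 1354)
(.leaf [[nat_lit 425406285237], [nat_lit 355596023093], [nat_lit 285785760949], [nat_lit 283621233717]] [])
(.leaf [[nat_lit 425406285237], [nat_lit 355596023093], [nat_lit 285785760949], [nat_lit 558482097205]] []))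
(.node (nat_lit 1356)
(.leaf [[nat_lit 425406285237], [nat_lit 355596023093], [nat_lit 285785760949], [nat_lit 558482097205]] [])
(.node (nat_lit 1357)
(.leaf [[nat_lit 630473934261, nat_lit 561754719669], [nat_lit 698102621493], [nat_lit 353431495861], [nat_lit 558482097205]] [])
(.leaf [[nat_lit 767912883637], [nat_lit 698102621493], [nat_lit 353431495861], [nat_lit 558482097205]] []))))))))
(.node (nat_lit 1480)
(.node (nat_lit 1419)
(.node (nat_lit 1410)
(.node (nat_lit 1362)
(.node (nat_lit 1360)
(.node (nat_lit 1359)
(.leaf [[nat_lit 767912883637], [nat_lit 698102621493], [nat_lit 559572882613, nat_lit 490853409973]] [])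
(.leaf [[nat_lit 767912883637], [nat_lit 698102621493], [nat_lit 559572882613, nat_lit 490853409973]] []))
(.node (nat_lit 1361)
(.leaf [[nat_lit 767912883637], [nat_lit 698102621493], [nat_lit 698102621489]] [])
(.leaf [[nat_lit 767912883637], [nat_lit 698102621493], [nat_lit 698102621489]] [])))
(.node (nat_lit 1364)
(.node (nat_lit 1363)
(.leaf [[nat_lit 767912883637], [nat_lit 698102621493], [nat_lit 698102621489]] [])
(.leaf [[nat_lit 767912883637], [nat_lit 698102621493], [nat_lit 698102621489]] []))
(.node (nat_lit 1408)
(.leaf [[nat_lit 14180210101, nat_lit 13089437109, nat_lit 13089957301], [nat_lit 13089424693], [nat_lit 10924897461], [nat_lit 8760370229], [nat_lit 8760370225], [nat_lit 8760370221]] [])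
(.node (nat_lit 1409)
(.leaf [[nat_lit 13089437109, nat_lit 13089957301], [nat_lit 13089424693], [nat_lit 10924897461], [nat_lit 8760370229], [nat_lit 8760370225], [nat_lit 8760370221]] [])
(.leaf [[nat_lit 14180210101, nat_lit 13089437109, nat_lit 13089957301], [nat_lit 13089424693], [nat_lit 10924897461], [nat_lit 8760370229], [nat_lit 146165236661]] [])))))
(.node (nat_lit 1414)
(.node (nat_lit 1412)
(.node (nat_lit 1411)
(.leaf [[nat_lit 14180210101, nat_lit 13089437109, nat_lit 13089957301], [nat_lit 13089424693], [nat_lit 10924897461], [nat_lit 8760370229], [nat_lit 146165236661]] [])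
(.leaf [[nat_lit 82899686837], [nat_lit 13089424693], [nat_lit 10924897461], [nat_lit 8760370229], [nat_lit 146165236661]] []))
(.node (nat_lit 1413)
(.leaf [[nat_lit 82899686837], [nat_lit 13089424693], [nat_lit 10924897461], [nat_lit 8760370229], [nat_lit 146165236661]] [])
(.leaf [[nat_lit 82899686837], [nat_lit 13089424693], [nat_lit 10924897461], [nat_lit 8760370229], [nat_lit 146165236661]] [])))
(.node (nat_lit 1416)
(.node (nat_lit 1415)
(.leaf [[nat_lit 82899686837], [nat_lit 13089424693], [nat_lit 285785760949], [nat_lit 283621233717], [nat_lit 146165236661]] [])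
(.leaf [[nat_lit 287967335861, nat_lit 219248121269], [nat_lit 355596023093], [nat_lit 285785760949], [nat_lit 283621233717]] []))
(.node (nat_lit 1417)
(.leaf [[nat_lit 287967335861, nat_lit 356686808501], [nat_lit 355596023093], [nat_lit 285785760949], [nat_lit 283621233717]] [])
(.node (nat_lit 1418)
(.leaf [[nat_lit 425406285237], [nat_lit 355596023093], [nat_lit 285785760949], [nat_lit 283621233717]] [])
(.leaf [[nat_lit 425406285237], [nat_lit 355596023093], [nat_lit 285785760949], [nat_lit 558482097205]] []))))))
(.node (nat_lit 1428)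
(.node (nat_lit 1423)
(.node (nat_lit 1421)
(.node (nat_lit 1420)
(.leaf [[nat_lit 425406285237], [nat_lit 355596023093], [nat_lit 285785760949], [nat_lit 558482097205]] [])
(.leaf [[nat_lit 425406285237], [nat_lit 698102621493], [nat_lit 285785760949], [nat_lit 558482097205]] []))
(.node (nat_lit 1422)
(.leaf [[nat_lit 767912883637], [nat_lit 698102621493], [nat_lit 353431495861]] [])
(.leaf [[nat_lit 767912883637], [nat_lit 698102621493], [nat_lit 559572882613, nat_lit 490853409973]] [])))
(.node (nat_lit 1425)
(.node (nat_lit 1424)
(.leaf [[nat_lit 767912883637], [nat_lit 698102621493], [nat_lit 698102621489]] [])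
(.leaf [[nat_lit 767912883637], [nat_lit 698102621493], [nat_lit 698102621489]] []))
(.node (nat_lit 1426)
(.leaf [[nat_lit 767912883637], [nat_lit 698102621493], [nat_lit 559572882613]] [])
(.node (nat_lit 1427)
(.leaf [[nat_lit 767912883637], [nat_lit 698102621493], [nat_lit 698102621489]] [])
(.leaf [[nat_lit 767912883637], [nat_lit 698102621493]] [])))))
(.node (nat_lit 1475)
(.node (nat_lit 1472)
(.node (nat_lit 1429)
(.leaf [[nat_lit 767912883637], [nat_lit 698102621493]] [])
(.leaf [[nat_lit 13089437109, nat_lit 13089957301], [nat_lit 13089424693], [nat_lit 10924897461], [nat_lit 10924897457], [nat_lit 10924897453]] [[], [], [], [], [], [nat_lit 89496759902235]]))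
(.node (nat_lit 1473)
(.leaf [[nat_lit 14180210101, nat_lit 13089437109, nat_lit 13089957301], [nat_lit 13089424693], [nat_lit 10924897461], [nat_lit 10924897457], [nat_lit 8726283189, nat_lit 76372022197]] [])
(.node (nat_lit 1474)
(.leaf [[nat_lit 14180210101, nat_lit 13089437109, nat_lit 13089957301], [nat_lit 13089424693], [nat_lit 10924897461], [nat_lit 77463069749, nat_lit 8743334965], [nat_lit 146165236661]] [])
(.leaf [[nat_lit 82899686837], [nat_lit 13089424693], [nat_lit 10924897461], [nat_lit 147256022069, nat_lit 77463069749], [nat_lit 146165236661]] []))))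
(.node (nat_lit 1477)
(.node (nat_lit 1476)
(.leaf [[nat_lit 82899686837], [nat_lit 13089424693], [nat_lit 10924897461], [nat_lit 146182284341, nat_lit 78536545333], [nat_lit 146165236661]] [])
(.leaf [[nat_lit 82899686837], [nat_lit 13089424693], [nat_lit 10924897461], [nat_lit 147256022069, nat_lit 146182284341], [nat_lit 146165236661]] []))
(.node (nat_lit 1478)
(.leaf [[nat_lit 82899686837], [nat_lit 13089424693], [nat_lit 148346811573, nat_lit 79627596981], [nat_lit 283621233717], [nat_lit 146165236661]] [])
(.node (nat_lit 1479)
(.leaf [[nat_lit 82899686837], [nat_lit 13089424693], [nat_lit 285785760949], [nat_lit 283621233717]] [])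
(.leaf [[nat_lit 287967335861, nat_lit 219248121269], [nat_lit 355596023093], [nat_lit 285785760949], [nat_lit 283621233717]] [])))))))
(.node (nat_lit 1540)
(.node (nat_lit 1489)
(.node (nat_lit 1484)
(.node (nat_lit 1482)
(.node (nat_lit 1481)
(.leaf [[nat_lit 425406285237], [nat_lit 355596023093], [nat_lit 285785760949], [nat_lit 283621233717]] [])
(.leaf [[nat_lit 425406285237], [nat_lit 355596023093], [nat_lit 285785760949], [nat_lit 558482097205]] []))
(.node (nat_lit 1483)
(.leaf [[nat_lit 425406285237], [nat_lit 355596023093], [nat_lit 285785760949], [nat_lit 558482097205]] [])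
(.leaf [[nat_lit 425406285237], [nat_lit 355596023093], [nat_lit 285785760949], [nat_lit 558482097205]] [])))
(.node (nat_lit 1486)
(.node (nat_lit 1485)
(.leaf [[nat_lit 425406285237], [nat_lit 698102621493], [nat_lit 285785760949]] [])
(.leaf [[nat_lit 767912883637], [nat_lit 698102621493], [nat_lit 559572882613, nat_lit 490853409973]] []))
(.node (nat_lit 1487)
(.leaf [[nat_lit 767912883637], [nat_lit 698102621493], [nat_lit 285785760949]] [])
(.node (nat_lit 1488)
(.leaf [[nat_lit 767912883637], [nat_lit 698102621493], [nat_lit 698102621489]] [])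
(.leaf [[nat_lit 767912883637], [nat_lit 698102621493], [nat_lit 559572882613]] [])))))
(.node (nat_lit 1494)
(.node (nat_lit 1491)
(.node (nat_lit 1490)
(.leaf [[nat_lit 767912883637], [nat_lit 698102621493], [nat_lit 698102621489]] [])
(.leaf [[nat_lit 767912883637], [nat_lit 698102621493]] []))
(.node (nat_lit 1492)
(.leaf [[nat_lit 767912883637], [nat_lit 698102621493]] [])
(.node (nat_lit 1493)
(.leaf [[nat_lit 767912883637], [nat_lit 698102621493]] [])
(.leaf [[nat_lit 767912883637], [nat_lit 698102621493]] []))))
(.node (nat_lit 1537)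
(.node (nat_lit 1536)
(.leaf [[nat_lit 14180210101, nat_lit 13089437109, nat_lit 13089957301], [nat_lit 13089424693], [nat_lit 13089424689], [nat_lit 13089424685], [nat_lit 8726283189, nat_lit 9817072689]] [[], [], [], [], [nat_lit 107228566986909]])
(.leaf [[nat_lit 14180210101, nat_lit 13089437109, nat_lit 13089957301], [nat_lit 13089424693], [nat_lit 13089424689], [nat_lit 13089424685], [nat_lit 13089424681]] []))
(.node (nat_lit 1538)
(.leaf [[nat_lit 14180210101, nat_lit 13089437109, nat_lit 13089957301], [nat_lit 13089424693], [nat_lit 79627596981, nat_lit 10907862197], [nat_lit 9817072693, nat_lit 79627596977], [nat_lit 146165236661]] [])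
(.node (nat_lit 1539)
(.leaf [[nat_lit 82899686837], [nat_lit 13089424693], [nat_lit 79627596981, nat_lit 10907862197], [nat_lit 147256022069, nat_lit 10907862193, nat_lit 79627596977], [nat_lit 146165236661]] [])
(.leaf [[nat_lit 82899686837], [nat_lit 13089424693], [nat_lit 79627596981, nat_lit 79627334837], [nat_lit 147256022069, nat_lit 79627596977], [nat_lit 146165236661]] []))))))
(.node (nat_lit 1549)
(.node (nat_lit 1544)
(.node (nat_lit 1542)
(.node (nat_lit 1541)
(.leaf [[nat_lit 82899686837], [nat_lit 13089424693], [nat_lit 148346811573, nat_lit 79627596981], [nat_lit 147256022069, nat_lit 148346811569, nat_lit 79627596977], [nat_lit 146165236661]] [])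
(.leaf [[nat_lit 82899686837], [nat_lit 13089424693], [nat_lit 217066284213, nat_lit 148346811573], [nat_lit 285785760945]] []))
(.node (nat_lit 1543)
(.leaf [[nat_lit 82899686837], [nat_lit 13089424693], [nat_lit 285785760949], [nat_lit 285785760945]] [])
(.leaf [[nat_lit 82899686837], [nat_lit 355596023093], [nat_lit 285785760949], [nat_lit 285785760945]] [])))
(.node (nat_lit 1546)
(.node (nat_lit 1545)
(.leaf [[nat_lit 425406285237], [nat_lit 355596023093], [nat_lit 285785760949], [nat_lit 558482097205]] [])
(.leaf [[nat_lit 425406285237], [nat_lit 355596023093], [nat_lit 285785760949], [nat_lit 558482097205]] []))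
(.node (nat_lit 1547)
(.leaf [[nat_lit 425406285237], [nat_lit 355596023093], [nat_lit 285785760949], [nat_lit 558482097205]] [])
(.node (nat_lit 1548)
(.leaf [[nat_lit 425406285237], [nat_lit 355596023093], [nat_lit 285785760949]] [])
(.leaf [[nat_lit 425406285237], [nat_lit 355596023093], [nat_lit 285785760949]] [])))))
(.node (nat_lit 1554)
(.node (nat_lit 1551)
(.node (nat_lit 1550)
(.leaf [[nat_lit 767912883637], [nat_lit 698102621493], [nat_lit 285785760949]] [])
(.leaf [[nat_lit 767912883637], [nat_lit 698102621493], [nat_lit 559572882613]] []))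
(.node (nat_lit 1552)
(.leaf [[nat_lit 767912883637], [nat_lit 698102621493], [nat_lit 559572882613]] [])
(.node (nat_lit 1553)
(.leaf [[nat_lit 767912883637], [nat_lit 698102621493], [nat_lit 698102621489]] [])
(.leaf [[nat_lit 767912883637], [nat_lit 698102621493]] []))))
(.node (nat_lit 1556)
(.node (nat_lit 1555)
(.leaf [[nat_lit 767912883637], [nat_lit 698102621493]] [])
(.leaf [[nat_lit 767912883637], [nat_lit 698102621493]] []))
(.node (nat_lit 1557)
(.leaf [[nat_lit 767912883637], [nat_lit 698102621493]] [])
(.node (nat_lit 1558)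
(.leaf [[], [nat_lit 698102621493]] [])
(.leaf [[], [nat_lit 698102621493]] []))))))))))

noncomputable def ct26 : Tc :=
(.node (nat_lit 1160)
(.node (nat_lit 834)
(.node (nat_lit 579)
(.node (nat_lit 388)
(.node (nat_lit 259)
(.node (nat_lit 193)
(.node (nat_lit 128)
(.node (nat_lit 64)
(.leaf [[nat_lit 136356682, nat_lit 153924550], [nat_lit 102261326], [nat_lit 102261322], [nat_lit 102261318], [nat_lit 102261314], [nat_lit 78], [nat_lit 74], [nat_lit 70], [nat_lit 66]] [])
(.leaf [[nat_lit 1227404230, nat_lit 1193059146, nat_lit 1210889158], [nat_lit 1193321286, nat_lit 1210094406, nat_lit 1193579334, nat_lit 1176806214], [nat_lit 1176011462, nat_lit 1159238342, nat_lit 1142981318, nat_lit 1126208198], [nat_lit 1176011458, nat_lit 1126208194, nat_lit 1159238338, nat_lit 1142981314], [nat_lit 153924533, nat_lit 1176011454, nat_lit 1159238334], [nat_lit 136356661, nat_lit 119837493, nat_lit 103326517], [nat_lit 136356657, nat_lit 102793909], [nat_lit 102261301]] [[], [], [], [], [nat_lit 1260949775268], [nat_lit 846450827938], [nat_lit 1117033734305, nat_lit 842087702944]]))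
(.node (nat_lit 129)
(.leaf [[nat_lit 69929571146, nat_lit 69913588678], [nat_lit 69929571142, nat_lit 69896278854], [nat_lit 69929571138, nat_lit 69896278850], [nat_lit 204522549], [nat_lit 153404341, nat_lit 153924533], [nat_lit 136356661, nat_lit 119837493, nat_lit 103326517], [nat_lit 136356657, nat_lit 102793909, nat_lit 102265525], [nat_lit 102261301]] [])
(.node (nat_lit 192)
(.leaf [[nat_lit 2317919174], [nat_lit 2249753290, nat_lit 2267321158], [nat_lit 2249753286, nat_lit 2216723142], [nat_lit 2249753282, nat_lit 2216723138], [nat_lit 2249753278, nat_lit 153924533], [nat_lit 136356661, nat_lit 119837493, nat_lit 119841589, nat_lit 103326517], [nat_lit 136356657, nat_lit 102793909, nat_lit 102265525], [nat_lit 102261301]] [[], [], [], [], [], [], [nat_lit 1117033734177]])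
(.leaf [[nat_lit 71020618694, nat_lit 70986273610], [nat_lit 71020618690, nat_lit 70969238342], [nat_lit 70986535746, nat_lit 70986273602, nat_lit 205055157], [nat_lit 204522549], [nat_lit 153404341, nat_lit 153924533], [nat_lit 136356661, nat_lit 103326517, nat_lit 136352565], [nat_lit 136356657, nat_lit 102793909, nat_lit 102265525], [nat_lit 102261301]] []))))
(.node (nat_lit 256)
(.node (nat_lit 194)
(.leaf [[nat_lit 139722785610, nat_lit 139705750346], [nat_lit 139722785606], [nat_lit 139722785602], [nat_lit 204522549], [nat_lit 153404341, nat_lit 153924533], [nat_lit 136356661, nat_lit 153924529], [nat_lit 136356657, nat_lit 102793909, nat_lit 136348465, nat_lit 136352561], [nat_lit 102261301]] [])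
(.leaf [[nat_lit 3374883782, nat_lit 3340538698], [nat_lit 3340800838, nat_lit 3357573958, nat_lit 3324285766], [nat_lit 3340800834, nat_lit 3323486918, nat_lit 3340538690, nat_lit 3324285762], [nat_lit 204522549], [nat_lit 153924533, nat_lit 153404341], [nat_lit 136356661, nat_lit 119837493, nat_lit 119841589], [nat_lit 136356657, nat_lit 102793909, nat_lit 102265525], [nat_lit 102261301]] [[], [], [], [], [], [nat_lit 846450827937], [nat_lit 1117033734304]]))
(.node (nat_lit 257)
(.leaf [[nat_lit 72094098374, nat_lit 72060273482], [nat_lit 72042980166, nat_lit 72026985286], [nat_lit 221570229, nat_lit 205055157], [nat_lit 204522549], [nat_lit 153404341, nat_lit 153924533], [nat_lit 136356661, nat_lit 119837493, nat_lit 119841589], [nat_lit 136356657, nat_lit 102793909, nat_lit 136348465, nat_lit 136352561], [nat_lit 102261301]] [])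
(.node (nat_lit 258)
(.leaf [[nat_lit 140796797894, nat_lit 140762452810, nat_lit 140780282822], [nat_lit 140762714950, nat_lit 140762972998, nat_lit 140762452806], [nat_lit 221570229, nat_lit 205055157], [nat_lit 204522549], [nat_lit 153404341, nat_lit 153924533], [nat_lit 136356661, nat_lit 153924529], [nat_lit 69929571121, nat_lit 1210090289, nat_lit 102793909], [nat_lit 102261301]] [])
(.leaf [[nat_lit 209516012486, nat_lit 209482982342], [nat_lit 255653173], [nat_lit 221570229, nat_lit 205055157], [nat_lit 204522549], [nat_lit 153404341, nat_lit 153924533], [nat_lit 69929571125, nat_lit 153924529], [nat_lit 139722785585], [nat_lit 102261301]] [])))))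
(.node (nat_lit 324)
(.node (nat_lit 321)
(.node (nat_lit 320)
(.leaf [[nat_lit 4431315786, nat_lit 4414280522], [nat_lit 4431315782], [nat_lit 4431315778], [nat_lit 204522549], [nat_lit 153404341, nat_lit 153924533], [nat_lit 136356661, nat_lit 1193579317, nat_lit 119841589], [nat_lit 2249753269, nat_lit 102793909, nat_lit 1176007349, nat_lit 2249745077], [nat_lit 102261301]] [])
(.leaf [[nat_lit 73151062982, nat_lit 73116717898, nat_lit 73134547910], [nat_lit 73116980038, nat_lit 73117238086, nat_lit 73116717894], [nat_lit 221570229, nat_lit 205055157], [nat_lit 204522549], [nat_lit 153404341, nat_lit 153924533], [nat_lit 136356661, nat_lit 2267321141], [nat_lit 1210094385, nat_lit 2249753269, nat_lit 1210090289, nat_lit 102793909], [nat_lit 102261301]] []))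
(.node (nat_lit 322)
(.leaf [[nat_lit 141887312838], [nat_lit 238617909, nat_lit 205587765], [nat_lit 221570229, nat_lit 205055157], [nat_lit 204522549], [nat_lit 153404341, nat_lit 153924533], [nat_lit 136356661, nat_lit 153924529], [nat_lit 69929571121, nat_lit 2283832113, nat_lit 102793909], [nat_lit 102261301]] [])
(.node (nat_lit 323)
(.leaf [[nat_lit 210555667274, nat_lit 206120373, nat_lit 204559797], [nat_lit 238617909, nat_lit 205587765], [nat_lit 221570229, nat_lit 205055157], [nat_lit 204522549], [nat_lit 170435509, nat_lit 153404341, nat_lit 153924533], [nat_lit 139722785589], [nat_lit 139722785585]] [])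
(.leaf [[nat_lit 279275144010, nat_lit 256185781], [nat_lit 255653173], [nat_lit 221570229, nat_lit 205055157], [nat_lit 204522549], [nat_lit 170435509, nat_lit 153404341, nat_lit 153924533], [nat_lit 139722785589], [nat_lit 139722785585]] []))))
(.node (nat_lit 385)
(.node (nat_lit 384)
(.leaf [[nat_lit 5505328070, nat_lit 5470982986, nat_lit 5488812998], [nat_lit 5471245126, nat_lit 5471503174, nat_lit 5470982982], [nat_lit 221570229, nat_lit 205055157], [nat_lit 204522549], [nat_lit 2317919157], [nat_lit 136356661, nat_lit 2267321141], [nat_lit 3357573937, nat_lit 2249753269, nat_lit 102793909], [nat_lit 102261301]] [])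
(.leaf [[nat_lit 74224542662, nat_lit 206120373], [nat_lit 238617909, nat_lit 205587765], [nat_lit 221570229, nat_lit 205055157], [nat_lit 204522549], [nat_lit 2317919157], [nat_lit 136356661, nat_lit 2267321141], [nat_lit 2317919149, nat_lit 102793909], [nat_lit 102261301]] []))
(.node (nat_lit 386)
(.leaf [[nat_lit 142893159242, nat_lit 206120373, nat_lit 204559797], [nat_lit 238617909, nat_lit 205587765], [nat_lit 221570229, nat_lit 205055157], [nat_lit 204522549], [nat_lit 2317919157], [nat_lit 136356661, nat_lit 2267321141], [nat_lit 139722785585]] [])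
(.node (nat_lit 387)
(.leaf [[nat_lit 256185781, nat_lit 204559797], [nat_lit 255653173], [nat_lit 221570229, nat_lit 205055157], [nat_lit 204522549], [nat_lit 1244177333, nat_lit 153404341, nat_lit 153924533], [nat_lit 139722785589], [nat_lit 139722785585]] [])
(.leaf [[nat_lit 256185781, nat_lit 204559797], [nat_lit 255653173], [nat_lit 221570229, nat_lit 205055157], [nat_lit 204522549], [nat_lit 170435509, nat_lit 153404341, nat_lit 153924533], [nat_lit 139722785589], [nat_lit 139722785585]] []))))))
(.node (nat_lit 513)
(.node (nat_lit 451)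
(.node (nat_lit 448)
(.node (nat_lit 389)
(.leaf [[nat_lit 256185781, nat_lit 204559797], [nat_lit 255653173], [nat_lit 221570229, nat_lit 205055157], [nat_lit 204522549], [nat_lit 69946618805, nat_lit 153924533], [nat_lit 139722785589], [nat_lit 139722785585]] [])
(.leaf [[nat_lit 6544712398], [nat_lit 6544712394], [nat_lit 6544712390], [nat_lit 204522549], [nat_lit 2317919157], [nat_lit 3357573941, nat_lit 136356661, nat_lit 2267321141], [nat_lit 4431315761, nat_lit 102793909], [nat_lit 102261301]] []))
(.node (nat_lit 449)
(.leaf [[nat_lit 75298542534, nat_lit 75264197450], [nat_lit 238617909, nat_lit 205587765], [nat_lit 221570229, nat_lit 205055157], [nat_lit 204522549], [nat_lit 2317919157], [nat_lit 3357573941, nat_lit 136356661, nat_lit 2267321141], [nat_lit 4431315761]] [])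
(.node (nat_lit 450)
(.leaf [[nat_lit 143983674186, nat_lit 239408565], [nat_lit 238617909, nat_lit 238875957], [nat_lit 221570229, nat_lit 205055157], [nat_lit 204522549], [nat_lit 2317919157], [nat_lit 69929571125, nat_lit 2267321141], [nat_lit 4431315761]] [])
(.leaf [[nat_lit 256185781, nat_lit 204559797], [nat_lit 255653173], [nat_lit 221570229, nat_lit 205055157], [nat_lit 204522549], [nat_lit 2317919157], [nat_lit 139722785589], [nat_lit 139722785585]] []))))
(.node (nat_lit 453)
(.node (nat_lit 452)
(.leaf [[nat_lit 256185781, nat_lit 204559797], [nat_lit 255653173], [nat_lit 221570229, nat_lit 205055157], [nat_lit 204522549], [nat_lit 1244177333, nat_lit 153404341, nat_lit 153924533], [nat_lit 139722785589], [nat_lit 139722785585]] [])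
(.leaf [[nat_lit 256185781, nat_lit 204559797], [nat_lit 255653173], [nat_lit 221570229, nat_lit 205055157], [nat_lit 204522549], [nat_lit 1244177333, nat_lit 69946618805], [nat_lit 139722785589], [nat_lit 139722785585]] []))
(.node (nat_lit 454)
(.leaf [[nat_lit 418861572938], [nat_lit 70031832373, nat_lit 70015317301], [nat_lit 70014784693], [nat_lit 204522549], [nat_lit 69946618805, nat_lit 153924533], [nat_lit 139722785589], [nat_lit 139722785585]] [])
(.node (nat_lit 512)
(.leaf [[nat_lit 7669855298, nat_lit 7635510214, nat_lit 1313150389], [nat_lit 1312617781, nat_lit 187512117], [nat_lit 221570229, nat_lit 205055157], [nat_lit 204522549], [nat_lit 2317919157], [nat_lit 4431315765], [nat_lit 4431315761]] [])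
(.leaf [[nat_lit 76372022214, nat_lit 1313150389], [nat_lit 1312617781, nat_lit 204547381], [nat_lit 221570229, nat_lit 205055157], [nat_lit 204522549], [nat_lit 2317919157], [nat_lit 4431315765], [nat_lit 4431315761]] [])))))
(.node (nat_lit 518)
(.node (nat_lit 515)
(.node (nat_lit 514)
(.leaf [[nat_lit 1313150389, nat_lit 204559797], [nat_lit 1312617781, nat_lit 204547381], [nat_lit 221570229, nat_lit 205055157], [nat_lit 204522549], [nat_lit 2317919157], [nat_lit 4431315765], [nat_lit 4431315761]] [])
(.leaf [[nat_lit 1313150389, nat_lit 204559797], [nat_lit 1312617781, nat_lit 204547381], [nat_lit 221570229, nat_lit 205055157], [nat_lit 204522549], [nat_lit 2317919157], [nat_lit 139722785589], [nat_lit 139722785585]] []))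
(.node (nat_lit 516)
(.leaf [[nat_lit 1313150389, nat_lit 204559797], [nat_lit 1312617781, nat_lit 204547381], [nat_lit 221570229, nat_lit 205055157], [nat_lit 204522549], [nat_lit 2317919157], [nat_lit 139722785589], [nat_lit 139722785585]] [])
(.node (nat_lit 517)
(.leaf [[nat_lit 70031844789, nat_lit 70015849909], [nat_lit 70031832373, nat_lit 70015317301], [nat_lit 70014784693], [nat_lit 204522549], [nat_lit 2317919157], [nat_lit 139722785589], [nat_lit 139722785585]] [])
(.leaf [[nat_lit 70031844789, nat_lit 70015849909], [nat_lit 70031832373, nat_lit 70015317301], [nat_lit 70014784693], [nat_lit 204522549], [nat_lit 1244177333, nat_lit 71020618677], [nat_lit 139722785589]] []))))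
(.node (nat_lit 576)
(.node (nat_lit 519)
(.leaf [[nat_lit 139825059253, nat_lit 139825579445], [nat_lit 139825046837], [nat_lit 70014784693], [nat_lit 139773916213], [nat_lit 170435509, nat_lit 69946618805, nat_lit 69946876853], [nat_lit 139722785589]] [])
(.leaf [[nat_lit 8760370242], [nat_lit 2386097461, nat_lit 1312617781], [nat_lit 2369049781], [nat_lit 204522549], [nat_lit 2317919157], [nat_lit 4431315765], [nat_lit 6544712373]] []))
(.node (nat_lit 577)
(.leaf [[nat_lit 2386109877, nat_lit 1313150389], [nat_lit 2386097461, nat_lit 1312617781], [nat_lit 2369049781], [nat_lit 204522549], [nat_lit 2317919157], [nat_lit 4431315765], [nat_lit 6544712373]] [])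
(.node (nat_lit 578)
(.leaf [[nat_lit 1312630197, nat_lit 1313150389, nat_lit 204559797], [nat_lit 1312617781, nat_lit 204547381], [nat_lit 2369049781], [nat_lit 204522549], [nat_lit 2317919157], [nat_lit 4431315765], [nat_lit 4431315761]] [])
(.leaf [[nat_lit 1312630197, nat_lit 1313150389, nat_lit 204559797], [nat_lit 1312617781, nat_lit 204547381], [nat_lit 2369049781], [nat_lit 204522549], [nat_lit 2317919157], [nat_lit 4431315765], [nat_lit 4431315761]] [])))))))
(.node (nat_lit 708)
(.node (nat_lit 644)
(.node (nat_lit 584)
(.node (nat_lit 581)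
(.node (nat_lit 580)
(.leaf [[nat_lit 1312630197, nat_lit 1313150389, nat_lit 204559797], [nat_lit 1312617781, nat_lit 204547381], [nat_lit 2369049781], [nat_lit 204522549], [nat_lit 2317919157], [nat_lit 139722785589], [nat_lit 139722785585]] [])
(.leaf [[nat_lit 70031844789, nat_lit 70015849909], [nat_lit 70031832373, nat_lit 70015317301], [nat_lit 70014784693], [nat_lit 204522549], [nat_lit 2317919157], [nat_lit 139722785589]] []))
(.node (nat_lit 582)
(.leaf [[nat_lit 139825059253, nat_lit 139825579445], [nat_lit 139825046837], [nat_lit 70014784693], [nat_lit 139773916213], [nat_lit 2317919157], [nat_lit 139722785589]] [])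
(.node (nat_lit 583)
(.leaf [[nat_lit 139825059253, nat_lit 139825579445], [nat_lit 139825046837], [nat_lit 70014784693], [nat_lit 139773916213], [nat_lit 1244177333, nat_lit 71020618677], [nat_lit 139722785589]] [])
(.leaf [[nat_lit 209618273717, nat_lit 139825579445], [nat_lit 139825046837], [nat_lit 209584178357], [nat_lit 139773916213], [nat_lit 139739829173, nat_lit 69946618805, nat_lit 139723318197], [nat_lit 139722785589]] []))))
(.node (nat_lit 641)
(.node (nat_lit 640)
(.leaf [[nat_lit 3460109749, nat_lit 2370114997, nat_lit 2335004085], [nat_lit 2386097461, nat_lit 2369582389], [nat_lit 2369049781], [nat_lit 204522549], [nat_lit 2317919157], [nat_lit 4431315765], [nat_lit 6544712373]] [])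
(.leaf [[nat_lit 3460109749, nat_lit 2370114997, nat_lit 2352039349], [nat_lit 2386097461, nat_lit 2369582389], [nat_lit 2369049781], [nat_lit 204522549], [nat_lit 2317919157], [nat_lit 4431315765], [nat_lit 6544712373]] []))
(.node (nat_lit 642)
(.leaf [[nat_lit 2386109877, nat_lit 2370114997], [nat_lit 2386097461, nat_lit 2369582389], [nat_lit 2369049781], [nat_lit 204522549], [nat_lit 2317919157], [nat_lit 4431315765], [nat_lit 6544712373]] [])
(.node (nat_lit 643)
(.leaf [[nat_lit 2386109877, nat_lit 2370114997], [nat_lit 2386097461, nat_lit 2369582389], [nat_lit 2369049781], [nat_lit 204522549], [nat_lit 2317919157], [nat_lit 4431315765], [nat_lit 6544712373]] [])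
(.leaf [[nat_lit 2386109877, nat_lit 2370114997], [nat_lit 2386097461, nat_lit 2369582389], [nat_lit 2369049781], [nat_lit 204522549], [nat_lit 2317919157], [nat_lit 4431315765]] [])))))
(.node (nat_lit 649)
(.node (nat_lit 646)
(.node (nat_lit 645)
(.leaf [[nat_lit 71105844661, nat_lit 71106102709, nat_lit 69997774261], [nat_lit 71088796981, nat_lit 71105570101, nat_lit 69997761845], [nat_lit 2369049781], [nat_lit 204522549], [nat_lit 2317919157], [nat_lit 139722785589]] [])
(.leaf [[nat_lit 139825059253, nat_lit 139825579445], [nat_lit 139825046837], [nat_lit 70014784693], [nat_lit 139773916213], [nat_lit 2317919157], [nat_lit 139722785589]] []))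
(.node (nat_lit 647)
(.leaf [[nat_lit 209618273717, nat_lit 139825579445], [nat_lit 139825046837], [nat_lit 209584178357], [nat_lit 139773916213], [nat_lit 2317919157], [nat_lit 139722785589]] [])
(.node (nat_lit 648)
(.leaf [[nat_lit 209618273717, nat_lit 209618531765], [nat_lit 139825046837], [nat_lit 209584178357], [nat_lit 139773916213], [nat_lit 140813570997, nat_lit 71020618677], [nat_lit 139722785589]] [])
(.leaf [[nat_lit 279411488181, nat_lit 279394973109], [nat_lit 279394440501], [nat_lit 209584178357], [nat_lit 139773916213], [nat_lit 139739829173, nat_lit 209516012469, nat_lit 209516270517, nat_lit 139723318197], [nat_lit 139722785589]] []))))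
(.node (nat_lit 705)
(.node (nat_lit 704)
(.leaf [[nat_lit 4533589429, nat_lit 4534109621], [nat_lit 4533577013], [nat_lit 2369049781], [nat_lit 4482446389], [nat_lit 2317919157], [nat_lit 4431315765], [nat_lit 6544712373]] [])
(.leaf [[nat_lit 4533589429, nat_lit 4534109621], [nat_lit 4533577013], [nat_lit 2369049781], [nat_lit 4482446389], [nat_lit 2317919157], [nat_lit 4431315765], [nat_lit 6544712373]] []))
(.node (nat_lit 706)
(.leaf [[nat_lit 4534109621, nat_lit 2352039349], [nat_lit 4533577013], [nat_lit 2369049781], [nat_lit 4482446389], [nat_lit 2317919157], [nat_lit 4431315765], [nat_lit 6544712373]] [])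
(.node (nat_lit 707)
(.leaf [[nat_lit 4534109621, nat_lit 2352039349], [nat_lit 4533577013], [nat_lit 2369049781], [nat_lit 4482446389], [nat_lit 2317919157], [nat_lit 4431315765]] [])
(.leaf [[nat_lit 3460109749, nat_lit 3460367797, nat_lit 2352039349], [nat_lit 3443062069, nat_lit 3459835189, nat_lit 2352026933], [nat_lit 2369049781], [nat_lit 4482446389], [nat_lit 2317919157], [nat_lit 4431315765]] []))))))
(.node (nat_lit 771)
(.node (nat_lit 713)
(.node (nat_lit 710)
(.node (nat_lit 709)
(.leaf [[nat_lit 72179324341, nat_lit 72179844533], [nat_lit 72179311925], [nat_lit 2369049781], [nat_lit 72128181301], [nat_lit 2317919157], [nat_lit 139722785589]] [])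
(.leaf [[nat_lit 140899059125, nat_lit 139790988725, nat_lit 140882544053], [nat_lit 140882011445, nat_lit 139790976309], [nat_lit 141938443445], [nat_lit 139773916213], [nat_lit 2317919157], [nat_lit 139722785589]] []))
(.node (nat_lit 711)
(.leaf [[nat_lit 209618273717, nat_lit 209618531765], [nat_lit 209601226037, nat_lit 140882011445], [nat_lit 209584178357], [nat_lit 139773916213], [nat_lit 141887312821], [nat_lit 139722785589]] [])
(.node (nat_lit 712)
(.leaf [[nat_lit 279411488181, nat_lit 279394973109], [nat_lit 279394440501], [nat_lit 209584178357], [nat_lit 139773916213], [nat_lit 141887312821], [nat_lit 139722785589]] [])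
(.leaf [[nat_lit 279411488181, nat_lit 279394973109], [nat_lit 279394440501], [nat_lit 209584178357], [nat_lit 279343309877], [nat_lit 140813570997, nat_lit 210590012341]] []))))
(.node (nat_lit 768)
(.node (nat_lit 714)
(.leaf [[nat_lit 349204702645], [nat_lit 279394440501], [nat_lit 349153572021], [nat_lit 279343309877], [nat_lit 279343309873]] [])
(.leaf [[nat_lit 5607589301, nat_lit 4482483637, nat_lit 4534109621], [nat_lit 4533577013], [nat_lit 4499494069, nat_lit 3426014389], [nat_lit 4482446389], [nat_lit 2317919157], [nat_lit 4431315765], [nat_lit 6544712373]] []))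
(.node (nat_lit 769)
(.leaf [[nat_lit 5607589301, nat_lit 4499518901, nat_lit 4534109621], [nat_lit 4533577013], [nat_lit 4499494069, nat_lit 3426014389], [nat_lit 4482446389], [nat_lit 2317919157], [nat_lit 4431315765], [nat_lit 6544712373]] [])
(.node (nat_lit 770)
(.leaf [[nat_lit 4533589429, nat_lit 4534109621], [nat_lit 4533577013], [nat_lit 4499494069, nat_lit 3426014389], [nat_lit 4482446389], [nat_lit 2317919157], [nat_lit 4431315765]] [])
(.leaf [[nat_lit 4533589429, nat_lit 4534109621], [nat_lit 4533577013], [nat_lit 4499494069, nat_lit 3426014389], [nat_lit 4482446389], [nat_lit 2317919157], [nat_lit 4431315765]] [])))))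
(.node (nat_lit 776)
(.node (nat_lit 773)
(.node (nat_lit 772)
(.leaf [[nat_lit 4533589429, nat_lit 4534109621], [nat_lit 4533577013], [nat_lit 4499494069, nat_lit 3426014389], [nat_lit 4482446389], [nat_lit 2317919157], [nat_lit 4431315765]] [])
(.leaf [[nat_lit 73253324213, nat_lit 72145253813, nat_lit 73236809141], [nat_lit 73236276533, nat_lit 72145241397], [nat_lit 74292708533], [nat_lit 72128181301], [nat_lit 2317919157], [nat_lit 4431315765]] []))
(.node (nat_lit 774)
(.leaf [[nat_lit 141972538805, nat_lit 141972796853], [nat_lit 141955491125, nat_lit 140882011445], [nat_lit 141938443445], [nat_lit 72128181301], [nat_lit 141887312821], [nat_lit 139722785589]] [])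
(.node (nat_lit 775)
(.leaf [[nat_lit 210692273589, nat_lit 209584203189], [nat_lit 211748705589], [nat_lit 209584178357], [nat_lit 139773916213], [nat_lit 141887312821], [nat_lit 139722785589]] [])
(.leaf [[nat_lit 279411488181, nat_lit 279394973109], [nat_lit 279394440501], [nat_lit 209584178357], [nat_lit 279343309877], [nat_lit 141887312821]] []))))
(.node (nat_lit 779)
(.node (nat_lit 777)
(.leaf [[nat_lit 349204702645], [nat_lit 279394440501], [nat_lit 349153572021], [nat_lit 279343309877], [nat_lit 141887312821]] [])
(.node (nat_lit 778)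
(.leaf [[nat_lit 349204702645], [nat_lit 279394440501], [nat_lit 349153572021], [nat_lit 279343309877], [nat_lit 280382964661, nat_lit 210590012341]] [])
(.leaf [[nat_lit 349204702645], [nat_lit 418963834165], [nat_lit 349153572021], [nat_lit 279343309877], [nat_lit 418912703537]] [])))
(.node (nat_lit 832)
(.leaf [[nat_lit 6681068981, nat_lit 5591074229], [nat_lit 6664021301, nat_lit 5590541621], [nat_lit 6646973621], [nat_lit 4482446389], [nat_lit 6595842997], [nat_lit 4431315765], [nat_lit 6544712373]] [])
(.node (nat_lit 833)
(.leaf [[nat_lit 6681068981, nat_lit 5591074229], [nat_lit 6664021301, nat_lit 5590541621], [nat_lit 6646973621], [nat_lit 4482446389], [nat_lit 6595842997], [nat_lit 4431315765]] [])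
(.leaf [[nat_lit 5607589301, nat_lit 4499518901, nat_lit 5591074229], [nat_lit 6664021301, nat_lit 5590541621], [nat_lit 6646973621], [nat_lit 4482446389], [nat_lit 6595842997], [nat_lit 4431315765]] []))))))))
(.node (nat_lit 1024)
(.node (nat_lit 905)
(.node (nat_lit 844)
(.node (nat_lit 839)
(.node (nat_lit 836)
(.node (nat_lit 835)
(.leaf [[nat_lit 5607589301, nat_lit 4499518901, nat_lit 5591074229], [nat_lit 6664021301, nat_lit 5590541621], [nat_lit 6646973621], [nat_lit 4482446389], [nat_lit 6595842997], [nat_lit 4431315765]] [])
(.leaf [[nat_lit 5607589301, nat_lit 4499518901, nat_lit 5591074229], [nat_lit 5590541621, nat_lit 4499506485], [nat_lit 6646973621], [nat_lit 4482446389], [nat_lit 6595842997], [nat_lit 4431315765]] []))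
(.node (nat_lit 837)
(.leaf [[nat_lit 74326803893, nat_lit 74327061941], [nat_lit 74309756213, nat_lit 73236276533], [nat_lit 74292708533], [nat_lit 4482446389], [nat_lit 141887312821], [nat_lit 4431315765]] [])
(.node (nat_lit 838)
(.leaf [[nat_lit 143046538677, nat_lit 141938468277], [nat_lit 144102970677], [nat_lit 141938443445], [nat_lit 72128181301], [nat_lit 141887312821], [nat_lit 4431315765]] [])
(.leaf [[nat_lit 211765753269, nat_lit 211749238197], [nat_lit 211748705589], [nat_lit 141938443445], [nat_lit 211697574965], [nat_lit 141887312821]] []))))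
(.node (nat_lit 841)
(.node (nat_lit 840)
(.leaf [[nat_lit 280468452789, nat_lit 280485225909, nat_lit 279377417653], [nat_lit 211748705589], [nat_lit 209584178357], [nat_lit 279343309877], [nat_lit 141887312821]] [])
(.leaf [[nat_lit 349204702645], [nat_lit 279394440501], [nat_lit 349153572021], [nat_lit 279343309877], [nat_lit 281456706485]] []))
(.node (nat_lit 842)
(.leaf [[nat_lit 349204702645], [nat_lit 418963834165], [nat_lit 349153572021], [nat_lit 279343309877], [nat_lit 281456706485]] [])
(.node (nat_lit 843)
(.leaf [[nat_lit 349204702645], [nat_lit 418963834165], [nat_lit 349153572021], [nat_lit 418912703541], [nat_lit 280382964661]] [])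
(.leaf [[nat_lit 488774096309], [nat_lit 418963834165], [nat_lit 349153572021], [nat_lit 418912703541], [nat_lit 418912703537]] [])))))
(.node (nat_lit 900)
(.node (nat_lit 897)
(.node (nat_lit 896)
(.leaf [[nat_lit 7755068853, nat_lit 6629963189], [nat_lit 6664021301, nat_lit 6647506229], [nat_lit 6646973621], [nat_lit 4482446389], [nat_lit 6595842997], [nat_lit 4431315765]] [])
(.leaf [[nat_lit 7755068853, nat_lit 6646998453], [nat_lit 6664021301, nat_lit 5590541621], [nat_lit 6646973621], [nat_lit 4482446389], [nat_lit 6595842997], [nat_lit 4431315765]] []))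
(.node (nat_lit 898)
(.leaf [[nat_lit 7755068853, nat_lit 6646998453], [nat_lit 6664021301, nat_lit 5590541621], [nat_lit 6646973621], [nat_lit 4482446389], [nat_lit 6595842997], [nat_lit 4431315765]] [])
(.node (nat_lit 899)
(.leaf [[nat_lit 7755068853, nat_lit 6646998453], [nat_lit 6664021301, nat_lit 5590541621], [nat_lit 6646973621], [nat_lit 4482446389], [nat_lit 6595842997], [nat_lit 4431315765]] [])
(.leaf [[nat_lit 6681068981, nat_lit 6681327029], [nat_lit 6664021301, nat_lit 5590541621], [nat_lit 6646973621], [nat_lit 4482446389], [nat_lit 6595842997], [nat_lit 4431315765]] []))))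
(.node (nat_lit 902)
(.node (nat_lit 901)
(.leaf [[nat_lit 75400803765, nat_lit 74292733365], [nat_lit 76457235765], [nat_lit 74292708533], [nat_lit 4482446389], [nat_lit 6595842997], [nat_lit 4431315765]] [])
(.leaf [[nat_lit 144120018357, nat_lit 144103503285], [nat_lit 144102970677], [nat_lit 74292708533], [nat_lit 144051840053], [nat_lit 141887312821]] []))
(.node (nat_lit 903)
(.leaf [[nat_lit 212822717877, nat_lit 212839490997, nat_lit 211731682741], [nat_lit 144102970677], [nat_lit 141938443445], [nat_lit 211697574965], [nat_lit 141887312821]] [])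
(.node (nat_lit 904)
(.leaf [[nat_lit 281558967733], [nat_lit 211748705589], [nat_lit 281507837109], [nat_lit 211697574965], [nat_lit 141887312821]] [])
(.leaf [[nat_lit 350261667253, nat_lit 349170632117], [nat_lit 351318099253], [nat_lit 349153572021], [nat_lit 279343309877], [nat_lit 281456706485]] []))))))
(.node (nat_lit 965)
(.node (nat_lit 960)
(.node (nat_lit 907)
(.node (nat_lit 906)
(.leaf [[nat_lit 418980881845, nat_lit 350261667253], [nat_lit 418963834165], [nat_lit 349153572021], [nat_lit 418912703541], [nat_lit 281456706485]] [])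
(.leaf [[nat_lit 488774096309], [nat_lit 418963834165], [nat_lit 349153572021], [nat_lit 418912703541], [nat_lit 281456706485]] []))
(.node (nat_lit 908)
(.leaf [[nat_lit 488774096309], [nat_lit 418963834165], [nat_lit 488722965685], [nat_lit 418912703541]] [])
(.node (nat_lit 909)
(.leaf [[nat_lit 488774096309], [nat_lit 558533227829], [nat_lit 488722965685], [nat_lit 418912703541]] [])
(.leaf [[nat_lit 8828548533, nat_lit 7755068853], [nat_lit 8811500853], [nat_lit 6646973621], [nat_lit 8760370229], [nat_lit 6595842997], [nat_lit 4431315765]] []))))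
(.node (nat_lit 962)
(.node (nat_lit 961)
(.leaf [[nat_lit 8828548533, nat_lit 7755068853], [nat_lit 8811500853], [nat_lit 6646973621], [nat_lit 8760370229], [nat_lit 6595842997], [nat_lit 4431315765]] [])
(.leaf [[nat_lit 7755068853, nat_lit 6646998453], [nat_lit 8811500853], [nat_lit 6646973621], [nat_lit 8760370229], [nat_lit 6595842997], [nat_lit 4431315765]] []))
(.node (nat_lit 963)
(.leaf [[nat_lit 7755068853, nat_lit 6646998453], [nat_lit 8811500853], [nat_lit 6646973621], [nat_lit 8760370229], [nat_lit 6595842997], [nat_lit 4431315765]] [])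
(.node (nat_lit 964)
(.leaf [[nat_lit 7755068853, nat_lit 6646998453], [nat_lit 8811500853], [nat_lit 6646973621], [nat_lit 76406105141], [nat_lit 6595842997], [nat_lit 4431315765]] [])
(.leaf [[nat_lit 76474283445, nat_lit 76457768373], [nat_lit 76457235765], [nat_lit 6646973621], [nat_lit 76406105141], [nat_lit 6595842997]] [])))))
(.node (nat_lit 970)
(.node (nat_lit 967)
(.node (nat_lit 966)
(.leaf [[nat_lit 145176982965, nat_lit 145193756085, nat_lit 144085947829], [nat_lit 76457235765], [nat_lit 74292708533], [nat_lit 144051840053], [nat_lit 6595842997]] [])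
(.leaf [[nat_lit 213913232821], [nat_lit 144102970677], [nat_lit 213862102197], [nat_lit 144051840053], [nat_lit 141887312821]] []))
(.node (nat_lit 968)
(.leaf [[nat_lit 282615932341, nat_lit 281524897205], [nat_lit 283672364341], [nat_lit 281507837109], [nat_lit 211697574965], [nat_lit 281456706485]] [])
(.node (nat_lit 969)
(.leaf [[nat_lit 351335146933, nat_lit 350261667253], [nat_lit 351318099253], [nat_lit 281507837109], [nat_lit 351266968629], [nat_lit 281456706485]] [])
(.leaf [[nat_lit 421128361397], [nat_lit 418963834165], [nat_lit 349153572021], [nat_lit 418912703541], [nat_lit 281456706485]] []))))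
(.node (nat_lit 972)
(.node (nat_lit 971)
(.leaf [[nat_lit 488774096309], [nat_lit 418963834165], [nat_lit 488722965685], [nat_lit 418912703541]] [])
(.leaf [[nat_lit 488774096309], [nat_lit 558533227829], [nat_lit 488722965685], [nat_lit 418912703541]] []))
(.node (nat_lit 973)
(.leaf [[nat_lit 488774096309], [nat_lit 558533227829], [nat_lit 488722965685], [nat_lit 558482097205]] [])
(.node (nat_lit 974)
(.leaf [[nat_lit 628343489973], [nat_lit 558533227829], [nat_lit 488722965685], [nat_lit 558482097205]] [])
(.leaf [[nat_lit 8828548533, nat_lit 8812033461], [nat_lit 8811500853], [nat_lit 6646973621], [nat_lit 8760370229], [nat_lit 6595842997], [nat_lit 4431315765]] [])))))))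
(.node (nat_lit 1092)
(.node (nat_lit 1034)
(.node (nat_lit 1029)
(.node (nat_lit 1026)
(.node (nat_lit 1025)
(.leaf [[nat_lit 8828548533, nat_lit 8812033461], [nat_lit 8811500853], [nat_lit 6646973621], [nat_lit 8760370229], [nat_lit 6595842997], [nat_lit 4431315765]] [])
(.leaf [[nat_lit 8828548533, nat_lit 8812033461], [nat_lit 8811500853], [nat_lit 6646973621], [nat_lit 8760370229], [nat_lit 6595842997], [nat_lit 4431315765]] []))
(.node (nat_lit 1027)
(.leaf [[nat_lit 8828548533, nat_lit 8812033461], [nat_lit 8811500853], [nat_lit 6646973621], [nat_lit 8760370229], [nat_lit 6595842997], [nat_lit 4431315765]] [])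
(.node (nat_lit 1028)
(.leaf [[nat_lit 8828548533, nat_lit 8812033461], [nat_lit 8811500853], [nat_lit 6646973621], [nat_lit 8760370229], [nat_lit 6595842997]] [])
(.leaf [[nat_lit 77531248053, nat_lit 77548021173, nat_lit 76440212917], [nat_lit 8811500853], [nat_lit 6646973621], [nat_lit 76406105141], [nat_lit 6595842997]] []))))
(.node (nat_lit 1031)
(.node (nat_lit 1030)
(.leaf [[nat_lit 146267497909], [nat_lit 76457235765], [nat_lit 146216367285], [nat_lit 76406105141], [nat_lit 6595842997]] [])
(.leaf [[nat_lit 214970197429, nat_lit 213879162293], [nat_lit 216026629429], [nat_lit 213862102197], [nat_lit 144051840053], [nat_lit 146165236661]] []))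
(.node (nat_lit 1032)
(.leaf [[nat_lit 283689412021, nat_lit 282615932341], [nat_lit 283672364341], [nat_lit 213862102197], [nat_lit 283621233717], [nat_lit 281456706485]] [])
(.node (nat_lit 1033)
(.leaf [[nat_lit 353482626485], [nat_lit 351318099253], [nat_lit 281507837109], [nat_lit 351266968629], [nat_lit 281456706485]] [])
(.leaf [[nat_lit 421128361397], [nat_lit 351318099253], [nat_lit 421077230773], [nat_lit 351266968629]] [])))))
(.node (nat_lit 1039)
(.node (nat_lit 1036)
(.node (nat_lit 1035)
(.leaf [[nat_lit 421128361397], [nat_lit 418963834165], [nat_lit 488722965685], [nat_lit 418912703541]] [])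
(.leaf [[nat_lit 488774096309], [nat_lit 558533227829], [nat_lit 488722965685], [nat_lit 418912703541]] []))
(.node (nat_lit 1037)
(.leaf [[nat_lit 628343489973], [nat_lit 558533227829], [nat_lit 488722965685], [nat_lit 558482097205]] [])
(.node (nat_lit 1038)
(.leaf [[nat_lit 628343489973], [nat_lit 558533227829], [nat_lit 488722965685], [nat_lit 558482097205]] [])
(.leaf [[nat_lit 628343489973], [nat_lit 558533227829], [nat_lit 488722965685], [nat_lit 558482097205]] []))))
(.node (nat_lit 1089)
(.node (nat_lit 1088)
(.leaf [[nat_lit 10976028085], [nat_lit 8811500853], [nat_lit 10924897461], [nat_lit 8760370229], [nat_lit 6595842997], [nat_lit 4431315765]] [])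
(.leaf [[nat_lit 10976028085], [nat_lit 8811500853], [nat_lit 10924897461], [nat_lit 8760370229], [nat_lit 6595842997], [nat_lit 4431315765]] []))
(.node (nat_lit 1090)
(.leaf [[nat_lit 10976028085], [nat_lit 8811500853], [nat_lit 10924897461], [nat_lit 8760370229], [nat_lit 6595842997], [nat_lit 4431315765]] [])
(.node (nat_lit 1091)
(.leaf [[nat_lit 10976028085], [nat_lit 8811500853], [nat_lit 10924897461], [nat_lit 8760370229], [nat_lit 6595842997]] [])
(.leaf [[nat_lit 9885513141, nat_lit 9902286261, nat_lit 8794478005], [nat_lit 8811500853], [nat_lit 10924897461], [nat_lit 8760370229], [nat_lit 6595842997]] []))))))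
(.node (nat_lit 1102)
(.node (nat_lit 1097)
(.node (nat_lit 1094)
(.node (nat_lit 1093)
(.leaf [[nat_lit 78621762997], [nat_lit 8811500853], [nat_lit 78570632373], [nat_lit 8760370229], [nat_lit 6595842997]] [])
(.leaf [[nat_lit 147324462517, nat_lit 146233427381], [nat_lit 148380894517], [nat_lit 146216367285], [nat_lit 76406105141], [nat_lit 146165236661]] []))
(.node (nat_lit 1095)
(.leaf [[nat_lit 216043677109, nat_lit 214970197429], [nat_lit 216026629429], [nat_lit 146216367285], [nat_lit 76406105141], [nat_lit 146165236661]] [])
(.node (nat_lit 1096)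
(.leaf [[nat_lit 285836891573], [nat_lit 283672364341], [nat_lit 213862102197], [nat_lit 283621233717], [nat_lit 146165236661]] [])
(.leaf [[nat_lit 353482626485], [nat_lit 283672364341], [nat_lit 353431495861], [nat_lit 283621233717]] []))))
(.node (nat_lit 1099)
(.node (nat_lit 1098)
(.leaf [[nat_lit 353482626485], [nat_lit 351318099253], [nat_lit 421077230773], [nat_lit 351266968629]] [])
(.leaf [[nat_lit 421128361397], [nat_lit 490887492917], [nat_lit 421077230773], [nat_lit 351266968629]] []))
(.node (nat_lit 1100)
(.leaf [[nat_lit 560697755061], [nat_lit 558533227829], [nat_lit 488722965685], [nat_lit 558482097205]] [])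
(.node (nat_lit 1101)
(.leaf [[nat_lit 628343489973], [nat_lit 558533227829], [nat_lit 488722965685], [nat_lit 558482097205]] [])
(.leaf [[nat_lit 628343489973], [nat_lit 558533227829], [nat_lit 488722965685], [nat_lit 558482097205]] [])))))
(.node (nat_lit 1154)
(.node (nat_lit 1104)
(.node (nat_lit 1103)
(.leaf [[nat_lit 628343489973], [nat_lit 698102621493], [nat_lit 488722965685]] [])
(.leaf [[nat_lit 767912883637], [nat_lit 698102621493], [nat_lit 488722965685]] []))
(.node (nat_lit 1152)
(.leaf [[nat_lit 10976028085], [nat_lit 10941945141, nat_lit 9868465461], [nat_lit 10924897461], [nat_lit 8760370229], [nat_lit 6595842997], [nat_lit 4431315765]] [])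
(.node (nat_lit 1153)
(.leaf [[nat_lit 10976028085], [nat_lit 10941945141, nat_lit 9868465461], [nat_lit 10924897461], [nat_lit 8760370229], [nat_lit 6595842997], [nat_lit 4431315765]] [])
(.leaf [[nat_lit 10976028085], [nat_lit 10941945141, nat_lit 9868465461], [nat_lit 10924897461], [nat_lit 8760370229], [nat_lit 6595842997]] []))))
(.node (nat_lit 1157)
(.node (nat_lit 1155)
(.leaf [[nat_lit 10976028085], [nat_lit 10941945141, nat_lit 9868465461], [nat_lit 10924897461], [nat_lit 8760370229], [nat_lit 6595842997]] [])
(.node (nat_lit 1156)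
(.leaf [[nat_lit 10976028085], [nat_lit 10941945141, nat_lit 9868465461], [nat_lit 10924897461], [nat_lit 8760370229], [nat_lit 6595842997]] [])
(.leaf [[nat_lit 79678727605, nat_lit 78587692469], [nat_lit 80735159605], [nat_lit 78570632373], [nat_lit 8760370229], [nat_lit 146165236661]] [])))
(.node (nat_lit 1158)
(.leaf [[nat_lit 148397942197, nat_lit 147324462517], [nat_lit 148380894517], [nat_lit 78570632373], [nat_lit 8760370229], [nat_lit 146165236661]] [])
(.node (nat_lit 1159)
(.leaf [[nat_lit 218191156661], [nat_lit 216026629429], [nat_lit 146216367285], [nat_lit 76406105141], [nat_lit 146165236661]] [])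
(.leaf [[nat_lit 285836891573], [nat_lit 216026629429], [nat_lit 285785760949], [nat_lit 283621233717]] [])))))))))
(.node (nat_lit 1419)
(.node (nat_lit 1291)
(.node (nat_lit 1226)
(.node (nat_lit 1216)
(.node (nat_lit 1165)
(.node (nat_lit 1162)
(.node (nat_lit 1161)
(.leaf [[nat_lit 285836891573], [nat_lit 283672364341], [nat_lit 353431495861], [nat_lit 283621233717]] [])
(.leaf [[nat_lit 353482626485], [nat_lit 423241758005], [nat_lit 353431495861], [nat_lit 283621233717]] []))
(.node (nat_lit 1163)
(.leaf [[nat_lit 493052020149], [nat_lit 490887492917], [nat_lit 421077230773], [nat_lit 351266968629]] [])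
(.node (nat_lit 1164)
(.leaf [[nat_lit 560697755061], [nat_lit 490887492917], [nat_lit 421077230773], [nat_lit 558482097205]] [])
(.leaf [[nat_lit 628343489973], [nat_lit 558533227829], [nat_lit 488722965685], [nat_lit 558482097205]] []))))
(.node (nat_lit 1167)
(.node (nat_lit 1166)
(.leaf [[nat_lit 628343489973], [nat_lit 698102621493], [nat_lit 488722965685]] [])
(.leaf [[nat_lit 767912883637], [nat_lit 698102621493], [nat_lit 488722965685]] []))
(.node (nat_lit 1168)
(.leaf [[nat_lit 767912883637], [nat_lit 698102621493], [nat_lit 488722965685]] [])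
(.node (nat_lit 1169)
(.leaf [[nat_lit 767912883637], [nat_lit 698102621493], [nat_lit 488722965685]] [])
(.leaf [[nat_lit 13106472373, nat_lit 12032992693], [nat_lit 13089424693], [nat_lit 10924897461], [nat_lit 8760370229], [nat_lit 6595842997], [nat_lit 4431315765]] [])))))
(.node (nat_lit 1221)
(.node (nat_lit 1218)
(.node (nat_lit 1217)
(.leaf [[nat_lit 13106472373, nat_lit 12032992693], [nat_lit 13089424693], [nat_lit 10924897461], [nat_lit 8760370229], [nat_lit 6595842997]] [])
(.leaf [[nat_lit 13106472373, nat_lit 12032992693], [nat_lit 13089424693], [nat_lit 10924897461], [nat_lit 8760370229], [nat_lit 6595842997]] []))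
(.node (nat_lit 1219)
(.leaf [[nat_lit 13106472373, nat_lit 12032992693], [nat_lit 13089424693], [nat_lit 10924897461], [nat_lit 8760370229], [nat_lit 6595842997]] [])
(.node (nat_lit 1220)
(.leaf [[nat_lit 12032992693, nat_lit 10941957557], [nat_lit 13089424693], [nat_lit 10924897461], [nat_lit 8760370229], [nat_lit 146165236661]] [])
(.leaf [[nat_lit 80752207285, nat_lit 79678727605], [nat_lit 80735159605], [nat_lit 10924897461], [nat_lit 8760370229], [nat_lit 146165236661]] []))))
(.node (nat_lit 1223)
(.node (nat_lit 1222)
(.leaf [[nat_lit 150545421749], [nat_lit 148380894517], [nat_lit 78570632373], [nat_lit 8760370229], [nat_lit 146165236661]] [])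
(.leaf [[nat_lit 218191156661], [nat_lit 148380894517], [nat_lit 78570632373], [nat_lit 283621233717]] []))
(.node (nat_lit 1224)
(.leaf [[nat_lit 218191156661], [nat_lit 216026629429], [nat_lit 285785760949], [nat_lit 283621233717]] [])
(.node (nat_lit 1225)
(.leaf [[nat_lit 285836891573], [nat_lit 355596023093], [nat_lit 285785760949], [nat_lit 283621233717]] [])
(.leaf [[nat_lit 425406285237], [nat_lit 423241758005], [nat_lit 353431495861], [nat_lit 283621233717]] []))))))
(.node (nat_lit 1281)
(.node (nat_lit 1231)
(.node (nat_lit 1228)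
(.node (nat_lit 1227)
(.leaf [[nat_lit 493052020149], [nat_lit 423241758005], [nat_lit 353431495861], [nat_lit 283621233717]] [])
(.leaf [[nat_lit 560697755061], [nat_lit 490887492917], [nat_lit 421077230773], [nat_lit 558482097205]] []))
(.node (nat_lit 1229)
(.leaf [[nat_lit 560697755061], [nat_lit 490887492917], [nat_lit 421077230773]] [])
(.node (nat_lit 1230)
(.leaf [[nat_lit 628343489973], [nat_lit 698102621493], [nat_lit 488722965685]] [])
(.leaf [[nat_lit 767912883637], [nat_lit 698102621493], [nat_lit 488722965685]] []))))
(.node (nat_lit 1233)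
(.node (nat_lit 1232)
(.leaf [[nat_lit 767912883637], [nat_lit 698102621493], [nat_lit 488722965685]] [])
(.leaf [[nat_lit 767912883637], [nat_lit 698102621493], [nat_lit 488722965685]] []))
(.node (nat_lit 1234)
(.leaf [[nat_lit 767912883637], [nat_lit 698102621493], [nat_lit 488722965685]] [])
(.node (nat_lit 1280)
(.leaf [[nat_lit 13106472373, nat_lit 13089957301], [nat_lit 13089424693], [nat_lit 10924897461], [nat_lit 8760370229], [nat_lit 6595842997]] [])
(.leaf [[nat_lit 13106472373, nat_lit 12032992693], [nat_lit 13089424693], [nat_lit 10924897461], [nat_lit 8760370229], [nat_lit 6595842997]] [])))))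
(.node (nat_lit 1286)
(.node (nat_lit 1283)
(.node (nat_lit 1282)
(.leaf [[nat_lit 13106472373, nat_lit 12032992693], [nat_lit 13089424693], [nat_lit 10924897461], [nat_lit 8760370229], [nat_lit 6595842997]] [])
(.leaf [[nat_lit 13106472373, nat_lit 12032992693], [nat_lit 13089424693], [nat_lit 10924897461], [nat_lit 8760370229], [nat_lit 6595842997]] []))
(.node (nat_lit 1284)
(.leaf [[nat_lit 13106472373, nat_lit 12032992693], [nat_lit 13089424693], [nat_lit 10924897461], [nat_lit 8760370229], [nat_lit 146165236661]] [])
(.node (nat_lit 1285)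
(.leaf [[nat_lit 82899686837], [nat_lit 80735159605], [nat_lit 10924897461], [nat_lit 8760370229], [nat_lit 146165236661]] [])
(.leaf [[nat_lit 150545421749], [nat_lit 80735159605], [nat_lit 10924897461], [nat_lit 8760370229]] []))))
(.node (nat_lit 1288)
(.node (nat_lit 1287)
(.leaf [[nat_lit 150545421749], [nat_lit 148380894517], [nat_lit 285785760949], [nat_lit 283621233717]] [])
(.leaf [[nat_lit 218191156661], [nat_lit 355596023093], [nat_lit 285785760949], [nat_lit 283621233717]] []))
(.node (nat_lit 1289)
(.leaf [[nat_lit 425406285237], [nat_lit 355596023093], [nat_lit 285785760949], [nat_lit 283621233717]] [])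
(.node (nat_lit 1290)
(.leaf [[nat_lit 425406285237], [nat_lit 355596023093], [nat_lit 285785760949], [nat_lit 283621233717]] [])
(.leaf [[nat_lit 493052020149], [nat_lit 423241758005], [nat_lit 353431495861], [nat_lit 283621233717]] [])))))))
(.node (nat_lit 1355)
(.node (nat_lit 1345)
(.node (nat_lit 1296)
(.node (nat_lit 1293)
(.node (nat_lit 1292)
(.leaf [[nat_lit 493052020149], [nat_lit 423241758005], [nat_lit 353431495861]] [])
(.leaf [[nat_lit 560697755061], [nat_lit 698102621493], [nat_lit 421077230773]] []))
(.node (nat_lit 1294)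
(.leaf [[nat_lit 767912883637], [nat_lit 698102621493], [nat_lit 421077230773]] [])
(.node (nat_lit 1295)
(.leaf [[nat_lit 767912883637], [nat_lit 698102621493], [nat_lit 421077230773]] [])
(.leaf [[nat_lit 767912883637], [nat_lit 698102621493], [nat_lit 559572882613]] []))))
(.node (nat_lit 1298)
(.node (nat_lit 1297)
(.leaf [[nat_lit 767912883637], [nat_lit 698102621493], [nat_lit 488722965685]] [])
(.leaf [[nat_lit 767912883637], [nat_lit 698102621493]] []))
(.node (nat_lit 1299)
(.leaf [[nat_lit 767912883637], [nat_lit 698102621493]] [])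
(.node (nat_lit 1344)
(.leaf [[nat_lit 13106472373, nat_lit 14180210101], [nat_lit 13089424693], [nat_lit 10924897461], [nat_lit 8760370229], [nat_lit 6595842997]] [])
(.leaf [[nat_lit 13106472373, nat_lit 13089957301], [nat_lit 13089424693], [nat_lit 10924897461], [nat_lit 8760370229], [nat_lit 6595842997]] [])))))
(.node (nat_lit 1350)
(.node (nat_lit 1347)
(.node (nat_lit 1346)
(.leaf [[nat_lit 13106472373, nat_lit 14180210101], [nat_lit 13089424693], [nat_lit 10924897461], [nat_lit 8760370229], [nat_lit 6595842997]] [])
(.leaf [[nat_lit 13106472373, nat_lit 14180210101], [nat_lit 13089424693], [nat_lit 10924897461], [nat_lit 8760370229], [nat_lit 146165236661]] []))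
(.node (nat_lit 1348)
(.leaf [[nat_lit 82899686837], [nat_lit 13089424693], [nat_lit 10924897461], [nat_lit 8760370229], [nat_lit 146165236661]] [])
(.node (nat_lit 1349)
(.leaf [[nat_lit 82899686837], [nat_lit 13089424693], [nat_lit 10924897461], [nat_lit 8760370229]] [])
(.leaf [[nat_lit 82899686837], [nat_lit 80735159605], [nat_lit 10924897461], [nat_lit 8760370229]] []))))
(.node (nat_lit 1352)
(.node (nat_lit 1351)
(.leaf [[nat_lit 150545421749], [nat_lit 80735159605], [nat_lit 285785760949], [nat_lit 283621233717]] [])
(.leaf [[nat_lit 287967335861, nat_lit 219248121269], [nat_lit 355596023093], [nat_lit 285785760949], [nat_lit 283621233717]] []))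
(.node (nat_lit 1353)
(.leaf [[nat_lit 425406285237], [nat_lit 355596023093], [nat_lit 285785760949], [nat_lit 283621233717]] [])
(.node (nat_lit 1354)
(.leaf [[nat_lit 425406285237], [nat_lit 355596023093], [nat_lit 285785760949], [nat_lit 283621233717]] [])
(.leaf [[nat_lit 425406285237], [nat_lit 355596023093], [nat_lit 285785760949]] []))))))
(.node (nat_lit 1408)
(.node (nat_lit 1360)
(.node (nat_lit 1357)
(.node (nat_lit 1356)
(.leaf [[nat_lit 493052020149], [nat_lit 423241758005], [nat_lit 353431495861]] [])
(.leaf [[nat_lit 493052020149], [nat_lit 698102621493], [nat_lit 353431495861]] []))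
(.node (nat_lit 1358)
(.leaf [[nat_lit 767912883637], [nat_lit 698102621493], [nat_lit 353431495861]] [])
(.node (nat_lit 1359)
(.leaf [[nat_lit 767912883637], [nat_lit 698102621493], [nat_lit 559572882613]] [])
(.leaf [[nat_lit 767912883637], [nat_lit 698102621493], [nat_lit 698102621489]] []))))
(.node (nat_lit 1362)
(.node (nat_lit 1361)
(.leaf [[nat_lit 767912883637], [nat_lit 698102621493]] [])
(.leaf [[nat_lit 767912883637], [nat_lit 698102621493]] []))
(.node (nat_lit 1363)
(.leaf [[nat_lit 767912883637], [nat_lit 698102621493]] [])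
(.node (nat_lit 1364)
(.leaf [[nat_lit 767912883637], [nat_lit 698102621493]] [])
(.leaf [[nat_lit 13106472373, nat_lit 13089957301], [nat_lit 13089424693], [nat_lit 10924897461], [nat_lit 8760370229], [nat_lit 6595842997]] [])))))
(.node (nat_lit 1413)
(.node (nat_lit 1410)
(.node (nat_lit 1409)
(.leaf [[nat_lit 13106472373, nat_lit 14180210101], [nat_lit 13089424693], [nat_lit 10924897461], [nat_lit 8760370229], [nat_lit 6595842997]] [])
(.leaf [[nat_lit 13106472373, nat_lit 14180210101], [nat_lit 13089424693], [nat_lit 10924897461], [nat_lit 8760370229], [nat_lit 146165236661]] []))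
(.node (nat_lit 1411)
(.leaf [[nat_lit 13106472373, nat_lit 13089957301], [nat_lit 13089424693], [nat_lit 10924897461], [nat_lit 8760370229], [nat_lit 146165236661]] [])
(.node (nat_lit 1412)
(.leaf [[nat_lit 82899686837], [nat_lit 13089424693], [nat_lit 10924897461], [nat_lit 8760370229]] [])
(.leaf [[nat_lit 82899686837], [nat_lit 13089424693], [nat_lit 10924897461], [nat_lit 8760370229]] []))))
(.node (nat_lit 1416)
(.node (nat_lit 1414)
(.leaf [[nat_lit 82899686837], [nat_lit 13089424693], [nat_lit 10924897461], [nat_lit 8760370229]] [])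
(.node (nat_lit 1415)
(.leaf [[nat_lit 82899686837], [nat_lit 13089424693], [nat_lit 285785760949], [nat_lit 283621233717]] [])
(.leaf [[nat_lit 287967335861, nat_lit 219248121269], [nat_lit 355596023093], [nat_lit 285785760949], [nat_lit 283621233717]] [])))
(.node (nat_lit 1417)
(.leaf [[nat_lit 425406285237], [nat_lit 355596023093], [nat_lit 285785760949], [nat_lit 283621233717]] [])
(.node (nat_lit 1418)
(.leaf [[nat_lit 425406285237], [nat_lit 355596023093], [nat_lit 285785760949]] [])
(.leaf [[nat_lit 425406285237], [nat_lit 355596023093], [nat_lit 285785760949]] []))))))))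
(.node (nat_lit 1543)
(.node (nat_lit 1481)
(.node (nat_lit 1429)
(.node (nat_lit 1424)
(.node (nat_lit 1421)
(.node (nat_lit 1420)
(.leaf [[nat_lit 425406285237], [nat_lit 355596023093], [nat_lit 285785760949]] [])
(.leaf [[nat_lit 425406285237], [nat_lit 698102621493], [nat_lit 285785760949]] []))
(.node (nat_lit 1422)
(.leaf [[nat_lit 767912883637], [nat_lit 698102621493], [nat_lit 559572882613]] [])
(.node (nat_lit 1423)
(.leaf [[nat_lit 767912883637], [nat_lit 698102621493], [nat_lit 353431495861]] [])
(.leaf [[nat_lit 767912883637], [nat_lit 698102621493]] []))))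
(.node (nat_lit 1426)
(.node (nat_lit 1425)
(.leaf [[nat_lit 767912883637], [nat_lit 698102621493]] [])
(.leaf [[nat_lit 767912883637], [nat_lit 698102621493]] []))
(.node (nat_lit 1427)
(.leaf [[nat_lit 767912883637], [nat_lit 698102621493]] [])
(.node (nat_lit 1428)
(.leaf [[nat_lit 767912883637], [nat_lit 698102621493]] [])
(.leaf [[nat_lit 767912883637], [nat_lit 698102621493]] [])))))
(.node (nat_lit 1476)
(.node (nat_lit 1473)
(.node (nat_lit 1472)
(.leaf [[nat_lit 13106472373, nat_lit 14180210101], [nat_lit 13089424693], [nat_lit 10924897461], [nat_lit 8760370229], [nat_lit 8760370225]] [])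
(.leaf [[nat_lit 13106472373, nat_lit 14180210101], [nat_lit 13089424693], [nat_lit 10924897461], [nat_lit 8760370229], [nat_lit 8760370225]] []))
(.node (nat_lit 1474)
(.leaf [[nat_lit 13106472373, nat_lit 13089957301], [nat_lit 13089424693], [nat_lit 10924897461], [nat_lit 8760370229], [nat_lit 146165236661]] [])
(.node (nat_lit 1475)
(.leaf [[nat_lit 82899686837], [nat_lit 13089424693], [nat_lit 10924897461], [nat_lit 8760370229]] [])
(.leaf [[nat_lit 82899686837], [nat_lit 13089424693], [nat_lit 10924897461], [nat_lit 8760370229]] []))))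
(.node (nat_lit 1478)
(.node (nat_lit 1477)
(.leaf [[nat_lit 82899686837], [nat_lit 13089424693], [nat_lit 10924897461], [nat_lit 8760370229]] [])
(.leaf [[nat_lit 82899686837], [nat_lit 13089424693], [nat_lit 10924897461], [nat_lit 283621233717]] []))
(.node (nat_lit 1479)
(.leaf [[nat_lit 82899686837], [nat_lit 13089424693], [nat_lit 285785760949], [nat_lit 147256022069]] [])
(.node (nat_lit 1480)
(.leaf [[nat_lit 82899686837], [nat_lit 355596023093], [nat_lit 285785760949], [nat_lit 283621233717]] [])
(.leaf [[nat_lit 425406285237], [nat_lit 355596023093], [nat_lit 285785760949]] []))))))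
(.node (nat_lit 1491)
(.node (nat_lit 1486)
(.node (nat_lit 1483)
(.node (nat_lit 1482)
(.leaf [[nat_lit 425406285237], [nat_lit 355596023093], [nat_lit 285785760949]] [])
(.leaf [[nat_lit 425406285237], [nat_lit 355596023093], [nat_lit 285785760949]] []))
(.node (nat_lit 1484)
(.leaf [[nat_lit 425406285237], [nat_lit 355596023093], [nat_lit 285785760949]] [])
(.node (nat_lit 1485)
(.leaf [[nat_lit 425406285237], [nat_lit 355596023093], [nat_lit 285785760949]] [])
(.leaf [[nat_lit 767912883637], [nat_lit 698102621493], [nat_lit 285785760949]] []))))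
(.node (nat_lit 1488)
(.node (nat_lit 1487)
(.leaf [[nat_lit 767912883637], [nat_lit 698102621493]] [])
(.leaf [[nat_lit 767912883637], [nat_lit 698102621493]] []))
(.node (nat_lit 1489)
(.leaf [[nat_lit 767912883637], [nat_lit 698102621493]] [])
(.node (nat_lit 1490)
(.leaf [[nat_lit 767912883637], [nat_lit 698102621493]] [])
(.leaf [[nat_lit 767912883637], [nat_lit 698102621493]] [])))))
(.node (nat_lit 1537)
(.node (nat_lit 1493)
(.node (nat_lit 1492)
(.leaf [[nat_lit 767912883637], [nat_lit 698102621493]] [])
(.leaf [[nat_lit 767912883637]] []))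
(.node (nat_lit 1494)
(.leaf [[nat_lit 767912883637]] [])
(.node (nat_lit 1536)
(.leaf [[nat_lit 14180210101, nat_lit 13089437109, nat_lit 13089957301], [nat_lit 13089424693], [nat_lit 10924897461], [nat_lit 10924897457], [nat_lit 10924897453]] [])
(.leaf [[nat_lit 14180210101, nat_lit 13089437109, nat_lit 13089957301], [nat_lit 13089424693], [nat_lit 10924897461], [nat_lit 10924897457], [nat_lit 10924897453]] []))))
(.node (nat_lit 1540)
(.node (nat_lit 1538)
(.leaf [[nat_lit 82899686837], [nat_lit 13089424693], [nat_lit 10924897461], [nat_lit 10924897457]] [])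
(.node (nat_lit 1539)
(.leaf [[nat_lit 82899686837], [nat_lit 13089424693], [nat_lit 10924897461], [nat_lit 10924897457]] [])
(.leaf [[nat_lit 82899686837], [nat_lit 13089424693], [nat_lit 10924897461], [nat_lit 10924897457]] [])))
(.node (nat_lit 1541)
(.leaf [[nat_lit 82899686837], [nat_lit 13089424693], [nat_lit 10924897461], [nat_lit 283621233717]] [])
(.node (nat_lit 1542)
(.leaf [[nat_lit 82899686837], [nat_lit 13089424693], [nat_lit 10924897461], [nat_lit 147256022069]] [])
(.leaf [[nat_lit 82899686837], [nat_lit 13089424693], [nat_lit 285785760949], [nat_lit 283621233717]] [])))))))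
(.node (nat_lit 1603)
(.node (nat_lit 1553)
(.node (nat_lit 1548)
(.node (nat_lit 1545)
(.node (nat_lit 1544)
(.leaf [[nat_lit 82899686837], [nat_lit 355596023093], [nat_lit 285785760949]] [])
(.leaf [[nat_lit 425406285237], [nat_lit 355596023093], [nat_lit 285785760949]] []))
(.node (nat_lit 1546)
(.leaf [[nat_lit 425406285237], [nat_lit 355596023093], [nat_lit 285785760949]] [])
(.node (nat_lit 1547)
(.leaf [[nat_lit 425406285237], [nat_lit 355596023093], [nat_lit 285785760949]] [])
(.leaf [[nat_lit 425406285237], [nat_lit 355596023093], [nat_lit 285785760949]] []))))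
(.node (nat_lit 1550)
(.node (nat_lit 1549)
(.leaf [[nat_lit 425406285237], [nat_lit 355596023093], [nat_lit 285785760949]] [])
(.leaf [[nat_lit 767912883637], [nat_lit 698102621493]] []))
(.node (nat_lit 1551)
(.leaf [[nat_lit 767912883637], [nat_lit 698102621493]] [])
(.node (nat_lit 1552)
(.leaf [[nat_lit 767912883637], [nat_lit 698102621493]] [])
(.leaf [[nat_lit 767912883637], [nat_lit 698102621493]] [])))))
(.node (nat_lit 1558)
(.node (nat_lit 1555)
(.node (nat_lit 1554)
(.leaf [[nat_lit 767912883637], [nat_lit 698102621493]] [])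
(.leaf [[nat_lit 767912883637], [nat_lit 698102621493]] []))
(.node (nat_lit 1556)
(.leaf [[nat_lit 767912883637]] [])
(.node (nat_lit 1557)
(.leaf [[nat_lit 767912883637]] [])
(.leaf [[nat_lit 767912883637]] []))))
(.node (nat_lit 1600)
(.node (nat_lit 1559)
(.leaf [[nat_lit 767912883637]] [])
(.leaf [[nat_lit 14180210101, nat_lit 13089437109, nat_lit 13089957301], [nat_lit 13089424693], [nat_lit 13089424689], [nat_lit 13089424685]] [[], [], [], [], [nat_lit 107228566986780]]))
(.node (nat_lit 1601)
(.leaf [[nat_lit 14180210101, nat_lit 13089437109, nat_lit 13089957301], [nat_lit 13089424693], [nat_lit 13089424689], [nat_lit 13089424685]] [])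
(.node (nat_lit 1602)
(.leaf [[nat_lit 82899686837], [nat_lit 13089424693], [nat_lit 79627596981, nat_lit 10907862197], [nat_lit 13089424685]] [])
(.leaf [[nat_lit 82899686837], [nat_lit 13089424693], [nat_lit 79627596981, nat_lit 10907862197], [nat_lit 13089424685]] []))))))
(.node (nat_lit 1613)
(.node (nat_lit 1608)
(.node (nat_lit 1605)
(.node (nat_lit 1604)
(.leaf [[nat_lit 82899686837], [nat_lit 13089424693], [nat_lit 148346811573, nat_lit 148346807477], [nat_lit 13089424685]] [])
(.leaf [[nat_lit 82899686837], [nat_lit 13089424693], [nat_lit 217066284213, nat_lit 148346811573], [nat_lit 147256022069]] []))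
(.node (nat_lit 1606)
(.leaf [[nat_lit 82899686837], [nat_lit 13089424693], [nat_lit 285785760949], [nat_lit 285785760945]] [])
(.node (nat_lit 1607)
(.leaf [[nat_lit 82899686837], [nat_lit 13089424693], [nat_lit 285785760949]] [])
(.leaf [[nat_lit 82899686837], [nat_lit 13089424693], [nat_lit 285785760949]] []))))
(.node (nat_lit 1610)
(.node (nat_lit 1609)
(.leaf [[nat_lit 425406285237], [nat_lit 355596023093], [nat_lit 285785760949]] [])
(.leaf [[nat_lit 425406285237], [nat_lit 355596023093], [nat_lit 285785760949]] []))
(.node (nat_lit 1611)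
(.leaf [[nat_lit 425406285237], [nat_lit 355596023093], [nat_lit 285785760949]] [])
(.node (nat_lit 1612)
(.leaf [[nat_lit 425406285237], [nat_lit 355596023093], [nat_lit 285785760949]] [])
(.leaf [[nat_lit 425406285237], [nat_lit 355596023093]] [])))))
(.node (nat_lit 1618)
(.node (nat_lit 1615)
(.node (nat_lit 1614)
(.leaf [[nat_lit 425406285237], [nat_lit 698102621493]] [])
(.leaf [[nat_lit 767912883637], [nat_lit 698102621493]] []))
(.node (nat_lit 1616)
(.leaf [[nat_lit 767912883637], [nat_lit 698102621493]] [])
(.node (nat_lit 1617)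
(.leaf [[nat_lit 767912883637], [nat_lit 698102621493]] [])
(.leaf [[nat_lit 767912883637], [nat_lit 698102621493]] []))))
(.node (nat_lit 1621)
(.node (nat_lit 1619)
(.leaf [[nat_lit 767912883637]] [])
(.node (nat_lit 1620)
(.leaf [[nat_lit 767912883637]] [])
(.leaf [[nat_lit 767912883637]] [])))
(.node (nat_lit 1622)
(.leaf [[nat_lit 767912883637]] [])
(.node (nat_lit 1623)
(.leaf [[nat_lit 767912883637]] [])
(.leaf [[nat_lit 767912883637]] []))))))))))

noncomputable def ct27 : Tc :=
(.node (nat_lit 1167)
(.node (nat_lit 837)
(.node (nat_lit 581)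
(.node (nat_lit 389)
(.node (nat_lit 259)
(.node (nat_lit 193)
(.node (nat_lit 128)
(.node (nat_lit 64)
(.leaf [[nat_lit 136356682, nat_lit 153924550], [nat_lit 102261326], [nat_lit 102261322], [nat_lit 102261318], [nat_lit 82], [nat_lit 78], [nat_lit 74], [nat_lit 70]] [])
(.leaf [[nat_lit 1227404230, nat_lit 1210090314, nat_lit 1210094410, nat_lit 1210889158], [nat_lit 1193321286, nat_lit 1210094406, nat_lit 1142981322], [nat_lit 1176011462, nat_lit 1126208198, nat_lit 1159238342, nat_lit 1142981318], [nat_lit 204522549], [nat_lit 153924533, nat_lit 1176011454, nat_lit 1159238334], [nat_lit 136356661, nat_lit 136348469], [nat_lit 136348465], [nat_lit 102261301]] [[], [], [], [], [], [nat_lit 981742297505, nat_lit 981742297506, nat_lit 1260949742113], [nat_lit 1117000179743, nat_lit 1117033734176, nat_lit 1396207624350, nat_lit 1675448623263, nat_lit 1117033734304, nat_lit 842087702815]]))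
(.node (nat_lit 129)
(.leaf [[nat_lit 69929571146, nat_lit 69913588678], [nat_lit 69929571142, nat_lit 69913588674], [nat_lit 69929571138, nat_lit 205055157], [nat_lit 204522549], [nat_lit 153924533, nat_lit 153404341], [nat_lit 136356661, nat_lit 136348469, nat_lit 119837493, nat_lit 119841589], [nat_lit 136352561, nat_lit 170435501], [nat_lit 102261301]] [[], [], [], [], [], [nat_lit 1260949742113], [nat_lit 1117033734176, nat_lit 1675448623263, nat_lit 842087702815]])
(.node (nat_lit 192)
(.leaf [[nat_lit 2317919174], [nat_lit 2249753290, nat_lit 2267321158], [nat_lit 2249753286, nat_lit 2216723142], [nat_lit 204522549], [nat_lit 2249753278, nat_lit 153924533], [nat_lit 136356661, nat_lit 136348469, nat_lit 119837493, nat_lit 119841589], [nat_lit 136352561], [nat_lit 102261301]] [[], [], [], [], [], [nat_lit 1260949742113], [nat_lit 1117033734175, nat_lit 1117033734176, nat_lit 1396207624350, nat_lit 1675448623263, nat_lit 842087702815]])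
(.leaf [[nat_lit 71020618694, nat_lit 70986273610], [nat_lit 70986535750, nat_lit 70986273606, nat_lit 70986531654], [nat_lit 70986535746, nat_lit 70986273602, nat_lit 205055157], [nat_lit 204522549], [nat_lit 170435509, nat_lit 153404341, nat_lit 153924533], [nat_lit 136356661, nat_lit 153924529, nat_lit 136348469], [nat_lit 136348465, nat_lit 136352561, nat_lit 136356657]] [[], [], [], [], [], [], [nat_lit 1675448623262, nat_lit 1675448623263]]))))
(.node (nat_lit 256)
(.node (nat_lit 194)
(.leaf [[nat_lit 139722785610], [nat_lit 139722785606], [nat_lit 139722785602], [nat_lit 204522549], [nat_lit 170435509, nat_lit 153404341, nat_lit 153924533], [nat_lit 69929571125, nat_lit 136348469, nat_lit 153924529], [nat_lit 170435501, nat_lit 69929571121]] [[], [], [], [], [], [], [nat_lit 1675448623262]])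
(.leaf [[nat_lit 3374883782, nat_lit 3340538698], [nat_lit 3340800838, nat_lit 3357573958], [nat_lit 3357573954, nat_lit 3340800834], [nat_lit 204522549], [nat_lit 170435509, nat_lit 153404341, nat_lit 153924533], [nat_lit 136356661, nat_lit 136348469, nat_lit 1193579317], [nat_lit 1210090289, nat_lit 1210094385]] [[], [], [], [], [], [nat_lit 981742297505], [nat_lit 1117033734175, nat_lit 10192300646558, nat_lit 18988393668767]]))
(.node (nat_lit 257)
(.leaf [[nat_lit 72094098374, nat_lit 72077583302], [nat_lit 72042980166, nat_lit 72026985286], [nat_lit 221570229, nat_lit 205055157], [nat_lit 204522549], [nat_lit 170435509, nat_lit 153404341, nat_lit 153924533], [nat_lit 136356661, nat_lit 136348469, nat_lit 153924529], [nat_lit 1210090289, nat_lit 1210094385]] [[], [], [], [], [], [], [nat_lit 1117033734175, nat_lit 1675448623262]])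
(.node (nat_lit 258)
(.leaf [[nat_lit 140796797894, nat_lit 140813571014, nat_lit 140780282822], [nat_lit 255653173], [nat_lit 221570229, nat_lit 205055157], [nat_lit 204522549], [nat_lit 170435509, nat_lit 153404341, nat_lit 153924533], [nat_lit 69929571125, nat_lit 170435505, nat_lit 153924529], [nat_lit 170435501, nat_lit 69929571121]] [[], [], [], [], [], [], [nat_lit 1144609059512478]])
(.leaf [[nat_lit 209516012486, nat_lit 209482982342], [nat_lit 255653173], [nat_lit 221570229, nat_lit 205055157], [nat_lit 204522549], [nat_lit 170435509, nat_lit 153404341, nat_lit 153924533], [nat_lit 139722785589], [nat_lit 139722785585]] [])))))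
(.node (nat_lit 324)
(.node (nat_lit 321)
(.node (nat_lit 320)
(.leaf [[nat_lit 4431315786], [nat_lit 4431315782], [nat_lit 4431315778], [nat_lit 204522549], [nat_lit 1244177333, nat_lit 153404341, nat_lit 153924533], [nat_lit 136356661, nat_lit 136348469, nat_lit 2267321141], [nat_lit 2283832113, nat_lit 1210094385]] [[], [], [], [], [], [], [nat_lit 18429978779679, nat_lit 18988393668766]])
(.leaf [[nat_lit 73151062982, nat_lit 73167836102, nat_lit 73134547910], [nat_lit 255653173], [nat_lit 221570229, nat_lit 205055157], [nat_lit 204522549], [nat_lit 1244177333, nat_lit 153404341, nat_lit 153924533], [nat_lit 2283832117, nat_lit 136356661, nat_lit 2267321141], [nat_lit 2317919149]] [[], [], [], [], [], [], [nat_lit 18988393668766]]))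
(.node (nat_lit 322)
(.leaf [[nat_lit 255665589, nat_lit 256185781], [nat_lit 255653173], [nat_lit 221570229, nat_lit 205055157], [nat_lit 204522549], [nat_lit 1244177333, nat_lit 153404341, nat_lit 153924533], [nat_lit 1244177329, nat_lit 69929571125], [nat_lit 139722785585]] [])
(.node (nat_lit 323)
(.leaf [[nat_lit 255665589, nat_lit 256185781], [nat_lit 255653173], [nat_lit 221570229, nat_lit 205055157], [nat_lit 204522549], [nat_lit 170435509, nat_lit 153404341, nat_lit 153924533], [nat_lit 139722785589], [nat_lit 139722785585]] [])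
(.leaf [[nat_lit 279275144010, nat_lit 256185781], [nat_lit 255653173], [nat_lit 221570229, nat_lit 205055157], [nat_lit 204522549], [nat_lit 170435509, nat_lit 153404341, nat_lit 153924533], [nat_lit 139722785589], [nat_lit 139722785585]] []))))
(.node (nat_lit 386)
(.node (nat_lit 384)
(.leaf [[nat_lit 5505328070, nat_lit 5522101190, nat_lit 5488812998], [nat_lit 255653173], [nat_lit 221570229, nat_lit 205055157], [nat_lit 204522549], [nat_lit 2317919157], [nat_lit 2317919153, nat_lit 2267321141], [nat_lit 3357573937]] [[], [], [], [], [], [], [nat_lit 18988393668638, nat_lit 18988393668766]])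
(.node (nat_lit 385)
(.leaf [[nat_lit 74224542662, nat_lit 256185781], [nat_lit 255653173], [nat_lit 221570229, nat_lit 205055157], [nat_lit 204522549], [nat_lit 2317919157], [nat_lit 2317919153], [nat_lit 2317919149]] [])
(.leaf [[nat_lit 255665589, nat_lit 256185781], [nat_lit 255653173], [nat_lit 221570229, nat_lit 205055157], [nat_lit 204522549], [nat_lit 2317919157], [nat_lit 2317919153], [nat_lit 139722785585]] [])))
(.node (nat_lit 387)
(.leaf [[nat_lit 255665589, nat_lit 256185781], [nat_lit 255653173], [nat_lit 221570229, nat_lit 205055157], [nat_lit 204522549], [nat_lit 1244177333, nat_lit 153404341, nat_lit 153924533], [nat_lit 139722785589], [nat_lit 139722785585]] [])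
(.node (nat_lit 388)
(.leaf [[nat_lit 255665589, nat_lit 256185781], [nat_lit 255653173], [nat_lit 221570229, nat_lit 205055157], [nat_lit 204522549], [nat_lit 1244177333, nat_lit 153404341, nat_lit 153924533], [nat_lit 139722785589]] [])
(.leaf [[nat_lit 255665589, nat_lit 256185781], [nat_lit 255653173], [nat_lit 221570229, nat_lit 205055157], [nat_lit 204522549], [nat_lit 170435509, nat_lit 69946618805, nat_lit 153924533], [nat_lit 139722785589]] []))))))
(.node (nat_lit 514)
(.node (nat_lit 452)
(.node (nat_lit 449)
(.node (nat_lit 448)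
(.leaf [[nat_lit 6544712398], [nat_lit 6544712394], [nat_lit 6544712390], [nat_lit 204522549], [nat_lit 2317919157], [nat_lit 4431315765], [nat_lit 4431315761]] [[], [], [], [], [], [], [nat_lit 36301338714142]])
(.leaf [[nat_lit 75298542534, nat_lit 221595061], [nat_lit 255653173], [nat_lit 221570229, nat_lit 205055157], [nat_lit 204522549], [nat_lit 2317919157], [nat_lit 4431315765], [nat_lit 4431315761]] []))
(.node (nat_lit 450)
(.leaf [[nat_lit 143983674186, nat_lit 256185781], [nat_lit 255653173], [nat_lit 221570229, nat_lit 205055157], [nat_lit 204522549], [nat_lit 2317919157], [nat_lit 2317919153], [nat_lit 4431315761]] [])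
(.node (nat_lit 451)
(.leaf [[nat_lit 255665589, nat_lit 256185781], [nat_lit 255653173], [nat_lit 221570229, nat_lit 205055157], [nat_lit 204522549], [nat_lit 2317919157], [nat_lit 139722785589]] [])
(.leaf [[nat_lit 255665589, nat_lit 256185781], [nat_lit 255653173], [nat_lit 221570229, nat_lit 205055157], [nat_lit 204522549], [nat_lit 2317919157], [nat_lit 139722785589]] []))))
(.node (nat_lit 454)
(.node (nat_lit 453)
(.leaf [[nat_lit 255665589, nat_lit 256185781], [nat_lit 255653173], [nat_lit 70014784693], [nat_lit 204522549], [nat_lit 1244177333, nat_lit 69946618805, nat_lit 153924533], [nat_lit 139722785589]] [])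
(.leaf [[nat_lit 418861572938], [nat_lit 255653173], [nat_lit 70014784693], [nat_lit 204522549], [nat_lit 170435509, nat_lit 69946618805, nat_lit 153924533], [nat_lit 139722785589]] []))
(.node (nat_lit 512)
(.leaf [[nat_lit 255665589, nat_lit 256185781], [nat_lit 255653173], [nat_lit 2369049781], [nat_lit 204522549], [nat_lit 2317919157], [nat_lit 4431315765], [nat_lit 4431315761]] [])
(.node (nat_lit 513)
(.leaf [[nat_lit 76372022214, nat_lit 256185781], [nat_lit 255653173], [nat_lit 221570229, nat_lit 205055157], [nat_lit 204522549], [nat_lit 2317919157], [nat_lit 4431315765], [nat_lit 4431315761]] [])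
(.leaf [[nat_lit 255665589, nat_lit 256185781], [nat_lit 255653173], [nat_lit 221570229, nat_lit 1295307957], [nat_lit 204522549], [nat_lit 2317919157], [nat_lit 4431315765]] [])))))
(.node (nat_lit 519)
(.node (nat_lit 516)
(.node (nat_lit 515)
(.leaf [[nat_lit 255665589, nat_lit 256185781], [nat_lit 255653173], [nat_lit 221570229, nat_lit 1295307957], [nat_lit 204522549], [nat_lit 2317919157], [nat_lit 139722785589]] [])
(.leaf [[nat_lit 255665589, nat_lit 256185781], [nat_lit 255653173], [nat_lit 70014784693], [nat_lit 204522549], [nat_lit 2317919157], [nat_lit 139722785589]] []))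
(.node (nat_lit 517)
(.leaf [[nat_lit 70048880053, nat_lit 256185781], [nat_lit 255653173], [nat_lit 70014784693], [nat_lit 204522549], [nat_lit 2317919157], [nat_lit 139722785589]] [])
(.node (nat_lit 518)
(.leaf [[nat_lit 70048880053, nat_lit 70049138101], [nat_lit 255653173], [nat_lit 70014784693], [nat_lit 204522549], [nat_lit 1244177333, nat_lit 71020618677], [nat_lit 139722785589]] [])
(.leaf [[nat_lit 139842094517, nat_lit 139825579445], [nat_lit 139825046837], [nat_lit 70014784693], [nat_lit 204522549], [nat_lit 170435509, nat_lit 69946618805, nat_lit 69946876853, nat_lit 153924533], [nat_lit 139722785589]] []))))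
(.node (nat_lit 578)
(.node (nat_lit 576)
(.leaf [[nat_lit 8760370242], [nat_lit 2386097461, nat_lit 1312617781], [nat_lit 2369049781], [nat_lit 204522549], [nat_lit 2317919157], [nat_lit 4431315765], [nat_lit 6544712373]] [])
(.node (nat_lit 577)
(.leaf [[nat_lit 2403145141, nat_lit 1313150389], [nat_lit 2386097461, nat_lit 1312617781], [nat_lit 2369049781], [nat_lit 204522549], [nat_lit 2317919157], [nat_lit 4431315765]] [])
(.leaf [[nat_lit 1329665461, nat_lit 221595061, nat_lit 1313150389], [nat_lit 2386097461, nat_lit 1312617781], [nat_lit 2369049781], [nat_lit 204522549], [nat_lit 2317919157], [nat_lit 4431315765]] [])))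
(.node (nat_lit 579)
(.leaf [[nat_lit 1329665461, nat_lit 221595061, nat_lit 1313150389], [nat_lit 2386097461, nat_lit 1312617781], [nat_lit 2369049781], [nat_lit 204522549], [nat_lit 2317919157], [nat_lit 4431315765]] [])
(.node (nat_lit 580)
(.leaf [[nat_lit 1329665461, nat_lit 221595061, nat_lit 1313150389], [nat_lit 1312617781, nat_lit 221582645], [nat_lit 2369049781], [nat_lit 204522549], [nat_lit 2317919157], [nat_lit 139722785589]] [])
(.leaf [[nat_lit 70048880053, nat_lit 70049138101], [nat_lit 70031832373, nat_lit 1312617781], [nat_lit 70014784693], [nat_lit 204522549], [nat_lit 2317919157], [nat_lit 139722785589]] [])))))))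
(.node (nat_lit 711)
(.node (nat_lit 646)
(.node (nat_lit 641)
(.node (nat_lit 583)
(.node (nat_lit 582)
(.leaf [[nat_lit 139842094517, nat_lit 139825579445], [nat_lit 139825046837], [nat_lit 70014784693], [nat_lit 204522549], [nat_lit 2317919157], [nat_lit 139722785589]] [])
(.leaf [[nat_lit 139842094517, nat_lit 139825579445], [nat_lit 139825046837], [nat_lit 70014784693], [nat_lit 139773916213], [nat_lit 1244177333, nat_lit 71020618677]] []))
(.node (nat_lit 584)
(.leaf [[nat_lit 209635308981], [nat_lit 139825046837], [nat_lit 209584178357], [nat_lit 139773916213], [nat_lit 139773916209]] [])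
(.node (nat_lit 640)
(.leaf [[nat_lit 3477145013, nat_lit 2352039349], [nat_lit 2386097461, nat_lit 2369582389], [nat_lit 2369049781], [nat_lit 204522549], [nat_lit 2317919157], [nat_lit 4431315765]] [])
(.leaf [[nat_lit 3477145013, nat_lit 2369074613], [nat_lit 2386097461, nat_lit 1312617781], [nat_lit 2369049781], [nat_lit 204522549], [nat_lit 2317919157], [nat_lit 4431315765]] []))))
(.node (nat_lit 643)
(.node (nat_lit 642)
(.leaf [[nat_lit 3477145013, nat_lit 2369074613], [nat_lit 2386097461, nat_lit 1312617781], [nat_lit 2369049781], [nat_lit 204522549], [nat_lit 2317919157], [nat_lit 4431315765]] [])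
(.leaf [[nat_lit 3477145013, nat_lit 2369074613], [nat_lit 2386097461, nat_lit 1312617781], [nat_lit 2369049781], [nat_lit 204522549], [nat_lit 2317919157], [nat_lit 4431315765]] []))
(.node (nat_lit 644)
(.leaf [[nat_lit 2403145141, nat_lit 2403403189], [nat_lit 2386097461, nat_lit 1312617781], [nat_lit 2369049781], [nat_lit 204522549], [nat_lit 2317919157], [nat_lit 139722785589]] [])
(.node (nat_lit 645)
(.leaf [[nat_lit 71122879925, nat_lit 70014809525], [nat_lit 72179311925], [nat_lit 70014784693], [nat_lit 204522549], [nat_lit 2317919157], [nat_lit 139722785589]] [])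
(.leaf [[nat_lit 139842094517, nat_lit 139825579445], [nat_lit 139825046837], [nat_lit 70014784693], [nat_lit 139773916213], [nat_lit 2317919157]] [])))))
(.node (nat_lit 705)
(.node (nat_lit 648)
(.node (nat_lit 647)
(.leaf [[nat_lit 209635308981], [nat_lit 139825046837], [nat_lit 209584178357], [nat_lit 139773916213], [nat_lit 2317919157]] [])
(.leaf [[nat_lit 209635308981], [nat_lit 139825046837], [nat_lit 209584178357], [nat_lit 139773916213], [nat_lit 140813570997, nat_lit 71020618677]] []))
(.node (nat_lit 649)
(.leaf [[nat_lit 209635308981], [nat_lit 279394440501], [nat_lit 209584178357], [nat_lit 139773916213], [nat_lit 279343309873]] [])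
(.node (nat_lit 704)
(.leaf [[nat_lit 4550624693, nat_lit 3477145013], [nat_lit 4533577013], [nat_lit 2369049781], [nat_lit 4482446389], [nat_lit 2317919157], [nat_lit 4431315765]] [])
(.leaf [[nat_lit 4550624693, nat_lit 3477145013], [nat_lit 4533577013], [nat_lit 2369049781], [nat_lit 4482446389], [nat_lit 2317919157], [nat_lit 4431315765]] []))))
(.node (nat_lit 708)
(.node (nat_lit 706)
(.leaf [[nat_lit 3477145013, nat_lit 2369074613], [nat_lit 4533577013], [nat_lit 2369049781], [nat_lit 4482446389], [nat_lit 2317919157], [nat_lit 4431315765]] [])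
(.node (nat_lit 707)
(.leaf [[nat_lit 3477145013, nat_lit 2369074613], [nat_lit 4533577013], [nat_lit 2369049781], [nat_lit 4482446389], [nat_lit 2317919157], [nat_lit 4431315765]] [])
(.leaf [[nat_lit 3477145013, nat_lit 2369074613], [nat_lit 4533577013], [nat_lit 2369049781], [nat_lit 72128181301], [nat_lit 2317919157], [nat_lit 4431315765]] [])))
(.node (nat_lit 709)
(.leaf [[nat_lit 72196359605, nat_lit 72179844533], [nat_lit 72179311925], [nat_lit 2369049781], [nat_lit 72128181301], [nat_lit 2317919157]] [])
(.node (nat_lit 710)
(.leaf [[nat_lit 140899059125, nat_lit 140915832245, nat_lit 139808023989], [nat_lit 72179311925], [nat_lit 70014784693], [nat_lit 139773916213], [nat_lit 2317919157]] [])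
(.leaf [[nat_lit 209635308981], [nat_lit 139825046837], [nat_lit 209584178357], [nat_lit 139773916213], [nat_lit 141887312821]] []))))))
(.node (nat_lit 774)
(.node (nat_lit 769)
(.node (nat_lit 713)
(.node (nat_lit 712)
(.leaf [[nat_lit 209635308981], [nat_lit 279394440501], [nat_lit 209584178357], [nat_lit 139773916213], [nat_lit 141887312821]] [])
(.leaf [[nat_lit 209635308981], [nat_lit 279394440501], [nat_lit 209584178357], [nat_lit 279343309877], [nat_lit 140813570997]] []))
(.node (nat_lit 714)
(.leaf [[nat_lit 349204702645], [nat_lit 279394440501], [nat_lit 209584178357], [nat_lit 279343309877], [nat_lit 279343309873]] [])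
(.node (nat_lit 768)
(.leaf [[nat_lit 4550624693, nat_lit 4534109621], [nat_lit 4533577013], [nat_lit 2369049781], [nat_lit 4482446389], [nat_lit 2317919157], [nat_lit 4431315765]] [])
(.leaf [[nat_lit 4550624693, nat_lit 4534109621], [nat_lit 4533577013], [nat_lit 2369049781], [nat_lit 4482446389], [nat_lit 2317919157], [nat_lit 4431315765]] []))))
(.node (nat_lit 771)
(.node (nat_lit 770)
(.leaf [[nat_lit 4550624693, nat_lit 4534109621], [nat_lit 4533577013], [nat_lit 2369049781], [nat_lit 4482446389], [nat_lit 2317919157], [nat_lit 4431315765]] [])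
(.leaf [[nat_lit 4550624693, nat_lit 4534109621], [nat_lit 4533577013], [nat_lit 2369049781], [nat_lit 4482446389], [nat_lit 2317919157], [nat_lit 4431315765]] []))
(.node (nat_lit 772)
(.leaf [[nat_lit 4550624693, nat_lit 4534109621], [nat_lit 4533577013], [nat_lit 2369049781], [nat_lit 4482446389], [nat_lit 2317919157]] [])
(.node (nat_lit 773)
(.leaf [[nat_lit 73253324213, nat_lit 73270097333, nat_lit 72162289077], [nat_lit 4533577013], [nat_lit 2369049781], [nat_lit 72128181301], [nat_lit 2317919157]] [])
(.leaf [[nat_lit 141989574069], [nat_lit 72179311925], [nat_lit 141938443445], [nat_lit 72128181301], [nat_lit 2317919157]] [])))))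
(.node (nat_lit 779)
(.node (nat_lit 776)
(.node (nat_lit 775)
(.leaf [[nat_lit 210692273589, nat_lit 209601238453], [nat_lit 211748705589], [nat_lit 209584178357], [nat_lit 139773916213], [nat_lit 141887312821]] [])
(.leaf [[nat_lit 279411488181, nat_lit 210692273589], [nat_lit 279394440501], [nat_lit 209584178357], [nat_lit 279343309877], [nat_lit 141887312821]] []))
(.node (nat_lit 777)
(.leaf [[nat_lit 349204702645], [nat_lit 279394440501], [nat_lit 209584178357], [nat_lit 279343309877], [nat_lit 141887312821]] [])
(.node (nat_lit 778)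
(.leaf [[nat_lit 349204702645], [nat_lit 279394440501], [nat_lit 349153572021], [nat_lit 279343309877]] [])
(.leaf [[nat_lit 349204702645], [nat_lit 418963834165], [nat_lit 349153572021], [nat_lit 279343309877]] []))))
(.node (nat_lit 834)
(.node (nat_lit 832)
(.leaf [[nat_lit 6698104245], [nat_lit 4533577013], [nat_lit 6646973621], [nat_lit 4482446389], [nat_lit 6595842997], [nat_lit 4431315765]] [])
(.node (nat_lit 833)
(.leaf [[nat_lit 6698104245], [nat_lit 4533577013], [nat_lit 6646973621], [nat_lit 4482446389], [nat_lit 6595842997], [nat_lit 4431315765]] [])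
(.leaf [[nat_lit 6698104245], [nat_lit 4533577013], [nat_lit 6646973621], [nat_lit 4482446389], [nat_lit 6595842997], [nat_lit 4431315765]] [])))
(.node (nat_lit 835)
(.leaf [[nat_lit 6698104245], [nat_lit 4533577013], [nat_lit 6646973621], [nat_lit 4482446389], [nat_lit 6595842997]] [])
(.node (nat_lit 836)
(.leaf [[nat_lit 5607589301, nat_lit 5624362421, nat_lit 4516554165], [nat_lit 4533577013], [nat_lit 6646973621], [nat_lit 4482446389], [nat_lit 2317919157]] [])
(.leaf [[nat_lit 74343839157], [nat_lit 4533577013], [nat_lit 74292708533], [nat_lit 4482446389], [nat_lit 2317919157]] []))))))))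
(.node (nat_lit 1029)
(.node (nat_lit 909)
(.node (nat_lit 898)
(.node (nat_lit 842)
(.node (nat_lit 839)
(.node (nat_lit 838)
(.leaf [[nat_lit 143046538677, nat_lit 141955503541], [nat_lit 144102970677], [nat_lit 141938443445], [nat_lit 72128181301], [nat_lit 141887312821]] [])
(.leaf [[nat_lit 211765753269, nat_lit 210692273589], [nat_lit 211748705589], [nat_lit 141938443445], [nat_lit 211697574965], [nat_lit 141887312821]] []))
(.node (nat_lit 840)
(.leaf [[nat_lit 281558967733], [nat_lit 279394440501], [nat_lit 209584178357], [nat_lit 279343309877], [nat_lit 141887312821]] [])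
(.node (nat_lit 841)
(.leaf [[nat_lit 349204702645], [nat_lit 279394440501], [nat_lit 349153572021], [nat_lit 279343309877]] [])
(.leaf [[nat_lit 349204702645], [nat_lit 418963834165], [nat_lit 349153572021], [nat_lit 279343309877]] []))))
(.node (nat_lit 844)
(.node (nat_lit 843)
(.leaf [[nat_lit 349204702645], [nat_lit 418963834165], [nat_lit 349153572021], [nat_lit 418912703541]] [])
(.leaf [[nat_lit 488774096309], [nat_lit 418963834165], [nat_lit 349153572021], [nat_lit 418912703541]] []))
(.node (nat_lit 896)
(.leaf [[nat_lit 6698104245], [nat_lit 6664021301, nat_lit 5590541621], [nat_lit 6646973621], [nat_lit 4482446389], [nat_lit 6595842997], [nat_lit 4431315765]] [])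
(.node (nat_lit 897)
(.leaf [[nat_lit 6698104245], [nat_lit 6664021301, nat_lit 5590541621], [nat_lit 6646973621], [nat_lit 4482446389], [nat_lit 6595842997], [nat_lit 4431315765]] [])
(.leaf [[nat_lit 6698104245], [nat_lit 6664021301, nat_lit 5590541621], [nat_lit 6646973621], [nat_lit 4482446389], [nat_lit 6595842997]] [])))))
(.node (nat_lit 903)
(.node (nat_lit 900)
(.node (nat_lit 899)
(.leaf [[nat_lit 6698104245], [nat_lit 6664021301, nat_lit 5590541621], [nat_lit 6646973621], [nat_lit 4482446389], [nat_lit 6595842997]] [])
(.leaf [[nat_lit 6698104245], [nat_lit 6664021301, nat_lit 5590541621], [nat_lit 6646973621], [nat_lit 4482446389], [nat_lit 6595842997]] []))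
(.node (nat_lit 901)
(.leaf [[nat_lit 75400803765, nat_lit 74309768629], [nat_lit 76457235765], [nat_lit 74292708533], [nat_lit 4482446389], [nat_lit 6595842997]] [])
(.node (nat_lit 902)
(.leaf [[nat_lit 144120018357, nat_lit 143046538677], [nat_lit 144102970677], [nat_lit 74292708533], [nat_lit 144051840053], [nat_lit 141887312821]] [])
(.leaf [[nat_lit 213913232821], [nat_lit 211748705589], [nat_lit 141938443445], [nat_lit 211697574965], [nat_lit 141887312821]] []))))
(.node (nat_lit 906)
(.node (nat_lit 904)
(.leaf [[nat_lit 281558967733], [nat_lit 211748705589], [nat_lit 281507837109], [nat_lit 211697574965]] [])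
(.node (nat_lit 905)
(.leaf [[nat_lit 281558967733], [nat_lit 279394440501], [nat_lit 349153572021], [nat_lit 279343309877]] [])
(.leaf [[nat_lit 349204702645], [nat_lit 418963834165], [nat_lit 349153572021], [nat_lit 279343309877]] [])))
(.node (nat_lit 907)
(.leaf [[nat_lit 488774096309], [nat_lit 418963834165], [nat_lit 349153572021], [nat_lit 418912703541]] [])
(.node (nat_lit 908)
(.leaf [[nat_lit 488774096309], [nat_lit 418963834165], [nat_lit 488722965685], [nat_lit 418912703541]] [])
(.leaf [[nat_lit 488774096309], [nat_lit 418963834165], [nat_lit 488722965685], [nat_lit 418912703541]] []))))))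
(.node (nat_lit 969)
(.node (nat_lit 964)
(.node (nat_lit 961)
(.node (nat_lit 960)
(.leaf [[nat_lit 8828548533, nat_lit 7755068853], [nat_lit 8811500853], [nat_lit 6646973621], [nat_lit 8760370229], [nat_lit 6595842997], [nat_lit 4431315765]] [])
(.leaf [[nat_lit 8828548533, nat_lit 7755068853], [nat_lit 8811500853], [nat_lit 6646973621], [nat_lit 8760370229], [nat_lit 6595842997]] []))
(.node (nat_lit 962)
(.leaf [[nat_lit 8828548533, nat_lit 7755068853], [nat_lit 8811500853], [nat_lit 6646973621], [nat_lit 8760370229], [nat_lit 6595842997]] [])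
(.node (nat_lit 963)
(.leaf [[nat_lit 8828548533, nat_lit 7755068853], [nat_lit 8811500853], [nat_lit 6646973621], [nat_lit 8760370229], [nat_lit 6595842997]] [])
(.leaf [[nat_lit 7755068853, nat_lit 6664033717], [nat_lit 8811500853], [nat_lit 6646973621], [nat_lit 76406105141], [nat_lit 6595842997]] []))))
(.node (nat_lit 966)
(.node (nat_lit 965)
(.leaf [[nat_lit 76474283445, nat_lit 75400803765], [nat_lit 76457235765], [nat_lit 6646973621], [nat_lit 76406105141], [nat_lit 6595842997]] [])
(.leaf [[nat_lit 146267497909], [nat_lit 144102970677], [nat_lit 74292708533], [nat_lit 144051840053], [nat_lit 6595842997]] []))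
(.node (nat_lit 967)
(.leaf [[nat_lit 213913232821], [nat_lit 144102970677], [nat_lit 213862102197], [nat_lit 144051840053]] [])
(.node (nat_lit 968)
(.leaf [[nat_lit 213913232821], [nat_lit 211748705589], [nat_lit 281507837109], [nat_lit 211697574965]] [])
(.leaf [[nat_lit 281558967733], [nat_lit 351318099253], [nat_lit 281507837109], [nat_lit 211697574965]] [])))))
(.node (nat_lit 974)
(.node (nat_lit 971)
(.node (nat_lit 970)
(.leaf [[nat_lit 421128361397], [nat_lit 418963834165], [nat_lit 349153572021], [nat_lit 418912703541]] [])
(.leaf [[nat_lit 488774096309], [nat_lit 418963834165], [nat_lit 488722965685], [nat_lit 418912703541]] []))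
(.node (nat_lit 972)
(.leaf [[nat_lit 488774096309], [nat_lit 418963834165], [nat_lit 488722965685], [nat_lit 418912703541]] [])
(.node (nat_lit 973)
(.leaf [[nat_lit 488774096309], [nat_lit 558533227829], [nat_lit 488722965685]] [])
(.leaf [[nat_lit 628343489973], [nat_lit 558533227829], [nat_lit 488722965685]] []))))
(.node (nat_lit 1026)
(.node (nat_lit 1024)
(.leaf [[nat_lit 8828548533, nat_lit 8812033461], [nat_lit 8811500853], [nat_lit 6646973621], [nat_lit 8760370229], [nat_lit 6595842997]] [])
(.node (nat_lit 1025)
(.leaf [[nat_lit 8828548533, nat_lit 7755068853], [nat_lit 8811500853], [nat_lit 6646973621], [nat_lit 8760370229], [nat_lit 6595842997]] [])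
(.leaf [[nat_lit 8828548533, nat_lit 7755068853], [nat_lit 8811500853], [nat_lit 6646973621], [nat_lit 8760370229], [nat_lit 6595842997]] [])))
(.node (nat_lit 1027)
(.leaf [[nat_lit 8828548533, nat_lit 7755068853], [nat_lit 8811500853], [nat_lit 6646973621], [nat_lit 8760370229], [nat_lit 6595842997]] [])
(.node (nat_lit 1028)
(.leaf [[nat_lit 8828548533, nat_lit 7755068853], [nat_lit 8811500853], [nat_lit 6646973621], [nat_lit 8760370229], [nat_lit 6595842997]] [])
(.leaf [[nat_lit 78621762997], [nat_lit 76457235765], [nat_lit 6646973621], [nat_lit 76406105141], [nat_lit 6595842997]] [])))))))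
(.node (nat_lit 1098)
(.node (nat_lit 1039)
(.node (nat_lit 1034)
(.node (nat_lit 1031)
(.node (nat_lit 1030)
(.leaf [[nat_lit 146267497909], [nat_lit 76457235765], [nat_lit 146216367285], [nat_lit 76406105141]] [])
(.leaf [[nat_lit 146267497909], [nat_lit 144102970677], [nat_lit 213862102197], [nat_lit 144051840053]] []))
(.node (nat_lit 1032)
(.leaf [[nat_lit 213913232821], [nat_lit 283672364341], [nat_lit 213862102197], [nat_lit 144051840053]] [])
(.node (nat_lit 1033)
(.leaf [[nat_lit 353482626485], [nat_lit 351318099253], [nat_lit 281507837109], [nat_lit 351266968629]] [])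
(.leaf [[nat_lit 421128361397], [nat_lit 351318099253], [nat_lit 421077230773], [nat_lit 351266968629]] []))))
(.node (nat_lit 1036)
(.node (nat_lit 1035)
(.leaf [[nat_lit 488774096309], [nat_lit 418963834165], [nat_lit 488722965685], [nat_lit 418912703541]] [])
(.leaf [[nat_lit 488774096309], [nat_lit 558533227829], [nat_lit 488722965685]] []))
(.node (nat_lit 1037)
(.leaf [[nat_lit 628343489973], [nat_lit 558533227829], [nat_lit 488722965685]] [])
(.node (nat_lit 1038)
(.leaf [[nat_lit 628343489973], [nat_lit 558533227829], [nat_lit 488722965685]] [])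
(.leaf [[nat_lit 628343489973], [nat_lit 558533227829], [nat_lit 488722965685]] [])))))
(.node (nat_lit 1092)
(.node (nat_lit 1089)
(.node (nat_lit 1088)
(.leaf [[nat_lit 10976028085], [nat_lit 8811500853], [nat_lit 10924897461], [nat_lit 8760370229], [nat_lit 6595842997]] [])
(.leaf [[nat_lit 10976028085], [nat_lit 8811500853], [nat_lit 10924897461], [nat_lit 8760370229], [nat_lit 6595842997]] []))
(.node (nat_lit 1090)
(.leaf [[nat_lit 10976028085], [nat_lit 8811500853], [nat_lit 10924897461], [nat_lit 8760370229], [nat_lit 6595842997]] [])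
(.node (nat_lit 1091)
(.leaf [[nat_lit 10976028085], [nat_lit 8811500853], [nat_lit 10924897461], [nat_lit 8760370229], [nat_lit 6595842997]] [])
(.leaf [[nat_lit 10976028085], [nat_lit 8811500853], [nat_lit 78570632373], [nat_lit 8760370229], [nat_lit 6595842997]] []))))
(.node (nat_lit 1095)
(.node (nat_lit 1093)
(.leaf [[nat_lit 78621762997], [nat_lit 8811500853], [nat_lit 78570632373], [nat_lit 8760370229]] [])
(.node (nat_lit 1094)
(.leaf [[nat_lit 78621762997], [nat_lit 76457235765], [nat_lit 146216367285], [nat_lit 76406105141]] [])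
(.leaf [[nat_lit 146267497909], [nat_lit 216026629429], [nat_lit 146216367285], [nat_lit 76406105141]] [])))
(.node (nat_lit 1096)
(.leaf [[nat_lit 285836891573], [nat_lit 283672364341], [nat_lit 213862102197], [nat_lit 283621233717]] [])
(.node (nat_lit 1097)
(.leaf [[nat_lit 353482626485], [nat_lit 283672364341], [nat_lit 353431495861], [nat_lit 283621233717]] [])
(.leaf [[nat_lit 421128361397], [nat_lit 351318099253], [nat_lit 421077230773], [nat_lit 351266968629]] []))))))
(.node (nat_lit 1156)
(.node (nat_lit 1103)
(.node (nat_lit 1100)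
(.node (nat_lit 1099)
(.leaf [[nat_lit 421128361397], [nat_lit 490887492917], [nat_lit 421077230773]] [])
(.leaf [[nat_lit 488774096309], [nat_lit 558533227829], [nat_lit 488722965685]] []))
(.node (nat_lit 1101)
(.leaf [[nat_lit 628343489973], [nat_lit 558533227829], [nat_lit 488722965685]] [])
(.node (nat_lit 1102)
(.leaf [[nat_lit 628343489973], [nat_lit 558533227829], [nat_lit 488722965685]] [])
(.leaf [[nat_lit 628343489973], [nat_lit 698102621493], [nat_lit 488722965685]] []))))
(.node (nat_lit 1153)
(.node (nat_lit 1104)
(.leaf [[nat_lit 628343489973], [nat_lit 698102621493], [nat_lit 488722965685]] [])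
(.node (nat_lit 1152)
(.leaf [[nat_lit 10976028085], [nat_lit 8811500853], [nat_lit 10924897461], [nat_lit 8760370229], [nat_lit 6595842997]] [])
(.leaf [[nat_lit 10976028085], [nat_lit 8811500853], [nat_lit 10924897461], [nat_lit 8760370229], [nat_lit 6595842997]] [])))
(.node (nat_lit 1154)
(.leaf [[nat_lit 10976028085], [nat_lit 8811500853], [nat_lit 10924897461], [nat_lit 8760370229], [nat_lit 6595842997]] [])
(.node (nat_lit 1155)
(.leaf [[nat_lit 10976028085], [nat_lit 8811500853], [nat_lit 10924897461], [nat_lit 8760370229], [nat_lit 6595842997]] [])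
(.leaf [[nat_lit 10976028085], [nat_lit 8811500853], [nat_lit 10924897461], [nat_lit 8760370229]] [])))))
(.node (nat_lit 1161)
(.node (nat_lit 1158)
(.node (nat_lit 1157)
(.leaf [[nat_lit 10976028085], [nat_lit 8811500853], [nat_lit 78570632373], [nat_lit 8760370229]] [])
(.leaf [[nat_lit 78621762997], [nat_lit 148380894517], [nat_lit 78570632373], [nat_lit 8760370229]] []))
(.node (nat_lit 1159)
(.leaf [[nat_lit 218191156661], [nat_lit 216026629429], [nat_lit 146216367285], [nat_lit 76406105141]] [])
(.node (nat_lit 1160)
(.leaf [[nat_lit 285836891573], [nat_lit 216026629429], [nat_lit 285785760949], [nat_lit 283621233717]] [])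
(.leaf [[nat_lit 353482626485], [nat_lit 283672364341], [nat_lit 353431495861], [nat_lit 283621233717]] []))))
(.node (nat_lit 1164)
(.node (nat_lit 1162)
(.leaf [[nat_lit 353482626485], [nat_lit 423241758005], [nat_lit 353431495861]] [])
(.node (nat_lit 1163)
(.leaf [[nat_lit 421128361397], [nat_lit 490887492917], [nat_lit 421077230773]] [])
(.leaf [[nat_lit 560697755061], [nat_lit 490887492917], [nat_lit 421077230773]] [])))
(.node (nat_lit 1165)
(.leaf [[nat_lit 628343489973], [nat_lit 558533227829], [nat_lit 488722965685]] [])
(.node (nat_lit 1166)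
(.leaf [[nat_lit 628343489973], [nat_lit 698102621493], [nat_lit 488722965685]] [])
(.leaf [[nat_lit 628343489973], [nat_lit 698102621493], [nat_lit 488722965685]] [])))))))))
(.node (nat_lit 1472)
(.node (nat_lit 1344)
(.node (nat_lit 1234)
(.node (nat_lit 1223)
(.node (nat_lit 1218)
(.node (nat_lit 1169)
(.node (nat_lit 1168)
(.leaf [[nat_lit 767912883637], [nat_lit 698102621493]] [])
(.leaf [[nat_lit 767912883637], [nat_lit 698102621493]] []))
(.node (nat_lit 1216)
(.leaf [[nat_lit 10976028085], [nat_lit 13089424693], [nat_lit 10924897461], [nat_lit 8760370229], [nat_lit 6595842997]] [])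
(.node (nat_lit 1217)
(.leaf [[nat_lit 10976028085], [nat_lit 13089424693], [nat_lit 10924897461], [nat_lit 8760370229], [nat_lit 6595842997]] [])
(.leaf [[nat_lit 10976028085], [nat_lit 13089424693], [nat_lit 10924897461], [nat_lit 8760370229], [nat_lit 6595842997]] []))))
(.node (nat_lit 1220)
(.node (nat_lit 1219)
(.leaf [[nat_lit 10976028085], [nat_lit 13089424693], [nat_lit 10924897461], [nat_lit 8760370229]] [])
(.leaf [[nat_lit 10976028085], [nat_lit 13089424693], [nat_lit 10924897461], [nat_lit 8760370229]] []))
(.node (nat_lit 1221)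
(.leaf [[nat_lit 10976028085], [nat_lit 80735159605], [nat_lit 10924897461], [nat_lit 8760370229]] [])
(.node (nat_lit 1222)
(.leaf [[nat_lit 150545421749], [nat_lit 148380894517], [nat_lit 78570632373], [nat_lit 8760370229]] [])
(.leaf [[nat_lit 218191156661], [nat_lit 148380894517], [nat_lit 78570632373], [nat_lit 8760370229]] [])))))
(.node (nat_lit 1228)
(.node (nat_lit 1225)
(.node (nat_lit 1224)
(.leaf [[nat_lit 285836891573], [nat_lit 216026629429], [nat_lit 285785760949], [nat_lit 283621233717]] [])
(.leaf [[nat_lit 285836891573], [nat_lit 355596023093], [nat_lit 285785760949]] []))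
(.node (nat_lit 1226)
(.leaf [[nat_lit 353482626485], [nat_lit 423241758005], [nat_lit 353431495861]] [])
(.node (nat_lit 1227)
(.leaf [[nat_lit 493052020149], [nat_lit 423241758005], [nat_lit 353431495861]] [])
(.leaf [[nat_lit 560697755061], [nat_lit 490887492917], [nat_lit 421077230773]] []))))
(.node (nat_lit 1231)
(.node (nat_lit 1229)
(.leaf [[nat_lit 560697755061], [nat_lit 490887492917], [nat_lit 421077230773]] [])
(.node (nat_lit 1230)
(.leaf [[nat_lit 628343489973], [nat_lit 698102621493], [nat_lit 488722965685]] [])
(.leaf [[nat_lit 767912883637], [nat_lit 698102621493]] [])))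
(.node (nat_lit 1232)
(.leaf [[nat_lit 767912883637], [nat_lit 698102621493]] [])
(.node (nat_lit 1233)
(.leaf [[nat_lit 767912883637], [nat_lit 698102621493]] [])
(.leaf [[nat_lit 767912883637], [nat_lit 698102621493]] []))))))
(.node (nat_lit 1289)
(.node (nat_lit 1284)
(.node (nat_lit 1281)
(.node (nat_lit 1280)
(.leaf [[nat_lit 13106472373, nat_lit 12032992693], [nat_lit 13089424693], [nat_lit 10924897461], [nat_lit 8760370229], [nat_lit 6595842997]] [])
(.leaf [[nat_lit 13106472373, nat_lit 12032992693], [nat_lit 13089424693], [nat_lit 10924897461], [nat_lit 8760370229], [nat_lit 6595842997]] []))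
(.node (nat_lit 1282)
(.leaf [[nat_lit 13106472373, nat_lit 12032992693], [nat_lit 13089424693], [nat_lit 10924897461], [nat_lit 8760370229]] [])
(.node (nat_lit 1283)
(.leaf [[nat_lit 13106472373, nat_lit 12032992693], [nat_lit 13089424693], [nat_lit 10924897461], [nat_lit 8760370229]] [])
(.leaf [[nat_lit 13106472373, nat_lit 12032992693], [nat_lit 13089424693], [nat_lit 10924897461], [nat_lit 8760370229]] []))))
(.node (nat_lit 1286)
(.node (nat_lit 1285)
(.leaf [[nat_lit 82899686837], [nat_lit 80735159605], [nat_lit 10924897461], [nat_lit 8760370229]] [])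
(.leaf [[nat_lit 150545421749], [nat_lit 80735159605], [nat_lit 10924897461], [nat_lit 8760370229]] []))
(.node (nat_lit 1287)
(.leaf [[nat_lit 218191156661], [nat_lit 148380894517], [nat_lit 285785760949], [nat_lit 8760370229]] [])
(.node (nat_lit 1288)
(.leaf [[nat_lit 218191156661], [nat_lit 148380894517], [nat_lit 285785760949]] [])
(.leaf [[nat_lit 285836891573], [nat_lit 355596023093], [nat_lit 285785760949]] [])))))
(.node (nat_lit 1294)
(.node (nat_lit 1291)
(.node (nat_lit 1290)
(.leaf [[nat_lit 425406285237], [nat_lit 355596023093], [nat_lit 285785760949]] [])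
(.leaf [[nat_lit 493052020149], [nat_lit 423241758005], [nat_lit 353431495861]] []))
(.node (nat_lit 1292)
(.leaf [[nat_lit 493052020149], [nat_lit 423241758005], [nat_lit 353431495861]] [])
(.node (nat_lit 1293)
(.leaf [[nat_lit 560697755061], [nat_lit 698102621493], [nat_lit 421077230773]] [])
(.leaf [[nat_lit 560697755061], [nat_lit 698102621493]] []))))
(.node (nat_lit 1297)
(.node (nat_lit 1295)
(.leaf [[nat_lit 767912883637], [nat_lit 698102621493]] [])
(.node (nat_lit 1296)
(.leaf [[nat_lit 767912883637], [nat_lit 698102621493]] [])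
(.leaf [[nat_lit 767912883637], [nat_lit 698102621493]] [])))
(.node (nat_lit 1298)
(.leaf [[nat_lit 767912883637], [nat_lit 698102621493]] [])
(.node (nat_lit 1299)
(.leaf [[nat_lit 767912883637], [nat_lit 698102621493]] [])
(.leaf [[nat_lit 13106472373, nat_lit 12032992693], [nat_lit 13089424693], [nat_lit 10924897461], [nat_lit 8760370229], [nat_lit 6595842997]] [])))))))
(.node (nat_lit 1408)
(.node (nat_lit 1354)
(.node (nat_lit 1349)
(.node (nat_lit 1346)
(.node (nat_lit 1345)
(.leaf [[nat_lit 13106472373, nat_lit 14180210101], [nat_lit 13089424693], [nat_lit 10924897461], [nat_lit 8760370229]] [])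
(.leaf [[nat_lit 13106472373, nat_lit 14180210101], [nat_lit 13089424693], [nat_lit 10924897461], [nat_lit 8760370229]] []))
(.node (nat_lit 1347)
(.leaf [[nat_lit 13106472373, nat_lit 12032992693], [nat_lit 13089424693], [nat_lit 10924897461], [nat_lit 8760370229]] [])
(.node (nat_lit 1348)
(.leaf [[nat_lit 82899686837], [nat_lit 13089424693], [nat_lit 10924897461], [nat_lit 8760370229]] [])
(.leaf [[nat_lit 82899686837], [nat_lit 13089424693], [nat_lit 10924897461], [nat_lit 8760370229]] []))))
(.node (nat_lit 1351)
(.node (nat_lit 1350)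
(.leaf [[nat_lit 150545421749], [nat_lit 80735159605], [nat_lit 10924897461], [nat_lit 8760370229]] [])
(.leaf [[nat_lit 150545421749], [nat_lit 80735159605], [nat_lit 285785760949]] []))
(.node (nat_lit 1352)
(.leaf [[nat_lit 218191156661], [nat_lit 355596023093], [nat_lit 285785760949]] [])
(.node (nat_lit 1353)
(.leaf [[nat_lit 425406285237], [nat_lit 355596023093], [nat_lit 285785760949]] [])
(.leaf [[nat_lit 425406285237], [nat_lit 355596023093], [nat_lit 285785760949]] [])))))
(.node (nat_lit 1359)
(.node (nat_lit 1356)
(.node (nat_lit 1355)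
(.leaf [[nat_lit 425406285237], [nat_lit 355596023093], [nat_lit 285785760949]] [])
(.leaf [[nat_lit 493052020149], [nat_lit 423241758005], [nat_lit 353431495861]] []))
(.node (nat_lit 1357)
(.leaf [[nat_lit 493052020149], [nat_lit 698102621493]] [])
(.node (nat_lit 1358)
(.leaf [[nat_lit 767912883637], [nat_lit 698102621493]] [])
(.leaf [[nat_lit 767912883637], [nat_lit 698102621493]] []))))
(.node (nat_lit 1362)
(.node (nat_lit 1360)
(.leaf [[nat_lit 767912883637], [nat_lit 698102621493]] [])
(.node (nat_lit 1361)
(.leaf [[nat_lit 767912883637], [nat_lit 698102621493]] [])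
(.leaf [[nat_lit 767912883637], [nat_lit 698102621493]] [])))
(.node (nat_lit 1363)
(.leaf [[nat_lit 767912883637]] [])
(.node (nat_lit 1364)
(.leaf [[nat_lit 767912883637]] [])
(.leaf [[nat_lit 13106472373, nat_lit 14180210101], [nat_lit 13089424693], [nat_lit 10924897461], [nat_lit 8760370229]] []))))))
(.node (nat_lit 1419)
(.node (nat_lit 1413)
(.node (nat_lit 1410)
(.node (nat_lit 1409)
(.leaf [[nat_lit 13106472373, nat_lit 14180210101], [nat_lit 13089424693], [nat_lit 10924897461], [nat_lit 8760370229]] [])
(.leaf [[nat_lit 13106472373, nat_lit 13089957301], [nat_lit 13089424693], [nat_lit 10924897461], [nat_lit 8760370229]] []))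
(.node (nat_lit 1411)
(.leaf [[nat_lit 82899686837], [nat_lit 13089424693], [nat_lit 10924897461], [nat_lit 8760370229]] [])
(.node (nat_lit 1412)
(.leaf [[nat_lit 82899686837], [nat_lit 13089424693], [nat_lit 10924897461], [nat_lit 8760370229]] [])
(.leaf [[nat_lit 82899686837], [nat_lit 13089424693], [nat_lit 10924897461], [nat_lit 8760370229]] []))))
(.node (nat_lit 1416)
(.node (nat_lit 1414)
(.leaf [[nat_lit 82899686837], [nat_lit 13089424693], [nat_lit 10924897461]] [])
(.node (nat_lit 1415)
(.leaf [[nat_lit 150545421749], [nat_lit 80735159605], [nat_lit 285785760949]] [])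
(.leaf [[nat_lit 150545421749], [nat_lit 355596023093], [nat_lit 285785760949]] [])))
(.node (nat_lit 1417)
(.leaf [[nat_lit 425406285237], [nat_lit 355596023093], [nat_lit 285785760949]] [])
(.node (nat_lit 1418)
(.leaf [[nat_lit 425406285237], [nat_lit 355596023093], [nat_lit 285785760949]] [])
(.leaf [[nat_lit 425406285237], [nat_lit 355596023093], [nat_lit 285785760949]] [])))))
(.node (nat_lit 1424)
(.node (nat_lit 1421)
(.node (nat_lit 1420)
(.leaf [[nat_lit 425406285237], [nat_lit 355596023093]] [])
(.leaf [[nat_lit 493052020149], [nat_lit 698102621493]] []))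
(.node (nat_lit 1422)
(.leaf [[nat_lit 767912883637], [nat_lit 698102621493]] [])
(.node (nat_lit 1423)
(.leaf [[nat_lit 767912883637], [nat_lit 698102621493]] [])
(.leaf [[nat_lit 767912883637], [nat_lit 698102621493]] []))))
(.node (nat_lit 1427)
(.node (nat_lit 1425)
(.leaf [[nat_lit 767912883637], [nat_lit 698102621493]] [])
(.node (nat_lit 1426)
(.leaf [[nat_lit 767912883637]] [])
(.leaf [[nat_lit 767912883637]] [])))
(.node (nat_lit 1428)
(.leaf [[nat_lit 767912883637]] [])
(.node (nat_lit 1429)
(.leaf [[nat_lit 767912883637]] [])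
(.leaf [[nat_lit 13106472373, nat_lit 14180210101], [nat_lit 13089424693], [nat_lit 10924897461], [nat_lit 8760370229]] []))))))))
(.node (nat_lit 1555)
(.node (nat_lit 1493)
(.node (nat_lit 1482)
(.node (nat_lit 1477)
(.node (nat_lit 1474)
(.node (nat_lit 1473)
(.leaf [[nat_lit 13106472373, nat_lit 13089957301], [nat_lit 13089424693], [nat_lit 10924897461], [nat_lit 8760370229]] [])
(.leaf [[nat_lit 13106472373, nat_lit 14180210101], [nat_lit 13089424693], [nat_lit 10924897461], [nat_lit 8760370229]] []))
(.node (nat_lit 1475)
(.leaf [[nat_lit 82899686837], [nat_lit 13089424693], [nat_lit 10924897461], [nat_lit 8760370229]] [])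
(.node (nat_lit 1476)
(.leaf [[nat_lit 82899686837], [nat_lit 13089424693], [nat_lit 10924897461], [nat_lit 8760370229]] [])
(.leaf [[nat_lit 82899686837], [nat_lit 13089424693], [nat_lit 10924897461]] []))))
(.node (nat_lit 1479)
(.node (nat_lit 1478)
(.leaf [[nat_lit 82899686837], [nat_lit 13089424693], [nat_lit 10924897461]] [])
(.leaf [[nat_lit 82899686837], [nat_lit 13089424693], [nat_lit 285785760949]] []))
(.node (nat_lit 1480)
(.leaf [[nat_lit 82899686837], [nat_lit 355596023093], [nat_lit 285785760949]] [])
(.node (nat_lit 1481)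
(.leaf [[nat_lit 425406285237], [nat_lit 355596023093], [nat_lit 285785760949]] [])
(.leaf [[nat_lit 425406285237], [nat_lit 355596023093], [nat_lit 285785760949]] [])))))
(.node (nat_lit 1487)
(.node (nat_lit 1484)
(.node (nat_lit 1483)
(.leaf [[nat_lit 425406285237], [nat_lit 355596023093]] [])
(.leaf [[nat_lit 425406285237], [nat_lit 355596023093]] []))
(.node (nat_lit 1485)
(.leaf [[nat_lit 425406285237], [nat_lit 355596023093]] [])
(.node (nat_lit 1486)
(.leaf [[nat_lit 767912883637], [nat_lit 698102621493]] [])
(.leaf [[nat_lit 767912883637], [nat_lit 698102621493]] []))))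
(.node (nat_lit 1490)
(.node (nat_lit 1488)
(.leaf [[nat_lit 767912883637], [nat_lit 698102621493]] [])
(.node (nat_lit 1489)
(.leaf [[nat_lit 767912883637]] [])
(.leaf [[nat_lit 767912883637]] [])))
(.node (nat_lit 1491)
(.leaf [[nat_lit 767912883637]] [])
(.node (nat_lit 1492)
(.leaf [[nat_lit 767912883637]] [])
(.leaf [[nat_lit 767912883637]] []))))))
(.node (nat_lit 1544)
(.node (nat_lit 1539)
(.node (nat_lit 1536)
(.node (nat_lit 1494)
(.leaf [[nat_lit 767912883637]] [])
(.leaf [[nat_lit 13106472373, nat_lit 13089957301], [nat_lit 13089424693], [nat_lit 10924897461], [nat_lit 8760370229]] []))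
(.node (nat_lit 1537)
(.leaf [[nat_lit 13106472373, nat_lit 14180210101], [nat_lit 13089424693], [nat_lit 10924897461], [nat_lit 8760370229]] [])
(.node (nat_lit 1538)
(.leaf [[nat_lit 13106472373, nat_lit 14180210101], [nat_lit 13089424693], [nat_lit 10924897461], [nat_lit 8760370229]] [])
(.leaf [[nat_lit 82899686837], [nat_lit 13089424693], [nat_lit 10924897461], [nat_lit 8760370229]] []))))
(.node (nat_lit 1541)
(.node (nat_lit 1540)
(.leaf [[nat_lit 82899686837], [nat_lit 13089424693], [nat_lit 10924897461]] [])
(.leaf [[nat_lit 82899686837], [nat_lit 13089424693], [nat_lit 10924897461]] []))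
(.node (nat_lit 1542)
(.leaf [[nat_lit 82899686837], [nat_lit 13089424693], [nat_lit 10924897461]] [])
(.node (nat_lit 1543)
(.leaf [[nat_lit 82899686837], [nat_lit 13089424693], [nat_lit 285785760949]] [])
(.leaf [[nat_lit 82899686837], [nat_lit 13089424693], [nat_lit 285785760949]] [])))))
(.node (nat_lit 1549)
(.node (nat_lit 1546)
(.node (nat_lit 1545)
(.leaf [[nat_lit 425406285237], [nat_lit 355596023093], [nat_lit 285785760949]] [])
(.leaf [[nat_lit 425406285237], [nat_lit 355596023093]] []))
(.node (nat_lit 1547)
(.leaf [[nat_lit 425406285237], [nat_lit 355596023093]] [])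
(.node (nat_lit 1548)
(.leaf [[nat_lit 425406285237], [nat_lit 355596023093]] [])
(.leaf [[nat_lit 425406285237], [nat_lit 355596023093]] []))))
(.node (nat_lit 1552)
(.node (nat_lit 1550)
(.leaf [[nat_lit 425406285237], [nat_lit 698102621493]] [])
(.node (nat_lit 1551)
(.leaf [[nat_lit 767912883637], [nat_lit 698102621493]] [])
(.leaf [[nat_lit 767912883637]] [])))
(.node (nat_lit 1553)
(.leaf [[nat_lit 767912883637]] [])
(.node (nat_lit 1554)
(.leaf [[nat_lit 767912883637]] [])
(.leaf [[nat_lit 767912883637]] [])))))))
(.node (nat_lit 1618)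
(.node (nat_lit 1607)
(.node (nat_lit 1602)
(.node (nat_lit 1557)
(.node (nat_lit 1556)
(.leaf [[nat_lit 767912883637]] [])
(.leaf [[nat_lit 767912883637]] []))
(.node (nat_lit 1600)
(.leaf [[nat_lit 14180210101, nat_lit 13089437109, nat_lit 13089957301], [nat_lit 13089424693], [nat_lit 10924897461], [nat_lit 10924897457]] [])
(.node (nat_lit 1601)
(.leaf [[nat_lit 13106472373, nat_lit 14180210101], [nat_lit 13089424693], [nat_lit 10924897461], [nat_lit 10924897457]] [])
(.leaf [[nat_lit 82899686837], [nat_lit 13089424693], [nat_lit 10924897461], [nat_lit 10924897457]] []))))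
(.node (nat_lit 1604)
(.node (nat_lit 1603)
(.leaf [[nat_lit 82899686837], [nat_lit 13089424693], [nat_lit 10924897461]] [])
(.leaf [[nat_lit 82899686837], [nat_lit 13089424693], [nat_lit 10924897461]] []))
(.node (nat_lit 1605)
(.leaf [[nat_lit 82899686837], [nat_lit 13089424693], [nat_lit 10924897461]] [])
(.node (nat_lit 1606)
(.leaf [[nat_lit 82899686837], [nat_lit 13089424693], [nat_lit 285785760949]] [])
(.leaf [[nat_lit 82899686837], [nat_lit 13089424693], [nat_lit 285785760949]] [])))))
(.node (nat_lit 1612)
(.node (nat_lit 1609)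
(.node (nat_lit 1608)
(.leaf [[nat_lit 82899686837], [nat_lit 13089424693], [nat_lit 285785760949]] [])
(.leaf [[nat_lit 425406285237], [nat_lit 355596023093]] []))
(.node (nat_lit 1610)
(.leaf [[nat_lit 425406285237], [nat_lit 355596023093]] [])
(.node (nat_lit 1611)
(.leaf [[nat_lit 425406285237], [nat_lit 355596023093]] [])
(.leaf [[nat_lit 425406285237], [nat_lit 355596023093]] []))))
(.node (nat_lit 1615)
(.node (nat_lit 1613)
(.leaf [[nat_lit 425406285237], [nat_lit 355596023093]] [])
(.node (nat_lit 1614)
(.leaf [[nat_lit 425406285237], [nat_lit 698102621493]] [])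
(.leaf [[nat_lit 767912883637]] [])))
(.node (nat_lit 1616)
(.leaf [[nat_lit 767912883637]] [])
(.node (nat_lit 1617)
(.leaf [[nat_lit 767912883637]] [])
(.leaf [[nat_lit 767912883637]] []))))))
(.node (nat_lit 1672)
(.node (nat_lit 1666)
(.node (nat_lit 1620)
(.node (nat_lit 1619)
(.leaf [[nat_lit 767912883637]] [])
(.leaf [[nat_lit 767912883637]] []))
(.node (nat_lit 1664)
(.leaf [[nat_lit 14180210101, nat_lit 13089437109, nat_lit 13089957301], [nat_lit 13089424693], [nat_lit 13089424689], [nat_lit 13089424685]] [])
(.node (nat_lit 1665)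
(.leaf [[nat_lit 82899686837], [nat_lit 13089424693], [nat_lit 13089424689], [nat_lit 13089424685]] [])
(.leaf [[nat_lit 82899686837], [nat_lit 13089424693], [nat_lit 13089424689]] []))))
(.node (nat_lit 1669)
(.node (nat_lit 1667)
(.leaf [[nat_lit 82899686837], [nat_lit 13089424693], [nat_lit 13089424689]] [])
(.node (nat_lit 1668)
(.leaf [[nat_lit 82899686837], [nat_lit 13089424693], [nat_lit 13089424689]] [])
(.leaf [[nat_lit 82899686837], [nat_lit 13089424693], [nat_lit 285785760949]] [])))
(.node (nat_lit 1670)
(.leaf [[nat_lit 82899686837], [nat_lit 13089424693], [nat_lit 285785760949]] [])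
(.node (nat_lit 1671)
(.leaf [[nat_lit 82899686837], [nat_lit 13089424693], [nat_lit 285785760949]] [])
(.leaf [[nat_lit 82899686837], [nat_lit 13089424693]] [])))))
(.node (nat_lit 1677)
(.node (nat_lit 1674)
(.node (nat_lit 1673)
(.leaf [[nat_lit 82899686837], [nat_lit 355596023093]] [])
(.leaf [[nat_lit 425406285237], [nat_lit 355596023093]] []))
(.node (nat_lit 1675)
(.leaf [[nat_lit 425406285237], [nat_lit 355596023093]] [])
(.node (nat_lit 1676)
(.leaf [[nat_lit 425406285237], [nat_lit 355596023093]] [])
(.leaf [[nat_lit 425406285237], [nat_lit 355596023093]] []))))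
(.node (nat_lit 1680)
(.node (nat_lit 1678)
(.leaf [[nat_lit 425406285237]] [])
(.node (nat_lit 1679)
(.leaf [[nat_lit 767912883637]] [])
(.leaf [[nat_lit 767912883637]] [])))
(.node (nat_lit 1681)
(.leaf [[nat_lit 767912883637]] [])
(.node (nat_lit 1682)
(.leaf [[nat_lit 767912883637]] [])
(.leaf [[nat_lit 767912883637]] []))))))))))

end Vale.Agent.P181.K
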