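import Vale.Agent.P181.S.Eng2

namespace Vale.Agent.P181.K

noncomputable def ct28 : Tc :=
(.node (nat_lit 1166)
(.node (nat_lit 837)
(.node (nat_lit 581)
(.node (nat_lit 389)
(.node (nat_lit 259)
(.node (nat_lit 193)
(.node (nat_lit 128)
(.node (nat_lit 64)
(.leaf [[nat_lit 136356682, nat_lit 153924550], [nat_lit 102261326], [nat_lit 102261322], [nat_lit 102261318], [nat_lit 82], [nat_lit 78], [nat_lit 74]] [])
(.leaf [[nat_lit 1227404230, nat_lit 1244177350, nat_lit 1210889158], [nat_lit 1210094406, nat_lit 1159238346, nat_lit 1160291142], [nat_lit 1176011462, nat_lit 1160291138, nat_lit 1159238342], [nat_lit 204522549], [nat_lit 170435509, nat_lit 1176011454, nat_lit 1159238334, nat_lit 153924533], [nat_lit 136348469, nat_lit 136356661]] [[], [], [], [nat_lit 1675448722341], [nat_lit 1260949774756, nat_lit 1260949775011], [nat_lit 1117033767074, nat_lit 1396207657248, nat_lit 1675448656161, nat_lit 1260949741985], [nat_lit 1396207624222, nat_lit 1675448623135, nat_lit 1675448623263]]))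
(.node (nat_lit 129)
(.leaf [[nat_lit 69929571146, nat_lit 69946876870], [nat_lit 69929571142, nat_lit 69896278854], [nat_lit 69929571138, nat_lit 69896278850], [nat_lit 204522549], [nat_lit 170435509, nat_lit 153404341, nat_lit 153924533], [nat_lit 204522541, nat_lit 136356661]] [[], [], [], [], [], [nat_lit 1675448656161], [nat_lit 1675448623134, nat_lit 1675448623135]])
(.node (nat_lit 192)
(.leaf [[nat_lit 2317919174], [nat_lit 2249753290, nat_lit 2267321158], [nat_lit 2249753286, nat_lit 2216723142], [nat_lit 204522549], [nat_lit 170435509, nat_lit 2249753278, nat_lit 153924533], [nat_lit 136348469, nat_lit 136356661, nat_lit 136352565]] [[], [], [], [], [], [nat_lit 1675448656160, nat_lit 1675448656161], [nat_lit 1675448623134, nat_lit 1675448623135]])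
(.leaf [[nat_lit 71020618694, nat_lit 70935167818], [nat_lit 71020618690, nat_lit 70986273606], [nat_lit 221570229, nat_lit 205055157], [nat_lit 204522549], [nat_lit 170435509, nat_lit 153404341, nat_lit 153924533], [nat_lit 204522541]] [[], [], [], [], [], [], [nat_lit 1675448623134]]))))
(.node (nat_lit 256)
(.node (nat_lit 194)
(.leaf [[nat_lit 139722785610], [nat_lit 139722785606], [nat_lit 139722785602], [nat_lit 204522549], [nat_lit 204522545], [nat_lit 204522541]] [[], [], [], [], [], [], [nat_lit 1675448623134]])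
(.leaf [[nat_lit 3374883782, nat_lit 3357573962], [nat_lit 3357573958, nat_lit 3340800838], [nat_lit 221570229, nat_lit 3357573954], [nat_lit 204522549], [nat_lit 204522545], [nat_lit 1210090293, nat_lit 1210094389]] [[], [], [], [], [], [nat_lit 1117033767073, nat_lit 1675448656160], [nat_lit 18988393668638]]))
(.node (nat_lit 257)
(.leaf [[nat_lit 72094098374, nat_lit 72077583302], [nat_lit 255653173], [nat_lit 221570229, nat_lit 205055157], [nat_lit 204522549], [nat_lit 1244177333, nat_lit 153404341, nat_lit 153924533], [nat_lit 170435505, nat_lit 69929571125]] [[], [], [], [], [], [nat_lit 1675448656160], [nat_lit 1675448623134]])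
(.node (nat_lit 258)
(.leaf [[nat_lit 140796797894, nat_lit 140813571014], [nat_lit 255653173], [nat_lit 221570229, nat_lit 205055157], [nat_lit 204522549], [nat_lit 204522545], [nat_lit 1244177329, nat_lit 69929571125]] [])
(.leaf [[nat_lit 209516012486, nat_lit 209516270534], [nat_lit 255653173], [nat_lit 221570229, nat_lit 205055157], [nat_lit 204522549], [nat_lit 204522545], [nat_lit 139722785589]] [])))))
(.node (nat_lit 324)
(.node (nat_lit 321)
(.node (nat_lit 320)
(.leaf [[nat_lit 4431315786], [nat_lit 4431315782], [nat_lit 4431315778], [nat_lit 204522549], [nat_lit 2317919157], [nat_lit 2317919153]] [[], [], [], [], [], [nat_lit 18988393701664], [nat_lit 18988393668638]])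
(.leaf [[nat_lit 73151062982, nat_lit 73167836102], [nat_lit 255653173], [nat_lit 221570229, nat_lit 205055157], [nat_lit 204522549], [nat_lit 2317919157], [nat_lit 2317919153]] []))
(.node (nat_lit 322)
(.leaf [[nat_lit 272700853, nat_lit 141836714826], [nat_lit 255653173], [nat_lit 221570229, nat_lit 205055157], [nat_lit 204522549], [nat_lit 1244177333, nat_lit 153404341, nat_lit 153924533], [nat_lit 139722785589]] [])
(.node (nat_lit 323)
(.leaf [[nat_lit 272700853, nat_lit 256185781], [nat_lit 255653173], [nat_lit 221570229, nat_lit 205055157], [nat_lit 204522549], [nat_lit 204522545], [nat_lit 139722785589]] [])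
(.leaf [[nat_lit 272700853, nat_lit 256185781], [nat_lit 255653173], [nat_lit 221570229, nat_lit 205055157], [nat_lit 204522549], [nat_lit 204522545], [nat_lit 139722785589]] []))))
(.node (nat_lit 386)
(.node (nat_lit 384)
(.leaf [[nat_lit 5505328070, nat_lit 5522101190], [nat_lit 255653173], [nat_lit 221570229, nat_lit 205055157], [nat_lit 204522549], [nat_lit 2317919157], [nat_lit 2317919153]] [])
(.node (nat_lit 385)
(.leaf [[nat_lit 272700853, nat_lit 256185781], [nat_lit 255653173], [nat_lit 221570229, nat_lit 205055157], [nat_lit 204522549], [nat_lit 2317919157], [nat_lit 2317919153]] [])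
(.leaf [[nat_lit 272700853, nat_lit 256185781], [nat_lit 255653173], [nat_lit 221570229, nat_lit 205055157], [nat_lit 204522549], [nat_lit 2317919157], [nat_lit 2317919153]] [])))
(.node (nat_lit 387)
(.leaf [[nat_lit 272700853, nat_lit 256185781], [nat_lit 255653173], [nat_lit 221570229, nat_lit 205055157], [nat_lit 204522549], [nat_lit 2317919157], [nat_lit 139722785589]] [])
(.node (nat_lit 388)
(.leaf [[nat_lit 272700853, nat_lit 256185781], [nat_lit 255653173], [nat_lit 221570229, nat_lit 205055157], [nat_lit 204522549], [nat_lit 204522545], [nat_lit 139722785589]] [])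
(.leaf [[nat_lit 272700853, nat_lit 256185781], [nat_lit 255653173], [nat_lit 70014784693], [nat_lit 204522549], [nat_lit 204522545], [nat_lit 139722785589]] []))))))
(.node (nat_lit 514)
(.node (nat_lit 452)
(.node (nat_lit 449)
(.node (nat_lit 448)
(.leaf [[nat_lit 6544712398], [nat_lit 6544712394], [nat_lit 6544712390], [nat_lit 204522549], [nat_lit 2317919157], [nat_lit 4431315765]] [])
(.leaf [[nat_lit 272700853, nat_lit 256185781], [nat_lit 255653173], [nat_lit 221570229, nat_lit 205055157], [nat_lit 204522549], [nat_lit 2317919157], [nat_lit 4431315765]] []))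
(.node (nat_lit 450)
(.leaf [[nat_lit 272700853, nat_lit 256185781], [nat_lit 255653173], [nat_lit 221570229, nat_lit 205055157], [nat_lit 204522549], [nat_lit 2317919157], [nat_lit 2317919153]] [])
(.node (nat_lit 451)
(.leaf [[nat_lit 272700853, nat_lit 256185781], [nat_lit 255653173], [nat_lit 221570229, nat_lit 205055157], [nat_lit 204522549], [nat_lit 2317919157], [nat_lit 139722785589]] [])
(.leaf [[nat_lit 272700853, nat_lit 256185781], [nat_lit 255653173], [nat_lit 70014784693], [nat_lit 204522549], [nat_lit 2317919157], [nat_lit 139722785589]] []))))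
(.node (nat_lit 454)
(.node (nat_lit 453)
(.leaf [[nat_lit 272700853, nat_lit 256185781], [nat_lit 255653173], [nat_lit 70014784693], [nat_lit 204522549], [nat_lit 1244177333, nat_lit 71020618677]] [])
(.leaf [[nat_lit 418861572938], [nat_lit 255653173], [nat_lit 70014784693], [nat_lit 204522549], [nat_lit 204522545]] []))
(.node (nat_lit 512)
(.leaf [[nat_lit 272700853, nat_lit 256185781], [nat_lit 255653173], [nat_lit 2369049781], [nat_lit 204522549], [nat_lit 2317919157], [nat_lit 4431315765]] [])
(.node (nat_lit 513)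
(.leaf [[nat_lit 272700853, nat_lit 256185781], [nat_lit 255653173], [nat_lit 2369049781], [nat_lit 204522549], [nat_lit 2317919157], [nat_lit 4431315765]] [])
(.leaf [[nat_lit 272700853, nat_lit 256185781], [nat_lit 255653173], [nat_lit 2369049781], [nat_lit 204522549], [nat_lit 2317919157], [nat_lit 4431315765]] [])))))
(.node (nat_lit 519)
(.node (nat_lit 516)
(.node (nat_lit 515)
(.leaf [[nat_lit 272700853, nat_lit 256185781], [nat_lit 255653173], [nat_lit 2369049781], [nat_lit 204522549], [nat_lit 2317919157], [nat_lit 139722785589]] [])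
(.leaf [[nat_lit 272700853, nat_lit 256185781], [nat_lit 255653173], [nat_lit 70014784693], [nat_lit 204522549], [nat_lit 2317919157]] []))
(.node (nat_lit 517)
(.leaf [[nat_lit 70065915317], [nat_lit 255653173], [nat_lit 70014784693], [nat_lit 204522549], [nat_lit 2317919157]] [])
(.node (nat_lit 518)
(.leaf [[nat_lit 70065915317], [nat_lit 255653173], [nat_lit 70014784693], [nat_lit 204522549], [nat_lit 1244177333, nat_lit 71020618677]] [])
(.leaf [[nat_lit 70065915317], [nat_lit 139825046837], [nat_lit 70014784693], [nat_lit 204522549], [nat_lit 139773916209]] []))))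
(.node (nat_lit 578)
(.node (nat_lit 576)
(.leaf [[nat_lit 2420180405], [nat_lit 255653173], [nat_lit 2369049781], [nat_lit 204522549], [nat_lit 2317919157], [nat_lit 4431315765]] [])
(.node (nat_lit 577)
(.leaf [[nat_lit 2420180405], [nat_lit 255653173], [nat_lit 2369049781], [nat_lit 204522549], [nat_lit 2317919157], [nat_lit 4431315765]] [])
(.leaf [[nat_lit 2420180405], [nat_lit 255653173], [nat_lit 2369049781], [nat_lit 204522549], [nat_lit 2317919157], [nat_lit 4431315765]] [])))
(.node (nat_lit 579)
(.leaf [[nat_lit 2420180405], [nat_lit 255653173], [nat_lit 2369049781], [nat_lit 204522549], [nat_lit 2317919157]] [])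
(.node (nat_lit 580)
(.leaf [[nat_lit 1329665461, nat_lit 1346438581, nat_lit 238630325], [nat_lit 255653173], [nat_lit 2369049781], [nat_lit 204522549], [nat_lit 2317919157]] [])
(.leaf [[nat_lit 70065915317], [nat_lit 255653173], [nat_lit 70014784693], [nat_lit 204522549], [nat_lit 2317919157]] [])))))))
(.node (nat_lit 711)
(.node (nat_lit 646)
(.node (nat_lit 641)
(.node (nat_lit 583)
(.node (nat_lit 582)
(.leaf [[nat_lit 70065915317], [nat_lit 139825046837], [nat_lit 70014784693], [nat_lit 204522549], [nat_lit 2317919157]] [])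
(.leaf [[nat_lit 70065915317], [nat_lit 139825046837], [nat_lit 70014784693], [nat_lit 139773916213], [nat_lit 1244177333]] []))
(.node (nat_lit 584)
(.leaf [[nat_lit 209635308981], [nat_lit 139825046837], [nat_lit 70014784693], [nat_lit 139773916213], [nat_lit 139773916209]] [])
(.node (nat_lit 640)
(.leaf [[nat_lit 2420180405], [nat_lit 2386097461, nat_lit 1312617781], [nat_lit 2369049781], [nat_lit 204522549], [nat_lit 2317919157], [nat_lit 4431315765]] [])
(.leaf [[nat_lit 2420180405], [nat_lit 2386097461, nat_lit 1312617781], [nat_lit 2369049781], [nat_lit 204522549], [nat_lit 2317919157], [nat_lit 4431315765]] []))))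
(.node (nat_lit 643)
(.node (nat_lit 642)
(.leaf [[nat_lit 2420180405], [nat_lit 2386097461, nat_lit 1312617781], [nat_lit 2369049781], [nat_lit 204522549], [nat_lit 2317919157]] [])
(.leaf [[nat_lit 2420180405], [nat_lit 2386097461, nat_lit 1312617781], [nat_lit 2369049781], [nat_lit 204522549], [nat_lit 2317919157]] []))
(.node (nat_lit 644)
(.leaf [[nat_lit 2420180405], [nat_lit 2386097461, nat_lit 1312617781], [nat_lit 2369049781], [nat_lit 204522549], [nat_lit 2317919157]] [])
(.node (nat_lit 645)
(.leaf [[nat_lit 71122879925, nat_lit 70031844789], [nat_lit 72179311925], [nat_lit 70014784693], [nat_lit 204522549], [nat_lit 2317919157]] [])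
(.leaf [[nat_lit 139842094517, nat_lit 71122879925], [nat_lit 139825046837], [nat_lit 70014784693], [nat_lit 139773916213], [nat_lit 2317919157]] [])))))
(.node (nat_lit 705)
(.node (nat_lit 648)
(.node (nat_lit 647)
(.leaf [[nat_lit 209635308981], [nat_lit 139825046837], [nat_lit 70014784693], [nat_lit 139773916213], [nat_lit 2317919157]] [])
(.leaf [[nat_lit 209635308981], [nat_lit 139825046837], [nat_lit 209584178357], [nat_lit 139773916213]] []))
(.node (nat_lit 649)
(.leaf [[nat_lit 209635308981], [nat_lit 279394440501], [nat_lit 209584178357], [nat_lit 139773916213]] [])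
(.node (nat_lit 704)
(.leaf [[nat_lit 4550624693, nat_lit 3477145013], [nat_lit 4533577013], [nat_lit 2369049781], [nat_lit 4482446389], [nat_lit 2317919157], [nat_lit 4431315765]] [])
(.leaf [[nat_lit 4550624693, nat_lit 3477145013], [nat_lit 4533577013], [nat_lit 2369049781], [nat_lit 4482446389], [nat_lit 2317919157]] []))))
(.node (nat_lit 708)
(.node (nat_lit 706)
(.leaf [[nat_lit 4550624693, nat_lit 3477145013], [nat_lit 4533577013], [nat_lit 2369049781], [nat_lit 4482446389], [nat_lit 2317919157]] [])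
(.node (nat_lit 707)
(.leaf [[nat_lit 4550624693, nat_lit 3477145013], [nat_lit 4533577013], [nat_lit 2369049781], [nat_lit 4482446389], [nat_lit 2317919157]] [])
(.leaf [[nat_lit 3477145013, nat_lit 2386109877], [nat_lit 4533577013], [nat_lit 2369049781], [nat_lit 72128181301], [nat_lit 2317919157]] [])))
(.node (nat_lit 709)
(.leaf [[nat_lit 72196359605, nat_lit 71122879925], [nat_lit 72179311925], [nat_lit 2369049781], [nat_lit 72128181301], [nat_lit 2317919157]] [])
(.node (nat_lit 710)
(.leaf [[nat_lit 141989574069], [nat_lit 139825046837], [nat_lit 70014784693], [nat_lit 139773916213], [nat_lit 2317919157]] [])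
(.leaf [[nat_lit 209635308981], [nat_lit 139825046837], [nat_lit 209584178357], [nat_lit 139773916213]] []))))))
(.node (nat_lit 774)
(.node (nat_lit 769)
(.node (nat_lit 713)
(.node (nat_lit 712)
(.leaf [[nat_lit 209635308981], [nat_lit 279394440501], [nat_lit 209584178357], [nat_lit 139773916213]] [])
(.leaf [[nat_lit 209635308981], [nat_lit 279394440501], [nat_lit 209584178357], [nat_lit 279343309877]] []))
(.node (nat_lit 714)
(.leaf [[nat_lit 349204702645], [nat_lit 279394440501], [nat_lit 209584178357], [nat_lit 279343309877]] [])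
(.node (nat_lit 768)
(.leaf [[nat_lit 4550624693, nat_lit 4534109621], [nat_lit 4533577013], [nat_lit 2369049781], [nat_lit 4482446389], [nat_lit 2317919157]] [])
(.leaf [[nat_lit 4550624693, nat_lit 3477145013], [nat_lit 4533577013], [nat_lit 2369049781], [nat_lit 4482446389], [nat_lit 2317919157]] []))))
(.node (nat_lit 771)
(.node (nat_lit 770)
(.leaf [[nat_lit 4550624693, nat_lit 3477145013], [nat_lit 4533577013], [nat_lit 2369049781], [nat_lit 4482446389], [nat_lit 2317919157]] [])
(.leaf [[nat_lit 4550624693, nat_lit 3477145013], [nat_lit 4533577013], [nat_lit 2369049781], [nat_lit 4482446389], [nat_lit 2317919157]] []))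
(.node (nat_lit 772)
(.leaf [[nat_lit 4550624693, nat_lit 3477145013], [nat_lit 4533577013], [nat_lit 2369049781], [nat_lit 4482446389], [nat_lit 2317919157]] [])
(.node (nat_lit 773)
(.leaf [[nat_lit 74343839157], [nat_lit 72179311925], [nat_lit 2369049781], [nat_lit 72128181301], [nat_lit 2317919157]] [])
(.leaf [[nat_lit 141989574069], [nat_lit 72179311925], [nat_lit 141938443445], [nat_lit 72128181301]] [])))))
(.node (nat_lit 779)
(.node (nat_lit 776)
(.node (nat_lit 775)
(.leaf [[nat_lit 141989574069], [nat_lit 139825046837], [nat_lit 209584178357], [nat_lit 139773916213]] [])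
(.leaf [[nat_lit 209635308981], [nat_lit 279394440501], [nat_lit 209584178357], [nat_lit 139773916213]] []))
(.node (nat_lit 777)
(.leaf [[nat_lit 349204702645], [nat_lit 279394440501], [nat_lit 209584178357], [nat_lit 279343309877]] [])
(.node (nat_lit 778)
(.leaf [[nat_lit 349204702645], [nat_lit 279394440501], [nat_lit 349153572021], [nat_lit 279343309877]] [])
(.leaf [[nat_lit 349204702645], [nat_lit 279394440501], [nat_lit 349153572021], [nat_lit 279343309877]] []))))
(.node (nat_lit 834)
(.node (nat_lit 832)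
(.leaf [[nat_lit 6698104245], [nat_lit 4533577013], [nat_lit 6646973621], [nat_lit 4482446389], [nat_lit 6595842997]] [])
(.node (nat_lit 833)
(.leaf [[nat_lit 6698104245], [nat_lit 4533577013], [nat_lit 6646973621], [nat_lit 4482446389], [nat_lit 6595842997]] [])
(.leaf [[nat_lit 6698104245], [nat_lit 4533577013], [nat_lit 6646973621], [nat_lit 4482446389], [nat_lit 2317919157]] [])))
(.node (nat_lit 835)
(.leaf [[nat_lit 6698104245], [nat_lit 4533577013], [nat_lit 6646973621], [nat_lit 4482446389], [nat_lit 2317919157]] [])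
(.node (nat_lit 836)
(.leaf [[nat_lit 6698104245], [nat_lit 4533577013], [nat_lit 74292708533], [nat_lit 4482446389], [nat_lit 2317919157]] [])
(.leaf [[nat_lit 74343839157], [nat_lit 4533577013], [nat_lit 74292708533], [nat_lit 4482446389]] []))))))))
(.node (nat_lit 1029)
(.node (nat_lit 909)
(.node (nat_lit 898)
(.node (nat_lit 842)
(.node (nat_lit 839)
(.node (nat_lit 838)
(.leaf [[nat_lit 74343839157], [nat_lit 72179311925], [nat_lit 141938443445], [nat_lit 72128181301]] [])
(.leaf [[nat_lit 141989574069], [nat_lit 211748705589], [nat_lit 141938443445], [nat_lit 72128181301]] []))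
(.node (nat_lit 840)
(.leaf [[nat_lit 281558967733], [nat_lit 279394440501], [nat_lit 209584178357], [nat_lit 279343309877]] [])
(.node (nat_lit 841)
(.leaf [[nat_lit 349204702645], [nat_lit 279394440501], [nat_lit 349153572021], [nat_lit 279343309877]] [])
(.leaf [[nat_lit 349204702645], [nat_lit 279394440501], [nat_lit 349153572021], [nat_lit 279343309877]] []))))
(.node (nat_lit 844)
(.node (nat_lit 843)
(.leaf [[nat_lit 349204702645], [nat_lit 418963834165], [nat_lit 349153572021]] [])
(.leaf [[nat_lit 488774096309], [nat_lit 418963834165], [nat_lit 349153572021]] []))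
(.node (nat_lit 896)
(.leaf [[nat_lit 6698104245], [nat_lit 4533577013], [nat_lit 6646973621], [nat_lit 4482446389], [nat_lit 6595842997]] [])
(.node (nat_lit 897)
(.leaf [[nat_lit 6698104245], [nat_lit 4533577013], [nat_lit 6646973621], [nat_lit 4482446389], [nat_lit 6595842997]] [])
(.leaf [[nat_lit 6698104245], [nat_lit 4533577013], [nat_lit 6646973621], [nat_lit 4482446389], [nat_lit 6595842997]] [])))))
(.node (nat_lit 903)
(.node (nat_lit 900)
(.node (nat_lit 899)
(.leaf [[nat_lit 6698104245], [nat_lit 4533577013], [nat_lit 6646973621], [nat_lit 4482446389], [nat_lit 6595842997]] [])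
(.leaf [[nat_lit 6698104245], [nat_lit 4533577013], [nat_lit 6646973621], [nat_lit 4482446389]] []))
(.node (nat_lit 901)
(.leaf [[nat_lit 6698104245], [nat_lit 4533577013], [nat_lit 74292708533], [nat_lit 4482446389]] [])
(.node (nat_lit 902)
(.leaf [[nat_lit 74343839157], [nat_lit 144102970677], [nat_lit 74292708533], [nat_lit 4482446389]] [])
(.leaf [[nat_lit 213913232821], [nat_lit 211748705589], [nat_lit 141938443445], [nat_lit 211697574965]] []))))
(.node (nat_lit 906)
(.node (nat_lit 904)
(.leaf [[nat_lit 281558967733], [nat_lit 211748705589], [nat_lit 281507837109], [nat_lit 211697574965]] [])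
(.node (nat_lit 905)
(.leaf [[nat_lit 349204702645], [nat_lit 279394440501], [nat_lit 349153572021], [nat_lit 279343309877]] [])
(.leaf [[nat_lit 349204702645], [nat_lit 418963834165], [nat_lit 349153572021]] [])))
(.node (nat_lit 907)
(.leaf [[nat_lit 488774096309], [nat_lit 418963834165], [nat_lit 349153572021]] [])
(.node (nat_lit 908)
(.leaf [[nat_lit 488774096309], [nat_lit 418963834165], [nat_lit 488722965685]] [])
(.leaf [[nat_lit 488774096309], [nat_lit 418963834165], [nat_lit 488722965685]] []))))))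
(.node (nat_lit 969)
(.node (nat_lit 964)
(.node (nat_lit 961)
(.node (nat_lit 960)
(.leaf [[nat_lit 6698104245], [nat_lit 8811500853], [nat_lit 6646973621], [nat_lit 8760370229], [nat_lit 6595842997]] [])
(.leaf [[nat_lit 6698104245], [nat_lit 8811500853], [nat_lit 6646973621], [nat_lit 8760370229], [nat_lit 6595842997]] []))
(.node (nat_lit 962)
(.leaf [[nat_lit 6698104245], [nat_lit 8811500853], [nat_lit 6646973621], [nat_lit 8760370229], [nat_lit 6595842997]] [])
(.node (nat_lit 963)
(.leaf [[nat_lit 6698104245], [nat_lit 8811500853], [nat_lit 6646973621], [nat_lit 8760370229]] [])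
(.leaf [[nat_lit 6698104245], [nat_lit 8811500853], [nat_lit 6646973621], [nat_lit 4482446389]] []))))
(.node (nat_lit 966)
(.node (nat_lit 965)
(.leaf [[nat_lit 6698104245], [nat_lit 76457235765], [nat_lit 6646973621], [nat_lit 76406105141]] [])
(.leaf [[nat_lit 146267497909], [nat_lit 144102970677], [nat_lit 74292708533], [nat_lit 144051840053]] []))
(.node (nat_lit 967)
(.leaf [[nat_lit 213913232821], [nat_lit 144102970677], [nat_lit 213862102197], [nat_lit 144051840053]] [])
(.node (nat_lit 968)
(.leaf [[nat_lit 281558967733], [nat_lit 211748705589], [nat_lit 281507837109], [nat_lit 211697574965]] [])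
(.leaf [[nat_lit 281558967733], [nat_lit 351318099253], [nat_lit 281507837109]] [])))))
(.node (nat_lit 974)
(.node (nat_lit 971)
(.node (nat_lit 970)
(.leaf [[nat_lit 349204702645], [nat_lit 418963834165], [nat_lit 349153572021]] [])
(.leaf [[nat_lit 488774096309], [nat_lit 418963834165], [nat_lit 349153572021]] []))
(.node (nat_lit 972)
(.leaf [[nat_lit 488774096309], [nat_lit 418963834165], [nat_lit 488722965685]] [])
(.node (nat_lit 973)
(.leaf [[nat_lit 488774096309], [nat_lit 558533227829], [nat_lit 488722965685]] [])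
(.leaf [[nat_lit 488774096309], [nat_lit 558533227829], [nat_lit 488722965685]] []))))
(.node (nat_lit 1026)
(.node (nat_lit 1024)
(.leaf [[nat_lit 8828548533, nat_lit 7755068853], [nat_lit 8811500853], [nat_lit 6646973621], [nat_lit 8760370229], [nat_lit 6595842997]] [])
(.node (nat_lit 1025)
(.leaf [[nat_lit 8828548533, nat_lit 7755068853], [nat_lit 8811500853], [nat_lit 6646973621], [nat_lit 8760370229], [nat_lit 6595842997]] [])
(.leaf [[nat_lit 8828548533, nat_lit 7755068853], [nat_lit 8811500853], [nat_lit 6646973621], [nat_lit 8760370229]] [])))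
(.node (nat_lit 1027)
(.leaf [[nat_lit 8828548533, nat_lit 7755068853], [nat_lit 8811500853], [nat_lit 6646973621], [nat_lit 8760370229]] [])
(.node (nat_lit 1028)
(.leaf [[nat_lit 8828548533, nat_lit 7755068853], [nat_lit 8811500853], [nat_lit 6646973621], [nat_lit 8760370229]] [])
(.leaf [[nat_lit 78621762997], [nat_lit 76457235765], [nat_lit 6646973621], [nat_lit 76406105141]] [])))))))
(.node (nat_lit 1098)
(.node (nat_lit 1039)
(.node (nat_lit 1034)
(.node (nat_lit 1031)
(.node (nat_lit 1030)
(.leaf [[nat_lit 146267497909], [nat_lit 76457235765], [nat_lit 146216367285], [nat_lit 76406105141]] [])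
(.leaf [[nat_lit 213913232821], [nat_lit 144102970677], [nat_lit 213862102197], [nat_lit 144051840053]] []))
(.node (nat_lit 1032)
(.leaf [[nat_lit 213913232821], [nat_lit 283672364341], [nat_lit 213862102197]] [])
(.node (nat_lit 1033)
(.leaf [[nat_lit 281558967733], [nat_lit 351318099253], [nat_lit 281507837109]] [])
(.leaf [[nat_lit 421128361397], [nat_lit 351318099253], [nat_lit 281507837109]] []))))
(.node (nat_lit 1036)
(.node (nat_lit 1035)
(.leaf [[nat_lit 488774096309], [nat_lit 418963834165], [nat_lit 488722965685]] [])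
(.leaf [[nat_lit 488774096309], [nat_lit 558533227829], [nat_lit 488722965685]] []))
(.node (nat_lit 1037)
(.leaf [[nat_lit 488774096309], [nat_lit 558533227829], [nat_lit 488722965685]] [])
(.node (nat_lit 1038)
(.leaf [[nat_lit 628343489973], [nat_lit 558533227829]] [])
(.leaf [[nat_lit 628343489973], [nat_lit 558533227829]] [])))))
(.node (nat_lit 1092)
(.node (nat_lit 1089)
(.node (nat_lit 1088)
(.leaf [[nat_lit 10976028085], [nat_lit 8811500853], [nat_lit 10924897461], [nat_lit 8760370229], [nat_lit 6595842997]] [])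
(.leaf [[nat_lit 10976028085], [nat_lit 8811500853], [nat_lit 10924897461], [nat_lit 8760370229]] []))
(.node (nat_lit 1090)
(.leaf [[nat_lit 10976028085], [nat_lit 8811500853], [nat_lit 10924897461], [nat_lit 8760370229]] [])
(.node (nat_lit 1091)
(.leaf [[nat_lit 10976028085], [nat_lit 8811500853], [nat_lit 10924897461], [nat_lit 8760370229]] [])
(.leaf [[nat_lit 10976028085], [nat_lit 8811500853], [nat_lit 78570632373], [nat_lit 8760370229]] []))))
(.node (nat_lit 1095)
(.node (nat_lit 1093)
(.leaf [[nat_lit 78621762997], [nat_lit 8811500853], [nat_lit 78570632373], [nat_lit 8760370229]] [])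
(.node (nat_lit 1094)
(.leaf [[nat_lit 146267497909], [nat_lit 76457235765], [nat_lit 146216367285], [nat_lit 76406105141]] [])
(.leaf [[nat_lit 146267497909], [nat_lit 216026629429], [nat_lit 146216367285]] [])))
(.node (nat_lit 1096)
(.leaf [[nat_lit 213913232821], [nat_lit 283672364341], [nat_lit 213862102197]] [])
(.node (nat_lit 1097)
(.leaf [[nat_lit 353482626485], [nat_lit 283672364341], [nat_lit 213862102197]] [])
(.leaf [[nat_lit 421128361397], [nat_lit 351318099253], [nat_lit 421077230773]] []))))))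
(.node (nat_lit 1155)
(.node (nat_lit 1103)
(.node (nat_lit 1100)
(.node (nat_lit 1099)
(.leaf [[nat_lit 421128361397], [nat_lit 490887492917], [nat_lit 421077230773]] [])
(.leaf [[nat_lit 488774096309], [nat_lit 558533227829], [nat_lit 488722965685]] []))
(.node (nat_lit 1101)
(.leaf [[nat_lit 628343489973], [nat_lit 558533227829]] [])
(.node (nat_lit 1102)
(.leaf [[nat_lit 628343489973], [nat_lit 558533227829]] [])
(.leaf [[nat_lit 628343489973], [nat_lit 698102621493]] []))))
(.node (nat_lit 1152)
(.node (nat_lit 1104)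
(.leaf [[nat_lit 628343489973], [nat_lit 698102621493]] [])
(.leaf [[nat_lit 10976028085], [nat_lit 8811500853], [nat_lit 10924897461], [nat_lit 8760370229]] []))
(.node (nat_lit 1153)
(.leaf [[nat_lit 10976028085], [nat_lit 8811500853], [nat_lit 10924897461], [nat_lit 8760370229]] [])
(.node (nat_lit 1154)
(.leaf [[nat_lit 10976028085], [nat_lit 8811500853], [nat_lit 10924897461], [nat_lit 8760370229]] [])
(.leaf [[nat_lit 10976028085], [nat_lit 8811500853], [nat_lit 10924897461], [nat_lit 8760370229]] [])))))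
(.node (nat_lit 1160)
(.node (nat_lit 1157)
(.node (nat_lit 1156)
(.leaf [[nat_lit 10976028085], [nat_lit 8811500853], [nat_lit 10924897461], [nat_lit 8760370229]] [])
(.leaf [[nat_lit 78621762997], [nat_lit 8811500853], [nat_lit 78570632373], [nat_lit 8760370229]] []))
(.node (nat_lit 1158)
(.leaf [[nat_lit 78621762997], [nat_lit 148380894517], [nat_lit 78570632373]] [])
(.node (nat_lit 1159)
(.leaf [[nat_lit 146267497909], [nat_lit 216026629429], [nat_lit 146216367285]] [])
(.leaf [[nat_lit 285836891573], [nat_lit 216026629429], [nat_lit 146216367285]] []))))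
(.node (nat_lit 1163)
(.node (nat_lit 1161)
(.leaf [[nat_lit 353482626485], [nat_lit 283672364341], [nat_lit 353431495861]] [])
(.node (nat_lit 1162)
(.leaf [[nat_lit 353482626485], [nat_lit 423241758005], [nat_lit 353431495861]] [])
(.leaf [[nat_lit 421128361397], [nat_lit 490887492917], [nat_lit 421077230773]] [])))
(.node (nat_lit 1164)
(.leaf [[nat_lit 560697755061], [nat_lit 490887492917]] [])
(.node (nat_lit 1165)
(.leaf [[nat_lit 628343489973], [nat_lit 558533227829]] [])
(.leaf [[nat_lit 628343489973], [nat_lit 558533227829]] [])))))))))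
(.node (nat_lit 1472)
(.node (nat_lit 1299)
(.node (nat_lit 1233)
(.node (nat_lit 1222)
(.node (nat_lit 1217)
(.node (nat_lit 1168)
(.node (nat_lit 1167)
(.leaf [[nat_lit 628343489973], [nat_lit 698102621493]] [])
(.leaf [[nat_lit 767912883637], [nat_lit 698102621493]] []))
(.node (nat_lit 1169)
(.leaf [[nat_lit 767912883637], [nat_lit 698102621493]] [])
(.node (nat_lit 1216)
(.leaf [[nat_lit 10976028085], [nat_lit 13089424693], [nat_lit 10924897461], [nat_lit 8760370229]] [])
(.leaf [[nat_lit 10976028085], [nat_lit 13089424693], [nat_lit 10924897461], [nat_lit 8760370229]] []))))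
(.node (nat_lit 1219)
(.node (nat_lit 1218)
(.leaf [[nat_lit 10976028085], [nat_lit 13089424693], [nat_lit 10924897461], [nat_lit 8760370229]] [])
(.leaf [[nat_lit 10976028085], [nat_lit 13089424693], [nat_lit 10924897461], [nat_lit 8760370229]] []))
(.node (nat_lit 1220)
(.leaf [[nat_lit 10976028085], [nat_lit 80735159605], [nat_lit 10924897461], [nat_lit 8760370229]] [])
(.node (nat_lit 1221)
(.leaf [[nat_lit 10976028085], [nat_lit 80735159605], [nat_lit 10924897461]] [])
(.leaf [[nat_lit 78621762997], [nat_lit 148380894517], [nat_lit 78570632373]] [])))))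
(.node (nat_lit 1227)
(.node (nat_lit 1224)
(.node (nat_lit 1223)
(.leaf [[nat_lit 218191156661], [nat_lit 148380894517], [nat_lit 78570632373]] [])
(.leaf [[nat_lit 285836891573], [nat_lit 216026629429], [nat_lit 285785760949]] []))
(.node (nat_lit 1225)
(.leaf [[nat_lit 285836891573], [nat_lit 355596023093], [nat_lit 285785760949]] [])
(.node (nat_lit 1226)
(.leaf [[nat_lit 353482626485], [nat_lit 423241758005], [nat_lit 353431495861]] [])
(.leaf [[nat_lit 493052020149], [nat_lit 423241758005]] []))))
(.node (nat_lit 1230)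
(.node (nat_lit 1228)
(.leaf [[nat_lit 560697755061], [nat_lit 490887492917]] [])
(.node (nat_lit 1229)
(.leaf [[nat_lit 560697755061], [nat_lit 490887492917]] [])
(.leaf [[nat_lit 628343489973], [nat_lit 698102621493]] [])))
(.node (nat_lit 1231)
(.leaf [[nat_lit 767912883637], [nat_lit 698102621493]] [])
(.node (nat_lit 1232)
(.leaf [[nat_lit 767912883637], [nat_lit 698102621493]] [])
(.leaf [[nat_lit 767912883637]] []))))))
(.node (nat_lit 1288)
(.node (nat_lit 1283)
(.node (nat_lit 1280)
(.node (nat_lit 1234)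
(.leaf [[nat_lit 767912883637]] [])
(.leaf [[nat_lit 10976028085], [nat_lit 13089424693], [nat_lit 10924897461], [nat_lit 8760370229]] []))
(.node (nat_lit 1281)
(.leaf [[nat_lit 10976028085], [nat_lit 13089424693], [nat_lit 10924897461], [nat_lit 8760370229]] [])
(.node (nat_lit 1282)
(.leaf [[nat_lit 10976028085], [nat_lit 13089424693], [nat_lit 10924897461], [nat_lit 8760370229]] [])
(.leaf [[nat_lit 10976028085], [nat_lit 13089424693], [nat_lit 10924897461], [nat_lit 8760370229]] []))))
(.node (nat_lit 1285)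
(.node (nat_lit 1284)
(.leaf [[nat_lit 10976028085], [nat_lit 13089424693], [nat_lit 10924897461]] [])
(.leaf [[nat_lit 10976028085], [nat_lit 80735159605], [nat_lit 10924897461]] []))
(.node (nat_lit 1286)
(.leaf [[nat_lit 150545421749], [nat_lit 80735159605], [nat_lit 10924897461]] [])
(.node (nat_lit 1287)
(.leaf [[nat_lit 218191156661], [nat_lit 148380894517], [nat_lit 78570632373]] [])
(.leaf [[nat_lit 218191156661], [nat_lit 148380894517], [nat_lit 285785760949]] [])))))
(.node (nat_lit 1293)
(.node (nat_lit 1290)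
(.node (nat_lit 1289)
(.leaf [[nat_lit 285836891573], [nat_lit 355596023093], [nat_lit 285785760949]] [])
(.leaf [[nat_lit 425406285237], [nat_lit 355596023093]] []))
(.node (nat_lit 1291)
(.leaf [[nat_lit 493052020149], [nat_lit 423241758005]] [])
(.node (nat_lit 1292)
(.leaf [[nat_lit 493052020149], [nat_lit 423241758005]] [])
(.leaf [[nat_lit 560697755061], [nat_lit 490887492917]] []))))
(.node (nat_lit 1296)
(.node (nat_lit 1294)
(.leaf [[nat_lit 560697755061], [nat_lit 698102621493]] [])
(.node (nat_lit 1295)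
(.leaf [[nat_lit 767912883637], [nat_lit 698102621493]] [])
(.leaf [[nat_lit 767912883637]] [])))
(.node (nat_lit 1297)
(.leaf [[nat_lit 767912883637]] [])
(.node (nat_lit 1298)
(.leaf [[nat_lit 767912883637]] [])
(.leaf [[nat_lit 767912883637]] [])))))))
(.node (nat_lit 1364)
(.node (nat_lit 1353)
(.node (nat_lit 1348)
(.node (nat_lit 1345)
(.node (nat_lit 1344)
(.leaf [[nat_lit 13106472373, nat_lit 14180210101], [nat_lit 13089424693], [nat_lit 10924897461], [nat_lit 8760370229]] [])
(.leaf [[nat_lit 13106472373, nat_lit 14180210101], [nat_lit 13089424693], [nat_lit 10924897461], [nat_lit 8760370229]] []))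
(.node (nat_lit 1346)
(.leaf [[nat_lit 13106472373, nat_lit 12032992693], [nat_lit 13089424693], [nat_lit 10924897461], [nat_lit 8760370229]] [])
(.node (nat_lit 1347)
(.leaf [[nat_lit 13106472373, nat_lit 14180210101], [nat_lit 13089424693], [nat_lit 10924897461]] [])
(.leaf [[nat_lit 82899686837], [nat_lit 13089424693], [nat_lit 10924897461]] []))))
(.node (nat_lit 1350)
(.node (nat_lit 1349)
(.leaf [[nat_lit 82899686837], [nat_lit 13089424693], [nat_lit 10924897461]] [])
(.leaf [[nat_lit 150545421749], [nat_lit 80735159605], [nat_lit 10924897461]] []))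
(.node (nat_lit 1351)
(.leaf [[nat_lit 150545421749], [nat_lit 80735159605], [nat_lit 10924897461]] [])
(.node (nat_lit 1352)
(.leaf [[nat_lit 218191156661], [nat_lit 355596023093], [nat_lit 285785760949]] [])
(.leaf [[nat_lit 218191156661], [nat_lit 355596023093]] [])))))
(.node (nat_lit 1358)
(.node (nat_lit 1355)
(.node (nat_lit 1354)
(.leaf [[nat_lit 425406285237], [nat_lit 355596023093]] [])
(.leaf [[nat_lit 425406285237], [nat_lit 355596023093]] []))
(.node (nat_lit 1356)
(.leaf [[nat_lit 493052020149], [nat_lit 423241758005]] [])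
(.node (nat_lit 1357)
(.leaf [[nat_lit 493052020149], [nat_lit 423241758005]] [])
(.leaf [[nat_lit 767912883637], [nat_lit 698102621493]] []))))
(.node (nat_lit 1361)
(.node (nat_lit 1359)
(.leaf [[nat_lit 767912883637]] [])
(.node (nat_lit 1360)
(.leaf [[nat_lit 767912883637]] [])
(.leaf [[nat_lit 767912883637]] [])))
(.node (nat_lit 1362)
(.leaf [[nat_lit 767912883637]] [])
(.node (nat_lit 1363)
(.leaf [[nat_lit 767912883637]] [])
(.leaf [[nat_lit 767912883637]] []))))))
(.node (nat_lit 1417)
(.node (nat_lit 1412)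
(.node (nat_lit 1409)
(.node (nat_lit 1408)
(.leaf [[nat_lit 13106472373, nat_lit 14180210101], [nat_lit 13089424693], [nat_lit 10924897461], [nat_lit 8760370229]] [])
(.leaf [[nat_lit 13106472373, nat_lit 12032992693], [nat_lit 13089424693], [nat_lit 10924897461], [nat_lit 8760370229]] []))
(.node (nat_lit 1410)
(.leaf [[nat_lit 13106472373, nat_lit 14180210101], [nat_lit 13089424693], [nat_lit 10924897461]] [])
(.node (nat_lit 1411)
(.leaf [[nat_lit 82899686837], [nat_lit 13089424693], [nat_lit 10924897461]] [])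
(.leaf [[nat_lit 82899686837], [nat_lit 13089424693], [nat_lit 10924897461]] []))))
(.node (nat_lit 1414)
(.node (nat_lit 1413)
(.leaf [[nat_lit 82899686837], [nat_lit 13089424693], [nat_lit 10924897461]] [])
(.leaf [[nat_lit 82899686837], [nat_lit 13089424693], [nat_lit 10924897461]] []))
(.node (nat_lit 1415)
(.leaf [[nat_lit 150545421749], [nat_lit 80735159605], [nat_lit 10924897461]] [])
(.node (nat_lit 1416)
(.leaf [[nat_lit 150545421749], [nat_lit 355596023093]] [])
(.leaf [[nat_lit 425406285237], [nat_lit 355596023093]] [])))))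
(.node (nat_lit 1422)
(.node (nat_lit 1419)
(.node (nat_lit 1418)
(.leaf [[nat_lit 425406285237], [nat_lit 355596023093]] [])
(.leaf [[nat_lit 425406285237], [nat_lit 355596023093]] []))
(.node (nat_lit 1420)
(.leaf [[nat_lit 425406285237], [nat_lit 355596023093]] [])
(.node (nat_lit 1421)
(.leaf [[nat_lit 493052020149], [nat_lit 423241758005]] [])
(.leaf [[nat_lit 767912883637]] []))))
(.node (nat_lit 1425)
(.node (nat_lit 1423)
(.leaf [[nat_lit 767912883637]] [])
(.node (nat_lit 1424)
(.leaf [[nat_lit 767912883637]] [])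
(.leaf [[nat_lit 767912883637]] [])))
(.node (nat_lit 1426)
(.leaf [[nat_lit 767912883637]] [])
(.node (nat_lit 1427)
(.leaf [[nat_lit 767912883637]] [])
(.leaf [[nat_lit 13106472373, nat_lit 13089957301], [nat_lit 13089424693], [nat_lit 10924897461], [nat_lit 8760370229]] []))))))))
(.node (nat_lit 1605)
(.node (nat_lit 1538)
(.node (nat_lit 1482)
(.node (nat_lit 1477)
(.node (nat_lit 1474)
(.node (nat_lit 1473)
(.leaf [[nat_lit 13106472373, nat_lit 14180210101], [nat_lit 13089424693], [nat_lit 10924897461]] [])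
(.leaf [[nat_lit 82899686837], [nat_lit 13089424693], [nat_lit 10924897461]] []))
(.node (nat_lit 1475)
(.leaf [[nat_lit 82899686837], [nat_lit 13089424693], [nat_lit 10924897461]] [])
(.node (nat_lit 1476)
(.leaf [[nat_lit 82899686837], [nat_lit 13089424693], [nat_lit 10924897461]] [])
(.leaf [[nat_lit 82899686837], [nat_lit 13089424693], [nat_lit 10924897461]] []))))
(.node (nat_lit 1479)
(.node (nat_lit 1478)
(.leaf [[nat_lit 82899686837], [nat_lit 13089424693], [nat_lit 10924897461]] [])
(.leaf [[nat_lit 82899686837], [nat_lit 13089424693]] []))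
(.node (nat_lit 1480)
(.leaf [[nat_lit 150545421749], [nat_lit 355596023093]] [])
(.node (nat_lit 1481)
(.leaf [[nat_lit 425406285237], [nat_lit 355596023093]] [])
(.leaf [[nat_lit 425406285237], [nat_lit 355596023093]] [])))))
(.node (nat_lit 1487)
(.node (nat_lit 1484)
(.node (nat_lit 1483)
(.leaf [[nat_lit 425406285237], [nat_lit 355596023093]] [])
(.leaf [[nat_lit 425406285237], [nat_lit 355596023093]] []))
(.node (nat_lit 1485)
(.leaf [[nat_lit 425406285237]] [])
(.node (nat_lit 1486)
(.leaf [[nat_lit 767912883637]] [])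
(.leaf [[nat_lit 767912883637]] []))))
(.node (nat_lit 1490)
(.node (nat_lit 1488)
(.leaf [[nat_lit 767912883637]] [])
(.node (nat_lit 1489)
(.leaf [[nat_lit 767912883637]] [])
(.leaf [[nat_lit 767912883637]] [])))
(.node (nat_lit 1536)
(.leaf [[nat_lit 13106472373, nat_lit 14180210101], [nat_lit 13089424693], [nat_lit 10924897461]] [])
(.node (nat_lit 1537)
(.leaf [[nat_lit 13106472373, nat_lit 14180210101], [nat_lit 13089424693], [nat_lit 10924897461]] [])
(.leaf [[nat_lit 82899686837], [nat_lit 13089424693], [nat_lit 10924897461]] []))))))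
(.node (nat_lit 1548)
(.node (nat_lit 1543)
(.node (nat_lit 1540)
(.node (nat_lit 1539)
(.leaf [[nat_lit 82899686837], [nat_lit 13089424693], [nat_lit 10924897461]] [])
(.leaf [[nat_lit 82899686837], [nat_lit 13089424693], [nat_lit 10924897461]] []))
(.node (nat_lit 1541)
(.leaf [[nat_lit 82899686837], [nat_lit 13089424693], [nat_lit 10924897461]] [])
(.node (nat_lit 1542)
(.leaf [[nat_lit 82899686837], [nat_lit 13089424693]] [])
(.leaf [[nat_lit 82899686837], [nat_lit 13089424693]] []))))
(.node (nat_lit 1545)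
(.node (nat_lit 1544)
(.leaf [[nat_lit 82899686837], [nat_lit 13089424693]] [])
(.leaf [[nat_lit 425406285237], [nat_lit 355596023093]] []))
(.node (nat_lit 1546)
(.leaf [[nat_lit 425406285237], [nat_lit 355596023093]] [])
(.node (nat_lit 1547)
(.leaf [[nat_lit 425406285237], [nat_lit 355596023093]] [])
(.leaf [[nat_lit 425406285237]] [])))))
(.node (nat_lit 1553)
(.node (nat_lit 1550)
(.node (nat_lit 1549)
(.leaf [[nat_lit 425406285237]] [])
(.leaf [[nat_lit 425406285237]] []))
(.node (nat_lit 1551)
(.leaf [[nat_lit 767912883637]] [])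
(.node (nat_lit 1552)
(.leaf [[nat_lit 767912883637]] [])
(.leaf [[nat_lit 767912883637]] []))))
(.node (nat_lit 1602)
(.node (nat_lit 1600)
(.leaf [[nat_lit 13106472373, nat_lit 14180210101], [nat_lit 13089424693], [nat_lit 10924897461]] [])
(.node (nat_lit 1601)
(.leaf [[nat_lit 13106472373, nat_lit 13089957301], [nat_lit 13089424693], [nat_lit 10924897461]] [])
(.leaf [[nat_lit 82899686837], [nat_lit 13089424693], [nat_lit 10924897461]] [])))
(.node (nat_lit 1603)
(.leaf [[nat_lit 82899686837], [nat_lit 13089424693], [nat_lit 10924897461]] [])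
(.node (nat_lit 1604)
(.leaf [[nat_lit 82899686837], [nat_lit 13089424693], [nat_lit 10924897461]] [])
(.leaf [[nat_lit 82899686837], [nat_lit 13089424693]] [])))))))
(.node (nat_lit 1673)
(.node (nat_lit 1615)
(.node (nat_lit 1610)
(.node (nat_lit 1607)
(.node (nat_lit 1606)
(.leaf [[nat_lit 82899686837], [nat_lit 13089424693]] [])
(.leaf [[nat_lit 82899686837], [nat_lit 13089424693]] []))
(.node (nat_lit 1608)
(.leaf [[nat_lit 82899686837], [nat_lit 13089424693]] [])
(.node (nat_lit 1609)
(.leaf [[nat_lit 82899686837], [nat_lit 355596023093]] [])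
(.leaf [[nat_lit 425406285237], [nat_lit 355596023093]] []))))
(.node (nat_lit 1612)
(.node (nat_lit 1611)
(.leaf [[nat_lit 425406285237]] [])
(.leaf [[nat_lit 425406285237]] []))
(.node (nat_lit 1613)
(.leaf [[nat_lit 425406285237]] [])
(.node (nat_lit 1614)
(.leaf [[nat_lit 425406285237]] [])
(.leaf [[nat_lit 767912883637]] [])))))
(.node (nat_lit 1667)
(.node (nat_lit 1664)
(.node (nat_lit 1616)
(.leaf [[nat_lit 767912883637]] [])
(.leaf [[nat_lit 13106472373, nat_lit 13089957301], [nat_lit 13089424693], [nat_lit 10924897461]] []))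
(.node (nat_lit 1665)
(.leaf [[nat_lit 82899686837], [nat_lit 13089424693], [nat_lit 10924897461]] [])
(.node (nat_lit 1666)
(.leaf [[nat_lit 82899686837], [nat_lit 13089424693], [nat_lit 10924897461]] [])
(.leaf [[nat_lit 82899686837], [nat_lit 13089424693], [nat_lit 10924897461]] []))))
(.node (nat_lit 1670)
(.node (nat_lit 1668)
(.leaf [[nat_lit 82899686837], [nat_lit 13089424693]] [])
(.node (nat_lit 1669)
(.leaf [[nat_lit 82899686837], [nat_lit 13089424693]] [])
(.leaf [[nat_lit 82899686837], [nat_lit 13089424693]] [])))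
(.node (nat_lit 1671)
(.leaf [[nat_lit 82899686837], [nat_lit 13089424693]] [])
(.node (nat_lit 1672)
(.leaf [[nat_lit 82899686837], [nat_lit 13089424693]] [])
(.leaf [[nat_lit 82899686837], [nat_lit 355596023093]] []))))))
(.node (nat_lit 1731)
(.node (nat_lit 1678)
(.node (nat_lit 1675)
(.node (nat_lit 1674)
(.leaf [[nat_lit 425406285237]] [])
(.leaf [[nat_lit 425406285237]] []))
(.node (nat_lit 1676)
(.leaf [[nat_lit 425406285237]] [])
(.node (nat_lit 1677)
(.leaf [[nat_lit 425406285237]] [])
(.leaf [[nat_lit 425406285237]] []))))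
(.node (nat_lit 1728)
(.node (nat_lit 1679)
(.leaf [[nat_lit 767912883637]] [])
(.leaf [[nat_lit 14180210101, nat_lit 13089437109, nat_lit 13089957301], [nat_lit 13089424693], [nat_lit 13089424689]] []))
(.node (nat_lit 1729)
(.leaf [[nat_lit 82899686837], [nat_lit 13089424693], [nat_lit 13089424689]] [])
(.node (nat_lit 1730)
(.leaf [[nat_lit 82899686837], [nat_lit 13089424693], [nat_lit 13089424689]] [])
(.leaf [[nat_lit 82899686837], [nat_lit 13089424693]] [])))))
(.node (nat_lit 1736)
(.node (nat_lit 1733)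
(.node (nat_lit 1732)
(.leaf [[nat_lit 82899686837], [nat_lit 13089424693]] [])
(.leaf [[nat_lit 82899686837], [nat_lit 13089424693]] []))
(.node (nat_lit 1734)
(.leaf [[nat_lit 82899686837], [nat_lit 13089424693]] [])
(.node (nat_lit 1735)
(.leaf [[nat_lit 82899686837], [nat_lit 13089424693]] [])
(.leaf [[nat_lit 82899686837], [nat_lit 13089424693]] []))))
(.node (nat_lit 1739)
(.node (nat_lit 1737)
(.leaf [[nat_lit 82899686837]] [])
(.node (nat_lit 1738)
(.leaf [[nat_lit 425406285237]] [])
(.leaf [[nat_lit 425406285237]] [])))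
(.node (nat_lit 1740)
(.leaf [[nat_lit 425406285237]] [])
(.node (nat_lit 1741)
(.leaf [[nat_lit 425406285237]] [])
(.leaf [[nat_lit 425406285237]] []))))))))))

noncomputable def ct29 : Tc :=
(.node (nat_lit 1156)
(.node (nat_lit 832)
(.node (nat_lit 578)
(.node (nat_lit 387)
(.node (nat_lit 258)
(.node (nat_lit 192)
(.node (nat_lit 128)
(.node (nat_lit 64)
(.leaf [[nat_lit 136356682, nat_lit 153924550], [nat_lit 102261326], [nat_lit 102261322], [nat_lit 102261318], [nat_lit 82], [nat_lit 78], [nat_lit 74]] [])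
(.leaf [[nat_lit 1227404230, nat_lit 1244177350], [nat_lit 1210094406, nat_lit 1160291142, nat_lit 1159238346], [nat_lit 1176011462, nat_lit 1160291138, nat_lit 1159238342], [nat_lit 204522549], [nat_lit 204522545], [nat_lit 170435505]] [[], [], [], [], [nat_lit 1675448688804, nat_lit 1260949774755], [nat_lit 1117033766945, nat_lit 1675448656032, nat_lit 1675448656033]]))
(.node (nat_lit 129)
(.leaf [[nat_lit 69929571146, nat_lit 69896278858], [nat_lit 69929571142, nat_lit 69896278854], [nat_lit 69929571138, nat_lit 69896278850], [nat_lit 204522549], [nat_lit 204522545], [nat_lit 170435505]] [[], [], [], [], [], [nat_lit 1117033766945, nat_lit 1675448656032]])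
(.leaf [[nat_lit 2317919174], [nat_lit 2249753290, nat_lit 2216723146], [nat_lit 2249753286, nat_lit 2216723142], [nat_lit 204522549], [nat_lit 204522545], [nat_lit 170435505]] [[], [], [], [], [nat_lit 1675448688931], [nat_lit 1675448655904, nat_lit 1117033766945, nat_lit 1675448656032]])))
(.node (nat_lit 194)
(.node (nat_lit 193)
(.leaf [[nat_lit 71020618694, nat_lit 70952203082], [nat_lit 71020618690, nat_lit 70986273606], [nat_lit 221570229, nat_lit 205055157], [nat_lit 204522549], [nat_lit 204522545], [nat_lit 204522541]] [[], [], [], [], [], [nat_lit 1675448656032]])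
(.leaf [[nat_lit 139722785610], [nat_lit 139722785606], [nat_lit 139722785602], [nat_lit 204522549], [nat_lit 204522545], [nat_lit 204522541]] []))
(.node (nat_lit 256)
(.leaf [[nat_lit 3374883782, nat_lit 3306468170], [nat_lit 3357573958, nat_lit 3340800838, nat_lit 3324285766], [nat_lit 221570229, nat_lit 205055157], [nat_lit 204522549], [nat_lit 204522545], [nat_lit 1244177329]] [[], [], [], [], [nat_lit 1260949774754], [nat_lit 1675448655904, nat_lit 1675448656032]])
(.node (nat_lit 257)
(.leaf [[nat_lit 72094098374, nat_lit 72077583302], [nat_lit 255653173], [nat_lit 221570229, nat_lit 205055157], [nat_lit 204522549], [nat_lit 204522545], [nat_lit 1244177329]] [[], [], [], [], [], [nat_lit 1675448655904]])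
(.leaf [[nat_lit 140813571014, nat_lit 140762714954], [nat_lit 255653173], [nat_lit 221570229, nat_lit 205055157], [nat_lit 204522549], [nat_lit 204522545], [nat_lit 204522541]] [])))))
(.node (nat_lit 323)
(.node (nat_lit 320)
(.node (nat_lit 259)
(.leaf [[nat_lit 272700853, nat_lit 256185781], [nat_lit 255653173], [nat_lit 221570229, nat_lit 205055157], [nat_lit 204522549], [nat_lit 204522545], [nat_lit 139722785589]] [])
(.leaf [[nat_lit 4431315786], [nat_lit 4431315782], [nat_lit 4431315778], [nat_lit 204522549], [nat_lit 2317919157], [nat_lit 2317919153]] [[], [], [], [], [], [nat_lit 18988393701408]]))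
(.node (nat_lit 321)
(.leaf [[nat_lit 73167836102, nat_lit 73116980042], [nat_lit 255653173], [nat_lit 221570229, nat_lit 205055157], [nat_lit 204522549], [nat_lit 2317919157], [nat_lit 2317919153]] [])
(.node (nat_lit 322)
(.leaf [[nat_lit 272700853, nat_lit 141836714826], [nat_lit 255653173], [nat_lit 221570229, nat_lit 205055157], [nat_lit 204522549], [nat_lit 2317919157], [nat_lit 139722785589]] [])
(.leaf [[nat_lit 272700853, nat_lit 256185781], [nat_lit 255653173], [nat_lit 221570229, nat_lit 221566133], [nat_lit 204522549], [nat_lit 204522545]] []))))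
(.node (nat_lit 384)
(.node (nat_lit 324)
(.leaf [[nat_lit 272700853, nat_lit 256185781], [nat_lit 255653173], [nat_lit 221570229, nat_lit 205055157], [nat_lit 204522549], [nat_lit 204522545]] [])
(.leaf [[nat_lit 5522101190, nat_lit 5471245130], [nat_lit 255653173], [nat_lit 221570229, nat_lit 205055157], [nat_lit 204522549], [nat_lit 2317919157], [nat_lit 2317919153]] []))
(.node (nat_lit 385)
(.leaf [[nat_lit 272700853, nat_lit 256185781], [nat_lit 255653173], [nat_lit 221570229, nat_lit 205055157], [nat_lit 204522549], [nat_lit 2317919157], [nat_lit 2317919153]] [])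
(.node (nat_lit 386)
(.leaf [[nat_lit 272700853, nat_lit 256185781], [nat_lit 255653173], [nat_lit 221570229, nat_lit 221566133], [nat_lit 204522549], [nat_lit 2317919157]] [])
(.leaf [[nat_lit 272700853, nat_lit 256185781], [nat_lit 255653173], [nat_lit 221570229, nat_lit 205055157], [nat_lit 204522549], [nat_lit 2317919157]] []))))))
(.node (nat_lit 512)
(.node (nat_lit 450)
(.node (nat_lit 389)
(.node (nat_lit 388)
(.leaf [[nat_lit 272700853, nat_lit 256185781], [nat_lit 255653173], [nat_lit 70014784693], [nat_lit 204522549], [nat_lit 204522545]] [])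
(.leaf [[nat_lit 272700853, nat_lit 256185781], [nat_lit 255653173], [nat_lit 70014784693], [nat_lit 204522549], [nat_lit 204522545]] []))
(.node (nat_lit 448)
(.leaf [[nat_lit 6595843014], [nat_lit 6544712394], [nat_lit 6544712390], [nat_lit 204522549], [nat_lit 2317919157], [nat_lit 4431315765]] [])
(.node (nat_lit 449)
(.leaf [[nat_lit 272700853, nat_lit 256185781], [nat_lit 255653173], [nat_lit 221570229, nat_lit 1295307957], [nat_lit 204522549], [nat_lit 2317919157]] [])
(.leaf [[nat_lit 272700853, nat_lit 256185781], [nat_lit 255653173], [nat_lit 221570229, nat_lit 1295307957], [nat_lit 204522549], [nat_lit 2317919157]] []))))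
(.node (nat_lit 452)
(.node (nat_lit 451)
(.leaf [[nat_lit 272700853, nat_lit 256185781], [nat_lit 255653173], [nat_lit 70014784693], [nat_lit 204522549], [nat_lit 2317919157]] [])
(.leaf [[nat_lit 272700853, nat_lit 256185781], [nat_lit 255653173], [nat_lit 70014784693], [nat_lit 204522549], [nat_lit 2317919157]] []))
(.node (nat_lit 453)
(.leaf [[nat_lit 272700853, nat_lit 256185781], [nat_lit 255653173], [nat_lit 70014784693], [nat_lit 204522549], [nat_lit 1244177333]] [])
(.node (nat_lit 454)
(.leaf [[nat_lit 418861572938], [nat_lit 255653173], [nat_lit 70014784693], [nat_lit 204522549], [nat_lit 204522545]] [])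
(.leaf [[nat_lit 272700853, nat_lit 7636030406], [nat_lit 255653173], [nat_lit 2369049781], [nat_lit 204522549], [nat_lit 2317919157]] [])))))
(.node (nat_lit 517)
(.node (nat_lit 514)
(.node (nat_lit 513)
(.leaf [[nat_lit 272700853, nat_lit 256185781], [nat_lit 255653173], [nat_lit 2369049781], [nat_lit 204522549], [nat_lit 2317919157]] [])
(.leaf [[nat_lit 272700853, nat_lit 256185781], [nat_lit 255653173], [nat_lit 2369049781], [nat_lit 204522549], [nat_lit 2317919157]] []))
(.node (nat_lit 515)
(.leaf [[nat_lit 272700853, nat_lit 256185781], [nat_lit 255653173], [nat_lit 2369049781], [nat_lit 204522549], [nat_lit 2317919157]] [])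
(.node (nat_lit 516)
(.leaf [[nat_lit 272700853, nat_lit 256185781], [nat_lit 255653173], [nat_lit 70014784693], [nat_lit 204522549], [nat_lit 2317919157]] [])
(.leaf [[nat_lit 70065915317], [nat_lit 255653173], [nat_lit 70014784693], [nat_lit 204522549], [nat_lit 2317919157]] []))))
(.node (nat_lit 519)
(.node (nat_lit 518)
(.leaf [[nat_lit 70065915317], [nat_lit 255653173], [nat_lit 70014784693], [nat_lit 204522549]] [])
(.leaf [[nat_lit 70065915317], [nat_lit 139825046837], [nat_lit 70014784693], [nat_lit 204522549]] []))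
(.node (nat_lit 576)
(.leaf [[nat_lit 2420180405], [nat_lit 255653173], [nat_lit 2369049781], [nat_lit 204522549], [nat_lit 2317919157]] [])
(.node (nat_lit 577)
(.leaf [[nat_lit 2420180405], [nat_lit 255653173], [nat_lit 2369049781], [nat_lit 204522549], [nat_lit 2317919157]] [])
(.leaf [[nat_lit 2420180405], [nat_lit 255653173], [nat_lit 2369049781], [nat_lit 204522549], [nat_lit 2317919157]] [])))))))
(.node (nat_lit 707)
(.node (nat_lit 643)
(.node (nat_lit 583)
(.node (nat_lit 580)
(.node (nat_lit 579)
(.leaf [[nat_lit 2420180405], [nat_lit 255653173], [nat_lit 2369049781], [nat_lit 204522549], [nat_lit 2317919157]] [])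
(.leaf [[nat_lit 2420180405], [nat_lit 255653173], [nat_lit 70014784693], [nat_lit 204522549], [nat_lit 2317919157]] []))
(.node (nat_lit 581)
(.leaf [[nat_lit 70065915317], [nat_lit 255653173], [nat_lit 70014784693], [nat_lit 204522549]] [])
(.node (nat_lit 582)
(.leaf [[nat_lit 70065915317], [nat_lit 139825046837], [nat_lit 70014784693], [nat_lit 204522549]] [])
(.leaf [[nat_lit 70065915317], [nat_lit 139825046837], [nat_lit 70014784693], [nat_lit 139773916213]] []))))
(.node (nat_lit 640)
(.node (nat_lit 584)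
(.leaf [[nat_lit 209635308981], [nat_lit 139825046837], [nat_lit 70014784693], [nat_lit 139773916213]] [])
(.leaf [[nat_lit 2420180405], [nat_lit 255653173], [nat_lit 2369049781], [nat_lit 204522549], [nat_lit 2317919157]] []))
(.node (nat_lit 641)
(.leaf [[nat_lit 2420180405], [nat_lit 255653173], [nat_lit 2369049781], [nat_lit 204522549], [nat_lit 2317919157]] [])
(.node (nat_lit 642)
(.leaf [[nat_lit 2420180405], [nat_lit 255653173], [nat_lit 2369049781], [nat_lit 204522549], [nat_lit 2317919157]] [])
(.leaf [[nat_lit 2420180405], [nat_lit 255653173], [nat_lit 2369049781], [nat_lit 204522549], [nat_lit 2317919157]] [])))))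
(.node (nat_lit 648)
(.node (nat_lit 645)
(.node (nat_lit 644)
(.leaf [[nat_lit 2420180405], [nat_lit 255653173], [nat_lit 2369049781], [nat_lit 204522549]] [])
(.leaf [[nat_lit 2420180405], [nat_lit 255653173], [nat_lit 70014784693], [nat_lit 204522549]] []))
(.node (nat_lit 646)
(.leaf [[nat_lit 70065915317], [nat_lit 139825046837], [nat_lit 70014784693], [nat_lit 204522549]] [])
(.node (nat_lit 647)
(.leaf [[nat_lit 209635308981], [nat_lit 139825046837], [nat_lit 70014784693], [nat_lit 139773916213]] [])
(.leaf [[nat_lit 209635308981], [nat_lit 139825046837], [nat_lit 209584178357], [nat_lit 139773916213]] []))))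
(.node (nat_lit 704)
(.node (nat_lit 649)
(.leaf [[nat_lit 209635308981], [nat_lit 139825046837], [nat_lit 209584178357], [nat_lit 139773916213]] [])
(.leaf [[nat_lit 2420180405], [nat_lit 4533577013], [nat_lit 2369049781], [nat_lit 4482446389], [nat_lit 2317919157]] []))
(.node (nat_lit 705)
(.leaf [[nat_lit 2420180405], [nat_lit 4533577013], [nat_lit 2369049781], [nat_lit 4482446389], [nat_lit 2317919157]] [])
(.node (nat_lit 706)
(.leaf [[nat_lit 2420180405], [nat_lit 4533577013], [nat_lit 2369049781], [nat_lit 4482446389], [nat_lit 2317919157]] [])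
(.leaf [[nat_lit 2420180405], [nat_lit 4533577013], [nat_lit 2369049781], [nat_lit 4482446389]] []))))))
(.node (nat_lit 770)
(.node (nat_lit 712)
(.node (nat_lit 709)
(.node (nat_lit 708)
(.leaf [[nat_lit 2420180405], [nat_lit 4533577013], [nat_lit 2369049781], [nat_lit 204522549]] [])
(.leaf [[nat_lit 2420180405], [nat_lit 72179311925], [nat_lit 2369049781], [nat_lit 72128181301]] []))
(.node (nat_lit 710)
(.leaf [[nat_lit 141989574069], [nat_lit 139825046837], [nat_lit 70014784693], [nat_lit 139773916213]] [])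
(.node (nat_lit 711)
(.leaf [[nat_lit 209635308981], [nat_lit 139825046837], [nat_lit 209584178357], [nat_lit 139773916213]] [])
(.leaf [[nat_lit 209635308981], [nat_lit 139825046837], [nat_lit 209584178357], [nat_lit 139773916213]] []))))
(.node (nat_lit 714)
(.node (nat_lit 713)
(.leaf [[nat_lit 209635308981], [nat_lit 279394440501], [nat_lit 209584178357]] [])
(.leaf [[nat_lit 349204702645], [nat_lit 279394440501], [nat_lit 209584178357]] []))
(.node (nat_lit 768)
(.leaf [[nat_lit 4550624693, nat_lit 3477145013], [nat_lit 4533577013], [nat_lit 2369049781], [nat_lit 4482446389], [nat_lit 2317919157]] [])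
(.node (nat_lit 769)
(.leaf [[nat_lit 4550624693, nat_lit 3477145013], [nat_lit 4533577013], [nat_lit 2369049781], [nat_lit 4482446389], [nat_lit 2317919157]] [])
(.leaf [[nat_lit 4550624693, nat_lit 3477145013], [nat_lit 4533577013], [nat_lit 2369049781], [nat_lit 4482446389]] [])))))
(.node (nat_lit 775)
(.node (nat_lit 772)
(.node (nat_lit 771)
(.leaf [[nat_lit 4550624693, nat_lit 3477145013], [nat_lit 4533577013], [nat_lit 2369049781], [nat_lit 4482446389]] [])
(.leaf [[nat_lit 4550624693, nat_lit 3477145013], [nat_lit 4533577013], [nat_lit 2369049781], [nat_lit 4482446389]] []))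
(.node (nat_lit 773)
(.leaf [[nat_lit 74343839157], [nat_lit 72179311925], [nat_lit 2369049781], [nat_lit 72128181301]] [])
(.node (nat_lit 774)
(.leaf [[nat_lit 141989574069], [nat_lit 72179311925], [nat_lit 141938443445], [nat_lit 72128181301]] [])
(.leaf [[nat_lit 209635308981], [nat_lit 139825046837], [nat_lit 209584178357], [nat_lit 139773916213]] []))))
(.node (nat_lit 777)
(.node (nat_lit 776)
(.leaf [[nat_lit 209635308981], [nat_lit 279394440501], [nat_lit 209584178357]] [])
(.leaf [[nat_lit 349204702645], [nat_lit 279394440501], [nat_lit 209584178357]] []))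
(.node (nat_lit 778)
(.leaf [[nat_lit 349204702645], [nat_lit 279394440501], [nat_lit 349153572021]] [])
(.node (nat_lit 779)
(.leaf [[nat_lit 349204702645], [nat_lit 279394440501], [nat_lit 349153572021]] [])
(.leaf [[nat_lit 6698104245], [nat_lit 4533577013], [nat_lit 6646973621], [nat_lit 4482446389], [nat_lit 2317919157]] []))))))))
(.node (nat_lit 972)
(.node (nat_lit 902)
(.node (nat_lit 841)
(.node (nat_lit 836)
(.node (nat_lit 834)
(.node (nat_lit 833)
(.leaf [[nat_lit 6698104245], [nat_lit 4533577013], [nat_lit 6646973621], [nat_lit 4482446389]] [])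
(.leaf [[nat_lit 6698104245], [nat_lit 4533577013], [nat_lit 6646973621], [nat_lit 4482446389]] []))
(.node (nat_lit 835)
(.leaf [[nat_lit 6698104245], [nat_lit 4533577013], [nat_lit 6646973621], [nat_lit 4482446389]] [])
(.leaf [[nat_lit 6698104245], [nat_lit 4533577013], [nat_lit 74292708533], [nat_lit 4482446389]] [])))
(.node (nat_lit 838)
(.node (nat_lit 837)
(.leaf [[nat_lit 74343839157], [nat_lit 4533577013], [nat_lit 74292708533], [nat_lit 4482446389]] [])
(.leaf [[nat_lit 141989574069], [nat_lit 72179311925], [nat_lit 141938443445], [nat_lit 72128181301]] []))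
(.node (nat_lit 839)
(.leaf [[nat_lit 141989574069], [nat_lit 211748705589], [nat_lit 141938443445]] [])
(.node (nat_lit 840)
(.leaf [[nat_lit 209635308981], [nat_lit 279394440501], [nat_lit 209584178357]] [])
(.leaf [[nat_lit 349204702645], [nat_lit 279394440501], [nat_lit 209584178357]] [])))))
(.node (nat_lit 897)
(.node (nat_lit 843)
(.node (nat_lit 842)
(.leaf [[nat_lit 349204702645], [nat_lit 279394440501], [nat_lit 349153572021]] [])
(.leaf [[nat_lit 349204702645], [nat_lit 418963834165], [nat_lit 349153572021]] []))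
(.node (nat_lit 844)
(.leaf [[nat_lit 349204702645], [nat_lit 418963834165], [nat_lit 349153572021]] [])
(.node (nat_lit 896)
(.leaf [[nat_lit 6698104245], [nat_lit 4533577013], [nat_lit 6646973621], [nat_lit 4482446389]] [])
(.leaf [[nat_lit 6698104245], [nat_lit 4533577013], [nat_lit 6646973621], [nat_lit 4482446389]] []))))
(.node (nat_lit 899)
(.node (nat_lit 898)
(.leaf [[nat_lit 6698104245], [nat_lit 4533577013], [nat_lit 6646973621], [nat_lit 4482446389]] [])
(.leaf [[nat_lit 6698104245], [nat_lit 4533577013], [nat_lit 6646973621], [nat_lit 4482446389]] []))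
(.node (nat_lit 900)
(.leaf [[nat_lit 6698104245], [nat_lit 4533577013], [nat_lit 6646973621], [nat_lit 4482446389]] [])
(.node (nat_lit 901)
(.leaf [[nat_lit 74343839157], [nat_lit 4533577013], [nat_lit 74292708533], [nat_lit 4482446389]] [])
(.leaf [[nat_lit 74343839157], [nat_lit 144102970677], [nat_lit 74292708533]] []))))))
(.node (nat_lit 962)
(.node (nat_lit 907)
(.node (nat_lit 904)
(.node (nat_lit 903)
(.leaf [[nat_lit 141989574069], [nat_lit 211748705589], [nat_lit 141938443445]] [])
(.leaf [[nat_lit 281558967733], [nat_lit 211748705589], [nat_lit 141938443445]] []))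
(.node (nat_lit 905)
(.leaf [[nat_lit 349204702645], [nat_lit 279394440501], [nat_lit 349153572021]] [])
(.node (nat_lit 906)
(.leaf [[nat_lit 349204702645], [nat_lit 418963834165], [nat_lit 349153572021]] [])
(.leaf [[nat_lit 349204702645], [nat_lit 418963834165], [nat_lit 349153572021]] []))))
(.node (nat_lit 909)
(.node (nat_lit 908)
(.leaf [[nat_lit 488774096309], [nat_lit 418963834165]] [])
(.leaf [[nat_lit 488774096309], [nat_lit 418963834165]] []))
(.node (nat_lit 960)
(.leaf [[nat_lit 6698104245], [nat_lit 8811500853], [nat_lit 6646973621], [nat_lit 8760370229]] [])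
(.node (nat_lit 961)
(.leaf [[nat_lit 6698104245], [nat_lit 8811500853], [nat_lit 6646973621], [nat_lit 8760370229]] [])
(.leaf [[nat_lit 6698104245], [nat_lit 8811500853], [nat_lit 6646973621], [nat_lit 4482446389]] [])))))
(.node (nat_lit 967)
(.node (nat_lit 964)
(.node (nat_lit 963)
(.leaf [[nat_lit 6698104245], [nat_lit 8811500853], [nat_lit 6646973621], [nat_lit 4482446389]] [])
(.leaf [[nat_lit 6698104245], [nat_lit 76457235765], [nat_lit 6646973621], [nat_lit 4482446389]] []))
(.node (nat_lit 965)
(.leaf [[nat_lit 6698104245], [nat_lit 76457235765], [nat_lit 6646973621]] [])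
(.node (nat_lit 966)
(.leaf [[nat_lit 74343839157], [nat_lit 144102970677], [nat_lit 74292708533]] [])
(.leaf [[nat_lit 213913232821], [nat_lit 144102970677], [nat_lit 74292708533]] []))))
(.node (nat_lit 969)
(.node (nat_lit 968)
(.leaf [[nat_lit 281558967733], [nat_lit 211748705589], [nat_lit 281507837109]] [])
(.leaf [[nat_lit 281558967733], [nat_lit 351318099253], [nat_lit 281507837109]] []))
(.node (nat_lit 970)
(.leaf [[nat_lit 349204702645], [nat_lit 418963834165], [nat_lit 349153572021]] [])
(.node (nat_lit 971)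
(.leaf [[nat_lit 488774096309], [nat_lit 418963834165]] [])
(.leaf [[nat_lit 488774096309], [nat_lit 418963834165]] [])))))))
(.node (nat_lit 1089)
(.node (nat_lit 1031)
(.node (nat_lit 1026)
(.node (nat_lit 974)
(.node (nat_lit 973)
(.leaf [[nat_lit 488774096309], [nat_lit 558533227829]] [])
(.leaf [[nat_lit 488774096309], [nat_lit 558533227829]] []))
(.node (nat_lit 1024)
(.leaf [[nat_lit 6698104245], [nat_lit 8811500853], [nat_lit 6646973621], [nat_lit 8760370229]] [])
(.node (nat_lit 1025)
(.leaf [[nat_lit 6698104245], [nat_lit 8811500853], [nat_lit 6646973621], [nat_lit 8760370229]] [])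
(.leaf [[nat_lit 6698104245], [nat_lit 8811500853], [nat_lit 6646973621], [nat_lit 8760370229]] []))))
(.node (nat_lit 1028)
(.node (nat_lit 1027)
(.leaf [[nat_lit 6698104245], [nat_lit 8811500853], [nat_lit 6646973621], [nat_lit 8760370229]] [])
(.leaf [[nat_lit 6698104245], [nat_lit 8811500853], [nat_lit 6646973621]] []))
(.node (nat_lit 1029)
(.leaf [[nat_lit 6698104245], [nat_lit 76457235765], [nat_lit 6646973621]] [])
(.node (nat_lit 1030)
(.leaf [[nat_lit 146267497909], [nat_lit 76457235765], [nat_lit 6646973621]] [])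
(.leaf [[nat_lit 213913232821], [nat_lit 144102970677], [nat_lit 213862102197]] [])))))
(.node (nat_lit 1036)
(.node (nat_lit 1033)
(.node (nat_lit 1032)
(.leaf [[nat_lit 213913232821], [nat_lit 283672364341], [nat_lit 213862102197]] [])
(.leaf [[nat_lit 281558967733], [nat_lit 351318099253], [nat_lit 281507837109]] []))
(.node (nat_lit 1034)
(.leaf [[nat_lit 421128361397], [nat_lit 351318099253]] [])
(.node (nat_lit 1035)
(.leaf [[nat_lit 488774096309], [nat_lit 418963834165]] [])
(.leaf [[nat_lit 488774096309], [nat_lit 418963834165]] []))))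
(.node (nat_lit 1038)
(.node (nat_lit 1037)
(.leaf [[nat_lit 488774096309], [nat_lit 558533227829]] [])
(.leaf [[nat_lit 628343489973], [nat_lit 558533227829]] []))
(.node (nat_lit 1039)
(.leaf [[nat_lit 628343489973], [nat_lit 558533227829]] [])
(.node (nat_lit 1088)
(.leaf [[nat_lit 10976028085], [nat_lit 8811500853], [nat_lit 10924897461], [nat_lit 8760370229]] [])
(.leaf [[nat_lit 10976028085], [nat_lit 8811500853], [nat_lit 10924897461], [nat_lit 8760370229]] []))))))
(.node (nat_lit 1099)
(.node (nat_lit 1094)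
(.node (nat_lit 1091)
(.node (nat_lit 1090)
(.leaf [[nat_lit 10976028085], [nat_lit 8811500853], [nat_lit 10924897461], [nat_lit 8760370229]] [])
(.leaf [[nat_lit 10976028085], [nat_lit 8811500853], [nat_lit 10924897461]] []))
(.node (nat_lit 1092)
(.leaf [[nat_lit 10976028085], [nat_lit 8811500853], [nat_lit 6646973621]] [])
(.node (nat_lit 1093)
(.leaf [[nat_lit 78621762997], [nat_lit 8811500853], [nat_lit 78570632373]] [])
(.leaf [[nat_lit 146267497909], [nat_lit 76457235765], [nat_lit 146216367285]] []))))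
(.node (nat_lit 1096)
(.node (nat_lit 1095)
(.leaf [[nat_lit 146267497909], [nat_lit 216026629429], [nat_lit 146216367285]] [])
(.leaf [[nat_lit 213913232821], [nat_lit 283672364341], [nat_lit 213862102197]] []))
(.node (nat_lit 1097)
(.leaf [[nat_lit 353482626485], [nat_lit 283672364341]] [])
(.node (nat_lit 1098)
(.leaf [[nat_lit 421128361397], [nat_lit 351318099253]] [])
(.leaf [[nat_lit 421128361397], [nat_lit 351318099253]] [])))))
(.node (nat_lit 1104)
(.node (nat_lit 1101)
(.node (nat_lit 1100)
(.leaf [[nat_lit 488774096309], [nat_lit 558533227829]] [])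
(.leaf [[nat_lit 628343489973], [nat_lit 558533227829]] []))
(.node (nat_lit 1102)
(.leaf [[nat_lit 628343489973], [nat_lit 558533227829]] [])
(.node (nat_lit 1103)
(.leaf [[nat_lit 628343489973]] [])
(.leaf [[nat_lit 628343489973]] []))))
(.node (nat_lit 1153)
(.node (nat_lit 1152)
(.leaf [[nat_lit 10976028085], [nat_lit 8811500853], [nat_lit 10924897461], [nat_lit 8760370229]] [])
(.leaf [[nat_lit 10976028085], [nat_lit 8811500853], [nat_lit 10924897461], [nat_lit 8760370229]] []))
(.node (nat_lit 1154)
(.leaf [[nat_lit 10976028085], [nat_lit 8811500853], [nat_lit 10924897461]] [])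
(.node (nat_lit 1155)
(.leaf [[nat_lit 10976028085], [nat_lit 8811500853], [nat_lit 10924897461]] [])
(.leaf [[nat_lit 10976028085], [nat_lit 8811500853], [nat_lit 10924897461]] [])))))))))
(.node (nat_lit 1419)
(.node (nat_lit 1286)
(.node (nat_lit 1221)
(.node (nat_lit 1165)
(.node (nat_lit 1160)
(.node (nat_lit 1158)
(.node (nat_lit 1157)
(.leaf [[nat_lit 78621762997], [nat_lit 8811500853], [nat_lit 78570632373]] [])
(.leaf [[nat_lit 78621762997], [nat_lit 148380894517], [nat_lit 78570632373]] []))
(.node (nat_lit 1159)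
(.leaf [[nat_lit 146267497909], [nat_lit 216026629429], [nat_lit 146216367285]] [])
(.leaf [[nat_lit 285836891573], [nat_lit 216026629429]] [])))
(.node (nat_lit 1162)
(.node (nat_lit 1161)
(.leaf [[nat_lit 353482626485], [nat_lit 283672364341]] [])
(.leaf [[nat_lit 353482626485], [nat_lit 283672364341]] []))
(.node (nat_lit 1163)
(.leaf [[nat_lit 421128361397], [nat_lit 490887492917]] [])
(.node (nat_lit 1164)
(.leaf [[nat_lit 560697755061], [nat_lit 490887492917]] [])
(.leaf [[nat_lit 628343489973], [nat_lit 558533227829]] [])))))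
(.node (nat_lit 1216)
(.node (nat_lit 1167)
(.node (nat_lit 1166)
(.leaf [[nat_lit 628343489973]] [])
(.leaf [[nat_lit 628343489973]] []))
(.node (nat_lit 1168)
(.leaf [[nat_lit 767912883637]] [])
(.node (nat_lit 1169)
(.leaf [[nat_lit 767912883637]] [])
(.leaf [[nat_lit 10976028085], [nat_lit 13089424693], [nat_lit 10924897461], [nat_lit 8760370229]] []))))
(.node (nat_lit 1218)
(.node (nat_lit 1217)
(.leaf [[nat_lit 10976028085], [nat_lit 13089424693], [nat_lit 10924897461]] [])
(.leaf [[nat_lit 10976028085], [nat_lit 13089424693], [nat_lit 10924897461]] []))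
(.node (nat_lit 1219)
(.leaf [[nat_lit 10976028085], [nat_lit 13089424693], [nat_lit 10924897461]] [])
(.node (nat_lit 1220)
(.leaf [[nat_lit 10976028085], [nat_lit 80735159605], [nat_lit 10924897461]] [])
(.leaf [[nat_lit 10976028085], [nat_lit 80735159605], [nat_lit 10924897461]] []))))))
(.node (nat_lit 1231)
(.node (nat_lit 1226)
(.node (nat_lit 1223)
(.node (nat_lit 1222)
(.leaf [[nat_lit 78621762997], [nat_lit 148380894517], [nat_lit 78570632373]] [])
(.leaf [[nat_lit 218191156661], [nat_lit 148380894517]] []))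
(.node (nat_lit 1224)
(.leaf [[nat_lit 285836891573], [nat_lit 216026629429]] [])
(.node (nat_lit 1225)
(.leaf [[nat_lit 285836891573], [nat_lit 216026629429]] [])
(.leaf [[nat_lit 353482626485], [nat_lit 423241758005]] []))))
(.node (nat_lit 1228)
(.node (nat_lit 1227)
(.leaf [[nat_lit 493052020149], [nat_lit 423241758005]] [])
(.leaf [[nat_lit 560697755061], [nat_lit 490887492917]] []))
(.node (nat_lit 1229)
(.leaf [[nat_lit 560697755061]] [])
(.node (nat_lit 1230)
(.leaf [[nat_lit 628343489973]] [])
(.leaf [[nat_lit 628343489973]] [])))))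
(.node (nat_lit 1281)
(.node (nat_lit 1233)
(.node (nat_lit 1232)
(.leaf [[nat_lit 767912883637]] [])
(.leaf [[nat_lit 767912883637]] []))
(.node (nat_lit 1234)
(.leaf [[nat_lit 767912883637]] [])
(.node (nat_lit 1280)
(.leaf [[nat_lit 10976028085], [nat_lit 13089424693], [nat_lit 10924897461]] [])
(.leaf [[nat_lit 10976028085], [nat_lit 13089424693], [nat_lit 10924897461]] []))))
(.node (nat_lit 1283)
(.node (nat_lit 1282)
(.leaf [[nat_lit 10976028085], [nat_lit 13089424693], [nat_lit 10924897461]] [])
(.leaf [[nat_lit 10976028085], [nat_lit 13089424693], [nat_lit 10924897461]] []))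
(.node (nat_lit 1284)
(.leaf [[nat_lit 10976028085], [nat_lit 13089424693], [nat_lit 10924897461]] [])
(.node (nat_lit 1285)
(.leaf [[nat_lit 10976028085], [nat_lit 80735159605], [nat_lit 10924897461]] [])
(.leaf [[nat_lit 150545421749], [nat_lit 80735159605]] [])))))))
(.node (nat_lit 1352)
(.node (nat_lit 1296)
(.node (nat_lit 1291)
(.node (nat_lit 1288)
(.node (nat_lit 1287)
(.leaf [[nat_lit 218191156661], [nat_lit 148380894517]] [])
(.leaf [[nat_lit 218191156661], [nat_lit 148380894517]] []))
(.node (nat_lit 1289)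
(.leaf [[nat_lit 285836891573], [nat_lit 355596023093]] [])
(.node (nat_lit 1290)
(.leaf [[nat_lit 425406285237], [nat_lit 355596023093]] [])
(.leaf [[nat_lit 493052020149], [nat_lit 423241758005]] []))))
(.node (nat_lit 1293)
(.node (nat_lit 1292)
(.leaf [[nat_lit 493052020149]] [])
(.leaf [[nat_lit 560697755061]] []))
(.node (nat_lit 1294)
(.leaf [[nat_lit 560697755061]] [])
(.node (nat_lit 1295)
(.leaf [[nat_lit 767912883637]] [])
(.leaf [[nat_lit 767912883637]] [])))))
(.node (nat_lit 1347)
(.node (nat_lit 1344)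
(.node (nat_lit 1297)
(.leaf [[nat_lit 767912883637]] [])
(.leaf [[nat_lit 10976028085], [nat_lit 13089424693], [nat_lit 10924897461]] []))
(.node (nat_lit 1345)
(.leaf [[nat_lit 10976028085], [nat_lit 13089424693], [nat_lit 10924897461]] [])
(.node (nat_lit 1346)
(.leaf [[nat_lit 10976028085], [nat_lit 13089424693], [nat_lit 10924897461]] [])
(.leaf [[nat_lit 10976028085], [nat_lit 13089424693], [nat_lit 10924897461]] []))))
(.node (nat_lit 1349)
(.node (nat_lit 1348)
(.leaf [[nat_lit 82899686837], [nat_lit 13089424693], [nat_lit 10924897461]] [])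
(.leaf [[nat_lit 82899686837], [nat_lit 13089424693]] []))
(.node (nat_lit 1350)
(.leaf [[nat_lit 150545421749], [nat_lit 80735159605]] [])
(.node (nat_lit 1351)
(.leaf [[nat_lit 150545421749], [nat_lit 80735159605]] [])
(.leaf [[nat_lit 218191156661], [nat_lit 148380894517]] []))))))
(.node (nat_lit 1409)
(.node (nat_lit 1357)
(.node (nat_lit 1354)
(.node (nat_lit 1353)
(.leaf [[nat_lit 218191156661], [nat_lit 355596023093]] [])
(.leaf [[nat_lit 425406285237], [nat_lit 355596023093]] []))
(.node (nat_lit 1355)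
(.leaf [[nat_lit 425406285237]] [])
(.node (nat_lit 1356)
(.leaf [[nat_lit 493052020149]] [])
(.leaf [[nat_lit 493052020149]] []))))
(.node (nat_lit 1359)
(.node (nat_lit 1358)
(.leaf [[nat_lit 560697755061]] [])
(.leaf [[nat_lit 767912883637]] []))
(.node (nat_lit 1360)
(.leaf [[nat_lit 767912883637]] [])
(.node (nat_lit 1408)
(.leaf [[nat_lit 13106472373, nat_lit 12032992693], [nat_lit 13089424693], [nat_lit 10924897461]] [])
(.leaf [[nat_lit 13106472373, nat_lit 14180210101], [nat_lit 13089424693], [nat_lit 10924897461]] [])))))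
(.node (nat_lit 1414)
(.node (nat_lit 1411)
(.node (nat_lit 1410)
(.leaf [[nat_lit 14180210101, nat_lit 13106472373], [nat_lit 13089424693], [nat_lit 10924897461]] [])
(.leaf [[nat_lit 82899686837], [nat_lit 13089424693], [nat_lit 10924897461]] []))
(.node (nat_lit 1412)
(.leaf [[nat_lit 82899686837], [nat_lit 13089424693]] [])
(.node (nat_lit 1413)
(.leaf [[nat_lit 82899686837], [nat_lit 13089424693]] [])
(.leaf [[nat_lit 82899686837], [nat_lit 13089424693]] []))))
(.node (nat_lit 1416)
(.node (nat_lit 1415)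
(.leaf [[nat_lit 150545421749], [nat_lit 80735159605]] [])
(.leaf [[nat_lit 150545421749], [nat_lit 80735159605]] []))
(.node (nat_lit 1417)
(.leaf [[nat_lit 425406285237], [nat_lit 355596023093]] [])
(.node (nat_lit 1418)
(.leaf [[nat_lit 425406285237]] [])
(.leaf [[nat_lit 425406285237]] []))))))))
(.node (nat_lit 1605)
(.node (nat_lit 1486)
(.node (nat_lit 1476)
(.node (nat_lit 1423)
(.node (nat_lit 1421)
(.node (nat_lit 1420)
(.leaf [[nat_lit 425406285237]] [])
(.leaf [[nat_lit 493052020149]] []))
(.node (nat_lit 1422)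
(.leaf [[nat_lit 493052020149]] [])
(.leaf [[nat_lit 767912883637]] [])))
(.node (nat_lit 1473)
(.node (nat_lit 1472)
(.leaf [[nat_lit 13106472373, nat_lit 14180210101], [nat_lit 13089424693], [nat_lit 10924897461]] [])
(.leaf [[nat_lit 14180210101, nat_lit 13106472373], [nat_lit 13089424693], [nat_lit 10924897461]] []))
(.node (nat_lit 1474)
(.leaf [[nat_lit 82899686837], [nat_lit 13089424693], [nat_lit 10924897461]] [])
(.node (nat_lit 1475)
(.leaf [[nat_lit 82899686837], [nat_lit 13089424693]] [])
(.leaf [[nat_lit 82899686837], [nat_lit 13089424693]] [])))))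
(.node (nat_lit 1481)
(.node (nat_lit 1478)
(.node (nat_lit 1477)
(.leaf [[nat_lit 82899686837], [nat_lit 13089424693]] [])
(.leaf [[nat_lit 82899686837], [nat_lit 13089424693]] []))
(.node (nat_lit 1479)
(.leaf [[nat_lit 82899686837], [nat_lit 13089424693]] [])
(.node (nat_lit 1480)
(.leaf [[nat_lit 150545421749], [nat_lit 80735159605]] [])
(.leaf [[nat_lit 425406285237]] []))))
(.node (nat_lit 1483)
(.node (nat_lit 1482)
(.leaf [[nat_lit 425406285237]] [])
(.leaf [[nat_lit 425406285237]] []))
(.node (nat_lit 1484)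
(.leaf [[nat_lit 425406285237]] [])
(.node (nat_lit 1485)
(.leaf [[nat_lit 425406285237]] [])
(.leaf [[nat_lit 493052020149]] []))))))
(.node (nat_lit 1545)
(.node (nat_lit 1540)
(.node (nat_lit 1537)
(.node (nat_lit 1536)
(.leaf [[nat_lit 14180210101, nat_lit 13106472373], [nat_lit 13089424693], [nat_lit 10924897461]] [])
(.leaf [[nat_lit 13106472373, nat_lit 13089957301], [nat_lit 13089424693], [nat_lit 10924897461]] []))
(.node (nat_lit 1538)
(.leaf [[nat_lit 82899686837], [nat_lit 13089424693]] [])
(.node (nat_lit 1539)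
(.leaf [[nat_lit 82899686837], [nat_lit 13089424693]] [])
(.leaf [[nat_lit 82899686837], [nat_lit 13089424693]] []))))
(.node (nat_lit 1542)
(.node (nat_lit 1541)
(.leaf [[nat_lit 82899686837], [nat_lit 13089424693]] [])
(.leaf [[nat_lit 82899686837], [nat_lit 13089424693]] []))
(.node (nat_lit 1543)
(.leaf [[nat_lit 82899686837], [nat_lit 13089424693]] [])
(.node (nat_lit 1544)
(.leaf [[nat_lit 82899686837]] [])
(.leaf [[nat_lit 425406285237]] [])))))
(.node (nat_lit 1600)
(.node (nat_lit 1547)
(.node (nat_lit 1546)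
(.leaf [[nat_lit 425406285237]] [])
(.leaf [[nat_lit 425406285237]] []))
(.node (nat_lit 1548)
(.leaf [[nat_lit 425406285237]] [])
(.node (nat_lit 1549)
(.leaf [[nat_lit 425406285237]] [])
(.leaf [[nat_lit 13106472373, nat_lit 13089957301], [nat_lit 13089424693], [nat_lit 10924897461]] []))))
(.node (nat_lit 1602)
(.node (nat_lit 1601)
(.leaf [[nat_lit 82899686837], [nat_lit 13089424693]] [])
(.leaf [[nat_lit 82899686837], [nat_lit 13089424693]] []))
(.node (nat_lit 1603)
(.leaf [[nat_lit 82899686837], [nat_lit 13089424693]] [])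
(.node (nat_lit 1604)
(.leaf [[nat_lit 82899686837], [nat_lit 13089424693]] [])
(.leaf [[nat_lit 82899686837], [nat_lit 13089424693]] [])))))))
(.node (nat_lit 1728)
(.node (nat_lit 1666)
(.node (nat_lit 1610)
(.node (nat_lit 1607)
(.node (nat_lit 1606)
(.leaf [[nat_lit 82899686837], [nat_lit 13089424693]] [])
(.leaf [[nat_lit 82899686837]] []))
(.node (nat_lit 1608)
(.leaf [[nat_lit 82899686837]] [])
(.node (nat_lit 1609)
(.leaf [[nat_lit 82899686837]] [])
(.leaf [[nat_lit 425406285237]] []))))
(.node (nat_lit 1612)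
(.node (nat_lit 1611)
(.leaf [[nat_lit 425406285237]] [])
(.leaf [[nat_lit 425406285237]] []))
(.node (nat_lit 1664)
(.leaf [[nat_lit 14180210101, nat_lit 13106472373], [nat_lit 13089424693]] [])
(.node (nat_lit 1665)
(.leaf [[nat_lit 82899686837], [nat_lit 13089424693]] [])
(.leaf [[nat_lit 82899686837], [nat_lit 13089424693]] [])))))
(.node (nat_lit 1671)
(.node (nat_lit 1668)
(.node (nat_lit 1667)
(.leaf [[nat_lit 82899686837], [nat_lit 13089424693]] [])
(.leaf [[nat_lit 82899686837], [nat_lit 13089424693]] []))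
(.node (nat_lit 1669)
(.leaf [[nat_lit 82899686837], [nat_lit 13089424693]] [])
(.node (nat_lit 1670)
(.leaf [[nat_lit 82899686837]] [])
(.leaf [[nat_lit 82899686837]] []))))
(.node (nat_lit 1673)
(.node (nat_lit 1672)
(.leaf [[nat_lit 82899686837]] [])
(.leaf [[nat_lit 82899686837]] []))
(.node (nat_lit 1674)
(.leaf [[nat_lit 425406285237]] [])
(.node (nat_lit 1675)
(.leaf [[nat_lit 425406285237]] [])
(.leaf [[nat_lit 14180210101, nat_lit 13106472373], [nat_lit 13089424693]] []))))))
(.node (nat_lit 1738)
(.node (nat_lit 1733)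
(.node (nat_lit 1730)
(.node (nat_lit 1729)
(.leaf [[nat_lit 82899686837], [nat_lit 13089424693]] [])
(.leaf [[nat_lit 82899686837], [nat_lit 13089424693]] []))
(.node (nat_lit 1731)
(.leaf [[nat_lit 82899686837], [nat_lit 13089424693]] [])
(.node (nat_lit 1732)
(.leaf [[nat_lit 82899686837], [nat_lit 13089424693]] [])
(.leaf [[nat_lit 82899686837]] []))))
(.node (nat_lit 1735)
(.node (nat_lit 1734)
(.leaf [[nat_lit 82899686837]] [])
(.leaf [[nat_lit 82899686837]] []))
(.node (nat_lit 1736)
(.leaf [[nat_lit 82899686837]] [])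
(.node (nat_lit 1737)
(.leaf [[nat_lit 82899686837]] [])
(.leaf [[nat_lit 425406285237]] [])))))
(.node (nat_lit 1796)
(.node (nat_lit 1793)
(.node (nat_lit 1792)
(.leaf [[nat_lit 14180210101, nat_lit 13089437109, nat_lit 13089957301], [nat_lit 13089424693]] [])
(.leaf [[nat_lit 82899686837], [nat_lit 13089424693]] []))
(.node (nat_lit 1794)
(.leaf [[nat_lit 82899686837], [nat_lit 13089424693]] [])
(.node (nat_lit 1795)
(.leaf [[nat_lit 82899686837], [nat_lit 13089424693]] [])
(.leaf [[nat_lit 82899686837]] []))))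
(.node (nat_lit 1798)
(.node (nat_lit 1797)
(.leaf [[nat_lit 82899686837]] [])
(.leaf [[nat_lit 82899686837]] []))
(.node (nat_lit 1799)
(.leaf [[nat_lit 82899686837]] [])
(.node (nat_lit 1800)
(.leaf [[nat_lit 82899686837]] [])
(.leaf [[nat_lit 82899686837]] []))))))))))

noncomputable def ct30 : Tc :=
(.node (nat_lit 1090)
(.node (nat_lit 770)
(.node (nat_lit 517)
(.node (nat_lit 385)
(.node (nat_lit 257)
(.node (nat_lit 192)
(.node (nat_lit 128)
(.node (nat_lit 64)
(.leaf [[nat_lit 136356682, nat_lit 153924550], [nat_lit 102261326], [nat_lit 102261322], [nat_lit 102261318], [nat_lit 82], [nat_lit 78]] [])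
(.leaf [[nat_lit 1244177350, nat_lit 1193321290], [nat_lit 1176011466, nat_lit 1142981322, nat_lit 1159238346, nat_lit 1126208202], [nat_lit 1176011462, nat_lit 1193579330, nat_lit 1159238342, nat_lit 1176806210], [nat_lit 204522549], [nat_lit 204522545]] [[], [], [], [], [nat_lit 1675448688803, nat_lit 1675448688930], [nat_lit 1675448655904]]))
(.node (nat_lit 129)
(.leaf [[nat_lit 69929571146, nat_lit 69913588678], [nat_lit 69929571142, nat_lit 69913588674], [nat_lit 69929571138, nat_lit 205055157], [nat_lit 204522549], [nat_lit 204522545]] [[], [], [], [], [nat_lit 1675448688930], [nat_lit 1675448655904]])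
(.leaf [[nat_lit 2317919174], [nat_lit 2249753290, nat_lit 2216723146], [nat_lit 2249753286, nat_lit 2267321154], [nat_lit 204522549], [nat_lit 204522545]] [[], [], [], [], [nat_lit 1675448688930], [nat_lit 1675448655904]])))
(.node (nat_lit 194)
(.node (nat_lit 193)
(.leaf [[nat_lit 71020618694, nat_lit 70969238346], [nat_lit 255653173], [nat_lit 221570229, nat_lit 221566133], [nat_lit 204522549], [nat_lit 204522545]] [])
(.leaf [[nat_lit 139722785610], [nat_lit 139722785606], [nat_lit 139722785602], [nat_lit 204522549], [nat_lit 204522545]] []))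
(.node (nat_lit 256)
(.leaf [[nat_lit 3374883782, nat_lit 3357573962], [nat_lit 3357573958, nat_lit 3340800838], [nat_lit 221570229, nat_lit 3357573954], [nat_lit 204522549], [nat_lit 204522545]] [])
(.leaf [[nat_lit 72094098374, nat_lit 72060273482], [nat_lit 255653173], [nat_lit 221570229, nat_lit 205055157], [nat_lit 204522549], [nat_lit 204522545]] []))))
(.node (nat_lit 321)
(.node (nat_lit 259)
(.node (nat_lit 258)
(.leaf [[nat_lit 140813571014, nat_lit 140762714954, nat_lit 256185781], [nat_lit 255653173], [nat_lit 221570229, nat_lit 205055157], [nat_lit 204522549], [nat_lit 204522545]] [])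
(.leaf [[nat_lit 272700853, nat_lit 256185781], [nat_lit 255653173], [nat_lit 221570229, nat_lit 221566133], [nat_lit 204522549], [nat_lit 204522545]] []))
(.node (nat_lit 320)
(.leaf [[nat_lit 4431315786], [nat_lit 4431315782], [nat_lit 4431315778], [nat_lit 204522549], [nat_lit 2317919157]] [])
(.leaf [[nat_lit 272700853, nat_lit 256185781], [nat_lit 255653173], [nat_lit 221570229, nat_lit 205055157], [nat_lit 204522549], [nat_lit 2317919157]] [])))
(.node (nat_lit 323)
(.node (nat_lit 322)
(.leaf [[nat_lit 272700853, nat_lit 141836714826], [nat_lit 255653173], [nat_lit 221570229, nat_lit 221566133], [nat_lit 204522549], [nat_lit 204522545]] [])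
(.leaf [[nat_lit 272700853, nat_lit 256185781], [nat_lit 255653173], [nat_lit 221570229, nat_lit 205055157], [nat_lit 204522549], [nat_lit 204522545]] []))
(.node (nat_lit 324)
(.leaf [[nat_lit 272700853, nat_lit 256185781], [nat_lit 255653173], [nat_lit 70014784693], [nat_lit 204522549], [nat_lit 204522545]] [])
(.node (nat_lit 384)
(.leaf [[nat_lit 5522101190, nat_lit 5471245130, nat_lit 5488812998], [nat_lit 255653173], [nat_lit 221570229, nat_lit 205055157], [nat_lit 204522549], [nat_lit 2317919157]] [])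
(.leaf [[nat_lit 272700853, nat_lit 256185781], [nat_lit 255653173], [nat_lit 221570229, nat_lit 221566133], [nat_lit 204522549], [nat_lit 2317919157]] []))))))
(.node (nat_lit 451)
(.node (nat_lit 389)
(.node (nat_lit 387)
(.node (nat_lit 386)
(.leaf [[nat_lit 272700853, nat_lit 256185781], [nat_lit 255653173], [nat_lit 221570229, nat_lit 1295307957], [nat_lit 204522549], [nat_lit 2317919157]] [])
(.leaf [[nat_lit 272700853, nat_lit 256185781], [nat_lit 255653173], [nat_lit 70014784693], [nat_lit 204522549], [nat_lit 2317919157]] []))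
(.node (nat_lit 388)
(.leaf [[nat_lit 272700853, nat_lit 256185781], [nat_lit 255653173], [nat_lit 70014784693], [nat_lit 204522549]] [])
(.leaf [[nat_lit 272700853, nat_lit 256185781], [nat_lit 255653173], [nat_lit 70014784693], [nat_lit 204522549]] [])))
(.node (nat_lit 449)
(.node (nat_lit 448)
(.leaf [[nat_lit 6544712398], [nat_lit 6544712394], [nat_lit 6544712390], [nat_lit 204522549], [nat_lit 2317919157]] [])
(.leaf [[nat_lit 272700853, nat_lit 256185781], [nat_lit 255653173], [nat_lit 2369049781], [nat_lit 204522549], [nat_lit 2317919157]] []))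
(.node (nat_lit 450)
(.leaf [[nat_lit 272700853, nat_lit 256185781], [nat_lit 255653173], [nat_lit 2369049781], [nat_lit 204522549], [nat_lit 2317919157]] [])
(.leaf [[nat_lit 272700853, nat_lit 256185781], [nat_lit 255653173], [nat_lit 70014784693], [nat_lit 204522549]] []))))
(.node (nat_lit 512)
(.node (nat_lit 453)
(.node (nat_lit 452)
(.leaf [[nat_lit 272700853, nat_lit 256185781], [nat_lit 255653173], [nat_lit 70014784693], [nat_lit 204522549]] [])
(.leaf [[nat_lit 70065915317], [nat_lit 255653173], [nat_lit 70014784693], [nat_lit 204522549]] []))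
(.node (nat_lit 454)
(.leaf [[nat_lit 418861572938], [nat_lit 255653173], [nat_lit 70014784693], [nat_lit 204522549]] [])
(.leaf [[nat_lit 272700853, nat_lit 7636030406], [nat_lit 255653173], [nat_lit 2369049781], [nat_lit 204522549], [nat_lit 2317919157]] [])))
(.node (nat_lit 514)
(.node (nat_lit 513)
(.leaf [[nat_lit 272700853, nat_lit 256185781], [nat_lit 255653173], [nat_lit 2369049781], [nat_lit 204522549], [nat_lit 2317919157]] [])
(.leaf [[nat_lit 272700853, nat_lit 1346438581], [nat_lit 255653173], [nat_lit 2369049781], [nat_lit 204522549]] []))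
(.node (nat_lit 515)
(.leaf [[nat_lit 272700853, nat_lit 1346438581], [nat_lit 255653173], [nat_lit 2369049781], [nat_lit 204522549]] [])
(.node (nat_lit 516)
(.leaf [[nat_lit 70065915317], [nat_lit 255653173], [nat_lit 70014784693], [nat_lit 204522549]] [])
(.leaf [[nat_lit 70065915317], [nat_lit 255653173], [nat_lit 70014784693], [nat_lit 204522549]] [])))))))
(.node (nat_lit 645)
(.node (nat_lit 581)
(.node (nat_lit 577)
(.node (nat_lit 519)
(.node (nat_lit 518)
(.leaf [[nat_lit 70065915317], [nat_lit 255653173], [nat_lit 70014784693], [nat_lit 204522549]] [])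
(.leaf [[nat_lit 70065915317], [nat_lit 255653173], [nat_lit 70014784693], [nat_lit 204522549]] []))
(.node (nat_lit 576)
(.leaf [[nat_lit 2420180405], [nat_lit 255653173], [nat_lit 2369049781], [nat_lit 204522549], [nat_lit 2317919157]] [])
(.leaf [[nat_lit 2420180405], [nat_lit 255653173], [nat_lit 2369049781], [nat_lit 204522549]] [])))
(.node (nat_lit 579)
(.node (nat_lit 578)
(.leaf [[nat_lit 2420180405], [nat_lit 255653173], [nat_lit 2369049781], [nat_lit 204522549]] [])
(.leaf [[nat_lit 2420180405], [nat_lit 255653173], [nat_lit 2369049781], [nat_lit 204522549]] []))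
(.node (nat_lit 580)
(.leaf [[nat_lit 2420180405], [nat_lit 255653173], [nat_lit 70014784693], [nat_lit 204522549]] [])
(.leaf [[nat_lit 70065915317], [nat_lit 255653173], [nat_lit 70014784693], [nat_lit 204522549]] []))))
(.node (nat_lit 640)
(.node (nat_lit 583)
(.node (nat_lit 582)
(.leaf [[nat_lit 70065915317], [nat_lit 255653173], [nat_lit 70014784693], [nat_lit 204522549]] [])
(.leaf [[nat_lit 70065915317], [nat_lit 139825046837], [nat_lit 70014784693]] []))
(.node (nat_lit 584)
(.leaf [[nat_lit 209635308981], [nat_lit 139825046837], [nat_lit 70014784693]] [])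
(.leaf [[nat_lit 2420180405], [nat_lit 255653173], [nat_lit 2369049781], [nat_lit 204522549]] [])))
(.node (nat_lit 642)
(.node (nat_lit 641)
(.leaf [[nat_lit 2420180405], [nat_lit 255653173], [nat_lit 2369049781], [nat_lit 204522549]] [])
(.leaf [[nat_lit 2420180405], [nat_lit 255653173], [nat_lit 2369049781], [nat_lit 204522549]] []))
(.node (nat_lit 643)
(.leaf [[nat_lit 2420180405], [nat_lit 255653173], [nat_lit 2369049781], [nat_lit 204522549]] [])
(.node (nat_lit 644)
(.leaf [[nat_lit 2420180405], [nat_lit 255653173], [nat_lit 2369049781], [nat_lit 204522549]] [])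
(.leaf [[nat_lit 70065915317], [nat_lit 255653173], [nat_lit 70014784693], [nat_lit 204522549]] []))))))
(.node (nat_lit 708)
(.node (nat_lit 649)
(.node (nat_lit 647)
(.node (nat_lit 646)
(.leaf [[nat_lit 70065915317], [nat_lit 139825046837], [nat_lit 70014784693]] [])
(.leaf [[nat_lit 209635308981], [nat_lit 139825046837], [nat_lit 70014784693]] []))
(.node (nat_lit 648)
(.leaf [[nat_lit 209635308981], [nat_lit 139825046837], [nat_lit 209584178357]] [])
(.leaf [[nat_lit 209635308981], [nat_lit 139825046837], [nat_lit 209584178357]] [])))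
(.node (nat_lit 705)
(.node (nat_lit 704)
(.leaf [[nat_lit 2420180405], [nat_lit 4533577013], [nat_lit 2369049781], [nat_lit 4482446389]] [])
(.leaf [[nat_lit 2420180405], [nat_lit 4533577013], [nat_lit 2369049781], [nat_lit 4482446389]] []))
(.node (nat_lit 706)
(.leaf [[nat_lit 2420180405], [nat_lit 4533577013], [nat_lit 2369049781], [nat_lit 204522549]] [])
(.node (nat_lit 707)
(.leaf [[nat_lit 2420180405], [nat_lit 4533577013], [nat_lit 2369049781], [nat_lit 204522549]] [])
(.leaf [[nat_lit 2420180405], [nat_lit 72179311925], [nat_lit 2369049781], [nat_lit 204522549]] [])))))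
(.node (nat_lit 712)
(.node (nat_lit 710)
(.node (nat_lit 709)
(.leaf [[nat_lit 2420180405], [nat_lit 72179311925], [nat_lit 2369049781]] [])
(.leaf [[nat_lit 70065915317], [nat_lit 139825046837], [nat_lit 70014784693]] []))
(.node (nat_lit 711)
(.leaf [[nat_lit 209635308981], [nat_lit 139825046837], [nat_lit 70014784693]] [])
(.leaf [[nat_lit 209635308981], [nat_lit 139825046837], [nat_lit 209584178357]] [])))
(.node (nat_lit 714)
(.node (nat_lit 713)
(.leaf [[nat_lit 209635308981], [nat_lit 279394440501], [nat_lit 209584178357]] [])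
(.leaf [[nat_lit 209635308981], [nat_lit 279394440501], [nat_lit 209584178357]] []))
(.node (nat_lit 768)
(.leaf [[nat_lit 2420180405], [nat_lit 4533577013], [nat_lit 2369049781], [nat_lit 4482446389]] [])
(.node (nat_lit 769)
(.leaf [[nat_lit 2420180405], [nat_lit 4533577013], [nat_lit 2369049781], [nat_lit 4482446389]] [])
(.leaf [[nat_lit 2420180405], [nat_lit 4533577013], [nat_lit 2369049781], [nat_lit 4482446389]] []))))))))
(.node (nat_lit 908)
(.node (nat_lit 839)
(.node (nat_lit 778)
(.node (nat_lit 774)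
(.node (nat_lit 772)
(.node (nat_lit 771)
(.leaf [[nat_lit 2420180405], [nat_lit 4533577013], [nat_lit 2369049781], [nat_lit 4482446389]] [])
(.leaf [[nat_lit 2420180405], [nat_lit 4533577013], [nat_lit 2369049781]] []))
(.node (nat_lit 773)
(.leaf [[nat_lit 2420180405], [nat_lit 72179311925], [nat_lit 2369049781]] [])
(.leaf [[nat_lit 141989574069], [nat_lit 72179311925], [nat_lit 2369049781]] [])))
(.node (nat_lit 776)
(.node (nat_lit 775)
(.leaf [[nat_lit 209635308981], [nat_lit 139825046837], [nat_lit 209584178357]] [])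
(.leaf [[nat_lit 209635308981], [nat_lit 279394440501], [nat_lit 209584178357]] []))
(.node (nat_lit 777)
(.leaf [[nat_lit 209635308981], [nat_lit 279394440501], [nat_lit 209584178357]] [])
(.leaf [[nat_lit 349204702645], [nat_lit 279394440501]] []))))
(.node (nat_lit 834)
(.node (nat_lit 832)
(.node (nat_lit 779)
(.leaf [[nat_lit 349204702645], [nat_lit 279394440501]] [])
(.leaf [[nat_lit 6698104245], [nat_lit 4533577013], [nat_lit 6646973621], [nat_lit 4482446389]] []))
(.node (nat_lit 833)
(.leaf [[nat_lit 6698104245], [nat_lit 4533577013], [nat_lit 6646973621], [nat_lit 4482446389]] [])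
(.leaf [[nat_lit 6698104245], [nat_lit 4533577013], [nat_lit 6646973621], [nat_lit 4482446389]] [])))
(.node (nat_lit 836)
(.node (nat_lit 835)
(.leaf [[nat_lit 6698104245], [nat_lit 4533577013], [nat_lit 6646973621]] [])
(.leaf [[nat_lit 6698104245], [nat_lit 4533577013], [nat_lit 2369049781]] []))
(.node (nat_lit 837)
(.leaf [[nat_lit 74343839157], [nat_lit 4533577013], [nat_lit 74292708533]] [])
(.node (nat_lit 838)
(.leaf [[nat_lit 141989574069], [nat_lit 72179311925], [nat_lit 141938443445]] [])
(.leaf [[nat_lit 141989574069], [nat_lit 211748705589], [nat_lit 141938443445]] []))))))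
(.node (nat_lit 899)
(.node (nat_lit 843)
(.node (nat_lit 841)
(.node (nat_lit 840)
(.leaf [[nat_lit 209635308981], [nat_lit 279394440501], [nat_lit 209584178357]] [])
(.leaf [[nat_lit 349204702645], [nat_lit 279394440501]] []))
(.node (nat_lit 842)
(.leaf [[nat_lit 349204702645], [nat_lit 279394440501]] [])
(.leaf [[nat_lit 349204702645], [nat_lit 418963834165]] [])))
(.node (nat_lit 896)
(.node (nat_lit 844)
(.leaf [[nat_lit 349204702645], [nat_lit 418963834165]] [])
(.leaf [[nat_lit 6698104245], [nat_lit 4533577013], [nat_lit 6646973621], [nat_lit 4482446389]] []))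
(.node (nat_lit 897)
(.leaf [[nat_lit 6698104245], [nat_lit 4533577013], [nat_lit 6646973621], [nat_lit 4482446389]] [])
(.node (nat_lit 898)
(.leaf [[nat_lit 6698104245], [nat_lit 4533577013], [nat_lit 6646973621]] [])
(.leaf [[nat_lit 6698104245], [nat_lit 4533577013], [nat_lit 6646973621]] [])))))
(.node (nat_lit 903)
(.node (nat_lit 901)
(.node (nat_lit 900)
(.leaf [[nat_lit 6698104245], [nat_lit 4533577013], [nat_lit 6646973621]] [])
(.leaf [[nat_lit 74343839157], [nat_lit 4533577013], [nat_lit 74292708533]] []))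
(.node (nat_lit 902)
(.leaf [[nat_lit 74343839157], [nat_lit 144102970677], [nat_lit 74292708533]] [])
(.leaf [[nat_lit 141989574069], [nat_lit 211748705589], [nat_lit 141938443445]] [])))
(.node (nat_lit 905)
(.node (nat_lit 904)
(.leaf [[nat_lit 281558967733], [nat_lit 211748705589]] [])
(.leaf [[nat_lit 349204702645], [nat_lit 279394440501]] []))
(.node (nat_lit 906)
(.leaf [[nat_lit 349204702645], [nat_lit 279394440501]] [])
(.node (nat_lit 907)
(.leaf [[nat_lit 349204702645], [nat_lit 418963834165]] [])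
(.leaf [[nat_lit 488774096309], [nat_lit 418963834165]] [])))))))
(.node (nat_lit 1024)
(.node (nat_lit 966)
(.node (nat_lit 962)
(.node (nat_lit 960)
(.node (nat_lit 909)
(.leaf [[nat_lit 488774096309], [nat_lit 418963834165]] [])
(.leaf [[nat_lit 6698104245], [nat_lit 8811500853], [nat_lit 6646973621], [nat_lit 4482446389]] []))
(.node (nat_lit 961)
(.leaf [[nat_lit 6698104245], [nat_lit 8811500853], [nat_lit 6646973621]] [])
(.leaf [[nat_lit 6698104245], [nat_lit 8811500853], [nat_lit 6646973621]] [])))
(.node (nat_lit 964)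
(.node (nat_lit 963)
(.leaf [[nat_lit 6698104245], [nat_lit 8811500853], [nat_lit 6646973621]] [])
(.leaf [[nat_lit 6698104245], [nat_lit 76457235765], [nat_lit 6646973621]] []))
(.node (nat_lit 965)
(.leaf [[nat_lit 6698104245], [nat_lit 76457235765], [nat_lit 6646973621]] [])
(.leaf [[nat_lit 74343839157], [nat_lit 144102970677], [nat_lit 74292708533]] []))))
(.node (nat_lit 970)
(.node (nat_lit 968)
(.node (nat_lit 967)
(.leaf [[nat_lit 213913232821], [nat_lit 144102970677]] [])
(.leaf [[nat_lit 281558967733], [nat_lit 211748705589]] []))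
(.node (nat_lit 969)
(.leaf [[nat_lit 281558967733], [nat_lit 211748705589]] [])
(.leaf [[nat_lit 349204702645], [nat_lit 418963834165]] [])))
(.node (nat_lit 972)
(.node (nat_lit 971)
(.leaf [[nat_lit 488774096309], [nat_lit 418963834165]] [])
(.leaf [[nat_lit 488774096309], [nat_lit 418963834165]] []))
(.node (nat_lit 973)
(.leaf [[nat_lit 488774096309]] [])
(.node (nat_lit 974)
(.leaf [[nat_lit 488774096309]] [])
(.leaf [[nat_lit 6698104245], [nat_lit 8811500853], [nat_lit 6646973621]] []))))))
(.node (nat_lit 1033)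
(.node (nat_lit 1028)
(.node (nat_lit 1026)
(.node (nat_lit 1025)
(.leaf [[nat_lit 6698104245], [nat_lit 8811500853], [nat_lit 6646973621]] [])
(.leaf [[nat_lit 6698104245], [nat_lit 8811500853], [nat_lit 6646973621]] []))
(.node (nat_lit 1027)
(.leaf [[nat_lit 6698104245], [nat_lit 8811500853], [nat_lit 6646973621]] [])
(.leaf [[nat_lit 6698104245], [nat_lit 8811500853], [nat_lit 6646973621]] [])))
(.node (nat_lit 1030)
(.node (nat_lit 1029)
(.leaf [[nat_lit 6698104245], [nat_lit 76457235765], [nat_lit 6646973621]] [])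
(.leaf [[nat_lit 146267497909], [nat_lit 76457235765]] []))
(.node (nat_lit 1031)
(.leaf [[nat_lit 213913232821], [nat_lit 144102970677]] [])
(.node (nat_lit 1032)
(.leaf [[nat_lit 213913232821], [nat_lit 144102970677]] [])
(.leaf [[nat_lit 281558967733], [nat_lit 351318099253]] [])))))
(.node (nat_lit 1037)
(.node (nat_lit 1035)
(.node (nat_lit 1034)
(.leaf [[nat_lit 421128361397], [nat_lit 351318099253]] [])
(.leaf [[nat_lit 488774096309], [nat_lit 418963834165]] []))
(.node (nat_lit 1036)
(.leaf [[nat_lit 488774096309]] [])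
(.leaf [[nat_lit 488774096309]] [])))
(.node (nat_lit 1039)
(.node (nat_lit 1038)
(.leaf [[nat_lit 628343489973]] [])
(.leaf [[nat_lit 628343489973]] []))
(.node (nat_lit 1088)
(.leaf [[nat_lit 10976028085], [nat_lit 8811500853], [nat_lit 10924897461]] [])
(.node (nat_lit 1089)
(.leaf [[nat_lit 10976028085], [nat_lit 8811500853], [nat_lit 10924897461]] [])
(.leaf [[nat_lit 10976028085], [nat_lit 8811500853], [nat_lit 6646973621]] [])))))))))
(.node (nat_lit 1354)
(.node (nat_lit 1220)
(.node (nat_lit 1154)
(.node (nat_lit 1098)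
(.node (nat_lit 1094)
(.node (nat_lit 1092)
(.node (nat_lit 1091)
(.leaf [[nat_lit 10976028085], [nat_lit 8811500853], [nat_lit 6646973621]] [])
(.leaf [[nat_lit 78621762997], [nat_lit 8811500853], [nat_lit 6646973621]] []))
(.node (nat_lit 1093)
(.leaf [[nat_lit 78621762997], [nat_lit 8811500853]] [])
(.leaf [[nat_lit 146267497909], [nat_lit 76457235765]] [])))
(.node (nat_lit 1096)
(.node (nat_lit 1095)
(.leaf [[nat_lit 146267497909], [nat_lit 76457235765]] [])
(.leaf [[nat_lit 213913232821], [nat_lit 283672364341]] []))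
(.node (nat_lit 1097)
(.leaf [[nat_lit 353482626485], [nat_lit 283672364341]] [])
(.leaf [[nat_lit 421128361397], [nat_lit 351318099253]] []))))
(.node (nat_lit 1102)
(.node (nat_lit 1100)
(.node (nat_lit 1099)
(.leaf [[nat_lit 421128361397]] [])
(.leaf [[nat_lit 488774096309]] []))
(.node (nat_lit 1101)
(.leaf [[nat_lit 488774096309]] [])
(.leaf [[nat_lit 628343489973]] [])))
(.node (nat_lit 1104)
(.node (nat_lit 1103)
(.leaf [[nat_lit 628343489973]] [])
(.leaf [[nat_lit 628343489973]] []))
(.node (nat_lit 1152)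
(.leaf [[nat_lit 10976028085], [nat_lit 8811500853], [nat_lit 10924897461]] [])
(.node (nat_lit 1153)
(.leaf [[nat_lit 10976028085], [nat_lit 8811500853], [nat_lit 10924897461]] [])
(.leaf [[nat_lit 10976028085], [nat_lit 8811500853], [nat_lit 10924897461]] []))))))
(.node (nat_lit 1163)
(.node (nat_lit 1158)
(.node (nat_lit 1156)
(.node (nat_lit 1155)
(.leaf [[nat_lit 10976028085], [nat_lit 8811500853], [nat_lit 10924897461]] [])
(.leaf [[nat_lit 10976028085], [nat_lit 8811500853]] []))
(.node (nat_lit 1157)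
(.leaf [[nat_lit 78621762997], [nat_lit 8811500853]] [])
(.leaf [[nat_lit 78621762997], [nat_lit 8811500853]] [])))
(.node (nat_lit 1160)
(.node (nat_lit 1159)
(.leaf [[nat_lit 146267497909], [nat_lit 216026629429]] [])
(.leaf [[nat_lit 285836891573], [nat_lit 216026629429]] []))
(.node (nat_lit 1161)
(.leaf [[nat_lit 353482626485], [nat_lit 283672364341]] [])
(.node (nat_lit 1162)
(.leaf [[nat_lit 353482626485]] [])
(.leaf [[nat_lit 421128361397]] [])))))
(.node (nat_lit 1167)
(.node (nat_lit 1165)
(.node (nat_lit 1164)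
(.leaf [[nat_lit 421128361397]] [])
(.leaf [[nat_lit 628343489973]] []))
(.node (nat_lit 1166)
(.leaf [[nat_lit 628343489973]] [])
(.leaf [[nat_lit 628343489973]] [])))
(.node (nat_lit 1217)
(.node (nat_lit 1216)
(.leaf [[nat_lit 10976028085], [nat_lit 13089424693], [nat_lit 10924897461]] [])
(.leaf [[nat_lit 10976028085], [nat_lit 13089424693], [nat_lit 10924897461]] []))
(.node (nat_lit 1218)
(.leaf [[nat_lit 10976028085], [nat_lit 13089424693], [nat_lit 10924897461]] [])
(.node (nat_lit 1219)
(.leaf [[nat_lit 10976028085], [nat_lit 13089424693]] [])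
(.leaf [[nat_lit 10976028085], [nat_lit 8811500853]] [])))))))
(.node (nat_lit 1286)
(.node (nat_lit 1228)
(.node (nat_lit 1224)
(.node (nat_lit 1222)
(.node (nat_lit 1221)
(.leaf [[nat_lit 10976028085], [nat_lit 80735159605]] [])
(.leaf [[nat_lit 78621762997], [nat_lit 148380894517]] []))
(.node (nat_lit 1223)
(.leaf [[nat_lit 218191156661], [nat_lit 148380894517]] [])
(.leaf [[nat_lit 285836891573], [nat_lit 216026629429]] [])))
(.node (nat_lit 1226)
(.node (nat_lit 1225)
(.leaf [[nat_lit 285836891573]] [])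
(.leaf [[nat_lit 353482626485]] []))
(.node (nat_lit 1227)
(.leaf [[nat_lit 353482626485]] [])
(.leaf [[nat_lit 560697755061]] []))))
(.node (nat_lit 1281)
(.node (nat_lit 1230)
(.node (nat_lit 1229)
(.leaf [[nat_lit 560697755061]] [])
(.leaf [[nat_lit 628343489973]] []))
(.node (nat_lit 1280)
(.leaf [[nat_lit 10976028085], [nat_lit 13089424693], [nat_lit 10924897461]] [])
(.leaf [[nat_lit 10976028085], [nat_lit 13089424693], [nat_lit 10924897461]] [])))
(.node (nat_lit 1283)
(.node (nat_lit 1282)
(.leaf [[nat_lit 10976028085], [nat_lit 13089424693]] [])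
(.leaf [[nat_lit 10976028085], [nat_lit 13089424693]] []))
(.node (nat_lit 1284)
(.leaf [[nat_lit 10976028085], [nat_lit 13089424693]] [])
(.node (nat_lit 1285)
(.leaf [[nat_lit 10976028085], [nat_lit 80735159605]] [])
(.leaf [[nat_lit 150545421749], [nat_lit 80735159605]] []))))))
(.node (nat_lit 1345)
(.node (nat_lit 1290)
(.node (nat_lit 1288)
(.node (nat_lit 1287)
(.leaf [[nat_lit 218191156661], [nat_lit 148380894517]] [])
(.leaf [[nat_lit 218191156661]] []))
(.node (nat_lit 1289)
(.leaf [[nat_lit 285836891573]] [])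
(.leaf [[nat_lit 285836891573]] [])))
(.node (nat_lit 1292)
(.node (nat_lit 1291)
(.leaf [[nat_lit 493052020149]] [])
(.leaf [[nat_lit 493052020149]] []))
(.node (nat_lit 1293)
(.leaf [[nat_lit 560697755061]] [])
(.node (nat_lit 1344)
(.leaf [[nat_lit 10976028085], [nat_lit 13089424693], [nat_lit 10924897461]] [])
(.leaf [[nat_lit 10976028085], [nat_lit 13089424693]] [])))))
(.node (nat_lit 1349)
(.node (nat_lit 1347)
(.node (nat_lit 1346)
(.leaf [[nat_lit 10976028085], [nat_lit 13089424693]] [])
(.leaf [[nat_lit 10976028085], [nat_lit 13089424693]] []))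
(.node (nat_lit 1348)
(.leaf [[nat_lit 82899686837], [nat_lit 13089424693]] [])
(.leaf [[nat_lit 82899686837], [nat_lit 13089424693]] [])))
(.node (nat_lit 1351)
(.node (nat_lit 1350)
(.leaf [[nat_lit 150545421749], [nat_lit 80735159605]] [])
(.leaf [[nat_lit 150545421749]] []))
(.node (nat_lit 1352)
(.leaf [[nat_lit 218191156661]] [])
(.node (nat_lit 1353)
(.leaf [[nat_lit 218191156661]] [])
(.leaf [[nat_lit 425406285237]] []))))))))
(.node (nat_lit 1545)
(.node (nat_lit 1474)
(.node (nat_lit 1413)
(.node (nat_lit 1409)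
(.node (nat_lit 1356)
(.node (nat_lit 1355)
(.leaf [[nat_lit 425406285237]] [])
(.leaf [[nat_lit 493052020149]] []))
(.node (nat_lit 1408)
(.leaf [[nat_lit 10976028085], [nat_lit 13089424693]] [])
(.leaf [[nat_lit 10976028085], [nat_lit 13089424693]] [])))
(.node (nat_lit 1411)
(.node (nat_lit 1410)
(.leaf [[nat_lit 10976028085], [nat_lit 13089424693]] [])
(.leaf [[nat_lit 82899686837], [nat_lit 13089424693]] []))
(.node (nat_lit 1412)
(.leaf [[nat_lit 82899686837], [nat_lit 13089424693]] [])
(.leaf [[nat_lit 82899686837], [nat_lit 13089424693]] []))))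
(.node (nat_lit 1417)
(.node (nat_lit 1415)
(.node (nat_lit 1414)
(.leaf [[nat_lit 82899686837]] [])
(.leaf [[nat_lit 150545421749]] []))
(.node (nat_lit 1416)
(.leaf [[nat_lit 150545421749]] [])
(.leaf [[nat_lit 218191156661]] [])))
(.node (nat_lit 1419)
(.node (nat_lit 1418)
(.leaf [[nat_lit 425406285237]] [])
(.leaf [[nat_lit 425406285237]] []))
(.node (nat_lit 1472)
(.leaf [[nat_lit 14180210101, nat_lit 13106472373], [nat_lit 13089424693]] [])
(.node (nat_lit 1473)
(.leaf [[nat_lit 14180210101, nat_lit 12032992693], [nat_lit 13089424693]] [])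
(.leaf [[nat_lit 82899686837], [nat_lit 13089424693]] []))))))
(.node (nat_lit 1536)
(.node (nat_lit 1478)
(.node (nat_lit 1476)
(.node (nat_lit 1475)
(.leaf [[nat_lit 82899686837], [nat_lit 13089424693]] [])
(.leaf [[nat_lit 82899686837], [nat_lit 13089424693]] []))
(.node (nat_lit 1477)
(.leaf [[nat_lit 82899686837]] [])
(.leaf [[nat_lit 82899686837]] [])))
(.node (nat_lit 1480)
(.node (nat_lit 1479)
(.leaf [[nat_lit 82899686837]] [])
(.leaf [[nat_lit 150545421749]] []))
(.node (nat_lit 1481)
(.leaf [[nat_lit 150545421749]] [])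
(.node (nat_lit 1482)
(.leaf [[nat_lit 425406285237]] [])
(.leaf [[nat_lit 14180210101, nat_lit 12032992693], [nat_lit 13089424693]] [])))))
(.node (nat_lit 1540)
(.node (nat_lit 1538)
(.node (nat_lit 1537)
(.leaf [[nat_lit 82899686837], [nat_lit 13089424693]] [])
(.leaf [[nat_lit 82899686837], [nat_lit 13089424693]] []))
(.node (nat_lit 1539)
(.leaf [[nat_lit 82899686837], [nat_lit 13089424693]] [])
(.leaf [[nat_lit 82899686837]] [])))
(.node (nat_lit 1542)
(.node (nat_lit 1541)
(.leaf [[nat_lit 82899686837]] [])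
(.leaf [[nat_lit 82899686837]] []))
(.node (nat_lit 1543)
(.leaf [[nat_lit 82899686837]] [])
(.node (nat_lit 1544)
(.leaf [[nat_lit 82899686837]] [])
(.leaf [[nat_lit 150545421749]] [])))))))
(.node (nat_lit 1671)
(.node (nat_lit 1607)
(.node (nat_lit 1603)
(.node (nat_lit 1601)
(.node (nat_lit 1600)
(.leaf [[nat_lit 14180210101, nat_lit 13106472373], [nat_lit 13089424693]] [])
(.leaf [[nat_lit 14180210101, nat_lit 13106472373], [nat_lit 13089424693]] []))
(.node (nat_lit 1602)
(.leaf [[nat_lit 82899686837], [nat_lit 13089424693]] [])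
(.leaf [[nat_lit 82899686837]] [])))
(.node (nat_lit 1605)
(.node (nat_lit 1604)
(.leaf [[nat_lit 82899686837]] [])
(.leaf [[nat_lit 82899686837]] []))
(.node (nat_lit 1606)
(.leaf [[nat_lit 82899686837]] [])
(.leaf [[nat_lit 82899686837]] []))))
(.node (nat_lit 1666)
(.node (nat_lit 1664)
(.node (nat_lit 1608)
(.leaf [[nat_lit 82899686837]] [])
(.leaf [[nat_lit 14180210101, nat_lit 13106472373], [nat_lit 13089424693]] []))
(.node (nat_lit 1665)
(.leaf [[nat_lit 82899686837], [nat_lit 13089424693]] [])
(.leaf [[nat_lit 82899686837]] [])))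
(.node (nat_lit 1668)
(.node (nat_lit 1667)
(.leaf [[nat_lit 82899686837]] [])
(.leaf [[nat_lit 82899686837]] []))
(.node (nat_lit 1669)
(.leaf [[nat_lit 82899686837]] [])
(.node (nat_lit 1670)
(.leaf [[nat_lit 82899686837]] [])
(.leaf [[nat_lit 82899686837]] []))))))
(.node (nat_lit 1793)
(.node (nat_lit 1731)
(.node (nat_lit 1729)
(.node (nat_lit 1728)
(.leaf [[nat_lit 14180210101, nat_lit 13106472373, nat_lit 13089957301], [nat_lit 13089424693]] [])
(.leaf [[nat_lit 82899686837]] []))
(.node (nat_lit 1730)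
(.leaf [[nat_lit 82899686837]] [])
(.leaf [[nat_lit 82899686837]] [])))
(.node (nat_lit 1733)
(.node (nat_lit 1732)
(.leaf [[nat_lit 82899686837]] [])
(.leaf [[nat_lit 82899686837]] []))
(.node (nat_lit 1734)
(.leaf [[nat_lit 82899686837]] [])
(.node (nat_lit 1792)
(.leaf [[nat_lit 14180210101, nat_lit 13106472373]] [])
(.leaf [[nat_lit 82899686837]] [])))))
(.node (nat_lit 1797)
(.node (nat_lit 1795)
(.node (nat_lit 1794)
(.leaf [[nat_lit 82899686837]] [])
(.leaf [[nat_lit 82899686837]] []))
(.node (nat_lit 1796)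
(.leaf [[nat_lit 82899686837]] [])
(.leaf [[nat_lit 82899686837]] [])))
(.node (nat_lit 1857)
(.node (nat_lit 1856)
(.leaf [[nat_lit 14180210101]] [[nat_lit 125100028731426]])
(.leaf [[nat_lit 82899686837]] []))
(.node (nat_lit 1858)
(.leaf [[nat_lit 82899686837]] [])
(.node (nat_lit 1859)
(.leaf [[nat_lit 82899686837]] [])
(.leaf [[nat_lit 82899686837]] []))))))))))

noncomputable def ct31 : Tc :=
(.node (nat_lit 966)
(.node (nat_lit 704)
(.node (nat_lit 454)
(.node (nat_lit 323)
(.node (nat_lit 256)
(.node (nat_lit 129)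
(.node (nat_lit 64)
(.leaf [[nat_lit 136356682, nat_lit 102793934], [nat_lit 102261326], [nat_lit 102261322], [nat_lit 102261318], [nat_lit 82]] [])
(.node (nat_lit 128)
(.leaf [[nat_lit 1244177350, nat_lit 1159238350, nat_lit 1160291146], [nat_lit 1176011466, nat_lit 1160291142, nat_lit 1159238346], [nat_lit 1210094402, nat_lit 1159238342, nat_lit 1210090306], [nat_lit 204522549], [nat_lit 170435509]] [[], [], [nat_lit 9919603917478], [nat_lit 1675448721828], [nat_lit 1675448688674, nat_lit 1675448688802]])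
(.leaf [[nat_lit 69929571146, nat_lit 69896278858], [nat_lit 69929571142, nat_lit 69896278854], [nat_lit 69929571138, nat_lit 205055157], [nat_lit 204522549], [nat_lit 204522545]] [])))
(.node (nat_lit 193)
(.node (nat_lit 192)
(.leaf [[nat_lit 2317919174], [nat_lit 2249753290, nat_lit 2267321158], [nat_lit 2249753286, nat_lit 2267321154], [nat_lit 204522549], [nat_lit 204522545]] [[], [], [], [], [nat_lit 1675448688674]])
(.leaf [[nat_lit 71020618694, nat_lit 70986273610], [nat_lit 255653173], [nat_lit 221570229, nat_lit 205055157], [nat_lit 204522549], [nat_lit 204522545]] []))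
(.node (nat_lit 194)
(.leaf [[nat_lit 139722785610], [nat_lit 139722785606], [nat_lit 139722785602], [nat_lit 204522549], [nat_lit 204522545]] [])
(.leaf [[nat_lit 3374883782, nat_lit 3340538698], [nat_lit 3357573958, nat_lit 3340800838], [nat_lit 3357573954, nat_lit 221570229], [nat_lit 204522549], [nat_lit 204522545]] []))))
(.node (nat_lit 259)
(.node (nat_lit 257)
(.leaf [[nat_lit 72094098374, nat_lit 72026985290], [nat_lit 255653173], [nat_lit 221570229, nat_lit 205055157], [nat_lit 204522549], [nat_lit 204522545]] [])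
(.node (nat_lit 258)
(.leaf [[nat_lit 256185781, nat_lit 140762452810, nat_lit 140762714954], [nat_lit 255653173], [nat_lit 221570229, nat_lit 221566133], [nat_lit 204522549]] [])
(.leaf [[nat_lit 272700853, nat_lit 256185781], [nat_lit 255653173], [nat_lit 70014784693], [nat_lit 204522549]] [])))
(.node (nat_lit 321)
(.node (nat_lit 320)
(.leaf [[nat_lit 4431315786], [nat_lit 4431315782], [nat_lit 4431315778], [nat_lit 204522549]] [[], [], [], [], [nat_lit 18988393734177]])
(.leaf [[nat_lit 256185781, nat_lit 73116717898, nat_lit 73116980042], [nat_lit 255653173], [nat_lit 221570229, nat_lit 221566133], [nat_lit 204522549]] []))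
(.node (nat_lit 322)
(.leaf [[nat_lit 272700853, nat_lit 141836714826], [nat_lit 255653173], [nat_lit 221570229, nat_lit 205055157], [nat_lit 204522549]] [])
(.leaf [[nat_lit 272700853, nat_lit 256185781], [nat_lit 255653173], [nat_lit 70014784693], [nat_lit 204522549]] [])))))
(.node (nat_lit 389)
(.node (nat_lit 385)
(.node (nat_lit 324)
(.leaf [[nat_lit 272700853, nat_lit 256185781], [nat_lit 255653173], [nat_lit 70014784693], [nat_lit 204522549]] [])
(.node (nat_lit 384)
(.leaf [[nat_lit 5471245130, nat_lit 5488812998, nat_lit 5470982986], [nat_lit 255653173], [nat_lit 2369049781], [nat_lit 204522549]] [])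
(.leaf [[nat_lit 272700853, nat_lit 256185781], [nat_lit 255653173], [nat_lit 2369049781], [nat_lit 204522549]] [])))
(.node (nat_lit 387)
(.node (nat_lit 386)
(.leaf [[nat_lit 272700853, nat_lit 256185781], [nat_lit 255653173], [nat_lit 70014784693], [nat_lit 204522549]] [])
(.leaf [[nat_lit 272700853, nat_lit 256185781], [nat_lit 255653173], [nat_lit 70014784693], [nat_lit 204522549]] []))
(.node (nat_lit 388)
(.leaf [[nat_lit 272700853, nat_lit 256185781], [nat_lit 255653173], [nat_lit 70014784693], [nat_lit 204522549]] [])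
(.leaf [[nat_lit 70065915317], [nat_lit 255653173], [nat_lit 70014784693], [nat_lit 204522549]] []))))
(.node (nat_lit 450)
(.node (nat_lit 448)
(.leaf [[nat_lit 6544712398], [nat_lit 6544712394], [nat_lit 6544712390], [nat_lit 204522549]] [])
(.node (nat_lit 449)
(.leaf [[nat_lit 272700853, nat_lit 256185781], [nat_lit 255653173], [nat_lit 2369049781], [nat_lit 204522549]] [])
(.leaf [[nat_lit 272700853, nat_lit 256185781], [nat_lit 255653173], [nat_lit 2369049781], [nat_lit 204522549]] [])))
(.node (nat_lit 452)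
(.node (nat_lit 451)
(.leaf [[nat_lit 272700853, nat_lit 256185781], [nat_lit 255653173], [nat_lit 70014784693], [nat_lit 204522549]] [])
(.leaf [[nat_lit 70065915317], [nat_lit 255653173], [nat_lit 70014784693], [nat_lit 204522549]] []))
(.node (nat_lit 453)
(.leaf [[nat_lit 70065915317], [nat_lit 255653173], [nat_lit 70014784693]] [])
(.leaf [[nat_lit 70065915317], [nat_lit 255653173], [nat_lit 70014784693]] []))))))
(.node (nat_lit 581)
(.node (nat_lit 518)
(.node (nat_lit 514)
(.node (nat_lit 512)
(.leaf [[nat_lit 2420180405], [nat_lit 255653173], [nat_lit 2369049781], [nat_lit 204522549]] [])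
(.node (nat_lit 513)
(.leaf [[nat_lit 2420180405], [nat_lit 255653173], [nat_lit 2369049781], [nat_lit 204522549]] [])
(.leaf [[nat_lit 2420180405], [nat_lit 255653173], [nat_lit 2369049781], [nat_lit 204522549]] [])))
(.node (nat_lit 516)
(.node (nat_lit 515)
(.leaf [[nat_lit 2420180405], [nat_lit 255653173], [nat_lit 2369049781], [nat_lit 204522549]] [])
(.leaf [[nat_lit 70065915317], [nat_lit 255653173], [nat_lit 70014784693]] []))
(.node (nat_lit 517)
(.leaf [[nat_lit 70065915317], [nat_lit 255653173], [nat_lit 70014784693]] [])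
(.leaf [[nat_lit 70065915317], [nat_lit 255653173], [nat_lit 70014784693]] []))))
(.node (nat_lit 577)
(.node (nat_lit 519)
(.leaf [[nat_lit 70065915317], [nat_lit 255653173], [nat_lit 70014784693]] [])
(.node (nat_lit 576)
(.leaf [[nat_lit 2420180405], [nat_lit 255653173], [nat_lit 2369049781], [nat_lit 204522549]] [])
(.leaf [[nat_lit 2420180405], [nat_lit 255653173], [nat_lit 2369049781], [nat_lit 204522549]] [])))
(.node (nat_lit 579)
(.node (nat_lit 578)
(.leaf [[nat_lit 2420180405], [nat_lit 255653173], [nat_lit 2369049781], [nat_lit 204522549]] [])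
(.leaf [[nat_lit 2420180405], [nat_lit 255653173], [nat_lit 2369049781]] []))
(.node (nat_lit 580)
(.leaf [[nat_lit 2420180405], [nat_lit 255653173], [nat_lit 70014784693]] [])
(.leaf [[nat_lit 70065915317], [nat_lit 255653173], [nat_lit 70014784693]] [])))))
(.node (nat_lit 643)
(.node (nat_lit 584)
(.node (nat_lit 582)
(.leaf [[nat_lit 70065915317], [nat_lit 255653173], [nat_lit 70014784693]] [])
(.node (nat_lit 583)
(.leaf [[nat_lit 70065915317], [nat_lit 139825046837], [nat_lit 70014784693]] [])
(.leaf [[nat_lit 70065915317], [nat_lit 139825046837], [nat_lit 70014784693]] [])))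
(.node (nat_lit 641)
(.node (nat_lit 640)
(.leaf [[nat_lit 2420180405], [nat_lit 255653173], [nat_lit 2369049781], [nat_lit 204522549]] [])
(.leaf [[nat_lit 2420180405], [nat_lit 255653173], [nat_lit 2369049781], [nat_lit 204522549]] []))
(.node (nat_lit 642)
(.leaf [[nat_lit 2420180405], [nat_lit 255653173], [nat_lit 2369049781]] [])
(.leaf [[nat_lit 2420180405], [nat_lit 255653173], [nat_lit 2369049781]] []))))
(.node (nat_lit 646)
(.node (nat_lit 644)
(.leaf [[nat_lit 2420180405], [nat_lit 255653173], [nat_lit 2369049781]] [])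
(.node (nat_lit 645)
(.leaf [[nat_lit 70065915317], [nat_lit 255653173], [nat_lit 70014784693]] [])
(.leaf [[nat_lit 70065915317], [nat_lit 139825046837], [nat_lit 70014784693]] [])))
(.node (nat_lit 648)
(.node (nat_lit 647)
(.leaf [[nat_lit 70065915317], [nat_lit 139825046837], [nat_lit 70014784693]] [])
(.leaf [[nat_lit 209635308981], [nat_lit 139825046837]] []))
(.node (nat_lit 649)
(.leaf [[nat_lit 209635308981], [nat_lit 139825046837]] [])
(.leaf [[nat_lit 2420180405], [nat_lit 4533577013], [nat_lit 2369049781], [nat_lit 204522549]] [])))))))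
(.node (nat_lit 837)
(.node (nat_lit 771)
(.node (nat_lit 711)
(.node (nat_lit 707)
(.node (nat_lit 705)
(.leaf [[nat_lit 2420180405], [nat_lit 4533577013], [nat_lit 2369049781]] [])
(.node (nat_lit 706)
(.leaf [[nat_lit 2420180405], [nat_lit 4533577013], [nat_lit 2369049781]] [])
(.leaf [[nat_lit 2420180405], [nat_lit 4533577013], [nat_lit 2369049781]] [])))
(.node (nat_lit 709)
(.node (nat_lit 708)
(.leaf [[nat_lit 2420180405], [nat_lit 72179311925], [nat_lit 2369049781]] [])
(.leaf [[nat_lit 2420180405], [nat_lit 72179311925], [nat_lit 2369049781]] []))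
(.node (nat_lit 710)
(.leaf [[nat_lit 70065915317], [nat_lit 139825046837], [nat_lit 70014784693]] [])
(.leaf [[nat_lit 209635308981], [nat_lit 139825046837]] []))))
(.node (nat_lit 714)
(.node (nat_lit 712)
(.leaf [[nat_lit 209635308981], [nat_lit 139825046837]] [])
(.node (nat_lit 713)
(.leaf [[nat_lit 209635308981], [nat_lit 279394440501]] [])
(.leaf [[nat_lit 209635308981], [nat_lit 279394440501]] [])))
(.node (nat_lit 769)
(.node (nat_lit 768)
(.leaf [[nat_lit 2420180405], [nat_lit 4533577013], [nat_lit 2369049781]] [])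
(.leaf [[nat_lit 2420180405], [nat_lit 4533577013], [nat_lit 2369049781]] []))
(.node (nat_lit 770)
(.leaf [[nat_lit 2420180405], [nat_lit 4533577013], [nat_lit 2369049781]] [])
(.leaf [[nat_lit 2420180405], [nat_lit 4533577013], [nat_lit 2369049781]] [])))))
(.node (nat_lit 778)
(.node (nat_lit 774)
(.node (nat_lit 772)
(.leaf [[nat_lit 2420180405], [nat_lit 4533577013], [nat_lit 2369049781]] [])
(.node (nat_lit 773)
(.leaf [[nat_lit 2420180405], [nat_lit 72179311925], [nat_lit 2369049781]] [])
(.leaf [[nat_lit 141989574069], [nat_lit 72179311925]] [])))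
(.node (nat_lit 776)
(.node (nat_lit 775)
(.leaf [[nat_lit 209635308981], [nat_lit 139825046837]] [])
(.leaf [[nat_lit 209635308981], [nat_lit 139825046837]] []))
(.node (nat_lit 777)
(.leaf [[nat_lit 209635308981], [nat_lit 279394440501]] [])
(.leaf [[nat_lit 349204702645], [nat_lit 279394440501]] []))))
(.node (nat_lit 833)
(.node (nat_lit 779)
(.leaf [[nat_lit 349204702645], [nat_lit 279394440501]] [])
(.node (nat_lit 832)
(.leaf [[nat_lit 6698104245], [nat_lit 4533577013], [nat_lit 6646973621]] [])
(.leaf [[nat_lit 6698104245], [nat_lit 4533577013], [nat_lit 6646973621]] [])))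
(.node (nat_lit 835)
(.node (nat_lit 834)
(.leaf [[nat_lit 6698104245], [nat_lit 4533577013], [nat_lit 2369049781]] [])
(.leaf [[nat_lit 6698104245], [nat_lit 4533577013], [nat_lit 2369049781]] []))
(.node (nat_lit 836)
(.leaf [[nat_lit 74343839157], [nat_lit 4533577013], [nat_lit 2369049781]] [])
(.leaf [[nat_lit 74343839157], [nat_lit 4533577013]] []))))))
(.node (nat_lit 902)
(.node (nat_lit 844)
(.node (nat_lit 840)
(.node (nat_lit 838)
(.leaf [[nat_lit 141989574069], [nat_lit 72179311925]] [])
(.node (nat_lit 839)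
(.leaf [[nat_lit 141989574069], [nat_lit 72179311925]] [])
(.leaf [[nat_lit 209635308981], [nat_lit 279394440501]] [])))
(.node (nat_lit 842)
(.node (nat_lit 841)
(.leaf [[nat_lit 349204702645], [nat_lit 279394440501]] [])
(.leaf [[nat_lit 349204702645], [nat_lit 279394440501]] []))
(.node (nat_lit 843)
(.leaf [[nat_lit 349204702645]] [])
(.leaf [[nat_lit 349204702645]] []))))
(.node (nat_lit 898)
(.node (nat_lit 896)
(.leaf [[nat_lit 6698104245], [nat_lit 4533577013], [nat_lit 6646973621]] [])
(.node (nat_lit 897)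
(.leaf [[nat_lit 6698104245], [nat_lit 4533577013], [nat_lit 6646973621]] [])
(.leaf [[nat_lit 6698104245], [nat_lit 4533577013], [nat_lit 6646973621]] [])))
(.node (nat_lit 900)
(.node (nat_lit 899)
(.leaf [[nat_lit 6698104245], [nat_lit 4533577013], [nat_lit 6646973621]] [])
(.leaf [[nat_lit 6698104245], [nat_lit 4533577013]] []))
(.node (nat_lit 901)
(.leaf [[nat_lit 74343839157], [nat_lit 4533577013]] [])
(.leaf [[nat_lit 74343839157], [nat_lit 4533577013]] [])))))
(.node (nat_lit 909)
(.node (nat_lit 905)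
(.node (nat_lit 903)
(.leaf [[nat_lit 141989574069], [nat_lit 211748705589]] [])
(.node (nat_lit 904)
(.leaf [[nat_lit 281558967733], [nat_lit 211748705589]] [])
(.leaf [[nat_lit 349204702645], [nat_lit 279394440501]] [])))
(.node (nat_lit 907)
(.node (nat_lit 906)
(.leaf [[nat_lit 349204702645]] [])
(.leaf [[nat_lit 349204702645]] []))
(.node (nat_lit 908)
(.leaf [[nat_lit 488774096309]] [])
(.leaf [[nat_lit 488774096309]] []))))
(.node (nat_lit 962)
(.node (nat_lit 960)
(.leaf [[nat_lit 6698104245], [nat_lit 8811500853], [nat_lit 6646973621]] [])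
(.node (nat_lit 961)
(.leaf [[nat_lit 6698104245], [nat_lit 8811500853], [nat_lit 6646973621]] [])
(.leaf [[nat_lit 6698104245], [nat_lit 8811500853], [nat_lit 6646973621]] [])))
(.node (nat_lit 964)
(.node (nat_lit 963)
(.leaf [[nat_lit 6698104245], [nat_lit 8811500853]] [])
(.leaf [[nat_lit 6698104245], [nat_lit 4533577013]] []))
(.node (nat_lit 965)
(.leaf [[nat_lit 6698104245], [nat_lit 76457235765]] [])
(.leaf [[nat_lit 74343839157], [nat_lit 144102970677]] []))))))))
(.node (nat_lit 1224)
(.node (nat_lit 1093)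
(.node (nat_lit 1029)
(.node (nat_lit 973)
(.node (nat_lit 969)
(.node (nat_lit 967)
(.leaf [[nat_lit 213913232821], [nat_lit 144102970677]] [])
(.node (nat_lit 968)
(.leaf [[nat_lit 281558967733], [nat_lit 211748705589]] [])
(.leaf [[nat_lit 281558967733]] [])))
(.node (nat_lit 971)
(.node (nat_lit 970)
(.leaf [[nat_lit 349204702645]] [])
(.leaf [[nat_lit 349204702645]] []))
(.node (nat_lit 972)
(.leaf [[nat_lit 488774096309]] [])
(.leaf [[nat_lit 488774096309]] []))))
(.node (nat_lit 1025)
(.node (nat_lit 974)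
(.leaf [[nat_lit 488774096309]] [])
(.node (nat_lit 1024)
(.leaf [[nat_lit 6698104245], [nat_lit 8811500853], [nat_lit 6646973621]] [])
(.leaf [[nat_lit 6698104245], [nat_lit 8811500853], [nat_lit 6646973621]] [])))
(.node (nat_lit 1027)
(.node (nat_lit 1026)
(.leaf [[nat_lit 6698104245], [nat_lit 8811500853]] [])
(.leaf [[nat_lit 6698104245], [nat_lit 8811500853]] []))
(.node (nat_lit 1028)
(.leaf [[nat_lit 6698104245], [nat_lit 8811500853]] [])
(.leaf [[nat_lit 6698104245], [nat_lit 76457235765]] [])))))
(.node (nat_lit 1036)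
(.node (nat_lit 1032)
(.node (nat_lit 1030)
(.leaf [[nat_lit 146267497909], [nat_lit 76457235765]] [])
(.node (nat_lit 1031)
(.leaf [[nat_lit 213913232821], [nat_lit 144102970677]] [])
(.leaf [[nat_lit 213913232821]] [])))
(.node (nat_lit 1034)
(.node (nat_lit 1033)
(.leaf [[nat_lit 281558967733]] [])
(.leaf [[nat_lit 281558967733]] []))
(.node (nat_lit 1035)
(.leaf [[nat_lit 488774096309]] [])
(.leaf [[nat_lit 488774096309]] []))))
(.node (nat_lit 1089)
(.node (nat_lit 1037)
(.leaf [[nat_lit 488774096309]] [])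
(.node (nat_lit 1088)
(.leaf [[nat_lit 10976028085], [nat_lit 8811500853], [nat_lit 6646973621]] [])
(.leaf [[nat_lit 10976028085], [nat_lit 8811500853]] [])))
(.node (nat_lit 1091)
(.node (nat_lit 1090)
(.leaf [[nat_lit 10976028085], [nat_lit 8811500853]] [])
(.leaf [[nat_lit 10976028085], [nat_lit 8811500853]] []))
(.node (nat_lit 1092)
(.leaf [[nat_lit 78621762997], [nat_lit 8811500853]] [])
(.leaf [[nat_lit 78621762997], [nat_lit 8811500853]] []))))))
(.node (nat_lit 1158)
(.node (nat_lit 1100)
(.node (nat_lit 1096)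
(.node (nat_lit 1094)
(.leaf [[nat_lit 146267497909], [nat_lit 76457235765]] [])
(.node (nat_lit 1095)
(.leaf [[nat_lit 146267497909]] [])
(.leaf [[nat_lit 213913232821]] [])))
(.node (nat_lit 1098)
(.node (nat_lit 1097)
(.leaf [[nat_lit 213913232821]] [])
(.leaf [[nat_lit 421128361397]] []))
(.node (nat_lit 1099)
(.leaf [[nat_lit 421128361397]] [])
(.leaf [[nat_lit 488774096309]] []))))
(.node (nat_lit 1154)
(.node (nat_lit 1152)
(.leaf [[nat_lit 10976028085], [nat_lit 8811500853]] [])
(.node (nat_lit 1153)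
(.leaf [[nat_lit 10976028085], [nat_lit 8811500853]] [])
(.leaf [[nat_lit 10976028085], [nat_lit 8811500853]] [])))
(.node (nat_lit 1156)
(.node (nat_lit 1155)
(.leaf [[nat_lit 10976028085], [nat_lit 8811500853]] [])
(.leaf [[nat_lit 10976028085], [nat_lit 8811500853]] []))
(.node (nat_lit 1157)
(.leaf [[nat_lit 78621762997], [nat_lit 8811500853]] [])
(.leaf [[nat_lit 78621762997]] [])))))
(.node (nat_lit 1217)
(.node (nat_lit 1161)
(.node (nat_lit 1159)
(.leaf [[nat_lit 146267497909]] [])
(.node (nat_lit 1160)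
(.leaf [[nat_lit 146267497909]] [])
(.leaf [[nat_lit 353482626485]] [])))
(.node (nat_lit 1163)
(.node (nat_lit 1162)
(.leaf [[nat_lit 353482626485]] [])
(.leaf [[nat_lit 421128361397]] []))
(.node (nat_lit 1216)
(.leaf [[nat_lit 10976028085], [nat_lit 13089424693]] [])
(.leaf [[nat_lit 10976028085], [nat_lit 13089424693]] []))))
(.node (nat_lit 1220)
(.node (nat_lit 1218)
(.leaf [[nat_lit 10976028085], [nat_lit 8811500853]] [])
(.node (nat_lit 1219)
(.leaf [[nat_lit 10976028085], [nat_lit 8811500853]] [])
(.leaf [[nat_lit 10976028085], [nat_lit 8811500853]] [])))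
(.node (nat_lit 1222)
(.node (nat_lit 1221)
(.leaf [[nat_lit 10976028085]] [])
(.leaf [[nat_lit 78621762997]] []))
(.node (nat_lit 1223)
(.leaf [[nat_lit 78621762997]] [])
(.leaf [[nat_lit 285836891573]] [])))))))
(.node (nat_lit 1414)
(.node (nat_lit 1345)
(.node (nat_lit 1284)
(.node (nat_lit 1280)
(.node (nat_lit 1225)
(.leaf [[nat_lit 285836891573]] [])
(.node (nat_lit 1226)
(.leaf [[nat_lit 353482626485]] [])
(.leaf [[nat_lit 10976028085], [nat_lit 13089424693]] [])))
(.node (nat_lit 1282)
(.node (nat_lit 1281)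
(.leaf [[nat_lit 10976028085], [nat_lit 13089424693]] [])
(.leaf [[nat_lit 10976028085], [nat_lit 13089424693]] []))
(.node (nat_lit 1283)
(.leaf [[nat_lit 10976028085], [nat_lit 13089424693]] [])
(.leaf [[nat_lit 10976028085]] []))))
(.node (nat_lit 1287)
(.node (nat_lit 1285)
(.leaf [[nat_lit 10976028085]] [])
(.node (nat_lit 1286)
(.leaf [[nat_lit 10976028085]] [])
(.leaf [[nat_lit 218191156661]] [])))
(.node (nat_lit 1289)
(.node (nat_lit 1288)
(.leaf [[nat_lit 218191156661]] [])
(.leaf [[nat_lit 285836891573]] []))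
(.node (nat_lit 1344)
(.leaf [[nat_lit 10976028085], [nat_lit 13089424693]] [])
(.leaf [[nat_lit 10976028085], [nat_lit 13089424693]] [])))))
(.node (nat_lit 1352)
(.node (nat_lit 1348)
(.node (nat_lit 1346)
(.leaf [[nat_lit 10976028085], [nat_lit 13089424693]] [])
(.node (nat_lit 1347)
(.leaf [[nat_lit 10976028085]] [])
(.leaf [[nat_lit 10976028085]] [])))
(.node (nat_lit 1350)
(.node (nat_lit 1349)
(.leaf [[nat_lit 82899686837]] [])
(.leaf [[nat_lit 150545421749]] []))
(.node (nat_lit 1351)
(.leaf [[nat_lit 150545421749]] [])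
(.leaf [[nat_lit 218191156661]] []))))
(.node (nat_lit 1410)
(.node (nat_lit 1408)
(.leaf [[nat_lit 10976028085], [nat_lit 13089424693]] [])
(.node (nat_lit 1409)
(.leaf [[nat_lit 10976028085], [nat_lit 13089424693]] [])
(.leaf [[nat_lit 10976028085]] [])))
(.node (nat_lit 1412)
(.node (nat_lit 1411)
(.leaf [[nat_lit 82899686837]] [])
(.leaf [[nat_lit 82899686837]] []))
(.node (nat_lit 1413)
(.leaf [[nat_lit 82899686837]] [])
(.leaf [[nat_lit 82899686837]] []))))))
(.node (nat_lit 1541)
(.node (nat_lit 1477)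
(.node (nat_lit 1473)
(.node (nat_lit 1415)
(.leaf [[nat_lit 150545421749]] [])
(.node (nat_lit 1472)
(.leaf [[nat_lit 10976028085], [nat_lit 13089424693]] [])
(.leaf [[nat_lit 10976028085]] [])))
(.node (nat_lit 1475)
(.node (nat_lit 1474)
(.leaf [[nat_lit 82899686837]] [])
(.leaf [[nat_lit 82899686837]] []))
(.node (nat_lit 1476)
(.leaf [[nat_lit 82899686837]] [])
(.leaf [[nat_lit 82899686837]] []))))
(.node (nat_lit 1537)
(.node (nat_lit 1478)
(.leaf [[nat_lit 82899686837]] [])
(.node (nat_lit 1536)
(.leaf [[nat_lit 10976028085]] [])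
(.leaf [[nat_lit 14180210101, nat_lit 13106472373]] [])))
(.node (nat_lit 1539)
(.node (nat_lit 1538)
(.leaf [[nat_lit 82899686837]] [])
(.leaf [[nat_lit 82899686837]] []))
(.node (nat_lit 1540)
(.leaf [[nat_lit 82899686837]] [])
(.leaf [[nat_lit 82899686837]] [])))))
(.node (nat_lit 1665)
(.node (nat_lit 1602)
(.node (nat_lit 1600)
(.leaf [[nat_lit 14180210101, nat_lit 13106472373]] [])
(.node (nat_lit 1601)
(.leaf [[nat_lit 82899686837]] [])
(.leaf [[nat_lit 82899686837]] [])))
(.node (nat_lit 1604)
(.node (nat_lit 1603)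
(.leaf [[nat_lit 82899686837]] [])
(.leaf [[nat_lit 82899686837]] []))
(.node (nat_lit 1664)
(.leaf [[nat_lit 14180210101, nat_lit 12032992693]] [])
(.leaf [[nat_lit 82899686837]] []))))
(.node (nat_lit 1729)
(.node (nat_lit 1667)
(.node (nat_lit 1666)
(.leaf [[nat_lit 82899686837]] [])
(.leaf [[nat_lit 82899686837]] []))
(.node (nat_lit 1728)
(.leaf [[nat_lit 14180210101, nat_lit 13106472373]] [])
(.leaf [[nat_lit 14180210101]] [])))
(.node (nat_lit 1792)
(.node (nat_lit 1730)
(.leaf [[nat_lit 82899686837]] [])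
(.leaf [[nat_lit 14180210101]] []))
(.node (nat_lit 1793)
(.leaf [[nat_lit 82899686837]] [])
(.leaf [] [[nat_lit 40993]])))))))))

noncomputable def ct32 : Tc :=
(.node (nat_lit 837)
(.node (nat_lit 581)
(.node (nat_lit 389)
(.node (nat_lit 259)
(.node (nat_lit 193)
(.node (nat_lit 128)
(.node (nat_lit 64)
(.leaf [[nat_lit 136356682, nat_lit 102793934], [nat_lit 102261326], [nat_lit 102261322], [nat_lit 86], [nat_lit 82]] [])
(.leaf [[nat_lit 1210094410, nat_lit 1160291146, nat_lit 1159238350], [nat_lit 1176011466, nat_lit 1210889154, nat_lit 1159238346], [nat_lit 1244177342, nat_lit 1159238342], [nat_lit 204522549]] [[], [], [nat_lit 10334102831526], [nat_lit 1675448721572]]))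
(.node (nat_lit 129)
(.leaf [[nat_lit 69929571146, nat_lit 69896278858], [nat_lit 69929571142, nat_lit 69946876866], [nat_lit 69929571138, nat_lit 205055157], [nat_lit 204522549]] [])
(.node (nat_lit 192)
(.leaf [[nat_lit 2249753294, nat_lit 2267321162], [nat_lit 2249753290, nat_lit 2267321158], [nat_lit 2317919166], [nat_lit 204522549]] [])
(.leaf [[nat_lit 71020618694, nat_lit 70986273610], [nat_lit 255653173], [nat_lit 221570229, nat_lit 205055157], [nat_lit 204522549]] []))))
(.node (nat_lit 256)
(.node (nat_lit 194)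
(.leaf [[nat_lit 139722785610], [nat_lit 139722785606], [nat_lit 139722785602], [nat_lit 204522549]] [])
(.leaf [[nat_lit 3357573962, nat_lit 3340800842, nat_lit 3324285770], [nat_lit 3357573958, nat_lit 3340800838, nat_lit 3324285766], [nat_lit 3357573954, nat_lit 221570229], [nat_lit 204522549]] [[], [], [nat_lit 1679811846565]]))
(.node (nat_lit 257)
(.leaf [[nat_lit 72094098374, nat_lit 72060273482], [nat_lit 255653173], [nat_lit 221570229, nat_lit 221566133], [nat_lit 204522549]] [])
(.node (nat_lit 258)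
(.leaf [[nat_lit 272700853, nat_lit 140762973002], [nat_lit 255653173], [nat_lit 70014784693], [nat_lit 204522549]] [])
(.leaf [[nat_lit 272700853, nat_lit 256185781], [nat_lit 255653173], [nat_lit 70014784693], [nat_lit 204522549]] [])))))
(.node (nat_lit 324)
(.node (nat_lit 321)
(.node (nat_lit 320)
(.leaf [[nat_lit 4431315786], [nat_lit 4431315782], [nat_lit 4431315778], [nat_lit 204522549]] [])
(.leaf [[nat_lit 272700853, nat_lit 73117238090], [nat_lit 255653173], [nat_lit 2369049781], [nat_lit 204522549]] []))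
(.node (nat_lit 322)
(.leaf [[nat_lit 272700853, nat_lit 141836714826], [nat_lit 255653173], [nat_lit 70014784693], [nat_lit 204522549]] [])
(.node (nat_lit 323)
(.leaf [[nat_lit 272700853, nat_lit 272696757], [nat_lit 255653173], [nat_lit 70014784693]] [])
(.leaf [[nat_lit 272700853, nat_lit 256185781], [nat_lit 255653173], [nat_lit 70014784693]] []))))
(.node (nat_lit 386)
(.node (nat_lit 384)
(.leaf [[nat_lit 5471245130, nat_lit 5471503178, nat_lit 5470982986], [nat_lit 255653173], [nat_lit 2369049781], [nat_lit 204522549]] [])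
(.node (nat_lit 385)
(.leaf [[nat_lit 272700853, nat_lit 256185781], [nat_lit 255653173], [nat_lit 2369049781], [nat_lit 204522549]] [])
(.leaf [[nat_lit 272700853, nat_lit 272696757], [nat_lit 255653173], [nat_lit 70014784693]] [])))
(.node (nat_lit 387)
(.leaf [[nat_lit 272700853, nat_lit 256185781], [nat_lit 255653173], [nat_lit 70014784693]] [])
(.node (nat_lit 388)
(.leaf [[nat_lit 70065915317], [nat_lit 255653173], [nat_lit 70014784693]] [])
(.leaf [[nat_lit 70065915317], [nat_lit 255653173], [nat_lit 70014784693]] []))))))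
(.node (nat_lit 514)
(.node (nat_lit 452)
(.node (nat_lit 449)
(.node (nat_lit 448)
(.leaf [[nat_lit 6595843014], [nat_lit 6544712394], [nat_lit 6544712390], [nat_lit 204522549]] [])
(.leaf [[nat_lit 272700853, nat_lit 1346438581], [nat_lit 255653173], [nat_lit 2369049781]] []))
(.node (nat_lit 450)
(.leaf [[nat_lit 272700853, nat_lit 1346438581], [nat_lit 255653173], [nat_lit 2369049781]] [])
(.node (nat_lit 451)
(.leaf [[nat_lit 70065915317], [nat_lit 255653173], [nat_lit 70014784693]] [])
(.leaf [[nat_lit 70065915317], [nat_lit 255653173], [nat_lit 70014784693]] []))))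
(.node (nat_lit 454)
(.node (nat_lit 453)
(.leaf [[nat_lit 70065915317], [nat_lit 255653173], [nat_lit 70014784693]] [])
(.leaf [[nat_lit 70065915317], [nat_lit 255653173], [nat_lit 70014784693]] []))
(.node (nat_lit 512)
(.leaf [[nat_lit 2420180405], [nat_lit 255653173], [nat_lit 2369049781]] [])
(.node (nat_lit 513)
(.leaf [[nat_lit 2420180405], [nat_lit 255653173], [nat_lit 2369049781]] [])
(.leaf [[nat_lit 2420180405], [nat_lit 255653173], [nat_lit 2369049781]] [])))))
(.node (nat_lit 519)
(.node (nat_lit 516)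
(.node (nat_lit 515)
(.leaf [[nat_lit 2420180405], [nat_lit 255653173], [nat_lit 2369049781]] [])
(.leaf [[nat_lit 70065915317], [nat_lit 255653173], [nat_lit 70014784693]] []))
(.node (nat_lit 517)
(.leaf [[nat_lit 70065915317], [nat_lit 255653173], [nat_lit 70014784693]] [])
(.node (nat_lit 518)
(.leaf [[nat_lit 70065915317], [nat_lit 255653173]] [])
(.leaf [[nat_lit 70065915317], [nat_lit 255653173]] []))))
(.node (nat_lit 578)
(.node (nat_lit 576)
(.leaf [[nat_lit 2420180405], [nat_lit 255653173], [nat_lit 2369049781]] [])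
(.node (nat_lit 577)
(.leaf [[nat_lit 2420180405], [nat_lit 255653173], [nat_lit 2369049781]] [])
(.leaf [[nat_lit 2420180405], [nat_lit 255653173], [nat_lit 2369049781]] [])))
(.node (nat_lit 579)
(.leaf [[nat_lit 2420180405], [nat_lit 255653173], [nat_lit 2369049781]] [])
(.node (nat_lit 580)
(.leaf [[nat_lit 70065915317], [nat_lit 255653173], [nat_lit 70014784693]] [])
(.leaf [[nat_lit 70065915317], [nat_lit 255653173]] [])))))))
(.node (nat_lit 711)
(.node (nat_lit 646)
(.node (nat_lit 641)
(.node (nat_lit 583)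
(.node (nat_lit 582)
(.leaf [[nat_lit 70065915317], [nat_lit 255653173]] [])
(.leaf [[nat_lit 70065915317], [nat_lit 139825046837]] []))
(.node (nat_lit 584)
(.leaf [[nat_lit 70065915317], [nat_lit 139825046837]] [])
(.node (nat_lit 640)
(.leaf [[nat_lit 2420180405], [nat_lit 255653173], [nat_lit 2369049781]] [])
(.leaf [[nat_lit 2420180405], [nat_lit 255653173], [nat_lit 2369049781]] []))))
(.node (nat_lit 643)
(.node (nat_lit 642)
(.leaf [[nat_lit 2420180405], [nat_lit 255653173], [nat_lit 2369049781]] [])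
(.leaf [[nat_lit 2420180405], [nat_lit 255653173], [nat_lit 2369049781]] []))
(.node (nat_lit 644)
(.leaf [[nat_lit 2420180405], [nat_lit 255653173]] [])
(.node (nat_lit 645)
(.leaf [[nat_lit 70065915317], [nat_lit 255653173]] [])
(.leaf [[nat_lit 70065915317], [nat_lit 255653173]] [])))))
(.node (nat_lit 705)
(.node (nat_lit 648)
(.node (nat_lit 647)
(.leaf [[nat_lit 70065915317], [nat_lit 139825046837]] [])
(.leaf [[nat_lit 209635308981], [nat_lit 139825046837]] []))
(.node (nat_lit 649)
(.leaf [[nat_lit 209635308981], [nat_lit 139825046837]] [])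
(.node (nat_lit 704)
(.leaf [[nat_lit 2420180405], [nat_lit 4533577013], [nat_lit 2369049781]] [])
(.leaf [[nat_lit 2420180405], [nat_lit 4533577013], [nat_lit 2369049781]] []))))
(.node (nat_lit 708)
(.node (nat_lit 706)
(.leaf [[nat_lit 2420180405], [nat_lit 4533577013], [nat_lit 2369049781]] [])
(.node (nat_lit 707)
(.leaf [[nat_lit 2420180405], [nat_lit 4533577013]] [])
(.leaf [[nat_lit 2420180405], [nat_lit 255653173]] [])))
(.node (nat_lit 709)
(.leaf [[nat_lit 2420180405], [nat_lit 72179311925]] [])
(.node (nat_lit 710)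
(.leaf [[nat_lit 70065915317], [nat_lit 139825046837]] [])
(.leaf [[nat_lit 209635308981], [nat_lit 139825046837]] []))))))
(.node (nat_lit 774)
(.node (nat_lit 769)
(.node (nat_lit 713)
(.node (nat_lit 712)
(.leaf [[nat_lit 209635308981], [nat_lit 139825046837]] [])
(.leaf [[nat_lit 209635308981]] []))
(.node (nat_lit 714)
(.leaf [[nat_lit 209635308981]] [])
(.node (nat_lit 768)
(.leaf [[nat_lit 2420180405], [nat_lit 4533577013], [nat_lit 2369049781]] [])
(.leaf [[nat_lit 2420180405], [nat_lit 4533577013], [nat_lit 2369049781]] []))))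
(.node (nat_lit 771)
(.node (nat_lit 770)
(.leaf [[nat_lit 2420180405], [nat_lit 4533577013]] [])
(.leaf [[nat_lit 2420180405], [nat_lit 4533577013]] []))
(.node (nat_lit 772)
(.leaf [[nat_lit 2420180405], [nat_lit 4533577013]] [])
(.node (nat_lit 773)
(.leaf [[nat_lit 2420180405], [nat_lit 72179311925]] [])
(.leaf [[nat_lit 141989574069], [nat_lit 72179311925]] [])))))
(.node (nat_lit 779)
(.node (nat_lit 776)
(.node (nat_lit 775)
(.leaf [[nat_lit 209635308981], [nat_lit 139825046837]] [])
(.leaf [[nat_lit 209635308981]] []))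
(.node (nat_lit 777)
(.leaf [[nat_lit 209635308981]] [])
(.node (nat_lit 778)
(.leaf [[nat_lit 349204702645]] [])
(.leaf [[nat_lit 349204702645]] []))))
(.node (nat_lit 834)
(.node (nat_lit 832)
(.leaf [[nat_lit 6698104245], [nat_lit 4533577013], [nat_lit 2369049781]] [])
(.node (nat_lit 833)
(.leaf [[nat_lit 6698104245], [nat_lit 4533577013]] [])
(.leaf [[nat_lit 6698104245], [nat_lit 4533577013]] [])))
(.node (nat_lit 835)
(.leaf [[nat_lit 6698104245], [nat_lit 4533577013]] [])
(.node (nat_lit 836)
(.leaf [[nat_lit 74343839157], [nat_lit 4533577013]] [])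
(.leaf [[nat_lit 74343839157], [nat_lit 4533577013]] []))))))))
(.node (nat_lit 1089)
(.node (nat_lit 961)
(.node (nat_lit 898)
(.node (nat_lit 842)
(.node (nat_lit 839)
(.node (nat_lit 838)
(.leaf [[nat_lit 141989574069], [nat_lit 72179311925]] [])
(.leaf [[nat_lit 141989574069]] []))
(.node (nat_lit 840)
(.leaf [[nat_lit 209635308981]] [])
(.node (nat_lit 841)
(.leaf [[nat_lit 209635308981]] [])
(.leaf [[nat_lit 349204702645]] []))))
(.node (nat_lit 844)
(.node (nat_lit 843)
(.leaf [[nat_lit 349204702645]] [])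
(.leaf [[nat_lit 349204702645]] []))
(.node (nat_lit 896)
(.leaf [[nat_lit 6698104245], [nat_lit 4533577013]] [])
(.node (nat_lit 897)
(.leaf [[nat_lit 6698104245], [nat_lit 4533577013]] [])
(.leaf [[nat_lit 6698104245], [nat_lit 4533577013]] [])))))
(.node (nat_lit 903)
(.node (nat_lit 900)
(.node (nat_lit 899)
(.leaf [[nat_lit 6698104245], [nat_lit 4533577013]] [])
(.leaf [[nat_lit 6698104245], [nat_lit 4533577013]] []))
(.node (nat_lit 901)
(.leaf [[nat_lit 74343839157], [nat_lit 4533577013]] [])
(.node (nat_lit 902)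
(.leaf [[nat_lit 74343839157]] [])
(.leaf [[nat_lit 141989574069]] []))))
(.node (nat_lit 906)
(.node (nat_lit 904)
(.leaf [[nat_lit 141989574069]] [])
(.node (nat_lit 905)
(.leaf [[nat_lit 349204702645]] [])
(.leaf [[nat_lit 349204702645]] [])))
(.node (nat_lit 907)
(.leaf [[nat_lit 349204702645]] [])
(.node (nat_lit 960)
(.leaf [[nat_lit 6698104245], [nat_lit 8811500853]] [])
(.leaf [[nat_lit 6698104245], [nat_lit 8811500853]] []))))))
(.node (nat_lit 1024)
(.node (nat_lit 966)
(.node (nat_lit 963)
(.node (nat_lit 962)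
(.leaf [[nat_lit 6698104245], [nat_lit 4533577013]] [])
(.leaf [[nat_lit 6698104245], [nat_lit 4533577013]] []))
(.node (nat_lit 964)
(.leaf [[nat_lit 6698104245], [nat_lit 4533577013]] [])
(.node (nat_lit 965)
(.leaf [[nat_lit 6698104245]] [])
(.leaf [[nat_lit 74343839157]] []))))
(.node (nat_lit 968)
(.node (nat_lit 967)
(.leaf [[nat_lit 74343839157]] [])
(.leaf [[nat_lit 281558967733]] []))
(.node (nat_lit 969)
(.leaf [[nat_lit 281558967733]] [])
(.node (nat_lit 970)
(.leaf [[nat_lit 349204702645]] [])
(.leaf [[nat_lit 6698104245], [nat_lit 8811500853]] [])))))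
(.node (nat_lit 1029)
(.node (nat_lit 1026)
(.node (nat_lit 1025)
(.leaf [[nat_lit 6698104245], [nat_lit 8811500853]] [])
(.leaf [[nat_lit 6698104245], [nat_lit 8811500853]] []))
(.node (nat_lit 1027)
(.leaf [[nat_lit 6698104245], [nat_lit 8811500853]] [])
(.node (nat_lit 1028)
(.leaf [[nat_lit 6698104245]] [])
(.leaf [[nat_lit 6698104245]] []))))
(.node (nat_lit 1032)
(.node (nat_lit 1030)
(.leaf [[nat_lit 6698104245]] [])
(.node (nat_lit 1031)
(.leaf [[nat_lit 213913232821]] [])
(.leaf [[nat_lit 213913232821]] [])))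
(.node (nat_lit 1033)
(.leaf [[nat_lit 281558967733]] [])
(.node (nat_lit 1088)
(.leaf [[nat_lit 10976028085], [nat_lit 8811500853]] [])
(.leaf [[nat_lit 10976028085], [nat_lit 8811500853]] [])))))))
(.node (nat_lit 1221)
(.node (nat_lit 1154)
(.node (nat_lit 1094)
(.node (nat_lit 1091)
(.node (nat_lit 1090)
(.leaf [[nat_lit 10976028085], [nat_lit 8811500853]] [])
(.leaf [[nat_lit 10976028085]] []))
(.node (nat_lit 1092)
(.leaf [[nat_lit 6698104245]] [])
(.node (nat_lit 1093)
(.leaf [[nat_lit 78621762997]] [])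
(.leaf [[nat_lit 146267497909]] []))))
(.node (nat_lit 1096)
(.node (nat_lit 1095)
(.leaf [[nat_lit 146267497909]] [])
(.leaf [[nat_lit 213913232821]] []))
(.node (nat_lit 1152)
(.leaf [[nat_lit 10976028085], [nat_lit 8811500853]] [])
(.node (nat_lit 1153)
(.leaf [[nat_lit 10976028085], [nat_lit 8811500853]] [])
(.leaf [[nat_lit 10976028085]] [])))))
(.node (nat_lit 1159)
(.node (nat_lit 1156)
(.node (nat_lit 1155)
(.leaf [[nat_lit 10976028085]] [])
(.leaf [[nat_lit 10976028085]] []))
(.node (nat_lit 1157)
(.leaf [[nat_lit 78621762997]] [])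
(.node (nat_lit 1158)
(.leaf [[nat_lit 78621762997]] [])
(.leaf [[nat_lit 146267497909]] []))))
(.node (nat_lit 1218)
(.node (nat_lit 1216)
(.leaf [[nat_lit 10976028085], [nat_lit 8811500853]] [])
(.node (nat_lit 1217)
(.leaf [[nat_lit 10976028085]] [])
(.leaf [[nat_lit 10976028085]] [])))
(.node (nat_lit 1219)
(.leaf [[nat_lit 10976028085]] [])
(.node (nat_lit 1220)
(.leaf [[nat_lit 10976028085]] [])
(.leaf [[nat_lit 10976028085]] []))))))
(.node (nat_lit 1347)
(.node (nat_lit 1283)
(.node (nat_lit 1280)
(.node (nat_lit 1222)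
(.leaf [[nat_lit 78621762997]] [])
(.leaf [[nat_lit 10976028085]] []))
(.node (nat_lit 1281)
(.leaf [[nat_lit 10976028085]] [])
(.node (nat_lit 1282)
(.leaf [[nat_lit 10976028085]] [])
(.leaf [[nat_lit 10976028085]] []))))
(.node (nat_lit 1344)
(.node (nat_lit 1284)
(.leaf [[nat_lit 10976028085]] [])
(.node (nat_lit 1285)
(.leaf [[nat_lit 10976028085]] [])
(.leaf [[nat_lit 10976028085]] [])))
(.node (nat_lit 1345)
(.leaf [[nat_lit 10976028085]] [])
(.node (nat_lit 1346)
(.leaf [[nat_lit 10976028085]] [])
(.leaf [[nat_lit 10976028085]] [])))))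
(.node (nat_lit 1411)
(.node (nat_lit 1408)
(.node (nat_lit 1348)
(.leaf [[nat_lit 10976028085]] [])
(.leaf [[nat_lit 10976028085]] []))
(.node (nat_lit 1409)
(.leaf [[nat_lit 10976028085]] [])
(.node (nat_lit 1410)
(.leaf [[nat_lit 10976028085]] [])
(.leaf [[nat_lit 82899686837]] []))))
(.node (nat_lit 1474)
(.node (nat_lit 1472)
(.leaf [[nat_lit 10976028085]] [])
(.node (nat_lit 1473)
(.leaf [[nat_lit 10976028085]] [])
(.leaf [[nat_lit 82899686837]] [])))
(.node (nat_lit 1536)
(.leaf [[nat_lit 14180210101]] [])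
(.node (nat_lit 1537)
(.leaf [[nat_lit 10976028085]] [])
(.leaf [[nat_lit 10976028085]] [])))))))))

noncomputable def ct33 : Tc :=
(.node (nat_lit 708)
(.node (nat_lit 513)
(.node (nat_lit 324)
(.node (nat_lit 256)
(.node (nat_lit 129)
(.node (nat_lit 64)
(.leaf [[nat_lit 136356682, nat_lit 102793934], [nat_lit 102261326], [nat_lit 102261322], [nat_lit 86]] [])
(.node (nat_lit 128)
(.leaf [[nat_lit 1210094410, nat_lit 1159238350, nat_lit 1193579338, nat_lit 1176806218], [nat_lit 1244177346, nat_lit 1227404226], [nat_lit 1244177342], [nat_lit 204522549]] [[], [], [nat_lit 1815103316134]])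
(.leaf [[nat_lit 69929571146, nat_lit 69913588678], [nat_lit 255653173], [nat_lit 69929571138, nat_lit 221566133], [nat_lit 204522549]] [[], [], [nat_lit 2094310760741]])))
(.node (nat_lit 193)
(.node (nat_lit 192)
(.leaf [[nat_lit 2249753294, nat_lit 2267321162], [nat_lit 2317919170], [nat_lit 2317919166]] [[], [], [nat_lit 18988393808165], [nat_lit 1675448721443]])
(.leaf [[nat_lit 71020618694, nat_lit 70986273610], [nat_lit 255653173], [nat_lit 255653169]] []))
(.node (nat_lit 194)
(.leaf [[nat_lit 139722785610], [nat_lit 139722785606], [nat_lit 139722785602]] [])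
(.leaf [[nat_lit 3357573962, nat_lit 3340800842], [nat_lit 255653173], [nat_lit 3357573954]] [[], [], [nat_lit 1815103316133]]))))
(.node (nat_lit 320)
(.node (nat_lit 258)
(.node (nat_lit 257)
(.leaf [[nat_lit 72094098374, nat_lit 72060273482], [nat_lit 255653173], [nat_lit 255653169]] [])
(.leaf [[nat_lit 272700853, nat_lit 256185781], [nat_lit 255653173], [nat_lit 70014784693]] []))
(.node (nat_lit 259)
(.leaf [[nat_lit 272700853, nat_lit 272696757], [nat_lit 255653173], [nat_lit 70014784693]] [])
(.leaf [[nat_lit 4431315786], [nat_lit 4431315782], [nat_lit 4431315778]] [])))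
(.node (nat_lit 322)
(.node (nat_lit 321)
(.leaf [[nat_lit 272700853, nat_lit 256185781], [nat_lit 255653173], [nat_lit 2369049781]] [])
(.leaf [[nat_lit 272700853, nat_lit 272696757], [nat_lit 255653173], [nat_lit 70014784693]] []))
(.node (nat_lit 323)
(.leaf [[nat_lit 272700853, nat_lit 256185781], [nat_lit 255653173], [nat_lit 70014784693]] [])
(.leaf [[nat_lit 70065915317], [nat_lit 255653173], [nat_lit 70014784693]] [])))))
(.node (nat_lit 448)
(.node (nat_lit 386)
(.node (nat_lit 384)
(.leaf [[nat_lit 5522101190, nat_lit 5471245130, nat_lit 256185781], [nat_lit 255653173], [nat_lit 2369049781]] [])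
(.node (nat_lit 385)
(.leaf [[nat_lit 272700853, nat_lit 272696757], [nat_lit 255653173], [nat_lit 2369049781]] [])
(.leaf [[nat_lit 272700853, nat_lit 1346438581], [nat_lit 255653173], [nat_lit 70014784693]] [])))
(.node (nat_lit 388)
(.node (nat_lit 387)
(.leaf [[nat_lit 70065915317], [nat_lit 255653173], [nat_lit 70014784693]] [])
(.leaf [[nat_lit 70065915317], [nat_lit 255653173]] []))
(.node (nat_lit 389)
(.leaf [[nat_lit 70065915317], [nat_lit 255653173]] [])
(.leaf [[nat_lit 6544712398], [nat_lit 6544712394], [nat_lit 6544712390]] []))))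
(.node (nat_lit 452)
(.node (nat_lit 450)
(.node (nat_lit 449)
(.leaf [[nat_lit 2420180405], [nat_lit 255653173], [nat_lit 2369049781]] [])
(.leaf [[nat_lit 2420180405], [nat_lit 255653173], [nat_lit 2369049781]] []))
(.node (nat_lit 451)
(.leaf [[nat_lit 70065915317], [nat_lit 255653173]] [])
(.leaf [[nat_lit 70065915317], [nat_lit 255653173]] [])))
(.node (nat_lit 454)
(.node (nat_lit 453)
(.leaf [[nat_lit 70065915317], [nat_lit 255653173]] [])
(.leaf [[nat_lit 70065915317], [nat_lit 255653173]] []))
(.node (nat_lit 512)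
(.leaf [[nat_lit 2420180405], [nat_lit 255653173], [nat_lit 2369049781]] [])
(.leaf [[nat_lit 2420180405], [nat_lit 255653173], [nat_lit 2369049781]] []))))))
(.node (nat_lit 584)
(.node (nat_lit 576)
(.node (nat_lit 516)
(.node (nat_lit 514)
(.leaf [[nat_lit 2420180405], [nat_lit 255653173]] [])
(.node (nat_lit 515)
(.leaf [[nat_lit 2420180405], [nat_lit 255653173]] [])
(.leaf [[nat_lit 70065915317], [nat_lit 255653173]] [])))
(.node (nat_lit 518)
(.node (nat_lit 517)
(.leaf [[nat_lit 70065915317], [nat_lit 255653173]] [])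
(.leaf [[nat_lit 70065915317], [nat_lit 255653173]] []))
(.node (nat_lit 519)
(.leaf [[nat_lit 70065915317], [nat_lit 255653173]] [])
(.leaf [[nat_lit 2420180405], [nat_lit 255653173], [nat_lit 2369049781]] []))))
(.node (nat_lit 580)
(.node (nat_lit 578)
(.node (nat_lit 577)
(.leaf [[nat_lit 2420180405], [nat_lit 255653173]] [])
(.leaf [[nat_lit 2420180405], [nat_lit 255653173]] []))
(.node (nat_lit 579)
(.leaf [[nat_lit 2420180405], [nat_lit 255653173]] [])
(.leaf [[nat_lit 70065915317], [nat_lit 255653173]] [])))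
(.node (nat_lit 582)
(.node (nat_lit 581)
(.leaf [[nat_lit 70065915317], [nat_lit 255653173]] [])
(.leaf [[nat_lit 70065915317], [nat_lit 255653173]] []))
(.node (nat_lit 583)
(.leaf [[nat_lit 70065915317]] [])
(.leaf [[nat_lit 70065915317]] [])))))
(.node (nat_lit 646)
(.node (nat_lit 642)
(.node (nat_lit 640)
(.leaf [[nat_lit 2420180405], [nat_lit 255653173]] [])
(.node (nat_lit 641)
(.leaf [[nat_lit 2420180405], [nat_lit 255653173]] [])
(.leaf [[nat_lit 2420180405], [nat_lit 255653173]] [])))
(.node (nat_lit 644)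
(.node (nat_lit 643)
(.leaf [[nat_lit 2420180405], [nat_lit 255653173]] [])
(.leaf [[nat_lit 2420180405], [nat_lit 255653173]] []))
(.node (nat_lit 645)
(.leaf [[nat_lit 70065915317], [nat_lit 255653173]] [])
(.leaf [[nat_lit 70065915317]] []))))
(.node (nat_lit 704)
(.node (nat_lit 648)
(.node (nat_lit 647)
(.leaf [[nat_lit 70065915317]] [])
(.leaf [[nat_lit 209635308981]] []))
(.node (nat_lit 649)
(.leaf [[nat_lit 209635308981]] [])
(.leaf [[nat_lit 2420180405], [nat_lit 4533577013]] [])))
(.node (nat_lit 706)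
(.node (nat_lit 705)
(.leaf [[nat_lit 2420180405], [nat_lit 4533577013]] [])
(.leaf [[nat_lit 2420180405], [nat_lit 255653173]] []))
(.node (nat_lit 707)
(.leaf [[nat_lit 2420180405], [nat_lit 255653173]] [])
(.leaf [[nat_lit 2420180405], [nat_lit 255653173]] [])))))))
(.node (nat_lit 900)
(.node (nat_lit 776)
(.node (nat_lit 768)
(.node (nat_lit 711)
(.node (nat_lit 709)
(.leaf [[nat_lit 2420180405]] [])
(.node (nat_lit 710)
(.leaf [[nat_lit 70065915317]] [])
(.leaf [[nat_lit 70065915317]] [])))
(.node (nat_lit 713)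
(.node (nat_lit 712)
(.leaf [[nat_lit 209635308981]] [])
(.leaf [[nat_lit 209635308981]] []))
(.node (nat_lit 714)
(.leaf [[nat_lit 209635308981]] [])
(.leaf [[nat_lit 2420180405], [nat_lit 4533577013]] []))))
(.node (nat_lit 772)
(.node (nat_lit 770)
(.node (nat_lit 769)
(.leaf [[nat_lit 2420180405], [nat_lit 4533577013]] [])
(.leaf [[nat_lit 2420180405], [nat_lit 4533577013]] []))
(.node (nat_lit 771)
(.leaf [[nat_lit 2420180405], [nat_lit 4533577013]] [])
(.leaf [[nat_lit 2420180405]] [])))
(.node (nat_lit 774)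
(.node (nat_lit 773)
(.leaf [[nat_lit 2420180405]] [])
(.leaf [[nat_lit 2420180405]] []))
(.node (nat_lit 775)
(.leaf [[nat_lit 209635308981]] [])
(.leaf [[nat_lit 209635308981]] [])))))
(.node (nat_lit 837)
(.node (nat_lit 833)
(.node (nat_lit 777)
(.leaf [[nat_lit 209635308981]] [])
(.node (nat_lit 832)
(.leaf [[nat_lit 6698104245], [nat_lit 4533577013]] [])
(.leaf [[nat_lit 6698104245], [nat_lit 4533577013]] [])))
(.node (nat_lit 835)
(.node (nat_lit 834)
(.leaf [[nat_lit 6698104245], [nat_lit 4533577013]] [])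
(.leaf [[nat_lit 6698104245]] []))
(.node (nat_lit 836)
(.leaf [[nat_lit 2420180405]] [])
(.leaf [[nat_lit 74343839157]] []))))
(.node (nat_lit 896)
(.node (nat_lit 839)
(.node (nat_lit 838)
(.leaf [[nat_lit 141989574069]] [])
(.leaf [[nat_lit 141989574069]] []))
(.node (nat_lit 840)
(.leaf [[nat_lit 209635308981]] [])
(.leaf [[nat_lit 6698104245], [nat_lit 4533577013]] [])))
(.node (nat_lit 898)
(.node (nat_lit 897)
(.leaf [[nat_lit 6698104245], [nat_lit 4533577013]] [])
(.leaf [[nat_lit 6698104245]] []))
(.node (nat_lit 899)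
(.leaf [[nat_lit 6698104245]] [])
(.leaf [[nat_lit 6698104245]] []))))))
(.node (nat_lit 1028)
(.node (nat_lit 963)
(.node (nat_lit 903)
(.node (nat_lit 901)
(.leaf [[nat_lit 74343839157]] [])
(.node (nat_lit 902)
(.leaf [[nat_lit 74343839157]] [])
(.leaf [[nat_lit 141989574069]] [])))
(.node (nat_lit 961)
(.node (nat_lit 960)
(.leaf [[nat_lit 6698104245], [nat_lit 4533577013]] [])
(.leaf [[nat_lit 6698104245]] []))
(.node (nat_lit 962)
(.leaf [[nat_lit 6698104245]] [])
(.leaf [[nat_lit 6698104245]] []))))
(.node (nat_lit 1024)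
(.node (nat_lit 965)
(.node (nat_lit 964)
(.leaf [[nat_lit 6698104245]] [])
(.leaf [[nat_lit 6698104245]] []))
(.node (nat_lit 966)
(.leaf [[nat_lit 74343839157]] [])
(.leaf [[nat_lit 6698104245]] [])))
(.node (nat_lit 1026)
(.node (nat_lit 1025)
(.leaf [[nat_lit 6698104245]] [])
(.leaf [[nat_lit 6698104245]] []))
(.node (nat_lit 1027)
(.leaf [[nat_lit 6698104245]] [])
(.leaf [[nat_lit 6698104245]] [])))))
(.node (nat_lit 1153)
(.node (nat_lit 1090)
(.node (nat_lit 1088)
(.node (nat_lit 1029)
(.leaf [[nat_lit 6698104245]] [])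
(.leaf [[nat_lit 10976028085]] []))
(.node (nat_lit 1089)
(.leaf [[nat_lit 10976028085]] [])
(.leaf [[nat_lit 6698104245]] [])))
(.node (nat_lit 1092)
(.node (nat_lit 1091)
(.leaf [[nat_lit 6698104245]] [])
(.leaf [[nat_lit 6698104245]] []))
(.node (nat_lit 1152)
(.leaf [[nat_lit 10976028085]] [])
(.leaf [[nat_lit 10976028085]] []))))
(.node (nat_lit 1217)
(.node (nat_lit 1155)
(.node (nat_lit 1154)
(.leaf [[nat_lit 10976028085]] [])
(.leaf [[nat_lit 10976028085]] []))
(.node (nat_lit 1216)
(.leaf [[nat_lit 10976028085]] [])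
(.leaf [[nat_lit 10976028085]] [])))
(.node (nat_lit 1280)
(.node (nat_lit 1218)
(.leaf [[nat_lit 10976028085]] [])
(.leaf [[nat_lit 10976028085]] []))
(.node (nat_lit 1281)
(.leaf [[nat_lit 10976028085]] [])
(.leaf [[nat_lit 10976028085]] []))))))))

noncomputable def ct34 : Tc :=
(.node (nat_lit 579)
(.node (nat_lit 388)
(.node (nat_lit 259)
(.node (nat_lit 193)
(.node (nat_lit 128)
(.node (nat_lit 64)
(.leaf [[nat_lit 136356682, nat_lit 102793934], [nat_lit 102261326], [nat_lit 90]] [])
(.leaf [[nat_lit 1210094410, nat_lit 1210889158, nat_lit 1159238350], [nat_lit 1244177346, nat_lit 1193321286], [nat_lit 1244177342]] [[], [nat_lit 10334102864295], [nat_lit 2094310760613]]))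
(.node (nat_lit 129)
(.leaf [[nat_lit 69929571146, nat_lit 69946876870], [nat_lit 255653173], [nat_lit 255653169, nat_lit 69929571138]] [])
(.node (nat_lit 192)
(.leaf [[nat_lit 2249753294, nat_lit 2267321162], [nat_lit 2317919170], [nat_lit 2317919166]] [])
(.leaf [[nat_lit 71020618694, nat_lit 70986273610], [nat_lit 255653173], [nat_lit 255653169]] []))))
(.node (nat_lit 256)
(.node (nat_lit 194)
(.leaf [[nat_lit 139722785610], [nat_lit 139722785606], [nat_lit 139722785602]] [])
(.leaf [[nat_lit 3357573962, nat_lit 3340800842], [nat_lit 255653173], [nat_lit 3357573954]] []))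
(.node (nat_lit 257)
(.leaf [[nat_lit 72094098374, nat_lit 72077583302], [nat_lit 255653173], [nat_lit 255653169]] [])
(.node (nat_lit 258)
(.leaf [[nat_lit 140813571014, nat_lit 272700853], [nat_lit 255653173]] [])
(.leaf [[nat_lit 70065915317], [nat_lit 255653173]] [])))))
(.node (nat_lit 324)
(.node (nat_lit 321)
(.node (nat_lit 320)
(.leaf [[nat_lit 4431315786], [nat_lit 4431315782], [nat_lit 4431315778]] [])
(.leaf [[nat_lit 73167836102, nat_lit 272700853], [nat_lit 255653173]] []))
(.node (nat_lit 322)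
(.leaf [[nat_lit 141887312838], [nat_lit 255653173]] [])
(.node (nat_lit 323)
(.leaf [[nat_lit 70065915317], [nat_lit 255653173]] [])
(.leaf [[nat_lit 70065915317], [nat_lit 255653173]] []))))
(.node (nat_lit 385)
(.node (nat_lit 384)
(.leaf [[nat_lit 2420180405], [nat_lit 255653173]] [])
(.leaf [[nat_lit 2420180405], [nat_lit 255653173]] []))
(.node (nat_lit 386)
(.leaf [[nat_lit 70065915317], [nat_lit 255653173]] [])
(.node (nat_lit 387)
(.leaf [[nat_lit 70065915317], [nat_lit 255653173]] [])
(.leaf [[nat_lit 70065915317], [nat_lit 255653173]] []))))))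
(.node (nat_lit 513)
(.node (nat_lit 451)
(.node (nat_lit 448)
(.node (nat_lit 389)
(.leaf [[nat_lit 70065915317], [nat_lit 255653173]] [])
(.leaf [[nat_lit 6544712398], [nat_lit 6544712394]] []))
(.node (nat_lit 449)
(.leaf [[nat_lit 2420180405], [nat_lit 255653173]] [])
(.node (nat_lit 450)
(.leaf [[nat_lit 2420180405], [nat_lit 255653173]] [])
(.leaf [[nat_lit 70065915317], [nat_lit 255653173]] []))))
(.node (nat_lit 453)
(.node (nat_lit 452)
(.leaf [[nat_lit 70065915317], [nat_lit 255653173]] [])
(.leaf [[nat_lit 70065915317]] []))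
(.node (nat_lit 454)
(.leaf [[nat_lit 70065915317]] [])
(.node (nat_lit 512)
(.leaf [[nat_lit 2420180405], [nat_lit 255653173]] [])
(.leaf [[nat_lit 2420180405], [nat_lit 255653173]] [])))))
(.node (nat_lit 518)
(.node (nat_lit 515)
(.node (nat_lit 514)
(.leaf [[nat_lit 2420180405], [nat_lit 255653173]] [])
(.leaf [[nat_lit 2420180405], [nat_lit 255653173]] []))
(.node (nat_lit 516)
(.leaf [[nat_lit 70065915317]] [])
(.node (nat_lit 517)
(.leaf [[nat_lit 70065915317]] [])
(.leaf [[nat_lit 70065915317]] []))))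
(.node (nat_lit 576)
(.node (nat_lit 519)
(.leaf [[nat_lit 70065915317]] [])
(.leaf [[nat_lit 2420180405], [nat_lit 255653173]] []))
(.node (nat_lit 577)
(.leaf [[nat_lit 2420180405], [nat_lit 255653173]] [])
(.node (nat_lit 578)
(.leaf [[nat_lit 2420180405], [nat_lit 255653173]] [])
(.leaf [[nat_lit 2420180405]] [])))))))
(.node (nat_lit 710)
(.node (nat_lit 644)
(.node (nat_lit 584)
(.node (nat_lit 581)
(.node (nat_lit 580)
(.leaf [[nat_lit 70065915317]] [])
(.leaf [[nat_lit 70065915317]] []))
(.node (nat_lit 582)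
(.leaf [[nat_lit 70065915317]] [])
(.node (nat_lit 583)
(.leaf [[nat_lit 70065915317]] [])
(.leaf [[nat_lit 70065915317]] []))))
(.node (nat_lit 641)
(.node (nat_lit 640)
(.leaf [[nat_lit 2420180405], [nat_lit 255653173]] [])
(.leaf [[nat_lit 2420180405], [nat_lit 255653173]] []))
(.node (nat_lit 642)
(.leaf [[nat_lit 2420180405]] [])
(.node (nat_lit 643)
(.leaf [[nat_lit 2420180405]] [])
(.leaf [[nat_lit 2420180405]] [])))))
(.node (nat_lit 705)
(.node (nat_lit 646)
(.node (nat_lit 645)
(.leaf [[nat_lit 70065915317]] [])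
(.leaf [[nat_lit 70065915317]] []))
(.node (nat_lit 647)
(.leaf [[nat_lit 70065915317]] [])
(.node (nat_lit 704)
(.leaf [[nat_lit 2420180405], [nat_lit 255653173]] [])
(.leaf [[nat_lit 2420180405]] []))))
(.node (nat_lit 707)
(.node (nat_lit 706)
(.leaf [[nat_lit 2420180405]] [])
(.leaf [[nat_lit 2420180405]] []))
(.node (nat_lit 708)
(.leaf [[nat_lit 2420180405]] [])
(.node (nat_lit 709)
(.leaf [[nat_lit 2420180405]] [])
(.leaf [[nat_lit 70065915317]] []))))))
(.node (nat_lit 835)
(.node (nat_lit 772)
(.node (nat_lit 769)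
(.node (nat_lit 768)
(.leaf [[nat_lit 2420180405]] [])
(.leaf [[nat_lit 2420180405]] []))
(.node (nat_lit 770)
(.leaf [[nat_lit 2420180405]] [])
(.node (nat_lit 771)
(.leaf [[nat_lit 2420180405]] [])
(.leaf [[nat_lit 2420180405]] []))))
(.node (nat_lit 832)
(.node (nat_lit 773)
(.leaf [[nat_lit 2420180405]] [])
(.leaf [[nat_lit 6698104245]] []))
(.node (nat_lit 833)
(.leaf [[nat_lit 6698104245]] [])
(.node (nat_lit 834)
(.leaf [[nat_lit 2420180405]] [])
(.leaf [[nat_lit 2420180405]] [])))))
(.node (nat_lit 899)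
(.node (nat_lit 896)
(.node (nat_lit 836)
(.leaf [[nat_lit 2420180405]] [])
(.leaf [[nat_lit 6698104245]] []))
(.node (nat_lit 897)
(.leaf [[nat_lit 6698104245]] [])
(.node (nat_lit 898)
(.leaf [[nat_lit 6698104245]] [])
(.leaf [[nat_lit 6698104245]] []))))
(.node (nat_lit 962)
(.node (nat_lit 960)
(.leaf [[nat_lit 6698104245]] [])
(.node (nat_lit 961)
(.leaf [[nat_lit 6698104245]] [])
(.leaf [[nat_lit 6698104245]] [])))
(.node (nat_lit 1024)
(.leaf [[nat_lit 6698104245]] [])
(.node (nat_lit 1025)
(.leaf [[nat_lit 6698104245]] [])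
(.leaf [[nat_lit 6698104245]] []))))))))

noncomputable def ct35 : Tc :=
(.node (nat_lit 450)
(.node (nat_lit 321)
(.node (nat_lit 194)
(.node (nat_lit 129)
(.node (nat_lit 64)
(.leaf [[nat_lit 102261330], [nat_lit 102261326], [nat_lit 90]] [])
(.node (nat_lit 128)
(.leaf [[nat_lit 1244177350, nat_lit 1261487170], [nat_lit 1244177346]] [[], [nat_lit 2094310793383]])
(.leaf [[nat_lit 69929571146, nat_lit 69946876870], [nat_lit 255653173]] [])))
(.node (nat_lit 192)
(.leaf [[nat_lit 2317919174], [nat_lit 2317919170]] [])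
(.node (nat_lit 193)
(.leaf [[nat_lit 71020618694, nat_lit 70986273610], [nat_lit 255653173]] [])
(.leaf [[nat_lit 139722785610], [nat_lit 139722785606]] []))))
(.node (nat_lit 258)
(.node (nat_lit 256)
(.leaf [[nat_lit 3357573962, nat_lit 3374883782], [nat_lit 255653173]] [])
(.node (nat_lit 257)
(.leaf [[nat_lit 72128181314], [nat_lit 255653173]] [])
(.leaf [[nat_lit 70065915317], [nat_lit 255653173]] [])))
(.node (nat_lit 259)
(.leaf [[nat_lit 70065915317], [nat_lit 255653173]] [])
(.node (nat_lit 320)
(.leaf [[nat_lit 4431315786], [nat_lit 4431315782]] [])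
(.leaf [[nat_lit 2420180405], [nat_lit 255653173]] [])))))
(.node (nat_lit 386)
(.node (nat_lit 324)
(.node (nat_lit 322)
(.leaf [[nat_lit 141887312838], [nat_lit 255653173]] [])
(.node (nat_lit 323)
(.leaf [[nat_lit 70065915317]] [])
(.leaf [[nat_lit 70065915317]] [])))
(.node (nat_lit 384)
(.leaf [[nat_lit 5522101190, nat_lit 272700853], [nat_lit 255653173]] [])
(.node (nat_lit 385)
(.leaf [[nat_lit 2420180405], [nat_lit 255653173]] [])
(.leaf [[nat_lit 70065915317]] []))))
(.node (nat_lit 389)
(.node (nat_lit 387)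
(.leaf [[nat_lit 70065915317]] [])
(.node (nat_lit 388)
(.leaf [[nat_lit 70065915317]] [])
(.leaf [[nat_lit 70065915317]] [])))
(.node (nat_lit 448)
(.leaf [[nat_lit 6544712398], [nat_lit 6544712394]] [])
(.node (nat_lit 449)
(.leaf [[nat_lit 2420180405]] [])
(.leaf [[nat_lit 2420180405]] []))))))
(.node (nat_lit 577)
(.node (nat_lit 513)
(.node (nat_lit 453)
(.node (nat_lit 451)
(.leaf [[nat_lit 70065915317]] [])
(.node (nat_lit 452)
(.leaf [[nat_lit 70065915317]] [])
(.leaf [[nat_lit 70065915317]] [])))
(.node (nat_lit 454)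
(.leaf [[nat_lit 70065915317]] [])
(.node (nat_lit 512)
(.leaf [[nat_lit 2420180405]] [])
(.leaf [[nat_lit 2420180405]] []))))
(.node (nat_lit 516)
(.node (nat_lit 514)
(.leaf [[nat_lit 2420180405]] [])
(.node (nat_lit 515)
(.leaf [[nat_lit 2420180405]] [])
(.leaf [[nat_lit 70065915317]] [])))
(.node (nat_lit 517)
(.leaf [[nat_lit 70065915317]] [])
(.node (nat_lit 576)
(.leaf [[nat_lit 2420180405]] [])
(.leaf [[nat_lit 2420180405]] [])))))
(.node (nat_lit 642)
(.node (nat_lit 580)
(.node (nat_lit 578)
(.leaf [[nat_lit 2420180405]] [])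
(.node (nat_lit 579)
(.leaf [[nat_lit 2420180405]] [])
(.leaf [[nat_lit 70065915317]] [])))
(.node (nat_lit 640)
(.leaf [[nat_lit 2420180405]] [])
(.node (nat_lit 641)
(.leaf [[nat_lit 2420180405]] [])
(.leaf [[nat_lit 2420180405]] []))))
(.node (nat_lit 705)
(.node (nat_lit 643)
(.leaf [[nat_lit 2420180405]] [])
(.node (nat_lit 704)
(.leaf [[nat_lit 2420180405]] [])
(.leaf [[nat_lit 2420180405]] [])))
(.node (nat_lit 768)
(.node (nat_lit 706)
(.leaf [[nat_lit 2420180405]] [])
(.leaf [[nat_lit 2420180405]] []))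
(.node (nat_lit 769)
(.leaf [[nat_lit 2420180405]] [])
(.leaf [[nat_lit 2420180405]] [])))))))

noncomputable def ct36 : Tc :=
(.node (nat_lit 321)
(.node (nat_lit 194)
(.node (nat_lit 129)
(.node (nat_lit 64)
(.leaf [[nat_lit 102261330], [nat_lit 94]] [])
(.node (nat_lit 128)
(.leaf [[nat_lit 1244177350, nat_lit 1227404230], [nat_lit 1244177346]] [])
(.leaf [[nat_lit 70014784702], [nat_lit 255653173]] [])))
(.node (nat_lit 192)
(.leaf [[nat_lit 2317919174], [nat_lit 2317919170]] [])
(.node (nat_lit 193)
(.leaf [[nat_lit 71054439490, nat_lit 272700853]] [])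
(.leaf [[nat_lit 139722785610]] []))))
(.node (nat_lit 258)
(.node (nat_lit 256)
(.leaf [[nat_lit 3357573962, nat_lit 3374883782]] [])
(.node (nat_lit 257)
(.leaf [[nat_lit 72128181314]] [])
(.leaf [[nat_lit 70065915317]] [])))
(.node (nat_lit 259)
(.leaf [[nat_lit 70065915317]] [])
(.node (nat_lit 320)
(.leaf [[nat_lit 4431315786]] [])
(.leaf [[nat_lit 2420180405]] [])))))
(.node (nat_lit 386)
(.node (nat_lit 324)
(.node (nat_lit 322)
(.leaf [[nat_lit 141887312838]] [])
(.node (nat_lit 323)
(.leaf [[nat_lit 70065915317]] [])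
(.leaf [[nat_lit 70065915317]] [])))
(.node (nat_lit 384)
(.leaf [[nat_lit 5522101190]] [[nat_lit 19826117877927]])
(.node (nat_lit 385)
(.leaf [[nat_lit 2420180405]] [])
(.leaf [[nat_lit 70065915317]] []))))
(.node (nat_lit 449)
(.node (nat_lit 387)
(.leaf [[nat_lit 70065915317]] [])
(.node (nat_lit 448)
(.leaf [[nat_lit 6544712398]] [])
(.leaf [[nat_lit 2420180405]] [])))
(.node (nat_lit 512)
(.node (nat_lit 450)
(.leaf [[nat_lit 2420180405]] [])
(.leaf [[nat_lit 2420180405]] []))
(.node (nat_lit 513)
(.leaf [[nat_lit 2420180405]] [])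
(.leaf [[nat_lit 2420180405]] []))))))

noncomputable def ct37 : Tc :=
(.node (nat_lit 192)
(.node (nat_lit 128)
(.node (nat_lit 64)
(.leaf [[nat_lit 102261330]] [])
(.leaf [[nat_lit 1244177350]] [[nat_lit 10334102896808]]))
(.node (nat_lit 129)
(.leaf [[nat_lit 70014784702]] [])
(.leaf [[nat_lit 2317919174]] [])))
(.node (nat_lit 194)
(.node (nat_lit 193)
(.leaf [[nat_lit 71054439490]] [])
(.leaf [[nat_lit 139722785610]] []))
(.node (nat_lit 256)
(.leaf [[nat_lit 3357573962]] [])
(.node (nat_lit 257)
(.leaf [[nat_lit 72128181314]] [])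
(.leaf [[nat_lit 4431315786]] [])))))

noncomputable def ct38 : Tc :=
(.leaf [[nat_lit 98]] [])

end Vale.Agent.P181.K
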